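import Vale.Agent.P095.Elem.Absorb.Square
import Vale.Agent.P095.Elem.Absorb.Limit

/-!
# P095, amenable groups: absorption along many leaves

The column over many commuting almost invariant leaves, with weights from a Følner set and the
scale forms of the means over the leaves, has square zero, is almost invariant and its square is
the square of the common source.
-/

open Finset
open scoped symmDiff CStarAlgebra Pointwise

namespace Vale.Agent.P095.Elem

open VAgent.P101 Absorb

noncomputable section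

variable {F : Type*} [CStarAlgebra F] {G : Type*} [Group G] {β : G →* (F ≃⋆ₐ[ℂ] F)}

namespace Absorb

variable {W : Finset G} {M : ℕ} {η : ℝ} (L : Leaves β W M η)

theorem approxKernel {S : Finset G} (hS : S ⊆ W) (hM : 0 < M) {τ : ℝ} (hτM : 2 / (M : ℝ) ≤ τ)
    (hτη : 2 * η ≤ τ) : ApproxKernel S L.Tbar L.top τ where
  comm x _ y _ x' _ y' _ := (norm_famMean_comm_le _ _ (L.norm_Tgh_le x y) (L.norm_Tgh_le x' y')
    fun _ _ hll => L.commute_Tgh' x y x' y' hll).trans hτM
  herm x _ y _ := L.star_Tbar x y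
  norm_le x _ y _ := L.norm_Tbar_le x y
  diag x hx := (L.norm_Tbar_top_sub_le hM (hS hx)).trans hτη
  top_sa := L.star_top
  top_le := L.norm_top_le
  gram x _ y _ z _ a b c := by
    let _ : PartialOrder F := CStarAlgebra.spectralOrder F
    let _ : StarOrderedRing F := CStarAlgebra.spectralOrderedRing F
    set R : ℝ := (‖a‖ + ‖b‖ + ‖c‖) ^ 2 with hR
    let w : Fin M → F := fun l => a • L.tg x l + b • L.tg y l + c • L.tg z l
    have e : (R : ℂ) • (1 : F) - ((star a * a) • L.Tbar x x + (star a * b) • L.Tbar x y +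
        (star a * c) • L.Tbar x z + (star b * a) • L.Tbar y x + (star b * b) • L.Tbar y y +
        (star b * c) • L.Tbar y z + (star c * a) • L.Tbar z x + (star c * b) • L.Tbar z y +
        (star c * c) • L.Tbar z z) = famMean fun l => (R : ℂ) • (1 : F) - star (w l) * w l := by
      simp only [famMean, Leaves.Tbar, Leaves.Tgh, w, star_add, star_smul, mul_add, add_mul,
        smul_mul_smul_comm, sum_sub_distrib, sum_add_distrib, ← smul_sum, sum_const, card_univ,
        Fintype.card_fin, smul_sub, smul_add]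
      simp only [smul_comm ((M : ℝ)⁻¹) (_ : ℂ)]
      rw [← Nat.cast_smul_eq_nsmul ℝ M, smul_smul, inv_mul_cancel₀ (by exact_mod_cast hM.ne'),
        one_smul]
      abel
    rw [e]
    refine norm_famMean_le' _ (sq_nonneg _) fun l => ?_
    have hw : ‖w l‖ ≤ ‖a‖ + ‖b‖ + ‖c‖ := by
      refine norm_add₃_le.trans ?_
      simp only [norm_smul]
      gcongr <;> exact mul_le_of_le_one_right (norm_nonneg _) (L.norm_tg_le _ l)
    have hle : star (w l) * w l ≤ (R : ℂ) • (1 : F) := by
      rw [Complex.coe_smul, ← Algebra.algebraMap_eq_smul_one]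
      refine (CStarAlgebra.norm_le_iff_le_algebraMap _ (sq_nonneg _) (star_mul_self_nonneg _)).1 ?_
      rw [CStarRing.norm_star_mul_self, sq]
      exact mul_self_le_mul_self (norm_nonneg _) hw
    refine (CStarAlgebra.norm_le_iff_le_algebraMap _ (sq_nonneg _) (sub_nonneg.2 hle)).2 ?_
    rw [Algebra.algebraMap_eq_smul_one, ← Complex.coe_smul]
    exact sub_le_self _ (star_mul_self_nonneg _)

variable [DecidableEq G]

/-- The weights of a finite set. -/
def cvec (p : Polynomial ℝ) (Fn : Finset G) (i : ℕ) (x : G) : F :=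
  if x ∈ Fn then opU p i L.Tbar Fn x else 0

theorem colSum_cvec_subset (p : Polynomial ℝ) (I : ℕ) {Fn S : Finset G} (h : Fn ⊆ S) :
    colSum L I Fn (cvec L p Fn) = colSum L I S (cvec L p Fn) := by
  refine sum_congr rfl fun σ _ => ?_
  rw [col, col, sum_subset h fun x _ hx => by simp [cvec, hx]]

omit [DecidableEq G] in
theorem colSum_sub (I : ℕ) (S : Finset G) (c c' : ℕ → G → F) :
    colSum L I S (fun i x => c i x - c' i x) = colSum L I S c - colSum L I S c' := by
  rw [colSum, colSum, colSum, ← sum_sub_distrib]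
  refine sum_congr rfl fun σ _ => ?_
  simp only [col, mul_sub, sum_sub_distrib, sub_mul, smul_sub]

theorem sum_cvec (p : Polynomial ℝ) (i : ℕ) {A B S : Finset G} (hA : A ⊆ S) (hB : B ⊆ S) :
    ∑ x ∈ S, ∑ y ∈ S, star (cvec L p A i x) * cesaro i (L.Tbar x y) * cvec L p B i y =
      opPair p i L.Tbar A B := by
  unfold opPair
  simp only [cvec, apply_ite star, star_zero, ite_mul, zero_mul, mul_ite, mul_zero,
    (isSelfAdjoint_opU _ _ _ _ _).star_eq, sum_ite_mem, inter_eq_right.2 hB]
  rw [← sum_subset hA fun x _ hx => by simp [hx]]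
  refine sum_congr rfl fun x hx => sum_congr rfl fun y _ => ?_
  simp [hx]

theorem genForm_cvec (p : Polynomial ℝ) (I : ℕ) (Fn : Finset G) :
    genForm L I Fn (cvec L p Fn) = opForm p I L.Tbar Fn Fn := by
  simp only [genForm, opForm, sum_cvec L p _ subset_rfl subset_rfl]

theorem genForm_cvec_sub (p : Polynomial ℝ) (I : ℕ) {A B S : Finset G} (hA : A ⊆ S) (hB : B ⊆ S) :
    genForm L I S (fun i x => cvec L p A i x - cvec L p B i x) = opComb p I L.Tbar A B := by
  simp only [genForm, opComb, opForm, ← smul_sub, ← smul_add, ← sum_sub_distrib, ← sum_add_distrib]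
  congr 1
  refine sum_congr rfl fun i _ => ?_
  simp only [star_sub, sub_mul, mul_sub, sum_sub_distrib, sum_cvec L p i hA hA,
    sum_cvec L p i hA hB, sum_cvec L p i hB hA, sum_cvec L p i hB hB]
  abel

theorem aut_col (p : Polynomial ℝ) (g : G) (E : Finset G) (σ : Finset (Fin M)) :
    β g (col L E (cvec L p E) σ) =
      col L (E.image (g * ·)) (cvec L p (E.image (g * ·))) σ := by
  rw [col, col, map_sum, sum_image (mul_right_injective g).injOn]
  refine sum_congr rfl fun x hx => ?_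
  rw [map_mul]
  congr 1
  · unfold subProd
    rw [oprodF_map]
    refine oprodF_congr fun l => ?_
    split_ifs
    exacts [L.aut_tg g x l, map_one _]
  · simp only [cvec, hx, if_true, mem_image_of_mem _ hx, map_opU, L.aut_Tbar]
    exact (opU_image (mul_right_injective g) p _ L.Tbar E x).symm

omit [DecidableEq G] in
/-- The weights are bounded and almost commute with the outer parts of the patterns. -/
theorem cvec_bound [DecidableEq G] (hη : 0 ≤ η) (p : Polynomial ℝ) (I : ℕ) {B : ℝ} (hB : 0 ≤ B)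
    (hopU : ∀ (T : G → G → F) (Fn : Finset G) (x : G),
      (∀ y ∈ Fn, ‖T x y‖ ≤ 1 ∧ ‖T y x‖ ≤ 1 ∧ star (T x y) = T y x) → ∀ i < I,
      ‖opU p i T Fn x‖ ≤ (Fn.card : ℝ)⁻¹ * B ∧
      ∀ (Q : F) (e : ℝ), 0 ≤ e →
        (∀ y ∈ Fn, ‖Q * T x y - T x y * Q‖ ≤ e ∧ ‖Q * T y x - T y x * Q‖ ≤ e) →
        ‖Q * opU p i T Fn x - opU p i T Fn x * Q‖ ≤ (Fn.card : ℝ)⁻¹ * (B * e))
    {A : Finset G} (hA : A ⊆ W) (hne : 1 ≤ A.card) {i : ℕ} (hi : i < I) (x : G) :
    ‖cvec L p A i x‖ ≤ B ∧
      ∀ σ, ‖L.qpat σ * cvec L p A i x - cvec L p A i x * L.qpat σ‖ ≤ 2 * B * η := by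
  by_cases hx : x ∈ A
  · obtain ⟨b1, b2⟩ := hopU L.Tbar A x (fun y _ =>
      ⟨L.norm_Tbar_le x y, L.norm_Tbar_le y x, L.star_Tbar x y⟩) i hi
    have hinv : (A.card : ℝ)⁻¹ ≤ 1 := inv_le_one_of_one_le₀ (by exact_mod_cast hne)
    simp only [cvec, hx, if_true]
    refine ⟨b1.trans (mul_le_of_le_one_left hB hinv), fun σ => ?_⟩
    refine (b2 (L.qpat σ) (2 * η) (by positivity) fun y hy =>
      ⟨L.norm_qpat_Tbar_comm_le hη σ (hA hx) (hA hy),
        L.norm_qpat_Tbar_comm_le hη σ (hA hy) (hA hx)⟩).trans ?_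
    calc (A.card : ℝ)⁻¹ * (B * (2 * η)) ≤ B * (2 * η) := mul_le_of_le_one_left (by positivity) hinv
      _ = 2 * B * η := by ring
  · simp only [cvec, hx, if_false, mul_zero, zero_mul, sub_zero, norm_zero]
    exact ⟨hB, fun _ => by positivity⟩

omit [DecidableEq G] in
/-- The square estimate with uniform constants. -/
theorem norm_sq_sub_le_uniform (hη : 0 ≤ η) {I : ℕ} (hIM : 2 ^ I ≤ M) {B : ℝ} (hB : 0 ≤ B)
    {n : ℕ} {S : Finset G} (hS : S ⊆ W) (hSn : S.card ≤ n) {c : ℕ → G → F}
    (h1 : ∀ i < I, ∀ x ∈ S, ‖c i x‖ ≤ B)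
    (h2 : ∀ i < I, ∀ x ∈ S, ∀ σ, ‖L.qpat σ * c i x - c i x * L.qpat σ‖ ≤ 2 * B * η) :
    ‖star (colSum L I S c) * colSum L I S c - L.top * genForm L I S c * L.top‖ ≤
      2 * (n * B) * (n * (2 ^ I * B + 2 * B)) * η + (n * B) ^ 2 * ((2 : ℝ) ^ I) ^ 2 / M := by
  refine (norm_colSum_sq_sub_le hη hS hIM hB h1 h2).trans ?_
  have hn : (S.card : ℝ) ≤ n := by exact_mod_cast hSn
  rw [abs_of_nonneg (show (0 : ℝ) ≤ 2 * B * η by positivity), mul_div_assoc]
  refine add_le_add ?_ (by gcongr)
  calc _ ≤ 2 * ((n : ℝ) * B) * (n * (2 ^ I * η * B + 2 * B * η)) := by gcongr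
    _ = _ := by ring

/-- Translating moves the column to the column of the translated set. -/
theorem norm_aut_colSum_sub_le (p : Polynomial ℝ) (I : ℕ) {B : ℝ} (hB : 0 ≤ B) (hη : 0 ≤ η)
    (E : Finset G) {g : G} (hg : g ∈ W)
    (hc : ∀ i < I, ∀ x, ‖cvec L p (E.image (g * ·)) i x‖ ≤ B) :
    ‖β g (colSum L I E (cvec L p E)) -
      colSum L I (E.image (g * ·)) (cvec L p (E.image (g * ·)))‖ ≤
      2 ^ M * (2 * M * E.card * B) * η := by
  have e : β g (colSum L I E (cvec L p E)) -
      colSum L I (E.image (g * ·)) (cvec L p (E.image (g * ·))) = ∑ σ ∈ used M I, coef I σ •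
      (β g (L.pat σ) * col L (E.image (g * ·)) (cvec L p (E.image (g * ·))) σ * β g L.top -
        L.pat σ * col L (E.image (g * ·)) (cvec L p (E.image (g * ·))) σ * L.top) := by
    simp only [colSum, map_sum, smul_sub, sum_sub_distrib, map_real_smul', map_mul, aut_col]
  rw [e]
  refine (norm_sum_le _ _).trans
    ((sum_le_card_nsmul _ _ (2 * M * E.card * B * η) fun σ hσ => ?_).trans ?_)
  · rw [norm_smul, Real.norm_of_nonneg (show (0 : ℝ) ≤ coef I σ from Real.sqrt_nonneg _)]
    refine (mul_le_of_le_one_left (norm_nonneg _) (coef_le_one I σ)).trans ?_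
    set C := col L (E.image (g * ·)) (cvec L p (E.image (g * ·))) σ
    have hC : ‖C‖ ≤ E.card * B := by
      have := norm_col_le (L := L) (S := E.image (g * ·)) (c := cvec L p (E.image (g * ·)))
        (fun i hi x _ => hc i hi x) hσ
      rwa [card_image_of_injective _ (mul_right_injective g)] at this
    have e2 : β g (L.pat σ) * C * β g L.top - L.pat σ * C * L.top =
        (β g (L.pat σ) - L.pat σ) * C * β g L.top + L.pat σ * C * (β g L.top - L.top) := by
      noncomm_ring
    rw [e2]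
    refine (norm_add_le _ _).trans ?_
    have a1 : ‖(β g (L.pat σ) - L.pat σ) * C * β g L.top‖ ≤ M * η * (E.card * B) := by
      refine (norm_mul_le _ _).trans ((mul_le_of_le_one_right (norm_nonneg _)
        ((norm_aut_le _ _).trans L.norm_top_le)).trans ?_)
      exact (norm_mul_le _ _).trans (mul_le_mul (L.norm_aut_pat_sub_le σ hg) hC (norm_nonneg _)
        (by positivity))
    have a2 : ‖L.pat σ * C * (β g L.top - L.top)‖ ≤ E.card * B * (M * η) := by
      refine (norm_mul_le _ _).trans (mul_le_mul ?_ (L.norm_aut_top_sub_le hg) (norm_nonneg _)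
        (by positivity))
      exact (norm_mul_le _ _).trans ((mul_le_of_le_one_left (norm_nonneg _) (L.norm_pat_le σ)).trans hC)
    linarith
  · rw [nsmul_eq_mul]
    have hc : ((used M I).card : ℝ) ≤ 2 ^ M := by
      have h := (card_filter_le ((univ : Finset (Fin M)).powerset)
        fun σ => σ.card ∈ Ico 1 (2 ^ I))
      rw [card_powerset, card_univ, Fintype.card_fin] at h
      exact_mod_cast h
    calc ((used M I).card : ℝ) * (2 * M * E.card * B * η) ≤ 2 ^ M * (2 * M * E.card * B * η) := by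
          gcongr
      _ = _ := by ring

end Absorb

theorem card_symmDiff_image [DecidableEq G] (E : Finset G) (g : G) :
    (E ∆ E.image (g * ·)).card = 2 * {x | x ∈ E ∧ g * x ∉ E}.ncard := by
  have h1 : {x | x ∈ E ∧ g * x ∉ E}.ncard = (E.image (g * ·) \ E).card := by
    rw [← Set.ncard_coe_finset]
    refine Set.ncard_congr (fun x _ => g * x) (fun x hx => ?_) (fun x y _ _ h => mul_left_cancel h)
      fun y hy => ?_
    · exact mem_sdiff.2 ⟨mem_image_of_mem _ hx.1, hx.2⟩
    · obtain ⟨hy1, hy2⟩ := mem_sdiff.1 hy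
      obtain ⟨x, hx, rfl⟩ := mem_image.1 hy1
      exact ⟨x, ⟨hx, hy2⟩, rfl⟩
  have e1 := card_sdiff_add_card_inter E (E.image (g * ·))
  have e2 := card_sdiff_add_card_inter (E.image (g * ·)) E
  rw [inter_comm (E.image (g * ·)) E, card_image_of_injective _ (mul_right_injective g)] at e2
  rw [h1, symmDiff_def, sup_eq_union, card_union_of_disjoint disjoint_sdiff_sdiff]
  omega

/-- Absorption holds for every action of a group with the Følner condition. -/
theorem absorbStatement (hG : Folner G) : AbsorbStatement β := by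
  classical
  intro K ε hε
  set ε₀ := min ε 1
  have hε₀ : 0 < ε₀ := lt_min hε one_pos
  have hε₀1 : ε₀ ≤ 1 := min_le_right _ _
  set r := ε₀ ^ 2 / 12 with hr
  have hr0 : 0 < r := by positivity
  obtain ⟨E, hE, hKE⟩ := hG K (r / 2) (by positivity)
  set N := E.card with hN
  have hN1 : 1 ≤ N := hE.card_pos
  have hN0 : (0 : ℝ) < N := by exact_mod_cast hN1
  obtain ⟨p, hp⟩ := exists_cxForm N hN1
  obtain ⟨I, hI, hform⟩ := hp (2 * N) r hr0
  obtain ⟨B, hB, hopU⟩ := exists_opU_bound p I
  set K1 := insert 1 K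
  let img : G → Finset G := fun g => E.image (g * ·)
  have himg : ∀ g, (img g).card = N := fun g => card_image_of_injective _ (mul_right_injective g)
  have hdiff : ∀ g ∈ K1, ((E ∆ img g).card : ℝ) / N ≤ r := by
    intro g hg
    rcases mem_insert.1 hg with rfl | hg
    · rw [show img 1 = E from (image_congr fun x _ => one_mul x).trans image_id, symmDiff_self]
      simp only [bot_eq_empty, card_empty, Nat.cast_zero, zero_div]
      exact hr0.le
    rw [card_symmDiff_image, div_le_iff₀ hN0]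
    push_cast
    linarith [hKE g hg]
  have htol : ∀ g : ↥K1, ∃ τ : ℝ, 0 < τ ∧ ∀ (T : G → G → F) (top : F),
      ApproxKernel (E ∪ img g.1) T top τ →
      ‖top * (opForm p I T E E - 1) * top‖ ≤ 3 * r + r ∧
      ∀ w : F, ‖star w * w - top * opComb p I T E (img g.1) * top‖ ≤ τ →
        ‖star w * w‖ ≤ r + r + r := fun g =>
    exists_tolerance subset_union_left subset_union_right hr0.le hr0.le (fun R hR => by
      have hc : (E ∪ img g.1).card ≤ 2 * N := by
        refine (card_union_le _ _).trans ?_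
        rw [himg]
        omega
      obtain ⟨h1, h2⟩ := hform G _ hc R hR E (img g.1) subset_union_left subset_union_right hN.symm
        (himg _)
      exact ⟨h1, h2.trans (by linarith [hdiff g.1 g.2])⟩) hr0
  choose τ hτ0 hτ using htol
  obtain ⟨t, ht0, ht⟩ : ∃ t : ℝ, 0 < t ∧ ∀ g : ↥K1, t ≤ τ g := by
    have hne : (univ : Finset ↥K1).Nonempty := ⟨⟨1, mem_insert_self _ _⟩, mem_univ _⟩
    exact ⟨univ.inf' hne τ, (lt_inf'_iff hne).2 fun g _ => hτ0 g,
      fun g => inf'_le _ (mem_univ g)⟩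
  set t₁ := min t r
  have ht₁ : 0 < t₁ := lt_min ht0 hr0
  set C2 : ℝ := (4 * N * B) ^ 2 * ((2 : ℝ) ^ I) ^ 2 with hC2
  obtain ⟨M₀, hM₀⟩ := exists_nat_ge (max (2 / t) (2 * C2 / t₁))
  set M := M₀ + 2 ^ I with hM
  have hIM : 2 ^ I ≤ M := Nat.le_add_left _ _
  have hM1 : 0 < M := lt_of_lt_of_le (Nat.two_pow_pos I) hIM
  have hMR : (0 : ℝ) < M := by exact_mod_cast hM1
  have hMle : max (2 / t) (2 * C2 / t₁) ≤ (M : ℝ) :=
    hM₀.trans (by exact_mod_cast Nat.le_add_right _ _)
  have hM2 : 2 / (M : ℝ) ≤ t := by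
    rw [div_le_iff₀ hMR]
    have := (div_le_iff₀ ht0).1 ((le_max_left _ _).trans hMle)
    linarith
  have hMC : C2 / (M : ℝ) ≤ t₁ / 2 := by
    rw [div_le_iff₀ hMR]
    have := (div_le_iff₀ ht₁).1 ((le_max_right _ _).trans hMle)
    linarith
  set C1 : ℝ := 2 * (4 * N * B) * (2 * N * (2 ^ I * (2 * B) + 4 * B)) with hC1
  have hC10 : 0 ≤ C1 := by positivity
  set η := min (t₁ / (2 * (C1 + 1))) (ε₀ / (2 * (2 ^ M * (4 * M * N * B) + 1))) with hη
  have hη0 : 0 < η := lt_min (by positivity) (by positivity)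
  set W := K ∪ K1.biUnion img
  refine ⟨W, M, η, hη0, fun L => ?_⟩
  have hEW : E ⊆ W := fun x hx => mem_union_right _
    (mem_biUnion.2 ⟨1, mem_insert_self _ _, mem_image.2 ⟨x, hx, one_mul x⟩⟩)
  have hgW : ∀ g ∈ K1, E ∪ img g ⊆ W := fun g hg =>
    union_subset hEW fun x hx => mem_union_right _ (mem_biUnion.2 ⟨g, hg, hx⟩)
  have hcv : ∀ A ⊆ W, A.card = N → ∀ i < I, ∀ x, ‖cvec L p A i x‖ ≤ B ∧
      ∀ σ, ‖L.qpat σ * cvec L p A i x - cvec L p A i x * L.qpat σ‖ ≤ 2 * B * η :=
    fun A hA hAN i hi x => cvec_bound L hη0.le p I hB (fun T Fn x h => hopU T Fn x h) hA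
      (hAN ▸ hN1) hi x
  have hsq : ∀ S ⊆ W, S.card ≤ 2 * N → ∀ c : ℕ → G → F,
      (∀ i < I, ∀ x ∈ S, ‖c i x‖ ≤ 2 * B) →
      (∀ i < I, ∀ x ∈ S, ∀ σ, ‖L.qpat σ * c i x - c i x * L.qpat σ‖ ≤ 2 * (2 * B) * η) →
      ‖star (colSum L I S c) * colSum L I S c - L.top * genForm L I S c * L.top‖ ≤ t₁ := by
    intro S hS hSc c h1 h2
    refine (norm_sq_sub_le_uniform L hη0.le hIM (by positivity) hS hSc h1 h2).trans ?_
    push_cast
    have e1 : C1 * η ≤ t₁ / 2 := by
      calc C1 * η ≤ (C1 + 1) * (t₁ / (2 * (C1 + 1))) :=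
            mul_le_mul (by linarith) (min_le_left _ _) hη0.le (by positivity)
        _ = t₁ / 2 := by field_simp
    have e2 : (2 * (N : ℝ) * (2 * B)) ^ 2 * ((2 : ℝ) ^ I) ^ 2 / M = C2 / M := by rw [hC2]; ring
    have e3 : 2 * (2 * (N : ℝ) * (2 * B)) * (2 * N * (2 ^ I * (2 * B) + 2 * (2 * B))) * η = C1 * η := by
      rw [hC1]; ring
    linarith
  set s := colSum L I E (cvec L p E)
  have hK : ∀ g ∈ K1, ApproxKernel (E ∪ img g) L.Tbar L.top t := fun g hg =>
    approxKernel L (hgW g hg) hM1 hM2 (by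
      have : η ≤ t₁ / 2 := (min_le_left _ _).trans (by
        gcongr
        linarith)
      linarith [min_le_left t r])
  have hmono : ∀ g (hg : g ∈ K1), ApproxKernel (E ∪ img g) L.Tbar L.top (τ ⟨g, hg⟩) := fun g hg =>
    ⟨fun x hx y hy x' hx' y' hy' => ((hK g hg).comm x hx y hy x' hx' y' hy').trans (ht _),
      (hK g hg).herm, (hK g hg).norm_le, (hK g hg).gram,
      fun x hx => ((hK g hg).diag x hx).trans (ht _), (hK g hg).top_sa, (hK g hg).top_le⟩
  have hss : ‖star s * s - L.top * L.top‖ ≤ ε₀ := by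
    have h1 := (hτ ⟨1, mem_insert_self _ _⟩ L.Tbar L.top (hmono 1 _)).1
    have h2 := hsq E hEW (by omega) (cvec L p E)
      (fun i hi x _ => ((hcv E hEW rfl i hi x).1).trans (by linarith))
      (fun i hi x _ σ => ((hcv E hEW rfl i hi x).2 σ).trans (by nlinarith [hη0]))
    rw [genForm_cvec] at h2
    have e : star s * s - L.top * L.top = (star s * s - L.top * opForm p I L.Tbar E E * L.top) +
        L.top * (opForm p I L.Tbar E E - 1) * L.top := by
      rw [mul_sub, sub_mul, mul_one]; abel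
    rw [e]
    refine (norm_add_le _ _).trans ?_
    have : ε₀ ^ 2 ≤ ε₀ := by nlinarith
    linarith [min_le_right t r]
  refine ⟨s, ?_, fun g hg => ?_, hss.trans (min_le_left _ _), colSum_mul_self _,
    fun P hP => mul_colSum_eq _ hP⟩
  · have h1 : ‖s‖ * ‖s‖ ≤ 2 * 2 := by
      rw [← CStarRing.norm_star_mul_self]
      have h2 := norm_le_norm_add_norm_sub' (star s * s) (L.top * L.top)
      have h3 : ‖L.top * L.top‖ ≤ 1 := (norm_mul_le _ _).trans
        (mul_le_one₀ L.norm_top_le (norm_nonneg _) L.norm_top_le)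
      linarith
    nlinarith [norm_nonneg s]
  · have hg1 : g ∈ K1 := mem_insert_of_mem hg
    have hgA : img g ⊆ W := subset_union_right.trans (hgW g hg1)
    set s' := colSum L I (img g) (cvec L p (img g))
    have h1 : ‖β g s - s'‖ ≤ ε₀ / 2 := by
      refine (norm_aut_colSum_sub_le L p I hB hη0.le E (mem_union_left _ hg)
        fun i hi x => (hcv _ hgA (himg g) i hi x).1).trans ?_
      rw [← hN]
      calc 2 ^ M * (2 * (M : ℝ) * N * B) * η ≤
            (2 ^ M * (4 * M * N * B) + 1) * (ε₀ / (2 * (2 ^ M * (4 * M * N * B) + 1))) :=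
          mul_le_mul (by nlinarith [show (0 : ℝ) ≤ 2 ^ M * (2 * M * N * B) by positivity])
            (min_le_right _ _) hη0.le (by positivity)
        _ = ε₀ / 2 := by field_simp
    set S := E ∪ img g
    have h2 : ‖s' - s‖ ≤ ε₀ / 2 := by
      have e : s - s' = colSum L I S (fun i x => cvec L p E i x - cvec L p (img g) i x) := by
        rw [colSum_sub, ← colSum_cvec_subset L p I subset_union_left,
          ← colSum_cvec_subset L p I subset_union_right]
      have h3 := hsq S (hgW g hg1)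
        ((card_union_le _ _).trans (by rw [himg]; omega))
        (fun i x => cvec L p E i x - cvec L p (img g) i x)
        (fun i hi x _ => (norm_sub_le _ _).trans (by
          linarith [(hcv E hEW rfl i hi x).1, (hcv _ hgA (himg g) i hi x).1]))
        (fun i hi x _ σ => by
          rw [mul_sub, sub_mul, sub_sub_sub_comm]
          refine (norm_sub_le _ _).trans ?_
          linarith [(hcv E hEW rfl i hi x).2 σ, (hcv _ hgA (himg g) i hi x).2 σ])
      rw [genForm_cvec_sub L p I subset_union_left subset_union_right, ← e] at h3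
      have h4 := (hτ ⟨g, hg1⟩ L.Tbar L.top (hmono g hg1)).2 (s - s')
        (h3.trans ((min_le_left _ _).trans (ht _)))
      rw [CStarRing.norm_star_mul_self] at h4
      rw [norm_sub_rev]
      have h5 : (ε₀ / 2) ^ 2 = r + r + r := by rw [hr]; ring
      refine (pow_le_pow_iff_left₀ (norm_nonneg _) (half_pos hε₀).le two_ne_zero).1 ?_
      rw [h5, sq]
      exact h4
    calc ‖β g s - s‖ ≤ ‖β g s - s'‖ + ‖s' - s‖ := norm_sub_le_norm_sub_add_norm_sub _ _ _
      _ ≤ ε := by linarith [min_le_left ε 1]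

end

end Vale.Agent.P095.Elem
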