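import Vale.Agent.P095.Elem.System
import Vale.Agent.P095.Gen.Main
import Vale.Agent.P101.DimDropDef

/-!
# P095: from the certificate to equivariant Z-stability
-/

namespace Vale.Agent.P095.Elem

open VAgent.P101 Vale.Agent.P101.JS Vale.Agent.P095 Filter TopologicalSpace
open scoped ComplexOrder CStarAlgebra Topology

noncomputable section

universe u v

/-- The certificate for every system with copies and Følner group gives equivariant Z-stability. -/
theorem equivariant_of_certificate
    (cert : ∀ (F : Type u) [CStarAlgebra F] (G : Type v) [Group G] [Countable G]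
      (β : G →* (F ≃⋆ₐ[ℂ] F)), Folner G → Dyn β → CertStatement β)
    (A : Type u) [CStarAlgebra A] [Nontrivial A] [SeparableSpace A] (G : Type v) [Group G]
    [Countable G] (hG : Folner G) (α : G → A → A) (hα : IsAction α) (ω : Ultrafilter ℕ)
    (hω : (ω : Filter ℕ) ≤ cofinite) (hchar : Vale.Agent.P101.NoCharacters (CentralSeq A ω)) :
    IsEquivariantTensorLimit A α frame := by
  let : PartialOrder A := CStarAlgebra.spectralOrder A
  have : StarOrderedRing A := CStarAlgebra.spectralOrderedRing A
  obtain ⟨β, rfl⟩ := exists_hom_of_isAction hα
  exact Gen.equivariant_of_fixedAlg β hω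
    (isEmpty_of_cert β hω (cert _ G (centralAut ω β) hG (dyn_centralSeq β hω hchar)))

end

end Vale.Agent.P095.Elem
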