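import Vale.Agent.P095.Elem.Defs
import Vale.Agent.P101.Coord

/-!
# P095, amenable groups: the base pair

An order zero map of `M_(2m)` whose complement is small gives two anticommuting almost symmetries.
-/

namespace Vale.Agent.P095.Elem

open VAgent.P101
open scoped CStarAlgebra ComplexOrder

noncomputable section

namespace BaseAux

variable {A : Type*} [CStarAlgebra A]

/-- `1 / max |t| (1/2)`. -/
def kB (t : ℝ) : ℝ := 1 / max |t| (1 / 2)

theorem continuous_kB : Continuous kB :=
  continuous_const.div (by fun_prop) fun _ => (lt_max_of_lt_right (by norm_num)).ne'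

theorem kB_pos (t : ℝ) : 0 ≤ kB t :=
  div_nonneg zero_le_one (le_max_of_le_right (by norm_num))

theorem kB_abs_le (t : ℝ) : kB t * |t| ≤ 1 := by
  rw [kB, div_mul_eq_mul_div, one_mul, div_le_one (lt_max_of_lt_right (by norm_num))]
  exact le_max_left _ _

/-- The square of the pair. -/
def sqB (t : ℝ) : ℝ := kB t * kB t * (t * t)

theorem continuous_sqB : Continuous sqB :=
  (continuous_kB.mul continuous_kB).mul (continuous_id.mul continuous_id)

theorem sqB_mem (t : ℝ) : 0 ≤ sqB t ∧ sqB t ≤ 1 := by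
  have h : sqB t = (kB t * |t|) * (kB t * |t|) := by
    rw [sqB, ← abs_mul_abs_self t]; ring
  have h0 : 0 ≤ kB t * |t| := mul_nonneg (kB_pos t) (abs_nonneg t)
  rw [h]
  exact ⟨mul_nonneg h0 h0, mul_le_one₀ (kB_abs_le t) h0 (kB_abs_le t)⟩

theorem sqB_eq_one {t : ℝ} (h : 1 / 2 ≤ |t|) : sqB t = 1 := by
  have h0 : (0 : ℝ) < |t| := by linarith
  rw [sqB, kB, max_eq_left h, ← abs_mul_abs_self t]
  field_simp

/-- Twice `m` matrix units of order zero whose complement comes from the first one. -/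
theorem exists_pair {n : ℕ} [NeZero n] (φ : Fin n → Fin n → A) (v : A)
    (hstar : ∀ i j, star (φ i j) = φ j i)
    (hmul : ∀ i j k l, φ i j * φ k l = if j = k then φ i l * ∑ m, φ m m else 0)
    (hv : star v * v = 1 - ∑ m, φ m m) (hφv : φ 0 0 * v = v) (m : ℕ) (hn : n = 2 * m) :
    ∃ P u : A, IsSelfAdjoint P ∧ IsSelfAdjoint u ∧ ‖P‖ ≤ 1 ∧ ‖u‖ ≤ 1 ∧ P * u = -(u * P) ∧
      ∀ θ : ℝ, 0 < θ → ∀ D : DimState A,
        (n : ℝ) * D (cut θ (1 - P * P)) ≤ 1 ∧ (n : ℝ) * D (cut θ (1 - u * u)) ≤ 1 := by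
  classical
  set s := ∑ k, φ k k with hs
  have hssa : IsSelfAdjoint s := by rw [isSelfAdjoint_iff, hs, star_sum]; simp [hstar]
  have hcomm : ∀ i j, Commute s (φ i j) := fun i j => by
    show s * φ i j = φ i j * s
    conv_lhs => rw [hs, Finset.sum_mul]
    simp [hmul]
  set K := cfc kB s with hK
  have hKsa : star K = K := (cfc_predicate _ _ : IsSelfAdjoint (cfc kB s)).star_eq
  have hKc : ∀ i j, Commute K (φ i j) := fun i j => (hcomm i j).cfc_real _
  -- signs
  set sg : Fin n → ℂ := fun i => if (i : ℕ) < m then 1 else -1 with hsg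
  have hsgs : ∀ i, star (sg i) = sg i := fun i => by simp only [hsg]; split_ifs <;> simp
  have hsg2 : ∀ i, sg i * sg i = 1 := fun i => by simp only [hsg]; split_ifs <;> simp
  have hrev : ∀ i, sg (Fin.rev i) = -sg i := fun i => by
    have := i.isLt
    simp only [hsg, Fin.val_rev]
    split_ifs <;> first | omega | simp
  set S0 := ∑ i, sg i • φ i i with hS0
  set X0 := ∑ i, φ i (Fin.rev i) with hX0
  have hS0sa : star S0 = S0 := by simp [hS0, star_sum, star_smul, hstar, hsgs]
  have hX0sa : star X0 = X0 := by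
    simp only [hX0, star_sum, hstar]
    exact Fintype.sum_equiv Fin.revPerm _ _ fun i => by simp
  have hSS : S0 * S0 = s * s := by
    simp only [hS0, Finset.sum_mul, Finset.mul_sum, smul_mul_smul_comm, hmul]
    rw [hs, Finset.sum_mul]
    refine Finset.sum_congr rfl fun i _ => ?_
    simp [hsg2]
  have hXX : X0 * X0 = s * s := by
    simp only [hX0, Finset.sum_mul, Finset.mul_sum, hmul]
    rw [hs, Finset.sum_mul]
    rw [Finset.sum_comm]
    simp
  have hSX : S0 * X0 = ∑ i, sg i • (φ i (Fin.rev i) * s) := by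
    simp only [hS0, hX0, Finset.sum_mul, Finset.mul_sum, smul_mul_assoc, hmul]
    simp [hs]
  have hXS : X0 * S0 = ∑ i, (-sg i) • (φ i (Fin.rev i) * s) := by
    simp only [hS0, hX0, Finset.sum_mul, Finset.mul_sum, mul_smul_comm, hmul, Finset.smul_sum]
    rw [Finset.sum_comm]
    simp [hs, hrev]
  have hanti : S0 * X0 = -(X0 * S0) := by
    rw [hSX, hXS, ← Finset.sum_neg_distrib]
    exact Finset.sum_congr rfl fun i _ => by rw [neg_smul, neg_neg]
  have hKS : Commute K S0 := Commute.sum_right _ _ _ fun i _ => (hKc i i).smul_right _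
  have hKX : Commute K X0 := Commute.sum_right _ _ _ fun i _ => hKc i _
  have hsq : K * K * (s * s) = cfc sqB s := by
    have e : s * s = cfc (fun t : ℝ => t * t) s := by
      rw [cfc_mul (fun t : ℝ => t) (fun t => t) s, cfc_id' ℝ s]
    rw [e, hK, ← cfc_mul _ _ s continuous_kB.continuousOn continuous_kB.continuousOn,
      ← cfc_mul (fun x => kB x * kB x) (fun t => t * t) s
        (continuous_kB.mul continuous_kB).continuousOn (by fun_prop)]
    rfl
  have key : ∀ Z : A, star Z = Z → Commute K Z → Z * Z = s * s →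
      IsSelfAdjoint (K * Z) ∧ ‖K * Z‖ ≤ 1 ∧ K * Z * (K * Z) = cfc sqB s := by
    intro Z hZ hKZ hZ2
    have hsa : star (K * Z) = K * Z := by rw [star_mul, hZ, hKsa, hKZ.eq]
    have hsq' : K * Z * (K * Z) = cfc sqB s := by
      rw [mul_assoc, ← mul_assoc Z K Z, ← hKZ.eq, mul_assoc K Z Z, hZ2, ← mul_assoc, hsq]
    refine ⟨hsa, ?_, hsq'⟩
    have h : ‖K * Z‖ * ‖K * Z‖ ≤ 1 := by
      rw [← CStarRing.norm_star_mul_self, hsa, hsq']
      exact norm_cfc_le zero_le_one fun t _ => by
        rw [Real.norm_eq_abs, abs_of_nonneg (sqB_mem t).1]; exact (sqB_mem t).2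
    nlinarith [norm_nonneg (K * Z)]
  obtain ⟨hPsa, hP1, hP2⟩ := key S0 hS0sa hKS hSS
  obtain ⟨husa, hu1, hu2⟩ := key X0 hX0sa hKX hXX
  refine ⟨K * S0, K * X0, hPsa, husa, hP1, hu1, ?_, fun θ hθ D => ?_⟩
  · calc K * S0 * (K * X0) = K * K * (S0 * X0) := by
          rw [mul_assoc, ← mul_assoc S0 K, ← hKS.eq]; noncomm_ring
      _ = -(K * K * (X0 * S0)) := by rw [hanti, mul_neg]
      _ = -(K * X0 * (K * S0)) := by
          rw [mul_assoc K X0, ← mul_assoc X0 K, ← hKX.eq]; noncomm_ring
  -- the defect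
  set g := fun t : ℝ => max (1 - sqB t - θ) 0 with hg
  set wf := fun t : ℝ => Real.sqrt (g t / max (1 - t) (1 / 2)) with hwf
  have hgc : Continuous g :=
    ((continuous_const.sub continuous_sqB).sub continuous_const).max continuous_const
  have hwc : Continuous wf := (hgc.div (by fun_prop) fun _ =>
    (lt_max_of_lt_right (by norm_num)).ne').sqrt
  have hzero : cut θ (1 - cfc sqB s) = cfc g s := by
    have e : 1 - cfc sqB s = cfc (fun t => 1 - sqB t) s := by
      rw [cfc_sub (fun _ : ℝ => (1 : ℝ)) sqB s (by fun_prop) continuous_sqB.continuousOn,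
        cfc_const_one ℝ s]
    rw [cut, e, ← cfc_comp' (fun t : ℝ => max (t - θ) 0) (fun t => 1 - sqB t) s (by fun_prop)
      (continuous_const.sub continuous_sqB).continuousOn]
  set y := v * cfc wf s with hy
  have hyy : star y * y = cfc g s := by
    have e : (1 : A) - s = cfc (fun t : ℝ => 1 - t) s := by
      rw [cfc_sub (fun _ : ℝ => (1 : ℝ)) (fun t => t) s, cfc_const_one ℝ s, cfc_id' ℝ s]
    calc star y * y = cfc wf s * (star v * v) * cfc wf s := by
          rw [hy, star_mul, (cfc_predicate _ _ : IsSelfAdjoint (cfc wf s)).star_eq]; noncomm_ring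
      _ = cfc wf s * cfc (fun t : ℝ => 1 - t) s * cfc wf s := by rw [hv, e]
      _ = cfc g s := by
          rw [← cfc_mul _ _ s hwc.continuousOn (by fun_prop),
            ← cfc_mul (fun t => wf t * (1 - t)) wf s (by fun_prop) hwc.continuousOn]
          refine cfc_congr fun t _ => ?_
          have hden : (0 : ℝ) < max (1 - t) (1 / 2) := lt_max_of_lt_right (by norm_num)
          have hg0 : 0 ≤ g t := le_max_right _ _
          show wf t * (1 - t) * wf t = g t
          rw [mul_right_comm, hwf, Real.mul_self_sqrt (div_nonneg hg0 hden.le)]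
          rcases lt_or_ge |t| (1 / 2) with h | h
          · rw [max_eq_left (by linarith [(abs_lt.1 h).2]), div_mul_cancel₀ _
              (by linarith [(abs_lt.1 h).2])]
          · have : g t = 0 := by
              simp only [hg]; rw [sqB_eq_one h]; exact max_eq_right (by linarith)
            simp [this]
  have hb : (n : ℝ) * D (cfc g s) ≤ 1 := by
    have hm := D.mono (fun _ : Fin n => cfc g s) (fun _ : Fin 1 => (1 : A))
      (fun _ => ⟨y, hyy.symm⟩) (fun _ => ⟨1, by simp⟩) fun ε hε =>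
        ⟨fun _ i => φ i 0 * y, fun i j => by
          have e : star (φ i 0 * y) * (φ j 0 * y) = if i = j then cfc g s else 0 := by
            rw [star_mul, hstar, mul_assoc, ← mul_assoc (φ 0 i), hmul]
            split_ifs with h
            · rw [← hyy, hy, mul_assoc (φ 0 0), ← mul_assoc s, ← mul_assoc (φ 0 0)]
              congr 2
              calc φ 0 0 * (s * v) = φ 0 0 * φ 0 0 * v := by rw [hmul, if_pos rfl, mul_assoc]
                _ = v := by rw [mul_assoc, hφv, hφv]
            · simp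
          rw [Fin.sum_univ_one, mul_one, e, sub_self, norm_zero]; exact hε.le⟩
    simpa [D.one] using hm
  rw [hP2, hu2, hzero]
  exact ⟨hb, hb⟩

end BaseAux

variable {F : Type*} [CStarAlgebra F] {G : Type*} [Group G] {β : G →* (F ≃⋆ₐ[ℂ] F)}

/-- Equivariant copies give commuting copies. -/
theorem Dyn.hasCopiesBase (h : Dyn β) : HasCopies F := by
  intro T S
  obtain ⟨φ, -, hφ⟩ := h.copies T S
  have hle : GenAlg T ≤ OrbAlg β T :=
    StarSubalgebra.topologicalClosure_minimal (StarAlgebra.adjoin_le fun t ht =>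
      StarSubalgebra.le_topologicalClosure _ (StarAlgebra.subset_adjoin ℂ _
        ⟨1, t, ht, by rw [map_one]; rfl⟩)) (orbAlg_isClosed β T)
  exact ⟨φ.comp (((GenAlg T).subtype).codRestrict _ fun x => hle x.2), fun z hz x => hφ z hz _⟩

/-- The base pair. -/
theorem baseStatement (h : Dyn β) : BaseStatement β := by
  classical
  intro θ hθ
  rcases subsingleton_or_nontrivial F with hF | hF
  · refine ⟨∅, 0, 0, .zero _, .zero _, by simp, by simp, by simp, fun D => ?_⟩
    have hm := D.mono (fun _ : Fin 1 => (1 : OrbAlg β ∅)) (Fin.elim0 : Fin 0 → OrbAlg β ∅)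
      (fun _ => ⟨1, by simp⟩) (fun k => k.elim0)
      fun ε hε => ⟨fun k => k.elim0, fun i j => by
        rw [Subsingleton.elim (α := OrbAlg β ∅) (_ - _) 0, norm_zero]; exact hε.le⟩
    simp [D.one] at hm
    exact absurd hm (by norm_num)
  obtain ⟨m, hm⟩ := exists_nat_gt (1 / θ)
  let _ := CStarAlgebra.spectralOrder F
  let _ := CStarAlgebra.spectralOrderedRing F
  have : NeZero (2 * (m + 1)) := ⟨by omega⟩
  obtain ⟨R⟩ := exists_ddRel_of_copies h.hasCopiesBase h.nochar (n := 2 * (m + 1)) (by omega)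
  set T : Finset F := insert R.v (Finset.univ.image fun p : Fin _ × Fin _ => R.φ p.1 p.2) with hT
  have hmem : ∀ t ∈ T, t ∈ OrbAlg β T := fun t ht =>
    StarSubalgebra.le_topologicalClosure _ (StarAlgebra.subset_adjoin ℂ _
      ⟨1, t, ht, by rw [map_one]; rfl⟩)
  let φ : Fin (2 * (m + 1)) → Fin (2 * (m + 1)) → OrbAlg β T := fun i j =>
    ⟨R.φ i j, hmem _ (Finset.mem_insert_of_mem
      (Finset.mem_image.2 ⟨(i, j), Finset.mem_univ _, rfl⟩))⟩
  obtain ⟨P, u, hPsa, husa, hP1, hu1, hanti, hD⟩ := BaseAux.exists_pair φ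
    ⟨R.v, hmem _ (Finset.mem_insert_self _ _)⟩ (fun i j => Subtype.ext (R.φ_star i j))
    (fun i j k l => Subtype.ext (by
      rw [MulMemClass.coe_mul]
      show R.φ i j * R.φ k l = _
      rw [R.φ_mul]
      split_ifs <;> simp [φ]))
    (Subtype.ext (by simpa [φ] using R.v_star_mul)) (Subtype.ext R.φ_mul_v) (m + 1) rfl
  refine ⟨T, P, u, hPsa, husa, hP1, hu1, hanti, fun D => ?_⟩
  have h1 : 1 / θ < (m : ℝ) := hm
  rw [div_lt_iff₀ hθ] at h1
  have hbound : ∀ z : ℝ, (((2 * (m + 1) : ℕ)) : ℝ) * z ≤ 1 → z ≤ θ := fun z hz => by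
    push_cast at hz
    by_contra hcon
    push Not at hcon
    nlinarith
  exact ⟨hbound _ (hD θ hθ D).1, hbound _ (hD θ hθ D).2⟩

end

end Vale.Agent.P095.Elem
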