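import Vale.Agent.P095.Elem.QuotSmall

/-!
# P095, amenable groups: from invariance in dimension to invariance in norm

If the defects of `x` under a large ball are small at every dimension state, then cutting `x` down
by `1 - e`, where `e` is a mean of resolvent functions of the ball sums of the defects, makes it
almost fixed in norm, and `e` is small at every dimension state.
-/

namespace Vale.Agent.P095.Elem

open scoped CStarAlgebra

noncomputable section

attribute [local instance] CStarAlgebra.spectralOrder CStarAlgebra.spectralOrderedRing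

namespace Bridge

open DQ (val_cut_mono' val_cut_smul_le val_cut_sum_le val_cut_conj_le val_cut_add_le star_add_mul_add_le
  star_mul_mul_le)

variable {F : Type*} [CStarAlgebra F]

/-- The resolvent function `s (a + s)⁻¹`. -/
def res (s : ℝ) (a : F) : F := cfc (fun r : ℝ => s / (s + max r 0)) a

theorem res_continuous {s : ℝ} (hs : 0 < s) : Continuous fun r : ℝ => s / (s + max r 0) :=
  continuous_const.div (continuous_const.add (continuous_id.max continuous_const))
    fun r => (add_pos_of_pos_of_nonneg hs (le_max_right _ _)).ne'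

theorem res_nonneg {s : ℝ} (hs : 0 < s) (a : F) : 0 ≤ res s a :=
  cfc_nonneg fun r _ => div_nonneg hs.le (add_nonneg hs.le (le_max_right _ _))

theorem res_le_one {s : ℝ} (hs : 0 < s) (a : F) : res s a ≤ 1 :=
  cfc_le_one _ _ fun r _ => (div_le_one (add_pos_of_pos_of_nonneg hs (le_max_right _ _))).2
    (by linarith [le_max_right r 0])

theorem map_res {s : ℝ} (hs : 0 < s) (ψ : F →⋆ₐ[ℂ] F) {a : F} (ha : IsSelfAdjoint a) :
    ψ (res s a) = res s (ψ a) :=
  StarAlgHomClass.map_cfc ψ _ a (res_continuous hs).continuousOn (map_continuous ψ) ha (ha.map ψ)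

theorem mul_res {s : ℝ} (hs : 0 < s) {a : F} (ha : 0 ≤ a) :
    (a + s • (1 : F)) * (s⁻¹ • res s a) = 1 ∧ (s⁻¹ • res s a) * (a + s • (1 : F)) = 1 := by
  have hsa := IsSelfAdjoint.of_nonneg ha
  have hc := res_continuous hs
  have e1 : a + s • (1 : F) = cfc (fun r : ℝ => r + s) a := by
    rw [cfc_add_const s (fun r : ℝ => r) a, cfc_id' ℝ a, Algebra.algebraMap_eq_smul_one]
  have e2 : (a + s • (1 : F)) * res s a = s • (1 : F) := by
    rw [e1, res, ← cfc_mul (fun r : ℝ => r + s) _ a (by fun_prop) hc.continuousOn,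
      ← Algebra.algebraMap_eq_smul_one, ← cfc_const s a]
    refine cfc_congr fun r hr => ?_
    have hr0 : 0 ≤ r := spectrum_nonneg_of_nonneg ha hr
    rw [max_eq_left hr0]
    field_simp
    ring
  have hcomm : res s a * (a + s • (1 : F)) = (a + s • (1 : F)) * res s a := by
    rw [e1, res]
    exact (cfc_commute_cfc _ _ _).eq
  constructor
  · rw [mul_smul_comm, e2, smul_smul, inv_mul_cancel₀ hs.ne', one_smul]
  · rw [smul_mul_assoc, hcomm, e2, smul_smul, inv_mul_cancel₀ hs.ne', one_smul]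

theorem res_antitone {s : ℝ} (hs : 0 < s) {a b : F} (ha : 0 ≤ a) (hab : a ≤ b) :
    res s b ≤ res s a := by
  let ua : Fˣ := ⟨a + s • (1 : F), s⁻¹ • res s a, (mul_res hs ha).1, (mul_res hs ha).2⟩
  let ub : Fˣ := ⟨b + s • (1 : F), s⁻¹ • res s b, (mul_res hs (ha.trans hab)).1,
    (mul_res hs (ha.trans hab)).2⟩
  have h : s⁻¹ • res s b ≤ s⁻¹ • res s a :=
    CStarAlgebra.inv_le_inv (a := ua) (b := ub)
      (add_nonneg ha (smul_nonneg hs.le zero_le_one)) (add_le_add hab le_rfl)
  have := smul_le_smul_of_nonneg_left h hs.le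
  rwa [smul_smul, smul_smul, mul_inv_cancel₀ hs.ne', one_smul, one_smul] at this

theorem one_sub_res_le {s : ℝ} (hs : 0 < s) {a : F} (ha : 0 ≤ a) : 1 - res s a ≤ s⁻¹ • a := by
  have hsa := IsSelfAdjoint.of_nonneg ha
  conv_rhs => arg 2; rw [← cfc_id' ℝ a]
  rw [res, ← cfc_const_one ℝ a, ← cfc_sub (fun _ : ℝ => (1 : ℝ)) _ a continuousOn_const
    (res_continuous hs).continuousOn, ← cfc_smul s⁻¹ (fun r : ℝ => r) a continuousOn_id]
  refine cfc_mono (fun r hr => ?_) (continuousOn_const.sub (res_continuous hs).continuousOn)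
    (by fun_prop)
  have hr0 : 0 ≤ r := spectrum_nonneg_of_nonneg ha hr
  rw [max_eq_left hr0, one_sub_div (by linarith), add_sub_cancel_left, smul_eq_mul, inv_mul_eq_div]
  exact div_le_div_of_nonneg_left hr0 hs (by linarith)

theorem norm_mul_res_le {s : ℝ} (hs : 0 < s) {a c : F} (hc : star c * c ≤ a) :
    ‖c * res s a‖ ≤ √s := by
  have ha : 0 ≤ a := (star_mul_self_nonneg c).trans hc
  have hr : IsSelfAdjoint (res s a) := IsSelfAdjoint.of_nonneg (res_nonneg hs a)
  refine Real.le_sqrt_of_sq_le ?_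
  rw [sq, ← CStarRing.norm_star_mul_self]
  refine (CStarAlgebra.norm_le_norm_of_nonneg_of_le (star_mul_self_nonneg _) (b := res s a * a *
    res s a) ?_).trans ?_
  · simpa [star_mul, hr.star_eq, mul_assoc] using star_left_conjugate_le_conjugate hc (res s a)
  · conv_lhs => arg 1; arg 1; arg 2; rw [← cfc_id' ℝ a (ha := IsSelfAdjoint.of_nonneg ha)]
    rw [res, ← cfc_mul _ (fun r : ℝ => r) a (res_continuous hs).continuousOn continuousOn_id,
      ← cfc_mul (fun r : ℝ => s / (s + max r 0) * r) (fun r : ℝ => s / (s + max r 0)) a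
        ((res_continuous hs).mul continuous_id).continuousOn (res_continuous hs).continuousOn]
    refine norm_cfc_le hs.le fun r hr => ?_
    have hr0 : 0 ≤ r := spectrum_nonneg_of_nonneg ha hr
    rw [max_eq_left hr0, Real.norm_of_nonneg (by positivity), div_mul_eq_mul_div, div_mul_div_comm,
      div_le_iff₀ (by positivity)]
    nlinarith [mul_nonneg hs.le (mul_nonneg hr0 hr0), mul_nonneg (mul_nonneg hs.le hs.le) hs.le,
      mul_nonneg (mul_nonneg hs.le hs.le) hr0]

theorem norm_le_one_of_between {a : F} (h1 : -1 ≤ a) (h2 : a ≤ 1) : ‖a‖ ≤ 1 := by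
  have ha : IsSelfAdjoint a := by
    have := (IsSelfAdjoint.one F).sub (IsSelfAdjoint.of_nonneg (sub_nonneg.2 h2))
    rwa [sub_sub_cancel] at this
  conv_lhs => rw [← cfc_id' ℝ a]
  refine norm_cfc_le zero_le_one fun r hr => abs_le.2 ⟨?_, ?_⟩
  · exact (algebraMap_le_iff_le_spectrum (r := (-1 : ℝ)) ha).1 (by simpa using h1) r hr
  · exact (le_algebraMap_iff_spectrum_le (r := (1 : ℝ)) ha).1 (by simpa using h2) r hr

theorem map_le_map (ψ : F →⋆ₐ[ℂ] F) {a b : F} (h : a ≤ b) : ψ a ≤ ψ b := by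
  rw [← sub_nonneg, ← map_sub]
  exact map_nonneg ψ (sub_nonneg.2 h)

/-- A telescoping bound for a shifted increasing family between `0` and `1`. -/
theorem norm_shift_sub_le (ψ : F →⋆ₐ[ℂ] F) (h : ℕ → F) (h0 : ∀ i, 0 ≤ h i) (h1 : ∀ i, h i ≤ 1)
    (hup : ∀ i, ψ (h i) ≤ h (i + 1)) (hdn : ∀ i, h i ≤ ψ (h (i + 1))) (L : ℕ) :
    ‖ψ (∑ i ∈ Finset.range L, h i) - ∑ i ∈ Finset.range L, h i‖ ≤ 1 := by
  set S := ∑ i ∈ Finset.range L, h i with hS
  have hshift : ∑ i ∈ Finset.range L, h (i + 1) = S + (h L - h 0) := by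
    rw [← Finset.sum_range_sub h L, hS, ← Finset.sum_add_distrib]
    exact Finset.sum_congr rfl fun i _ => by abel
  have hd : h L - h 0 ≤ 1 := (sub_le_self _ (h0 0)).trans (h1 L)
  refine norm_le_one_of_between ?_ ?_
  · have : S ≤ ψ S + ψ (h L - h 0) := by
      rw [← map_add, ← hshift, map_sum, hS]
      exact Finset.sum_le_sum fun i _ => hdn i
    have h2 : S ≤ ψ S + 1 := this.trans (add_le_add le_rfl ((map_le_map ψ hd).trans_eq (map_one ψ)))
    rw [neg_le_iff_add_nonneg']
    exact (sub_nonneg.2 h2).trans_eq (by abel)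
  · have : ψ S ≤ S + (h L - h 0) := by
      rw [← hshift, hS, map_sum]
      exact Finset.sum_le_sum fun i _ => hup i
    rw [sub_le_iff_le_add']
    exact this.trans (add_le_add le_rfl hd)

variable {G : Type*} [Group G] (β : G →* (F ≃⋆ₐ[ℂ] F))

/-- One automorphism as a star homomorphism. -/
abbrev hom (g : G) : F →⋆ₐ[ℂ] F := (β g : F →⋆ₐ[ℂ] F)

theorem hom_hom (g k : G) (x : F) : hom β g (hom β k x) = hom β (g * k) x := by
  simp [hom, map_mul]

/-- The defect of `x` at `g`. -/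
def defect (x : F) (g : G) : F := star (hom β g x - x) * (hom β g x - x)

theorem hom_defect_le (x : F) (g k : G) :
    hom β g (defect β x k) ≤ (2 : ℝ) • (defect β x (g * k) + defect β x g) := by
  have e : hom β g (defect β x k) = star ((hom β (g * k) x - x) + -(hom β g x - x)) *
      ((hom β (g * k) x - x) + -(hom β g x - x)) := by
    rw [defect, map_mul, map_star, map_sub, hom_hom]
    congr 2 <;> abel
  rw [e]
  refine (star_add_mul_add_le _ _).trans_eq ?_
  rw [star_neg, neg_mul_neg]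
  rfl

open scoped Classical in
/-- The balls of a symmetric set containing `1`. -/
def ball (K : Finset G) : ℕ → Finset G
  | 0 => {1}
  | i + 1 => ball K i ∪ (K ×ˢ ball K i).image fun p => p.1 * p.2

theorem ball_mono (K : Finset G) {i j : ℕ} (h : i ≤ j) : ball K i ⊆ ball K j := by
  classical
  induction h with
  | refl => exact Finset.Subset.refl _
  | step _ ih => exact ih.trans Finset.subset_union_left

theorem one_mem_ball (K : Finset G) (i : ℕ) : (1 : G) ∈ ball K i :=
  ball_mono K (Nat.zero_le i) (Finset.mem_singleton_self _)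

theorem mul_mem_ball {K : Finset G} {i : ℕ} {k g : G} (hk : k ∈ K) (hg : g ∈ ball K i) :
    k * g ∈ ball K (i + 1) := by
  classical
  exact Finset.mem_union_right _ (Finset.mem_image.2 ⟨(k, g), Finset.mk_mem_product hk hg, rfl⟩)

/-- The sum of the translates of `b` over a ball. -/
def ballSum (K : Finset G) (b : F) (i : ℕ) : F := ∑ g ∈ ball K i, hom β g b

theorem ballSum_nonneg (K : Finset G) {b : F} (hb : 0 ≤ b) (i : ℕ) : 0 ≤ ballSum β K b i :=
  Finset.sum_nonneg fun g _ => map_nonneg _ hb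

theorem hom_ballSum_le {K : Finset G} {b : F} (hb : 0 ≤ b) {k : G} (hk : k ∈ K) (i : ℕ) :
    hom β k (ballSum β K b i) ≤ ballSum β K b (i + 1) := by
  classical
  have e : hom β k (ballSum β K b i) = ∑ g ∈ (ball K i).image (k * ·), hom β g b := by
    rw [Finset.sum_image fun a _ c _ h => mul_left_cancel h, ballSum, map_sum]
    exact Finset.sum_congr rfl fun g _ => hom_hom β k g b
  rw [e]
  refine Finset.sum_le_sum_of_subset_of_nonneg (fun g hg => ?_) fun g _ _ => map_nonneg _ hb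
  obtain ⟨a, ha, rfl⟩ := Finset.mem_image.1 hg
  exact mul_mem_ball hk ha

/-- The mean of the resolvents over `L` balls, `1 - e`. -/
def keep (K : Finset G) (s : ℝ) (L : ℕ) (b : F) : F :=
  (L : ℝ)⁻¹ • ∑ i ∈ Finset.range L, res s (ballSum β K b i)

theorem keep_bounds (K : Finset G) {s : ℝ} (hs : 0 < s) {L : ℕ} (hL : 0 < L) (b : F) :
    0 ≤ keep β K s L b ∧ keep β K s L b ≤ 1 := by
  refine ⟨smul_nonneg (by positivity) (Finset.sum_nonneg fun i _ => res_nonneg hs _), ?_⟩
  refine (smul_le_smul_of_nonneg_left (Finset.sum_le_sum fun i _ => res_le_one hs _)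
    (by positivity)).trans_eq ?_
  rw [Finset.sum_const, Finset.card_range, ← Nat.cast_smul_eq_nsmul ℝ, smul_smul,
    inv_mul_cancel₀ (by positivity), one_smul]

theorem norm_hom_keep_sub_le {K : Finset G} {s : ℝ} (hs : 0 < s) (L : ℕ) {b : F} (hb : 0 ≤ b)
    {k : G} (hk : k ∈ K) (hk' : k⁻¹ ∈ K) :
    ‖hom β k (keep β K s L b) - keep β K s L b‖ ≤ (L : ℝ)⁻¹ := by
  set h : ℕ → F := fun i => 1 - res s (ballSum β K b i) with hh
  have hsa : ∀ i, IsSelfAdjoint (ballSum β K b i) :=
    fun i => IsSelfAdjoint.of_nonneg (ballSum_nonneg β K hb i)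
  have hstep : ∀ (c : G), c ∈ K → ∀ i, hom β c (h i) ≤ h (i + 1) := fun c hc i => by
    simp only [hh, map_sub, map_one, map_res hs _ (hsa i)]
    exact sub_le_sub_left (res_antitone hs (map_nonneg _ (ballSum_nonneg β K hb i))
      (hom_ballSum_le β hb hc i)) _
  have := norm_shift_sub_le (hom β k) h (fun i => sub_nonneg.2 (res_le_one hs _))
    (fun i => sub_le_self _ (res_nonneg hs _)) (hstep k hk) (fun i => by
      have := map_le_map (hom β k) (hstep k⁻¹ hk' i)
      rwa [hom_hom, mul_inv_cancel, show hom β 1 (h i) = h i by simp [hom]] at this) L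
  have e : hom β k (keep β K s L b) - keep β K s L b =
      -((L : ℝ)⁻¹ • (hom β k (∑ i ∈ Finset.range L, h i) - ∑ i ∈ Finset.range L, h i)) := by
    simp only [keep, hh, Finset.sum_sub_distrib, Finset.sum_const, Finset.card_range, map_sub,
      map_nsmul, map_one, smul_sub, LinearMap.map_smul_of_tower, ← Complex.coe_smul, map_smul]
    abel
  rw [e, norm_neg, norm_smul, Real.norm_of_nonneg (by positivity)]
  exact mul_le_of_le_one_right (by positivity) this

theorem norm_mul_keep_le (K : Finset G) {s : ℝ} (hs : 0 < s) {L : ℕ} (hL : 0 < L) {b c : F}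
    (hb : 0 ≤ b) (hc : star c * c ≤ b) : ‖c * keep β K s L b‖ ≤ √s := by
  have hB : ∀ i, b ≤ ballSum β K b i := fun i => by
    refine le_trans (le_of_eq ?_) (Finset.single_le_sum (f := fun g => hom β g b)
      (fun g _ => map_nonneg _ hb) (one_mem_ball K i))
    simp [hom]
  rw [keep, mul_smul_comm, norm_smul, Real.norm_of_nonneg (by positivity), Finset.mul_sum]
  refine (mul_le_mul_of_nonneg_left ((norm_sum_le _ _).trans (Finset.sum_le_sum fun i _ =>
    norm_mul_res_le hs (hc.trans (hB i)))) (by positivity)).trans_eq ?_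
  rw [Finset.sum_const, Finset.card_range, nsmul_eq_mul, ← mul_assoc,
    inv_mul_cancel₀ (by positivity), one_mul]

theorem one_sub_keep_le (K : Finset G) {s : ℝ} (hs : 0 < s) {L : ℕ} (hL : 0 < L) {b : F}
    (hb : 0 ≤ b) : 1 - keep β K s L b ≤ s⁻¹ • ballSum β K b L := by
  classical
  have hone : (1 : F) = (L : ℝ)⁻¹ • ∑ _i ∈ Finset.range L, (1 : F) := by
    rw [Finset.sum_const, Finset.card_range, ← Nat.cast_smul_eq_nsmul ℝ, smul_smul,
      inv_mul_cancel₀ (by positivity), one_smul]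
  rw [keep, hone, ← smul_sub, ← Finset.sum_sub_distrib]
  refine (smul_le_smul_of_nonneg_left (Finset.sum_le_sum (g := fun _ => s⁻¹ • ballSum β K b L)
    fun i hi => ?_) (by positivity)).trans_eq ?_
  · refine (one_sub_res_le hs (ballSum_nonneg β K hb i)).trans
      (smul_le_smul_of_nonneg_left ?_ (by positivity))
    exact Finset.sum_le_sum_of_subset_of_nonneg (ball_mono K (Finset.mem_range.1 hi).le)
      fun g _ _ => map_nonneg _ hb
  · rw [Finset.sum_const, Finset.card_range, ← Nat.cast_smul_eq_nsmul ℝ, smul_smul,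
      inv_mul_cancel₀ (by positivity), one_smul]

theorem norm_hom_conj_sub_le {y x : F} (hy : ‖y‖ ≤ 1) (hx : ‖x‖ ≤ 1) (g : G) {e r : ℝ}
    (h : ‖hom β g y - y‖ ≤ e) (hc : ‖(hom β g x - x) * y‖ ≤ r) :
    ‖hom β g (y * x * y) - y * x * y‖ ≤ 2 * e + r := by
  have he : 0 ≤ e := (norm_nonneg _).trans h
  have hr : 0 ≤ r := (norm_nonneg _).trans hc
  have e1 : hom β g (y * x * y) - y * x * y = (hom β g y - y) * hom β g x * hom β g y +
      y * hom β g x * (hom β g y - y) + y * (hom β g x - x) * y := by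
    rw [map_mul, map_mul]
    noncomm_ring
  rw [e1]
  have hn : ∀ a : F, ‖hom β g a‖ ≤ ‖a‖ := fun a => NonUnitalStarAlgHom.norm_apply_le _ a
  refine norm_add₃_le.trans ?_
  have h1 : ‖(hom β g y - y) * hom β g x * hom β g y‖ ≤ e * 1 * 1 :=
    norm_mul₃_le.trans (mul_le_mul (mul_le_mul h ((hn x).trans hx) (norm_nonneg _) he)
      ((hn y).trans hy) (norm_nonneg _) (by positivity))
  have h2 : ‖y * hom β g x * (hom β g y - y)‖ ≤ 1 * 1 * e :=
    norm_mul₃_le.trans (mul_le_mul (mul_le_mul hy ((hn x).trans hx) (norm_nonneg _) zero_le_one)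
      h (norm_nonneg _) (by positivity))
  have h3 : ‖y * (hom β g x - x) * y‖ ≤ r := by
    rw [mul_assoc]
    refine (norm_mul_le _ _).trans ?_
    nlinarith [norm_nonneg y, norm_nonneg ((hom β g x - x) * y)]
  linarith

theorem ballSum_defect_le (x : F) (K W : Finset G) (L : ℕ)
    (hW : ∀ g ∈ ball K L, g ∈ W ∧ ∀ k ∈ K, g * k ∈ W) :
    ballSum β K (∑ k ∈ K, defect β x k) L ≤
      (((ball K L).card : ℝ) * K.card * 4) • ∑ w ∈ W, defect β x w := by
  have hw : ∀ w ∈ W, defect β x w ≤ ∑ v ∈ W, defect β x v := fun w hw' =>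
    Finset.single_le_sum (f := defect β x) (fun w _ => star_mul_self_nonneg _) hw'
  refine (Finset.sum_le_sum (g := fun _ => ((K.card : ℝ) * 4) • ∑ v ∈ W, defect β x v)
    fun g hg => ?_).trans_eq ?_
  · rw [map_sum]
    refine (Finset.sum_le_sum (g := fun _ => (4 : ℝ) • ∑ v ∈ W, defect β x v)
      fun k hk => ?_).trans_eq ?_
    · refine (hom_defect_le β x g k).trans ((smul_le_smul_of_nonneg_left (add_le_add
        (hw _ ((hW g hg).2 k hk)) (hw _ (hW g hg).1)) zero_le_two).trans_eq ?_)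
      module
    · rw [Finset.sum_const, ← Nat.cast_smul_eq_nsmul ℝ, smul_smul]
  · rw [Finset.sum_const, ← Nat.cast_smul_eq_nsmul ℝ, smul_smul]; ring_nf

theorem val_cut_small (D : DimState F) {e S : F} (he : IsSelfAdjoint e) (hS : 0 ≤ S) {C : ℝ}
    (hC : 0 ≤ C) (heS : e ≤ C • S) {t σ : ℝ} (hσ : C * σ < t) :
    D (cut t e) ≤ D (cut σ S) :=
  (val_cut_mono' D he heS t).trans (val_cut_smul_le D (IsSelfAdjoint.of_nonneg hS) hC hσ)

theorem val_cut_diff_le (D : DimState F) {x e : F} (hx : ‖x‖ ≤ 1) (he0 : 0 ≤ e) (he1 : e ≤ 1)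
    {θ : ℝ} (hθ : 0 < θ) (hD : D (cut (θ / 16) e) ≤ θ / 2) :
    D (cut θ (star (x - (1 - e) * x * (1 - e)) * (x - (1 - e) * x * (1 - e)))) ≤ θ := by
  have hesa := IsSelfAdjoint.of_nonneg he0
  have hy : ‖1 - e‖ ≤ 1 := norm_le_one_of_between
    (le_trans (by simp) (sub_nonneg.2 he1)) (sub_le_self _ he0)
  have hee : star e * e ≤ e := by
    rw [hesa.star_eq]
    conv_lhs => rw [← cfc_id' ℝ e]
    conv_rhs => rw [← cfc_id' ℝ e]
    rw [← cfc_mul (fun r : ℝ => r) (fun r : ℝ => r) e continuousOn_id continuousOn_id]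
    refine cfc_mono (fun r hr => ?_)
    have h0 : 0 ≤ r := spectrum_nonneg_of_nonneg he0 hr
    have h1 : r ≤ 1 := (le_algebraMap_iff_spectrum_le (r := (1 : ℝ)) hesa).1
      (he1.trans_eq (map_one (algebraMap ℝ F)).symm) r hr
    nlinarith
  have hkey : D (cut (θ / 16) (star e * e)) ≤ θ / 2 :=
    (val_cut_mono' D (IsSelfAdjoint.star_mul_self e) hee _).trans hD
  have hsplit : x - (1 - e) * x * (1 - e) = e * x + (1 - e) * x * e := by noncomm_ring
  rw [hsplit]
  refine (val_cut_mono' D (IsSelfAdjoint.star_mul_self _) (star_add_mul_add_le _ _) θ).trans ?_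
  refine (val_cut_smul_le D ((IsSelfAdjoint.star_mul_self _).add (IsSelfAdjoint.star_mul_self _))
    zero_le_two (s := θ / 3) (by linarith)).trans ?_
  refine (val_cut_add_le D (IsSelfAdjoint.star_mul_self _) (IsSelfAdjoint.star_mul_self _)
    (s := θ / 8) (t := θ / 8) (by linarith)).trans ?_
  have h1 : D (cut (θ / 8) (star (e * x) * (e * x))) ≤ θ / 2 := by
    rw [show star (e * x) * (e * x) = star x * (star e * e) * x by
      rw [star_mul]; simp only [mul_assoc]]
    refine (val_cut_conj_le D (IsSelfAdjoint.star_mul_self e) x (s := θ / 16) (by positivity)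
      ?_).trans hkey
    nlinarith [norm_nonneg x, pow_le_one₀ (n := 2) (norm_nonneg x) hx]
  have h2 : D (cut (θ / 8) (star ((1 - e) * x * e) * ((1 - e) * x * e))) ≤ θ / 2 := by
    refine (val_cut_mono' D (IsSelfAdjoint.star_mul_self _) (star_mul_mul_le ((1 - e) * x) e) _).trans
      ((val_cut_smul_le D (IsSelfAdjoint.star_mul_self e) (sq_nonneg _) (s := θ / 16) ?_).trans
        hkey)
    have : ‖(1 - e) * x‖ ≤ 1 :=
      (norm_mul_le _ _).trans (mul_le_one₀ hy (norm_nonneg _) hx)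
    nlinarith [norm_nonneg ((1 - e) * x), pow_le_one₀ (n := 2) (norm_nonneg _) this]
  linarith

end Bridge

open Bridge

/-- Invariance in dimension gives invariance in norm after a small cut-down. -/
theorem exists_almostFixed {F G : Type*} [CStarAlgebra F] [Group G] (β : G →* (F ≃⋆ₐ[ℂ] F))
    (K : Finset G) {η : ℝ} (hη : 0 < η) :
    ∃ W : Finset G, ∀ θ : ℝ, 0 < θ → ∃ δ : ℝ, 0 < δ ∧ ∀ x : F, ‖x‖ ≤ 1 →
      (∀ g ∈ W, ∀ D : DimState F, D (cut δ (star (β g x - x) * (β g x - x))) ≤ δ) →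
      ∃ e : F, IsPosC e ∧ AlmostFixed β K η e ∧ AlmostFixed β K η ((1 - e) * x * (1 - e)) ∧
        (∀ D : DimState F, D (cut θ e) ≤ θ) ∧
        ∀ D : DimState F, D (cut θ (star (x - (1 - e) * x * (1 - e)) *
          (x - (1 - e) * x * (1 - e)))) ≤ θ := by
  classical
  obtain ⟨L, hL⟩ := exists_nat_gt (4 / η)
  have hL0 : 0 < L := by
    have : (0 : ℝ) < L := (by positivity : (0 : ℝ) < 4 / η).trans hL
    exact_mod_cast this
  have hLη : (L : ℝ)⁻¹ ≤ η / 4 := by
    rw [inv_le_comm₀ (by exact_mod_cast hL0) (by positivity), inv_div]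
    exact hL.le
  obtain ⟨s, hs, hsη⟩ : ∃ s : ℝ, 0 < s ∧ √s ≤ η / 4 :=
    ⟨(η / 4) ^ 2, by positivity, (Real.sqrt_sq (by positivity)).le⟩
  obtain ⟨K', h1K, hKK⟩ : ∃ K' : Finset G, 1 ∈ K' ∧ ∀ g ∈ K, g ∈ K' ∧ g⁻¹ ∈ K' :=
    ⟨insert 1 (K ∪ K.image (·⁻¹)), Finset.mem_insert_self _ _, fun g hg =>
      ⟨Finset.mem_insert_of_mem (Finset.mem_union_left _ hg), Finset.mem_insert_of_mem
        (Finset.mem_union_right _ (Finset.mem_image_of_mem _ hg))⟩⟩
  obtain ⟨W, hW⟩ : ∃ W : Finset G, ∀ g ∈ ball K' L, g ∈ W ∧ ∀ k ∈ K', g * k ∈ W :=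
    ⟨ball K' L ∪ (ball K' L ×ˢ K').image fun p => p.1 * p.2, fun g hg =>
      ⟨Finset.mem_union_left _ hg, fun k hk => Finset.mem_union_right _ (Finset.mem_image.2
        ⟨(g, k), Finset.mk_mem_product hg hk, rfl⟩)⟩⟩
  refine ⟨W, fun θ hθ => ?_⟩
  obtain ⟨C, hC, hC'⟩ : ∃ C : ℝ, 0 ≤ C ∧
      C = s⁻¹ * (((ball K' L).card : ℝ) * K'.card * 4) := ⟨_, by positivity, rfl⟩
  obtain ⟨δ, hδ, hδ1, hδ2⟩ : ∃ δ : ℝ, 0 < δ ∧ δ * ((C + 1) * ((W.card : ℝ) + 1)) ≤ θ / 16 ∧
      δ * (2 * ((W.card : ℝ) + 1)) ≤ θ :=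
    ⟨min (θ / 16 / ((C + 1) * ((W.card : ℝ) + 1))) (θ / (2 * ((W.card : ℝ) + 1))),
      lt_min (by positivity) (by positivity), (le_div_iff₀ (by positivity)).1 (min_le_left _ _),
      (le_div_iff₀ (by positivity)).1 (min_le_right _ _)⟩
  refine ⟨δ, hδ, fun x hx hinv => ?_⟩
  have hb : 0 ≤ ∑ k ∈ K', defect β x k := Finset.sum_nonneg fun k _ => star_mul_self_nonneg _
  obtain ⟨hy0, hy1⟩ := keep_bounds β K' hs hL0 (∑ k ∈ K', defect β x k)
  have hS0 : 0 ≤ ∑ w ∈ W, defect β x w := Finset.sum_nonneg fun w _ => star_mul_self_nonneg _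
  have he : 1 - keep β K' s L (∑ k ∈ K', defect β x k) ≤ C • ∑ w ∈ W, defect β x w := by
    refine (one_sub_keep_le β K' hs hL0 hb).trans
      ((smul_le_smul_of_nonneg_left (ballSum_defect_le β x K' W L hW) (by positivity)).trans_eq ?_)
    rw [smul_smul, hC']
  have key : ∀ D : DimState F,
      D (cut (θ / 16) (1 - keep β K' s L (∑ k ∈ K', defect β x k))) ≤ θ / 2 := fun D => by
    refine (val_cut_small D ((IsSelfAdjoint.one F).sub (IsSelfAdjoint.of_nonneg hy0)) hS0 hC he
      (σ := θ / 16 / (C + 1)) ?_).trans ((DQ.val_cut_sum_le D W (defect β x)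
        (fun w => IsSelfAdjoint.star_mul_self _) (s := δ) hδ.le _ ?_).trans
          ((Finset.sum_le_sum fun w hw' => hinv w hw' D).trans ?_))
    · rw [mul_div_assoc', div_lt_iff₀ (by positivity)]; nlinarith
    · rw [lt_div_iff₀ (by positivity)]
      nlinarith
    · rw [Finset.sum_const, nsmul_eq_mul]
      nlinarith
  have hyn : ‖keep β K' s L (∑ k ∈ K', defect β x k)‖ ≤ 1 :=
    norm_le_one_of_between (le_trans (by simp) hy0) hy1
  refine ⟨1 - keep β K' s L (∑ k ∈ K', defect β x k), ⟨DQ.isPos_of_nonneg (sub_nonneg.2 hy1),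
    norm_le_one_of_between (le_trans (by simp) (sub_nonneg.2 hy1)) (sub_le_self _ hy0)⟩,
    fun g hg => ?_, fun g hg => ?_, fun D => ?_, fun D =>
    val_cut_diff_le D hx (sub_nonneg.2 hy1) (sub_le_self _ hy0) hθ (key D)⟩
  · obtain ⟨h1, h2⟩ := hKK g hg
    refine le_trans (le_of_eq ?_)
      ((norm_hom_keep_sub_le β hs L hb h1 h2).trans (by linarith))
    rw [← norm_neg]
    congr 1
    simp [hom]
  · obtain ⟨h1, h2⟩ := hKK g hg
    rw [sub_sub_cancel]
    refine (norm_hom_conj_sub_le β hyn hx g (norm_hom_keep_sub_le β hs L hb h1 h2)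
      (norm_mul_keep_le β K' hs hL0 hb ?_)).trans (by linarith)
    exact Finset.single_le_sum (f := defect β x) (fun k _ => star_mul_self_nonneg _) h1
  · exact (DQ.val_cut_antitone D ((IsSelfAdjoint.one F).sub (IsSelfAdjoint.of_nonneg hy0))
      (by linarith)).trans ((key D).trans (by linarith))

end

end Vale.Agent.P095.Elem
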