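import Vale.Agent.P101.Join
import Vale.Agent.P101.Kill

/-!
# P095, elementary amenable groups: small functional calculus lemmas
-/

namespace Vale.Agent.P095.Elem.Calc

open VAgent.P101 Vale.Agent.P101 Filter Topology
open scoped CStarAlgebra ComplexOrder

noncomputable section

variable {F : Type*} [CStarAlgebra F]

theorem fix_of {a y : F} (ha : IsSelfAdjoint a) {f : ℝ → ℝ} (hf : Continuous f) (h1 : f 1 = 1)
    (hy : a * y = y) : cfc f a * y = y := by
  rw [cfc_apply_fixed ha f hf hy, h1, map_one, one_mul]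

theorem kill_of {a y : F} (ha : IsSelfAdjoint a) {f : ℝ → ℝ} (hf : Continuous f) (h1 : f 1 = 0)
    (hy : a * y = y) : cfc f a * y = 0 := by
  rw [cfc_apply_fixed ha f hf hy, h1, map_zero, zero_mul]

theorem kill_zero {a w : F} (ha : IsSelfAdjoint a) {f : ℝ → ℝ} (hf : Continuous f) (h0 : f 0 = 0)
    (hw : a * w = 0) : cfc f a * w = 0 := by
  refine kill_one ha f id hf continuous_id (fun t _ ht => ?_) (by rwa [cfc_id ℝ a])
  rw [show t = 0 from ht, h0]

theorem kill_zero' {a w : F} (ha : IsSelfAdjoint a) {f : ℝ → ℝ} (hf : Continuous f) (h0 : f 0 = 0)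
    (hw : w * a = 0) : w * cfc f a = 0 := by
  have h := kill_zero ha hf h0 (w := star w) (by
    rw [← star_star a, ← star_mul, ha.star_eq, hw, star_zero])
  have h2 := congrArg star h
  rwa [star_mul, star_star, star_zero, (cfc_predicate f a : IsSelfAdjoint _).star_eq] at h2

theorem cfc_mul_zero (a : F) {f g : ℝ → ℝ} (hf : Continuous f) (hg : Continuous g)
    (h : ∀ t, f t * g t = 0) : cfc f a * cfc g a = 0 := by
  rw [← cfc_mul f g a hf.continuousOn hg.continuousOn, ← cfc_zero ℝ a]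
  exact cfc_congr fun t _ => h t

theorem cfc_mul_fun (a : F) {f g h : ℝ → ℝ} (hf : Continuous f) (hg : Continuous g)
    (e : ∀ t, f t * g t = h t) : cfc f a * cfc g a = cfc h a := by
  rw [← cfc_mul f g a hf.continuousOn hg.continuousOn]
  exact cfc_congr fun t _ => e t

theorem cfc_comm (a : F) (f g : ℝ → ℝ) : Commute (cfc f a) (cfc g a) := cfc_commute_cfc f g a

theorem sqrt_mul (a : F) {f : ℝ → ℝ} (hf : Continuous f) (h0 : ∀ t, 0 ≤ f t) :
    cfc (fun t => Real.sqrt (f t)) a * cfc (fun t => Real.sqrt (f t)) a = cfc f a :=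
  cfc_mul_fun a hf.sqrt hf.sqrt fun t => Real.mul_self_sqrt (h0 t)

section Orth

variable {A B : F}

theorem commSA_pair (hA : IsSelfAdjoint A) (hB : IsSelfAdjoint B) (h : A * B = 0) :
    CommSA ({A, B} : Set F) := by
  have h' : B * A = 0 := by
    have := congrArg star h
    rwa [star_mul, star_zero, hA.star_eq, hB.star_eq] at this
  refine ⟨fun x hx => ?_, fun x hx y hy => ?_⟩
  · rcases hx with rfl | hx
    · exact hA
    · rwa [Set.mem_singleton_iff.1 hx]
  · simp only [Set.mem_insert_iff, Set.mem_singleton_iff] at hx hy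
    rcases hx with rfl | rfl <;> rcases hy with rfl | rfl <;>
      simp [Commute, SemiconjBy, h, h']

theorem cfc_orth_mul (hA : IsSelfAdjoint A) (hB : IsSelfAdjoint B) (h : A * B = 0)
    {f g : ℝ → ℝ} (hf : Continuous f) (hg : Continuous g) (h0 : f 0 = 0) :
    cfc g (A + B) * cfc f A = cfc (fun t => g t * f t) A := by
  have hc := commSA_pair hA hB h
  let A' : Abel {A, B} hc := ⟨A, mem_abel hc (Set.mem_insert _ _)⟩
  let B' : Abel {A, B} hc := ⟨B, mem_abel hc (Set.mem_insert_of_mem _ rfl)⟩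
  have hA' : IsSelfAdjoint A' := Subtype.ext hA.star_eq
  have hB' : IsSelfAdjoint B' := Subtype.ext hB.star_eq
  have key : cfc g (A' + B') * cfc f A' = cfc (fun t => g t * f t) A' := by
    refine abel_ext fun χ => ?_
    have hz : χ A' * χ B' = 0 := by
      rw [← map_mul, show A' * B' = 0 from Subtype.ext h, map_zero]
    rw [map_mul, char_cfc χ (hA'.add hB') g hg, char_cfc χ hA' f hf,
      char_cfc χ hA' _ (by fun_prop), map_add]
    rcases mul_eq_zero.1 hz with h1 | h1
    · simp [h1, h0]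
    · rw [h1, add_zero, Complex.ofReal_mul]
  have key' := congrArg (fun z : Abel {A, B} hc => (z : F)) key
  simp only [MulMemClass.coe_mul] at key'
  rwa [coe_cfc (A' + B') (hA'.add hB') g hg, coe_cfc A' hA' f hf,
    coe_cfc A' hA' _ (by fun_prop)] at key'

theorem cfc_orth_add (hA : IsSelfAdjoint A) (hB : IsSelfAdjoint B) (h : A * B = 0)
    {f : ℝ → ℝ} (hf : Continuous f) (h0 : f 0 = 0) :
    cfc f (A + B) = cfc f A + cfc f B := by
  have hc := commSA_pair hA hB h
  let A' : Abel {A, B} hc := ⟨A, mem_abel hc (Set.mem_insert _ _)⟩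
  let B' : Abel {A, B} hc := ⟨B, mem_abel hc (Set.mem_insert_of_mem _ rfl)⟩
  have hA' : IsSelfAdjoint A' := Subtype.ext hA.star_eq
  have hB' : IsSelfAdjoint B' := Subtype.ext hB.star_eq
  have key : cfc f (A' + B') = cfc f A' + cfc f B' := by
    refine abel_ext fun χ => ?_
    have hz : χ A' * χ B' = 0 := by
      rw [← map_mul, show A' * B' = 0 from Subtype.ext h, map_zero]
    rw [map_add, char_cfc χ (hA'.add hB') f hf, char_cfc χ hA' f hf, char_cfc χ hB' f hf, map_add]
    rcases mul_eq_zero.1 hz with h1 | h1 <;> simp [h1, h0]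
  have key' := congrArg (fun z : Abel {A, B} hc => (z : F)) key
  simp only [AddMemClass.coe_add] at key'
  rwa [coe_cfc (A' + B') (hA'.add hB') f hf, coe_cfc A' hA' f hf, coe_cfc B' hB' f hf] at key'

end Orth

/-! ### Asymptotically fixed sequences -/

/-- A bounded sequence which `σ` fixes asymptotically. -/
def AF (σ : F →⋆ₐ[ℂ] F) (x : ℕ → F) : Prop :=
  (∃ C, ∀ n, ‖x n‖ ≤ C) ∧ Tendsto (fun n => ‖σ (x n) - x n‖) atTop (𝓝 0)

namespace AF

variable {σ : F →⋆ₐ[ℂ] F} {x y : ℕ → F}

theorem const_alg (c : ℂ) : AF σ fun _ => algebraMap ℂ F c :=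
  ⟨⟨_, fun _ => le_rfl⟩, by simp [AlgHomClass.commutes]⟩

theorem one : AF σ fun _ => (1 : F) := by simpa using const_alg (σ := σ) 1

theorem zero : AF σ fun _ => (0 : F) := by simpa using const_alg (σ := σ) 0

theorem congr (hx : AF σ x) (h : ∀ n, x n = y n) : AF σ y := by rwa [← funext h]

theorem add (hx : AF σ x) (hy : AF σ y) : AF σ fun n => x n + y n := by
  obtain ⟨⟨C, hC⟩, hx⟩ := hx
  obtain ⟨⟨D, hD⟩, hy⟩ := hy
  refine ⟨⟨C + D, fun n => (norm_add_le _ _).trans (add_le_add (hC n) (hD n))⟩, ?_⟩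
  refine squeeze_zero (fun n => norm_nonneg _) (fun n => ?_) (by simpa using hx.add hy)
  rw [map_add, add_sub_add_comm]
  exact norm_add_le _ _

theorem neg (hx : AF σ x) : AF σ fun n => -x n := by
  obtain ⟨⟨C, hC⟩, hx⟩ := hx
  refine ⟨⟨C, fun n => by simpa using hC n⟩, hx.congr fun n => ?_⟩
  rw [map_neg, ← neg_sub', norm_neg]

theorem sub (hx : AF σ x) (hy : AF σ y) : AF σ fun n => x n - y n :=
  (hx.add hy.neg).congr fun n => (sub_eq_add_neg _ _).symm

theorem mul (hx : AF σ x) (hy : AF σ y) : AF σ fun n => x n * y n := by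
  obtain ⟨⟨C, hC⟩, hx⟩ := hx
  obtain ⟨⟨D, hD⟩, hy⟩ := hy
  have hC0 : 0 ≤ C := (norm_nonneg _).trans (hC 0)
  refine ⟨⟨C * D, fun n => (norm_mul_le _ _).trans
    (mul_le_mul (hC n) (hD n) (norm_nonneg _) hC0)⟩, ?_⟩
  refine squeeze_zero (fun n => norm_nonneg _) (fun n => ?_)
    (by simpa using (hx.mul_const D).add (hy.const_mul C))
  have e : σ (x n * y n) - x n * y n =
      (σ (x n) - x n) * σ (y n) + x n * (σ (y n) - y n) := by
    rw [map_mul]; noncomm_ring
  rw [e]
  refine (norm_add_le _ _).trans (add_le_add ?_ ?_)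
  · exact (norm_mul_le _ _).trans (mul_le_mul_of_nonneg_left
      ((NonUnitalStarAlgHom.norm_apply_le σ (y n)).trans (hD n)) (norm_nonneg _))
  · exact (norm_mul_le _ _).trans (mul_le_mul_of_nonneg_right (hC n) (norm_nonneg _))

theorem star (hx : AF σ x) : AF σ fun n => star (x n) := by
  obtain ⟨⟨C, hC⟩, hx⟩ := hx
  refine ⟨⟨C, fun n => (norm_star _).le.trans (hC n)⟩, hx.congr fun n => ?_⟩
  rw [map_star, ← star_sub, norm_star]

theorem smul (c : ℂ) (hx : AF σ x) : AF σ fun n => c • x n :=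
  ((const_alg c).mul hx).congr fun n => (Algebra.smul_def c (x n)).symm

theorem sum {ι : Type*} (s : Finset ι) {f : ι → ℕ → F} (h : ∀ i ∈ s, AF σ (f i)) :
    AF σ fun n => ∑ i ∈ s, f i n := by
  classical
  induction s using Finset.induction_on with
  | empty => exact zero.congr fun n => by simp
  | insert i s hi ih =>
    exact ((h i (Finset.mem_insert_self _ _)).add
      (ih fun j hj => h j (Finset.mem_insert_of_mem hj))).congr fun n => by
        rw [Finset.sum_insert hi]

theorem aeval (hx : AF σ x) (p : Polynomial ℝ) : AF σ fun n => Polynomial.aeval (x n) p := by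
  induction p using Polynomial.induction_on with
  | C c =>
    exact (const_alg (c : ℂ)).congr fun n => by
      rw [Polynomial.aeval_C, IsScalarTower.algebraMap_apply ℝ ℂ F c]; rfl
  | add p q hp hq => exact (hp.add hq).congr fun n => by rw [map_add]
  | monomial k c h =>
    exact (h.mul hx).congr fun n => by
      simp only [map_mul, map_pow, Polynomial.aeval_X, pow_succ, mul_assoc]

theorem cfc (hx : AF σ x) (hsa : ∀ n, IsSelfAdjoint (x n)) {f : ℝ → ℝ} (hf : Continuous f) :
    AF σ fun n => cfc f (x n) := by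
  rcases subsingleton_or_nontrivial F with hF | hF
  · exact zero.congr fun n => Subsingleton.elim _ _
  obtain ⟨C, hC⟩ := hx.1
  have hC0 : 0 ≤ C := (norm_nonneg _).trans (hC 0)
  have hmem : ∀ n, ∀ t ∈ spectrum ℝ (x n), t ∈ Set.Icc (-C) C := fun n t ht =>
    abs_le.1 ((Real.norm_eq_abs t).symm.le.trans ((spectrum.norm_le_norm_of_mem ht).trans (hC n)))
  obtain ⟨B, hB⟩ := (isCompact_Icc (a := -C) (b := C)).exists_bound_of_continuousOn hf.continuousOn
  have hB0 : 0 ≤ B := (norm_nonneg _).trans (hB 0 ⟨by linarith, hC0⟩)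
  refine ⟨⟨B, fun n => norm_cfc_le hB0 fun t ht => hB t (hmem n t ht)⟩, ?_⟩
  rw [Metric.tendsto_atTop]
  intro ε hε
  obtain ⟨p, hp⟩ := exists_polynomial_near_of_continuousOn (-C) C f hf.continuousOn (ε / 4)
    (by positivity)
  obtain ⟨N, hN⟩ := Metric.tendsto_atTop.1 (hx.aeval p).2 (ε / 4) (by positivity)
  refine ⟨N, fun n hn => ?_⟩
  have h1 : ‖_root_.cfc f (x n) - Polynomial.aeval (x n) p‖ ≤ ε / 4 := by
    rw [← cfc_polynomial p (x n) (hsa n),
      ← cfc_sub f p.eval (x n) hf.continuousOn p.continuous.continuousOn]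
    refine norm_cfc_le (by positivity) fun t ht => ?_
    rw [Real.norm_eq_abs, abs_sub_comm]
    exact (hp t (hmem n t ht)).le
  have h2 := hN n hn
  rw [dist_zero_right, Real.norm_eq_abs, abs_norm] at h2
  rw [dist_zero_right, Real.norm_eq_abs, abs_norm]
  have h3 : ‖σ (_root_.cfc f (x n)) - σ (Polynomial.aeval (x n) p)‖ ≤ ε / 4 := by
    rw [← map_sub]; exact (NonUnitalStarAlgHom.norm_apply_le σ _).trans h1
  calc ‖σ (_root_.cfc f (x n)) - _root_.cfc f (x n)‖
      ≤ ‖σ (_root_.cfc f (x n)) - σ (Polynomial.aeval (x n) p)‖ +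
        ‖σ (Polynomial.aeval (x n) p) - Polynomial.aeval (x n) p‖ +
        ‖Polynomial.aeval (x n) p - _root_.cfc f (x n)‖ := by
          refine (norm_sub_le_norm_sub_add_norm_sub _ (Polynomial.aeval (x n) p) _).trans ?_
          exact add_le_add (norm_sub_le_norm_sub_add_norm_sub _ _ _) le_rfl
    _ < ε := by rw [norm_sub_rev (Polynomial.aeval (x n) p)]; linarith

theorem eventually_le (hx : AF σ x) {ε : ℝ} (hε : 0 < ε) :
    ∀ᶠ n in atTop, ‖σ (x n) - x n‖ ≤ ε :=
  hx.2.eventually (eventually_le_nhds hε)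

theorem ev {A : ℕ → OZ 2 F} (h : AF σ fun n => (A n).one') (f : C(ℝ, ℂ)) :
    AF σ fun n => (A n).ev f := by
  refine ((h.cfc (fun n => (A n).one'_sa) (Complex.continuous_re.comp f.continuous)).add
    ((h.cfc (fun n => (A n).one'_sa) (Complex.continuous_im.comp f.continuous)).smul
      Complex.I)).congr fun n => ?_
  have hsa := (A n).one'_sa
  have e : (A n).ev f = _root_.cfc (fun z : ℂ => f z.re) (A n).one' := by
    rw [cfc_apply (fun z : ℂ => f z.re) (A n).one' (A n).h_normal
      (f.continuous.comp Complex.continuous_re).continuousOn]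
    rfl
  rw [e, cfc_real_eq_complex _ hsa, cfc_real_eq_complex _ hsa, ← cfc_smul Complex.I _ _,
    ← cfc_add _ _ _]
  exact cfc_congr fun z _ => by simpa [mul_comm] using Complex.re_add_im (f z.re)

end AF

theorem ev_ofReal (A : OZ 2 F) (f : C(ℝ, ℂ)) {g : ℝ → ℝ} (h : ∀ t, f t = (g t : ℂ)) :
    A.ev f = cfc g A.one' := by
  have e : A.ev f = _root_.cfc (fun z : ℂ => f z.re) A.one' := by
    rw [cfc_apply (fun z : ℂ => f z.re) A.one' A.h_normal
      (f.continuous.comp Complex.continuous_re).continuousOn]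
    rfl
  rw [e, cfc_real_eq_complex g A.one'_sa]
  exact cfc_congr fun z _ => h _

end

end Vale.Agent.P095.Elem.Calc
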