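import Vale.Agent.P101.JS.Conn
import Vale.Agent.P101.JS.FlipMat

/-!
# P095: the Jiang–Su system has almost central elements without characters

Far out in the system finitely many given elements almost commute with six elements of square
zero whose sum `∑ (q* q + q q*)` is `1` plus a positive element.
-/

namespace Vale.Agent.P095.JSCentral

open Vale.Agent.P101.JS Vale.Agent.P101.JS.Flip
open scoped ComplexOrder CStarAlgebra Topology

noncomputable section

section mat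

/-- Pairs `(i, i+1)` with `i` of parity `e`. -/
def shift (n e : ℕ) : Mat (Fin n) :=
  CStarMatrix.ofMatrix (Matrix.of fun i j : Fin n =>
    if (j : ℕ) = i + 1 ∧ (i : ℕ) % 2 = e then (1 : ℂ) else 0)

/-- A coordinate projection. -/
def dia (n : ℕ) (S : Fin n → Prop) [DecidablePred S] : Mat (Fin n) :=
  CStarMatrix.ofMatrix (Matrix.of fun i j => if i = j ∧ S i then (1 : ℂ) else 0)

theorem dia_mul_self (n : ℕ) (S : Fin n → Prop) [DecidablePred S] :
    dia n S * dia n S = dia n S ∧ star (dia n S) = dia n S := by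
  constructor
  · refine CStarMatrix.ext fun i j => ?_
    rw [CStarMatrix.mul_apply, Finset.sum_eq_single i]
    · simp only [dia, CStarMatrix.ofMatrix_apply, Matrix.of_apply]
      by_cases h : i = j
      · subst h; by_cases h' : S i <;> simp [h']
      · simp [h]
    · intro r _ hr; simp [dia, Ne.symm hr]
    · simp
  · refine CStarMatrix.ext fun i j => ?_
    rw [CStarMatrix.star_apply]
    simp only [dia, CStarMatrix.ofMatrix_apply, Matrix.of_apply]
    by_cases h : i = j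
    · subst h; split_ifs <;> simp
    · simp [h, Ne.symm h]

theorem norm_le_one_of_proj {R : Type*} [CStarAlgebra R] {p : R} (h : p * p = p)
    (hs : star p = p) : ‖p‖ ≤ 1 := by
  have h1 : ‖p‖ = ‖p‖ * ‖p‖ := by
    conv_lhs => rw [← h]
    conv_lhs => arg 1; arg 1; rw [← hs]
    exact CStarRing.norm_star_mul_self
  nlinarith [norm_nonneg p]

theorem star_shift_mul (n e : ℕ) :
    star (shift n e) * shift n e = dia n fun i => 1 ≤ (i : ℕ) ∧ ((i : ℕ) - 1) % 2 = e := by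
  refine CStarMatrix.ext fun i j => ?_
  rw [CStarMatrix.mul_apply]
  simp only [CStarMatrix.star_apply, shift, dia, CStarMatrix.ofMatrix_apply, Matrix.of_apply]
  by_cases h : i = j ∧ (1 ≤ (i : ℕ) ∧ ((i : ℕ) - 1) % 2 = e)
  · obtain ⟨rfl, h1, h2⟩ := h
    rw [if_pos ⟨rfl, h1, h2⟩, Finset.sum_eq_single ⟨(i : ℕ) - 1, by omega⟩]
    · rw [if_pos ⟨by simp only; omega, h2⟩]; simp
    · intro r _ hr
      rw [if_neg]
      · simp
      · rintro ⟨h3, -⟩; exact hr (Fin.ext (by simp only; omega))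
    · simp
  · rw [if_neg h]
    refine Finset.sum_eq_zero fun r _ => ?_
    split_ifs with h1 h2
    · exact absurd ⟨Fin.ext (h1.1.trans h2.1.symm), by omega, by omega⟩ h
    all_goals simp

theorem shift_mul_star (n e : ℕ) :
    shift n e * star (shift n e) = dia n fun i => (i : ℕ) + 1 < n ∧ (i : ℕ) % 2 = e := by
  refine CStarMatrix.ext fun i j => ?_
  rw [CStarMatrix.mul_apply]
  simp only [CStarMatrix.star_apply, shift, dia, CStarMatrix.ofMatrix_apply, Matrix.of_apply]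
  by_cases h : i = j ∧ ((i : ℕ) + 1 < n ∧ (i : ℕ) % 2 = e)
  · obtain ⟨rfl, h1, h2⟩ := h
    rw [if_pos ⟨rfl, h1, h2⟩, Finset.sum_eq_single ⟨(i : ℕ) + 1, h1⟩]
    · rw [if_pos ⟨rfl, h2⟩]; simp
    · intro r _ hr
      rw [if_neg]
      · simp
      · rintro ⟨h3, -⟩; exact hr (Fin.ext h3)
    · simp
  · rw [if_neg h]
    refine Finset.sum_eq_zero fun r _ => ?_
    split_ifs with h1 h2
    · exact absurd ⟨Fin.ext (by omega), by have := r.isLt; omega, h1.2⟩ h
    all_goals simp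

theorem shift_sq (n e : ℕ) : shift n e * shift n e = 0 := by
  refine CStarMatrix.ext fun i j => ?_
  rw [CStarMatrix.mul_apply]
  simp only [shift, CStarMatrix.ofMatrix_apply, Matrix.of_apply, CStarMatrix.zero_apply]
  refine Finset.sum_eq_zero fun r _ => ?_
  split_ifs with h1 h2
  · omega
  all_goals simp

theorem norm_shift (n e : ℕ) : ‖shift n e‖ ≤ 1 := by
  have h := CStarRing.norm_star_mul_self (x := shift n e)
  rw [star_shift_mul] at h
  nlinarith [norm_nonneg (shift n e),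
    norm_le_one_of_proj (dia_mul_self n fun i : Fin n => 1 ≤ (i : ℕ) ∧ ((i : ℕ) - 1) % 2 = e).1
      (dia_mul_self n fun i : Fin n => 1 ≤ (i : ℕ) ∧ ((i : ℕ) - 1) % 2 = e).2]

/-- The interior indices, covered twice. -/
def inner (n : ℕ) : Mat (Fin n) := dia n fun i => 1 ≤ (i : ℕ) ∧ (i : ℕ) + 1 < n

theorem shift_cover {n : ℕ} (hn : 2 ≤ n) :
    star (shift n 0) * shift n 0 + shift n 0 * star (shift n 0) +
      (star (shift n 1) * shift n 1 + shift n 1 * star (shift n 1)) =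
      1 + star (inner n) * inner n := by
  rw [inner, (dia_mul_self _ _).2, (dia_mul_self _ _).1, star_shift_mul, star_shift_mul,
    shift_mul_star, shift_mul_star]
  refine CStarMatrix.ext fun i j => ?_
  simp only [CStarMatrix.add_apply, dia, CStarMatrix.ofMatrix_apply, Matrix.of_apply,
    CStarMatrix.one_apply]
  by_cases h : i = j
  · subst h
    have := i.isLt
    simp only [true_and]
    split_ifs <;> first | omega | norm_num
  · simp [h]

variable {L C D E : Type} [Fintype L] [DecidableEq L] [Fintype C] [DecidableEq C] [Fintype D]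
  [DecidableEq D] [Fintype E] [DecidableEq E]

/-- The middle factor and the first commute. -/
theorem commute_amp_amp (e : L ≃ C × (D × E)) (f : L ≃ D × (C × E))
    (hf : ∀ x, f x = ((e x).2.1, ((e x).1, (e x).2.2))) (Y : Mat C) (X : Mat D) :
    Commute (amp e Y) (amp f X) := by
  refine CStarMatrix.ext fun x y => ?_
  simp only [CStarMatrix.mul_apply, amp_apply, hf]
  have hl : ∀ z, z ≠ e.symm ((e y).1, (e x).2) → ((e x).2 ≠ (e z).2 ∨
      ((e z).1, (e z).2.2) ≠ ((e y).1, (e y).2.2)) := by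
    intro z hz
    by_contra h
    simp only [ne_eq, not_or, not_not, Prod.mk.injEq] at h
    exact hz ((e.eq_symm_apply).2 (Prod.ext h.2.1 h.1.symm))
  have hr : ∀ z, z ≠ e.symm ((e x).1, ((e y).2.1, (e x).2.2)) →
      (((e x).1, (e x).2.2) ≠ ((e z).1, (e z).2.2) ∨ (e z).2 ≠ (e y).2) := by
    intro z hz
    by_contra h
    simp only [ne_eq, not_or, not_not, Prod.mk.injEq] at h
    have h3 := congrArg Prod.fst h.2
    exact hz ((e.eq_symm_apply).2 (Prod.ext h.1.1.symm (Prod.ext h3 h.1.2.symm)))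
  rw [Finset.sum_eq_single (e.symm ((e y).1, (e x).2)),
    Finset.sum_eq_single (e.symm ((e x).1, ((e y).2.1, (e x).2.2)))]
  · simp only [Equiv.apply_symm_apply, Prod.ext_iff, true_and, if_true]
    by_cases h : (e x).2.2 = (e y).2.2 <;> simp [h, mul_comm]
  · intro z _ hz
    rcases hr z hz with h | h <;> simp [h]
  · simp
  · intro z _ hz
    rcases hl z hz with h | h <;> simp [h]
  · simp

/-- A change of indices. -/
def rx (e : L ≃ C) : Mat C →⋆ₐ[ℂ] Mat L := amp (e.trans (Equiv.prodPUnit C).symm)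

theorem rx_apply (e : L ≃ C) (M : Mat C) (x y : L) : rx e M x y = M (e x) (e y) := by
  simp [rx, amp_apply]

/-- An element commuting with `c` almost commutes with a conjugate of something near `c`. -/
theorem norm_comm_le {R : Type*} [CStarAlgebra R] {u c h x : R} {η : ℝ}
    (h1 : star u * u = 1) (h2 : u * star u = 1) (hc : Commute x c)
    (hh : ‖h - u * c * star u‖ ≤ η) (hx : ‖x‖ ≤ 1) :
    ‖u * x * star u * h - h * (u * x * star u)‖ ≤ 2 * η := by
  have hu : u ∈ unitary R := Unitary.mem_iff.2 ⟨h1, h2⟩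
  have hn : ‖u * x * star u‖ ≤ 1 := by
    rw [CStarRing.norm_mul_mem_unitary _ (Unitary.star_mem hu),
      CStarRing.norm_mem_unitary_mul _ hu]
    exact hx
  have h0 : Commute (u * x * star u) (u * c * star u) := by
    have e : ∀ s t : R, u * s * star u * (u * t * star u) = u * (s * t) * star u := fun s t => by
      calc u * s * star u * (u * t * star u) = u * s * (star u * u) * t * star u := by
            simp only [mul_assoc]
        _ = _ := by rw [h1, mul_one, mul_assoc u s t]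
    show _ = _
    rw [e, e, hc.eq]
  set y := u * x * star u
  have e : y * h - h * y = y * (h - u * c * star u) - (h - u * c * star u) * y := by
    rw [mul_sub, sub_mul, h0.eq]; abel
  rw [e]
  refine (norm_sub_le _ _).trans ((add_le_add (norm_mul_le _ _) (norm_mul_le _ _)).trans ?_)
  nlinarith [norm_nonneg y, norm_nonneg (h - u * c * star u)]

/-- A family of blocks all equal to one element commutes with the block permutations. -/
theorem commute_amp_bd {k : ℕ} (e : L ≃ Fin k × C) (Y : Mat (Fin k)) (c : Mat C) :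
    Commute (amp e Y) (bd ℂ e fun _ => c) := by
  refine CStarMatrix.ext fun x y => ?_
  simp only [CStarMatrix.mul_apply, amp_apply, bd_apply]
  rw [← e.symm.sum_comp, ← e.symm.sum_comp]
  simp only [Equiv.apply_symm_apply, Fintype.sum_prod_type]
  simp only [mul_ite, ite_mul, zero_mul, mul_zero, Finset.sum_ite_irrel, Finset.sum_const_zero,
    Finset.sum_ite_eq, Finset.sum_ite_eq', Finset.mem_univ, if_true]
  rw [mul_comm]

end mat

section ends

variable {p0 q0 k' c d p1 q1 k : ℕ}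

/-- The multiplicity space at one end. -/
abbrev KI (c d q0 : ℕ) : Type := Fin c ⊕ (Fin d × Fin q0)

theorem card_KI : Fintype.card (KI c d q0) = c + d * q0 := by simp [KI]

/-- The row index at one end split as multiplicity and small index. -/
def rowEquiv (hp : p1 = c * p0 + d * (p0 * q0)) : Fin p1 ≃ KI c d q0 × Fin p0 :=
  let L : Fin p1 ≃ (Fin c × Fin p0) ⊕ (Fin d × (Fin p0 × Fin q0)) :=
    Fintype.equivOfCardEq (by simp [hp])
  L.trans
    { toFun := fun s => match s with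
        | Sum.inl (i, u) => (Sum.inl i, u)
        | Sum.inr (i, u, v) => (Sum.inr (i, v), u)
      invFun := fun s => match s with
        | (Sum.inl i, u) => Sum.inl (i, u)
        | (Sum.inr (i, v), u) => Sum.inr (i, (u, v))
      left_inv := by rintro (⟨i, u⟩ | ⟨i, u, v⟩) <;> rfl
      right_inv := by rintro ⟨i | ⟨i, v⟩, u⟩ <;> rfl }

/-- The commutant of one end. -/
theorem exists_end_hom (hq : q1 = k' * q0) (hp : p1 = c * p0 + d * (p0 * q0))
    (hk : k = c * k' + d * q1) (Z : Mat (Ix p0 q0)) (hZ1 : star Z * Z = 1)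
    (hZ2 : Z * star Z = 1) :
    ∃ Φ : Mat (Fin (c + d * q0)) →⋆ₐ[ℂ] Mat (Ix p1 q1), (∀ y, IsLeft (Φ y)) ∧
      ∀ (a : Mat (Ix p0 q0)) (F : Fin k → Mat (Ix p0 q0)) (η : ℝ), 0 ≤ η → IsLeft a →
        (∀ j : Fin k, (j : ℕ) < c * k' → ‖F j - a‖ ≤ η) →
        (∀ j : Fin k, c * k' ≤ (j : ℕ) → ‖F j - Z * a * star Z‖ ≤ η) →
        ∀ y, ‖y‖ ≤ 1 → ‖Φ y * bd ℂ (splitEquiv hq hp hk) F -
          bd ℂ (splitEquiv hq hp hk) F * Φ y‖ ≤ 2 * η := by
  classical
  let W : Fin k → Mat (Ix p0 q0) := fun j => if (j : ℕ) < c * k' then 1 else Z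
  have hW1 : star W * W = 1 := by
    funext j; simp only [Pi.mul_apply, Pi.star_apply, Pi.one_apply, W]
    split_ifs <;> simp [hZ1]
  have hW2 : W * star W = 1 := by
    funext j; simp only [Pi.mul_apply, Pi.star_apply, Pi.one_apply, W]
    split_ifs <;> simp [hZ2]
  set b := bd ℂ (splitEquiv hq hp hk) with hb
  let u := b W
  have u1 : star u * u = 1 := by rw [← map_star b, ← map_mul b, hW1, map_one]
  have u2 : u * star u = 1 := by rw [← map_star b, ← map_mul b, hW2, map_one]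
  have hu : IsLeft u := by
    obtain ⟨a', ha'⟩ := split_entry (A := ℂ) (hq := hq) (hp := hp) (hk := hk)
      (F := fun j x y => W j x y) (a := fun i j => if i = j then (1 : ℂ) else 0)
      (h := fun x y => Z x y)
      (fun j hj x y => by
        simp only [W, if_pos hj, CStarMatrix.one_apply]
        by_cases h2 : x.2 = y.2 <;> simp [Prod.ext_iff, h2])
      (fun j hj => by simp only [W, if_neg (not_lt.mpr hj)])
    exact ⟨a', fun x y => by simpa [u, b, bd_apply] using ha' x y⟩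
  let E : Ix p1 q1 ≃ KI c d q0 × (Fin p0 × Fin q1) :=
    ((rowEquiv hp).prodCongr (Equiv.refl _)).trans (Equiv.prodAssoc _ _ _)
  let E' : Ix p1 q1 ≃ Fin p0 × (KI c d q0 × Fin q1) :=
    E.trans ((Equiv.prodAssoc _ _ _).symm.trans
      (((Equiv.prodComm _ _).prodCongr (Equiv.refl _)).trans (Equiv.prodAssoc _ _ _)))
  let card := (Fintype.equivFinOfCardEq (card_KI (c := c) (d := d) (q0 := q0)))
  let R : Mat (Fin (c + d * q0)) →⋆ₐ[ℂ] Mat (Ix p1 q1) := (amp E).comp (rx card)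
  have hR : ∀ y, IsLeft (R y) := fun y => by
    refine ⟨fun i j => if (rowEquiv hp i).2 = (rowEquiv hp j).2 then
      y (card (rowEquiv hp i).1) (card (rowEquiv hp j).1) else 0, fun s t => ?_⟩
    simp only [R, StarAlgHom.comp_apply, amp_apply, rx_apply, E]
    by_cases h : s.2 = t.2 <;> simp [Prod.ext_iff, h]
  let Φ : Mat (Fin (c + d * q0)) →⋆ₐ[ℂ] Mat (Ix p1 q1) :=
    { toFun := fun y => u * R y * star u
      map_one' := by rw [map_one, mul_one, u2]
      map_mul' := fun y z => by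
        rw [map_mul]
        calc u * (R y * R z) * star u = u * R y * (star u * u) * (R z * star u) := by
              rw [u1, mul_one]; simp only [mul_assoc]
          _ = _ := by simp only [mul_assoc]
      map_zero' := by simp
      map_add' := fun y z => by rw [map_add, mul_add, add_mul]
      commutes' := fun r => by
        rw [AlgHomClass.commutes, ← Algebra.commutes, mul_assoc, u2, mul_one]
      map_star' := fun y => by rw [map_star, star_mul, star_mul, star_star, mul_assoc] }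
  refine ⟨Φ, fun y => (hu.mul (hR y)).mul hu.conj, fun a F η hη ha hs hl y hy => ?_⟩
  obtain ⟨a0, ha0⟩ := ha
  have hconst : b (fun _ => a) = amp E' (CStarMatrix.ofMatrix (Matrix.of a0)) := by
    refine CStarMatrix.ext fun s t => ?_
    obtain ⟨i, z⟩ := s
    obtain ⟨j, w⟩ := t
    let L : Fin p1 ≃ (Fin c × Fin p0) ⊕ (Fin d × (Fin p0 × Fin q0)) :=
      Fintype.equivOfCardEq (by simp [hp])
    let eq : Fin q1 ≃ Fin k' × Fin q0 := (finCongr hq).trans finProdFinEquiv.symm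
    let K : (Fin c × Fin k') ⊕ (Fin d × Fin q1) ≃ Fin k :=
      ((Equiv.sumCongr finProdFinEquiv finProdFinEquiv).trans finSumFinEquiv).trans
        (finCongr hk.symm)
    have hspl : ∀ u z, splitEquiv hq hp hk (u, z) = (match L u with
        | Sum.inl (i, a) => (K (Sum.inl (i, (eq z).1)), (a, (eq z).2))
        | Sum.inr (i, ab) => (K (Sum.inr (i, z)), ab)) := fun _ _ => rfl
    have hrow : ∀ u, rowEquiv hp u = (match L u with
        | Sum.inl (i, a) => (Sum.inl i, a)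
        | Sum.inr (i, a, v) => (Sum.inr (i, v), a)) := fun u => by
      show (match L u with
        | Sum.inl (i, a) => ((Sum.inl i : KI c d q0), a)
        | Sum.inr (i, a, v) => (Sum.inr (i, v), a)) = _
      rfl
    have hz : z = w ↔ (eq z).1 = (eq w).1 ∧ (eq z).2 = (eq w).2 := by
      rw [← Prod.ext_iff]; exact eq.injective.eq_iff.symm
    simp only [b, bd_apply, amp_apply, E', E, ha0, hspl, Equiv.trans_apply,
      Equiv.prodCongr_apply, Prod.map, Equiv.prodAssoc_apply, Equiv.prodComm_apply,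
      Equiv.prodAssoc_symm_apply, Equiv.refl_apply, Prod.swap_prod_mk, hrow,
      CStarMatrix.ofMatrix_apply, Matrix.of_apply]
    rcases hi : L i with ⟨m, x⟩ | ⟨m, x, v⟩ <;> rcases hj : L j with ⟨m', x'⟩ | ⟨m', x', v'⟩
    · simp only [hz, K.injective.eq_iff, Sum.inl.injEq, Prod.mk.injEq]
      by_cases e1 : m = m' <;> by_cases e2 : (eq z).1 = (eq w).1 <;>
        by_cases e3 : (eq z).2 = (eq w).2 <;> simp [e1, e2, e3]
    · simp [K.injective.eq_iff]
    · simp [K.injective.eq_iff]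
    · simp only [K.injective.eq_iff, Sum.inr.injEq, Prod.mk.injEq]
      by_cases e1 : m = m' <;> by_cases e2 : z = w <;> by_cases e3 : v = v' <;>
        simp [e1, e2, e3]
  refine norm_comm_le (c := b fun _ => a) u1 u2 ?_ ?_
    ((NonUnitalStarAlgHom.norm_apply_le R y).trans hy)
  · rw [hconst]
    exact commute_amp_amp E E' (fun _ => rfl) (rx card y) _
  · rw [← map_star b, ← map_mul b, ← map_mul b, ← map_sub]
    refine norm_bd_le _ hη fun j => ?_
    simp only [Pi.sub_apply, Pi.mul_apply, Pi.star_apply, W]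
    split_ifs with h
    · simpa using hs j h
    · exact hl j (not_lt.mp h)

end ends

section step

variable (D : Data)

theorem two_le_left : 2 ≤ D.k0 % D.q + D.k0 / D.q * D.q := by
  have := Nat.mod_add_div' D.k0 D.q
  have := D.hk0
  have := D.hq
  omega

theorem two_le_right : 2 ≤ D.k1 % D.p + D.k1 / D.p * D.p := by
  have := Nat.mod_add_div' D.k1 D.p
  have := D.hk1
  have := D.hp
  omega

theorem two_le_k : 2 ≤ D.k := by
  have := D.hk0; have := D.hk1; have := D.hp; have := D.hq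
  exact le_trans (by omega : 2 ≤ 2 * 1) (Nat.mul_le_mul (by omega) (by omega))

/-- The index `1/2`. -/
def half : unitInterval := ⟨1 / 2, by norm_num, by norm_num⟩

theorem lam_zero (j : Fin D.k) : D.lam j 0 = if (j : ℕ) < D.r0 then 0 else half := by
  apply Subtype.ext
  simp only [Data.lam, ContinuousMap.coe_mk, Data.lamR]
  split_ifs <;> simp [half]

theorem lam_one (j : Fin D.k) : D.lam j 1 = if D.k - D.r1 ≤ (j : ℕ) then 1 else half := by
  have := D.r_add_le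
  apply Subtype.ext
  simp only [Data.lam, ContinuousMap.coe_mk, Data.lamR, Set.Icc.coe_one]
  split_ifs with h1 h2 <;> first | omega | norm_num [half]

theorem conj_near {R : Type*} [CStarAlgebra R] {u v x y : R} {η : ℝ}
    (u1 : u * star u = 1) (u2 : star u * u = 1)
    (h : ‖star u * x * u - star v * y * v‖ ≤ η) :
    ‖x - (u * star v) * y * star (u * star v)‖ ≤ η := by
  have hu : u ∈ unitary R := Unitary.mem_iff.2 ⟨u2, u1⟩
  have e : x - (u * star v) * y * star (u * star v) =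
      u * (star u * x * u - star v * y * v) * star u := by
    rw [mul_sub, sub_mul, star_mul, star_star]
    congr 1
    · calc x = (u * star u) * x * (u * star u) := by rw [u1, one_mul, mul_one]
        _ = _ := by simp only [mul_assoc]
    · simp only [mul_assoc]
  rw [e, CStarRing.norm_mul_mem_unitary _ (Unitary.star_mem hu),
    CStarRing.norm_mem_unitary_mul _ hu]
  exact h

theorem turn_unit (U : MPath ℂ (Ix D.p D.q)) (hU1 : star U * U = 1) (hU2 : U * star U = 1)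
    (t s : unitInterval) : star (U t * star (U s)) * (U t * star (U s)) = 1 ∧
      U t * star (U s) * star (U t * star (U s)) = 1 := by
  have u1 : ∀ t, star (U t) * U t = 1 := fun t => DFunLike.congr_fun hU1 t
  have u2 : ∀ t, U t * star (U t) = 1 := fun t => DFunLike.congr_fun hU2 t
  constructor
  · rw [star_mul, star_star, mul_assoc, ← mul_assoc (star (U t)), u1, one_mul, u2]
  · rw [star_mul, star_star, mul_assoc, ← mul_assoc (star (U s)), u1, one_mul, u2]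

theorem turn_near {U : MPath ℂ (Ix D.p D.q)} (hU1 : star U * U = 1) (hU2 : U * star U = 1)
    {g : Blk ℂ D.p D.q} {η : ℝ} (hg : ∀ t s : unitInterval,
      ‖star (U t) * (g : MPath ℂ (Ix D.p D.q)) t * U t
        - star (U s) * (g : MPath ℂ (Ix D.p D.q)) s * U s‖ ≤ η) (t s : unitInterval) :
    ‖(g : MPath ℂ (Ix D.p D.q)) t - U t * star (U s) * (g : MPath ℂ (Ix D.p D.q)) s *
      star (U t * star (U s))‖ ≤ η :=
  conj_near (DFunLike.congr_fun hU2 t) (DFunLike.congr_fun hU1 t) (hg t s)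

/-- The commutant at the left end. -/
theorem exists_left_hom (G : Set (Blk ℂ D.p D.q)) {η : ℝ} (hη : 0 ≤ η)
    (U : MPath ℂ (Ix D.p D.q)) (hU1 : star U * U = 1) (hU2 : U * star U = 1)
    (hG : ∀ g ∈ G, ∀ t s : unitInterval,
      ‖star (U t) * (g : MPath ℂ (Ix D.p D.q)) t * U t
        - star (U s) * (g : MPath ℂ (Ix D.p D.q)) s * U s‖ ≤ η) :
    ∃ Φ₀ : Mat (Fin (D.k0 % D.q + D.k0 / D.q * D.q)) →⋆ₐ[ℂ] Mat (Ix D.p' D.q'),
      (∀ y, IsLeft (Φ₀ y)) ∧ ∀ g ∈ G, ∀ y, ‖y‖ ≤ 1 →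
        ‖Φ₀ y * (D.conn ℂ g : MPath ℂ (Ix D.p' D.q')) 0 -
          (D.conn ℂ g : MPath ℂ (Ix D.p' D.q')) 0 * Φ₀ y‖ ≤ 2 * η := by
  classical
  have hp0 : D.k0 * D.p = D.k0 % D.q * D.p + D.k0 / D.q * (D.p * D.q) := by
    have := Nat.mod_add_div D.k0 D.q
    calc D.k0 * D.p = (D.k0 % D.q + D.q * (D.k0 / D.q)) * D.p := by rw [this]
      _ = _ := by ring
  have hk0' : D.k = D.k0 % D.q * D.k1 + D.k0 / D.q * D.q' := by
    have := Nat.mod_add_div D.k0 D.q
    calc D.k0 * D.k1 = (D.k0 % D.q + D.q * (D.k0 / D.q)) * D.k1 := by rw [this]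
      _ = _ := by ring
  have h := turn_unit D U hU1 hU2 half 0
  obtain ⟨Φ₀, hΦ₀l, hΦ₀⟩ := exists_end_hom (rfl : D.q' = D.k1 * D.q) hp0 hk0'
    (U half * star (U 0)) h.1 h.2
  refine ⟨Φ₀, hΦ₀l, fun g hg y hy => ?_⟩
  have h0 : (D.conn ℂ g : MPath ℂ (Ix D.p' D.q')) 0 =
      bd ℂ D.e0 fun j => (g : MPath ℂ (Ix D.p D.q)) (D.lam j 0) := by
    rw [Data.conn_apply, D.V_spec.2.2.1, map_one, star_one, one_mul, mul_one]
  rw [h0]
  refine hΦ₀ ((g : MPath ℂ (Ix D.p D.q)) 0) _ η hη g.2.1 (fun j hj => ?_) (fun j hj => ?_) y hy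
  · rw [← D.r0_eq] at hj
    simpa [lam_zero, hj] using hη
  · rw [← D.r0_eq] at hj
    rw [lam_zero, if_neg (not_lt.mpr hj)]
    exact turn_near D hU1 hU2 (hG g hg) half 0

/-- The commutant at the right end. -/
theorem exists_right_hom (G : Set (Blk ℂ D.p D.q)) {η : ℝ} (hη : 0 ≤ η)
    (U : MPath ℂ (Ix D.p D.q)) (hU1 : star U * U = 1) (hU2 : U * star U = 1)
    (hG : ∀ g ∈ G, ∀ t s : unitInterval,
      ‖star (U t) * (g : MPath ℂ (Ix D.p D.q)) t * U t
        - star (U s) * (g : MPath ℂ (Ix D.p D.q)) s * U s‖ ≤ η) :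
    ∃ Φ₁ : Mat (Fin (D.k1 % D.p + D.k1 / D.p * D.p)) →⋆ₐ[ℂ] Mat (Ix D.p' D.q'),
      (∀ y, IsRight (Φ₁ y)) ∧ ∀ g ∈ G, ∀ y, ‖y‖ ≤ 1 →
        ‖Φ₁ y * (D.conn ℂ g : MPath ℂ (Ix D.p' D.q')) 1 -
          (D.conn ℂ g : MPath ℂ (Ix D.p' D.q')) 1 * Φ₁ y‖ ≤ 2 * η := by
  classical
  have hp1 : D.k1 * D.q = D.k1 % D.p * D.q + D.k1 / D.p * (D.q * D.p) := by
    have := Nat.mod_add_div D.k1 D.p
    calc D.k1 * D.q = (D.k1 % D.p + D.p * (D.k1 / D.p)) * D.q := by rw [this]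
      _ = _ := by ring
  have hk1' : D.k = D.k1 % D.p * D.k0 + D.k1 / D.p * D.p' := by
    have := Nat.mod_add_div D.k1 D.p
    calc D.k0 * D.k1 = D.k0 * (D.k1 % D.p + D.p * (D.k1 / D.p)) := by rw [this]
      _ = _ := by ring
  let sw : Mat (Ix D.p D.q) →⋆ₐ[ℂ] Mat (Ix D.q D.p) := rx (Equiv.prodComm _ _)
  let SW : Mat (Ix D.q' D.p') →⋆ₐ[ℂ] Mat (Ix D.p' D.q') := rx (Equiv.prodComm _ _)
  have h := turn_unit D U hU1 hU2 half 1
  have hs : star (sw (U half * star (U 1))) * sw (U half * star (U 1)) = 1 ∧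
      sw (U half * star (U 1)) * star (sw (U half * star (U 1))) = 1 := by
    rw [← map_star sw, ← map_mul sw, ← map_mul sw, h.1, h.2, map_one]
    exact ⟨rfl, rfl⟩
  obtain ⟨Φ₁, hΦ₁l, hΦ₁⟩ := exists_end_hom (rfl : D.p' = D.k0 * D.p) hp1 hk1'
    (sw (U half * star (U 1))) hs.1 hs.2
  refine ⟨SW.comp Φ₁, fun y => ?_, fun g hg y hy => ?_⟩
  · obtain ⟨a, ha⟩ := hΦ₁l y
    refine ⟨a, fun x z => ?_⟩
    simp only [StarAlgHom.comp_apply, SW, rx_apply]
    exact ha _ _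
  have hle := D.r_add_le
  have h1 : (D.conn ℂ g : MPath ℂ (Ix D.p' D.q')) 1 =
      SW (bd ℂ (splitEquiv (rfl : D.p' = D.k0 * D.p) hp1 hk1')
        fun j => sw ((g : MPath ℂ (Ix D.p D.q)) (D.lam (Fin.rev j) 1))) := by
    refine CStarMatrix.ext fun x z => ?_
    rw [Data.conn_apply, D.V_spec.2.2.2, sc_conj_perm, bd_apply]
    simp only [SW, sw, rx_apply, bd_apply, Equiv.trans_apply, Equiv.apply_symm_apply]
    simp [Data.e1, Fin.revPerm]
    rfl
  have hsa : IsLeft (sw ((g : MPath ℂ (Ix D.p D.q)) 1)) := by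
    obtain ⟨b, hb⟩ := g.2.2
    exact ⟨b, fun x z => by simp only [sw, rx_apply]; exact hb _ _⟩
  have key := hΦ₁ (sw ((g : MPath ℂ (Ix D.p D.q)) 1))
    (fun j => sw ((g : MPath ℂ (Ix D.p D.q)) (D.lam (Fin.rev j) 1))) η hη hsa
    (fun j hj => by
      rw [← D.r1_eq] at hj
      rw [lam_one, if_pos (by rw [Fin.val_rev]; omega)]
      simpa using hη)
    (fun j hj => by
      rw [← D.r1_eq] at hj
      rw [lam_one, if_neg (by rw [Fin.val_rev]; omega)]
      simp only [← map_star sw, ← map_mul sw, ← map_sub]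
      exact (NonUnitalStarAlgHom.norm_apply_le sw _).trans (turn_near D hU1 hU2 (hG g hg) half 1))
    y hy
  rw [h1, StarAlgHom.comp_apply, ← map_mul SW, ← map_mul SW, ← map_sub]
  exact (NonUnitalStarAlgHom.norm_apply_le SW _).trans key

/-- The block diagonal part of one step applied to the turning unitaries. -/
def turn (U : MPath ℂ (Ix D.p D.q)) (t : unitInterval) : Mat (Ix D.p' D.q') :=
  D.VA ℂ t * bd ℂ D.e0 fun j => U (D.lam j t) * star (U 0)

theorem continuous_turn (U : MPath ℂ (Ix D.p D.q)) : Continuous (turn D U) :=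
  (D.VA ℂ).continuous.mul ((map_continuous (bd ℂ D.e0)).comp
    (continuous_pi fun j => (U.continuous.comp (D.lam j).continuous).mul continuous_const))

theorem turn_unitary {U : MPath ℂ (Ix D.p D.q)} (hU1 : star U * U = 1) (hU2 : U * star U = 1)
    (t : unitInterval) : star (turn D U t) * turn D U t = 1 ∧
      turn D U t * star (turn D U t) = 1 := by
  have v1 : star (D.VA ℂ t) * D.VA ℂ t = 1 := DFunLike.congr_fun (D.VA_unit ℂ).1 t
  have v2 : D.VA ℂ t * star (D.VA ℂ t) = 1 := DFunLike.congr_fun (D.VA_unit ℂ).2 t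
  let f : Fin D.k → Mat (Ix D.p D.q) := fun j => U (D.lam j t) * star (U 0)
  have f1 : star f * f = 1 := funext fun j => (turn_unit D U hU1 hU2 (D.lam j t) 0).1
  have f2 : f * star f = 1 := funext fun j => (turn_unit D U hU1 hU2 (D.lam j t) 0).2
  set b := bd ℂ D.e0
  constructor
  · show star (D.VA ℂ t * b f) * (D.VA ℂ t * b f) = 1
    rw [star_mul, mul_assoc, ← mul_assoc (star (D.VA ℂ t)), v1, one_mul, ← map_star b,
      ← map_mul b, f1, map_one]
  · show D.VA ℂ t * b f * star (D.VA ℂ t * b f) = 1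
    rw [star_mul, mul_assoc, ← mul_assoc (b f), ← map_star b, ← map_mul b, f2, map_one,
      one_mul, v2]

theorem turn_step {U : MPath ℂ (Ix D.p D.q)} {η : ℝ} (hη : 0 ≤ η) (hU1 : star U * U = 1)
    (hU2 : U * star U = 1) {g : Blk ℂ D.p D.q} (hg : ∀ t s : unitInterval,
      ‖star (U t) * (g : MPath ℂ (Ix D.p D.q)) t * U t
        - star (U s) * (g : MPath ℂ (Ix D.p D.q)) s * U s‖ ≤ η) (t : unitInterval) :
    ‖(D.conn ℂ g : MPath ℂ (Ix D.p' D.q')) t -
      turn D U t * (bd ℂ D.e0 fun _ => (g : MPath ℂ (Ix D.p D.q)) 0) * star (turn D U t)‖ ≤ η := by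
  let f : Fin D.k → Mat (Ix D.p D.q) := fun j => U (D.lam j t) * star (U 0)
  let a : Fin D.k → Mat (Ix D.p D.q) := fun j => (g : MPath ℂ (Ix D.p D.q)) (D.lam j t)
  let c : Fin D.k → Mat (Ix D.p D.q) := fun _ => (g : MPath ℂ (Ix D.p D.q)) 0
  set b := bd ℂ D.e0
  set v := D.VA ℂ t with hv
  have v1 : star v * v = 1 := DFunLike.congr_fun (D.VA_unit ℂ).1 t
  have v2 : v * star v = 1 := DFunLike.congr_fun (D.VA_unit ℂ).2 t
  show ‖v * b a * star v - v * b f * b c * star (v * b f)‖ ≤ η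
  have e : v * b a * star v - v * b f * b c * star (v * b f) =
      v * b (a - f * c * star f) * star v := by
    rw [map_sub, map_mul, map_mul, map_star, mul_sub, sub_mul, star_mul]
    simp only [mul_assoc]
  rw [e, CStarRing.norm_mul_mem_unitary _ (Unitary.star_mem (Unitary.mem_iff.2 ⟨v1, v2⟩)),
    CStarRing.norm_mem_unitary_mul _ (Unitary.mem_iff.2 ⟨v1, v2⟩)]
  exact norm_bd_le _ hη fun j => turn_near D hU1 hU2 hg (D.lam j t) 0

/-- The commutant along the path. -/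
theorem exists_mid_hom (G : Set (Blk ℂ D.p D.q)) {η : ℝ} (hη : 0 ≤ η)
    (U : MPath ℂ (Ix D.p D.q)) (hU1 : star U * U = 1) (hU2 : U * star U = 1)
    (hG : ∀ g ∈ G, ∀ t s : unitInterval,
      ‖star (U t) * (g : MPath ℂ (Ix D.p D.q)) t * U t
        - star (U s) * (g : MPath ℂ (Ix D.p D.q)) s * U s‖ ≤ η) :
    ∃ Φ : unitInterval → (Mat (Fin D.k) →⋆ₐ[ℂ] Mat (Ix D.p' D.q')),
      (∀ y, Continuous fun t => Φ t y) ∧ ∀ g ∈ G, ∀ y, ‖y‖ ≤ 1 → ∀ t,
        ‖Φ t y * (D.conn ℂ g : MPath ℂ (Ix D.p' D.q')) t -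
          (D.conn ℂ g : MPath ℂ (Ix D.p' D.q')) t * Φ t y‖ ≤ 2 * η := by
  classical
  have hz1 := fun t => (turn_unitary D hU1 hU2 t).1
  have hz2 := fun t => (turn_unitary D hU1 hU2 t).2
  let Φ : unitInterval → (Mat (Fin D.k) →⋆ₐ[ℂ] Mat (Ix D.p' D.q')) := fun t =>
    { toFun := fun y => turn D U t * amp D.e0 y * star (turn D U t)
      map_one' := by rw [map_one, mul_one, hz2]
      map_mul' := fun y z => by
        rw [map_mul]
        calc turn D U t * (amp D.e0 y * amp D.e0 z) * star (turn D U t)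
            = turn D U t * amp D.e0 y * (star (turn D U t) * turn D U t) *
                (amp D.e0 z * star (turn D U t)) := by
              rw [hz1, mul_one]; simp only [mul_assoc]
          _ = _ := by simp only [mul_assoc]
      map_zero' := by rw [map_zero, mul_zero, zero_mul]
      map_add' := fun y z => by rw [map_add, mul_add, add_mul]
      commutes' := fun r => by rw [AlgHomClass.commutes, ← Algebra.commutes, mul_assoc, hz2, mul_one]
      map_star' := fun y => by rw [map_star, star_mul, star_mul, star_star, mul_assoc] }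
  refine ⟨Φ, fun y => ((continuous_turn D U).mul continuous_const).mul
    (continuous_star.comp (continuous_turn D U)), fun g hg y hy t => ?_⟩
  refine norm_comm_le (c := bd ℂ D.e0 fun _ => (g : MPath ℂ (Ix D.p D.q)) 0) (hz1 t) (hz2 t)
    (commute_amp_bd D.e0 y _) ?_ ((NonUnitalStarAlgHom.norm_apply_le (amp D.e0) y).trans hy)
  exact turn_step D hη hU1 hU2 (hG g hg) t

/-- The piece supported where the weight does not vanish. -/
def wt (D : Data) (ρ : C(unitInterval, ℝ)) (M : MPath ℂ (Ix D.p' D.q')) :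
    MPath ℂ (Ix D.p' D.q') :=
  ⟨fun t => ((Real.sqrt (ρ t) : ℂ)) • M t,
    (Complex.continuous_ofReal.comp (Real.continuous_sqrt.comp ρ.continuous)).smul M.continuous⟩

theorem sqrt_smul {c : ℝ} (hc : 0 ≤ c) (a b : Mat (Ix D.p' D.q')) :
    star ((Real.sqrt c : ℂ) • a) * ((Real.sqrt c : ℂ) • b) = (c : ℂ) • (star a * b) ∧
    ((Real.sqrt c : ℂ) • a) * star ((Real.sqrt c : ℂ) • b) = (c : ℂ) • (a * star b) ∧
    ((Real.sqrt c : ℂ) • a) * ((Real.sqrt c : ℂ) • b) = (c : ℂ) • (a * b) := by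
  simp only [star_smul, smul_mul_smul_comm, Complex.star_def, Complex.conj_ofReal,
    ← Complex.ofReal_mul, Real.mul_self_sqrt hc, and_self]

/-- A weighted piece is small and almost commutes. -/
theorem small_piece {r : C(unitInterval, ℝ)} {M : MPath ℂ (Ix D.p' D.q')} {η : ℝ} (hη : 0 ≤ η)
    (hr : ∀ t, 0 ≤ r t ∧ r t ≤ 1) {g : Blk ℂ D.p' D.q'}
    (hc : ∀ t, r t ≠ 0 → ‖M t * (g : MPath ℂ (Ix D.p' D.q')) t -
      (g : MPath ℂ (Ix D.p' D.q')) t * M t‖ ≤ η)
    (x : Blk ℂ D.p' D.q') (hx : (x : MPath ℂ (Ix D.p' D.q')) = wt D r M) :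
    ‖x * g - g * x‖ ≤ η := by
  have hs : ∀ t, ‖(Real.sqrt (r t) : ℂ)‖ ≤ 1 := fun t => by
    rw [Complex.norm_real, Real.norm_of_nonneg (Real.sqrt_nonneg _)]
    exact Real.sqrt_le_one.mpr (hr t).2
  refine (ContinuousMap.norm_le _ hη).2 fun t => ?_
  show ‖(x : MPath ℂ (Ix D.p' D.q')) t * (g : MPath ℂ (Ix D.p' D.q')) t -
    (g : MPath ℂ (Ix D.p' D.q')) t * (x : MPath ℂ (Ix D.p' D.q')) t‖ ≤ _
  rw [hx]
  show ‖((Real.sqrt (r t) : ℂ) • M t) * (g : MPath ℂ (Ix D.p' D.q')) t -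
    (g : MPath ℂ (Ix D.p' D.q')) t * ((Real.sqrt (r t) : ℂ) • M t)‖ ≤ _
  rw [smul_mul_assoc, mul_smul_comm, ← smul_sub, norm_smul]
  rcases eq_or_ne (r t) 0 with h | h
  · simp [h, hη]
  · exact (mul_le_mul (hs t) (hc t h) (norm_nonneg _) zero_le_one).trans_eq (one_mul _)

theorem norm_piece {r : C(unitInterval, ℝ)} {M : MPath ℂ (Ix D.p' D.q')}
    (hr : ∀ t, 0 ≤ r t ∧ r t ≤ 1) (hM : ∀ t, ‖M t‖ ≤ 1)
    (x : Blk ℂ D.p' D.q') (hx : (x : MPath ℂ (Ix D.p' D.q')) = wt D r M) : ‖x‖ ≤ 1 := by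
  refine (ContinuousMap.norm_le _ zero_le_one).2 fun t => ?_
  show ‖(x : MPath ℂ (Ix D.p' D.q')) t‖ ≤ 1
  rw [hx]
  show ‖(Real.sqrt (r t) : ℂ) • M t‖ ≤ 1
  rw [norm_smul]
  refine mul_le_one₀ ?_ (norm_nonneg _) (hM t)
  rw [Complex.norm_real, Real.norm_of_nonneg (Real.sqrt_nonneg _)]
  exact Real.sqrt_le_one.mpr (hr t).2

theorem sq_piece {r : C(unitInterval, ℝ)} {M : MPath ℂ (Ix D.p' D.q')}
    (hr : ∀ t, 0 ≤ r t ∧ r t ≤ 1) (hM : ∀ t, ‖M t‖ ≤ 1) (hMM : ∀ t, M t * M t = 0)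
    (x : Blk ℂ D.p' D.q') (hx : (x : MPath ℂ (Ix D.p' D.q')) = wt D r M) :
    ‖x‖ ≤ 1 ∧ x * x = 0 := by
  refine ⟨norm_piece D hr hM x hx, Subtype.ext ?_⟩
  refine ContinuousMap.ext fun t => ?_
  show (x : MPath ℂ (Ix D.p' D.q')) t * (x : MPath ℂ (Ix D.p' D.q')) t = 0
  rw [hx]
  show ((Real.sqrt (r t) : ℂ) • M t) * ((Real.sqrt (r t) : ℂ) • M t) = 0
  rw [(sqrt_smul D (hr t).1 _ _).2.2, hMM, smul_zero]

/-- Moving along a short interval. -/
theorem near_comm {R : Type*} [CStarAlgebra R] {X a b : R} {η : ℝ} (hX : ‖X‖ ≤ 1)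
    (h2 : ‖X * b - b * X‖ ≤ 2 * η) (h3 : ‖a - b‖ ≤ η) : ‖X * a - a * X‖ ≤ 4 * η := by
  have e : X * a - a * X = (X * b - b * X) + (X * (a - b) - (a - b) * X) := by noncomm_ring
  rw [e]
  refine (norm_add_le _ _).trans ?_
  have h4 : ‖X * (a - b) - (a - b) * X‖ ≤ 2 * η := by
    refine (norm_sub_le _ _).trans ((add_le_add (norm_mul_le _ _) (norm_mul_le _ _)).trans ?_)
    nlinarith [norm_nonneg X, norm_nonneg (a - b)]
  linarith

/-- Three weights: near the left end, near the right end, in between. -/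
theorem exists_weights (G : Finset (Blk ℂ D.p' D.q')) {η : ℝ} (hη : 0 < η) :
    ∃ ρ : Fin 3 → C(unitInterval, ℝ), (∀ i t, 0 ≤ ρ i t ∧ ρ i t ≤ 1) ∧
      (∀ t, ρ 0 t + ρ 1 t + ρ 2 t = 1) ∧
      (ρ 0 0 = 1 ∧ ρ 0 1 = 0) ∧ (ρ 1 0 = 0 ∧ ρ 1 1 = 0) ∧ (ρ 2 0 = 0 ∧ ρ 2 1 = 1) ∧
      (∀ g ∈ G, ∀ t, ρ 0 t ≠ 0 →
        ‖(g : MPath ℂ (Ix D.p' D.q')) t - (g : MPath ℂ (Ix D.p' D.q')) 0‖ ≤ η) ∧
      ∀ g ∈ G, ∀ t, ρ 2 t ≠ 0 →
        ‖(g : MPath ℂ (Ix D.p' D.q')) t - (g : MPath ℂ (Ix D.p' D.q')) 1‖ ≤ η := by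
  classical
  obtain ⟨δ, hδ, hδ2, hcont⟩ : ∃ δ : ℝ, 0 < δ ∧ δ ≤ 1 / 2 ∧ ∀ g ∈ G, ∀ t s : unitInterval,
      dist t s ≤ δ → ‖(g : MPath ℂ (Ix D.p' D.q')) t -
        (g : MPath ℂ (Ix D.p' D.q')) s‖ ≤ η := by
    induction G using Finset.induction_on with
    | empty => exact ⟨1 / 2, by norm_num, le_rfl, by simp⟩
    | insert g G _ ih =>
      obtain ⟨δ, hδ, hδ2, h⟩ := ih
      obtain ⟨δ', hδ', h'⟩ := Metric.uniformContinuous_iff.mp
        (CompactSpace.uniformContinuous_of_continuous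
          (g : MPath ℂ (Ix D.p' D.q')).continuous) η hη
      refine ⟨min δ (δ' / 2), by positivity, (min_le_left _ _).trans hδ2, fun x hx t s hts => ?_⟩
      rcases Finset.mem_insert.1 hx with rfl | hx
      · have := h' (lt_of_le_of_lt (hts.trans (min_le_right _ _)) (by linarith))
        rw [dist_eq_norm] at this
        exact this.le
      · exact h x hx t s (hts.trans (min_le_left _ _))
  let ρ₀ : C(unitInterval, ℝ) := ⟨fun t => max 0 (1 - (t : ℝ) / δ), by fun_prop⟩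
  let ρ₁ : C(unitInterval, ℝ) := ⟨fun t => max 0 (1 - (1 - (t : ℝ)) / δ), by fun_prop⟩
  have hρ0 : ∀ t : unitInterval, 0 ≤ ρ₀ t ∧ ρ₀ t ≤ 1 ∧ (ρ₀ t ≠ 0 → (t : ℝ) ≤ δ) := fun t => by
    have ht : 0 ≤ (t : ℝ) / δ := div_nonneg t.2.1 hδ.le
    refine ⟨le_max_left _ _, max_le zero_le_one (by linarith), fun h => ?_⟩
    by_contra h'
    have : 1 ≤ (t : ℝ) / δ := by rw [le_div_iff₀ hδ]; linarith
    exact h (max_eq_left (by linarith))
  have hρ1 : ∀ t : unitInterval, 0 ≤ ρ₁ t ∧ ρ₁ t ≤ 1 ∧ (ρ₁ t ≠ 0 → 1 - (t : ℝ) ≤ δ) := fun t => by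
    have ht : 0 ≤ (1 - (t : ℝ)) / δ := div_nonneg (by linarith [t.2.2]) hδ.le
    refine ⟨le_max_left _ _, max_le zero_le_one (by linarith), fun h => ?_⟩
    by_contra h'
    have : 1 ≤ (1 - (t : ℝ)) / δ := by rw [le_div_iff₀ hδ]; linarith
    exact h (max_eq_left (by linarith))
  have key : ∀ t, ρ₀ t + ρ₁ t ≤ 1 := fun t => by
    rcases eq_or_ne (ρ₀ t) 0 with a | a
    · linarith [(hρ1 t).2.1]
    rcases eq_or_ne (ρ₁ t) 0 with b | b
    · linarith [(hρ0 t).2.1]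
    have a' : 0 < ρ₀ t := lt_of_le_of_ne (hρ0 t).1 (Ne.symm a)
    have b' : 0 < ρ₁ t := lt_of_le_of_ne (hρ1 t).1 (Ne.symm b)
    simp only [ρ₀, ρ₁, ContinuousMap.coe_mk, lt_max_iff, lt_irrefl, false_or] at a' b'
    simp only [ρ₀, ρ₁, ContinuousMap.coe_mk, max_eq_right a'.le, max_eq_right b'.le]
    have : 2 ≤ 1 / δ := by rw [le_div_iff₀ hδ]; linarith
    have e : (t : ℝ) / δ + (1 - (t : ℝ)) / δ = 1 / δ := by ring
    linarith
  have e00 : ρ₀ (0 : unitInterval) = 1 := by simp [ρ₀]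
  have e11 : ρ₁ (1 : unitInterval) = 1 := by simp [ρ₁]
  have e10 : ρ₁ (0 : unitInterval) = 0 := le_antisymm (by linarith [key 0]) (hρ1 0).1
  have e01 : ρ₀ (1 : unitInterval) = 0 := le_antisymm (by linarith [key 1]) (hρ0 1).1
  refine ⟨![ρ₀, 1 - ρ₀ - ρ₁, ρ₁], fun i t => ?_, fun t => ?_, ⟨e00, e01⟩, ?_, ⟨e10, e11⟩,
    fun g hg t ht => hcont g hg t 0 ?_, fun g hg t ht => hcont g hg t 1 ?_⟩
  · fin_cases i
    · exact ⟨(hρ0 t).1, (hρ0 t).2.1⟩
    · show 0 ≤ (1 : ℝ) - ρ₀ t - ρ₁ t ∧ (1 : ℝ) - ρ₀ t - ρ₁ t ≤ 1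
      exact ⟨by linarith [key t], by linarith [(hρ0 t).1, (hρ1 t).1]⟩
    · exact ⟨(hρ1 t).1, (hρ1 t).2.1⟩
  · show ρ₀ t + ((1 : ℝ) - ρ₀ t - ρ₁ t) + ρ₁ t = 1
    ring
  · show (1 : ℝ) - ρ₀ 0 - ρ₁ 0 = 0 ∧ (1 : ℝ) - ρ₀ 1 - ρ₁ 1 = 0
    rw [e00, e01, e10, e11]; norm_num
  · rw [Subtype.dist_eq, Real.dist_eq, Set.Icc.coe_zero, sub_zero, abs_of_nonneg t.2.1]
    exact (hρ0 t).2.2 ht
  · rw [Subtype.dist_eq, Real.dist_eq, Set.Icc.coe_one, abs_sub_comm,
      abs_of_nonneg (by linarith [t.2.2])]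
    exact (hρ1 t).2.2 ht

/-- The algebra of the covering: three convex pieces. -/
theorem cover_sum {c₀ c₁ c₂ : ℝ} (h0 : 0 ≤ c₀) (h1 : 0 ≤ c₁) (h2 : 0 ≤ c₂)
    (hs : c₀ + c₁ + c₂ = 1) (a a' b b' c c' x y z : Mat (Ix D.p' D.q'))
    (ha : star a * a + a * star a + (star a' * a' + a' * star a') = 1 + star x * x)
    (hb : star b * b + b * star b + (star b' * b' + b' * star b') = 1 + star y * y)
    (hc : star c * c + c * star c + (star c' * c' + c' * star c') = 1 + star z * z) :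
    let s := fun (r : ℝ) (m : Mat (Ix D.p' D.q')) => (Real.sqrt r : ℂ) • m
    (star (s c₀ a) * s c₀ a + s c₀ a * star (s c₀ a)) +
      (star (s c₀ a') * s c₀ a' + s c₀ a' * star (s c₀ a')) +
      (star (s c₁ b) * s c₁ b + s c₁ b * star (s c₁ b)) +
      (star (s c₁ b') * s c₁ b' + s c₁ b' * star (s c₁ b')) +
      (star (s c₂ c) * s c₂ c + s c₂ c * star (s c₂ c)) +
      (star (s c₂ c') * s c₂ c' + s c₂ c' * star (s c₂ c')) =
      1 + (star (s c₀ x) * s c₀ x + star (s c₁ y) * s c₁ y + star (s c₂ z) * s c₂ z) := by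
  intro s
  simp only [s, (sqrt_smul D h0 _ _).1, (sqrt_smul D h0 _ _).2.1, (sqrt_smul D h1 _ _).1,
    (sqrt_smul D h1 _ _).2.1, (sqrt_smul D h2 _ _).1, (sqrt_smul D h2 _ _).2.1, ← smul_add]
  have hC : ((c₀ : ℂ) + c₁ + c₂) = 1 := by exact_mod_cast hs
  calc _ = (c₀ : ℂ) • (star a * a + a * star a + (star a' * a' + a' * star a')) +
        (c₁ : ℂ) • (star b * b + b * star b + (star b' * b' + b' * star b')) +
        (c₂ : ℂ) • (star c * c + c * star c + (star c' * c' + c' * star c')) := by module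
    _ = ((c₀ : ℂ) + c₁ + c₂) • (1 : Mat (Ix D.p' D.q')) + ((c₀ : ℂ) • (star x * x) +
        (c₁ : ℂ) • (star y * y) + (c₂ : ℂ) • (star z * z)) := by rw [ha, hb, hc]; module
    _ = _ := by rw [hC, one_smul]

theorem cover_image {n : ℕ} (hn : 2 ≤ n) (Φ : Mat (Fin n) →⋆ₐ[ℂ] Mat (Ix D.p' D.q')) :
    star (Φ (shift n 0)) * Φ (shift n 0) + Φ (shift n 0) * star (Φ (shift n 0)) +
      (star (Φ (shift n 1)) * Φ (shift n 1) + Φ (shift n 1) * star (Φ (shift n 1))) =
      1 + star (Φ (inner n)) * Φ (inner n) := by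
  have := congrArg Φ (shift_cover hn)
  simpa only [map_add, map_mul, map_star, map_one] using this

theorem shift_image {n : ℕ} (Φ : Mat (Fin n) →⋆ₐ[ℂ] Mat (Ix D.p' D.q')) (e : ℕ) :
    ‖Φ (shift n e)‖ ≤ 1 ∧ Φ (shift n e) * Φ (shift n e) = 0 :=
  ⟨(NonUnitalStarAlgHom.norm_apply_le Φ _).trans (norm_shift _ _),
    by rw [← map_mul, shift_sq, map_zero]⟩

theorem norm_inner (n : ℕ) : ‖inner n‖ ≤ 1 :=
  norm_le_one_of_proj (dia_mul_self n fun i : Fin n => 1 ≤ (i : ℕ) ∧ (i : ℕ) + 1 < n).1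
    (dia_mul_self n fun i : Fin n => 1 ≤ (i : ℕ) ∧ (i : ℕ) + 1 < n).2

theorem inner_image {n : ℕ} (Φ : Mat (Fin n) →⋆ₐ[ℂ] Mat (Ix D.p' D.q')) : ‖Φ (inner n)‖ ≤ 1 :=
  (NonUnitalStarAlgHom.norm_apply_le Φ _).trans (norm_inner n)

theorem exists_block {r : C(unitInterval, ℝ)} {M : MPath ℂ (Ix D.p' D.q')}
    (hl : r 0 = 0 ∨ (r 0 = 1 ∧ IsLeft (M 0))) (hr : r 1 = 0 ∨ (r 1 = 1 ∧ IsRight (M 1))) :
    ∃ x : Blk ℂ D.p' D.q', (x : MPath ℂ (Ix D.p' D.q')) = wt D r M := by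
  refine ⟨⟨wt D r M, mem_blk.2 ⟨?_, ?_⟩⟩, rfl⟩
  · show IsLeft ((Real.sqrt (r 0) : ℂ) • M 0)
    rcases hl with h | ⟨h, h'⟩
    · exact ⟨0, fun x y => by simp [h]⟩
    · simpa [h] using h'
  · show IsRight ((Real.sqrt (r 1) : ℂ) • M 1)
    rcases hr with h | ⟨h, h'⟩
    · exact ⟨0, fun x y => by simp [h]⟩
    · simpa [h] using h'

theorem exists_pieces (G : Finset (Blk ℂ D.p D.q)) {η : ℝ} (hη : 0 < η)
    (U : MPath ℂ (Ix D.p D.q)) (hU1 : star U * U = 1) (hU2 : U * star U = 1)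
    (hG : ∀ g ∈ G, ∀ t s : unitInterval,
      ‖star (U t) * (g : MPath ℂ (Ix D.p D.q)) t * U t
        - star (U s) * (g : MPath ℂ (Ix D.p D.q)) s * U s‖ ≤ η) :
    ∃ (ρ : Fin 3 → C(unitInterval, ℝ)) (M : Fin 3 → ℕ → MPath ℂ (Ix D.p' D.q'))
      (Z : Fin 3 → MPath ℂ (Ix D.p' D.q')),
      (∀ i t, 0 ≤ ρ i t ∧ ρ i t ≤ 1) ∧ (∀ t, ρ 0 t + ρ 1 t + ρ 2 t = 1) ∧
      (∀ i e, (∀ t, ‖M i e t‖ ≤ 1 ∧ M i e t * M i e t = 0) ∧ ∀ g ∈ G, ∀ t, ρ i t ≠ 0 →
        ‖M i e t * (D.conn ℂ g : MPath ℂ (Ix D.p' D.q')) t -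
          (D.conn ℂ g : MPath ℂ (Ix D.p' D.q')) t * M i e t‖ ≤ 4 * η) ∧
      (∀ i e, ∃ x : Blk ℂ D.p' D.q', (x : MPath ℂ (Ix D.p' D.q')) = wt D (ρ i) (M i e)) ∧
      (∀ i, (∀ t, ‖Z i t‖ ≤ 1) ∧ ∀ g ∈ G, ∀ t, ρ i t ≠ 0 →
        ‖Z i t * (D.conn ℂ g : MPath ℂ (Ix D.p' D.q')) t -
          (D.conn ℂ g : MPath ℂ (Ix D.p' D.q')) t * Z i t‖ ≤ 4 * η) ∧
      (∀ i, ∃ x : Blk ℂ D.p' D.q', (x : MPath ℂ (Ix D.p' D.q')) = wt D (ρ i) (Z i)) ∧
      ∀ i t, star (M i 0 t) * M i 0 t + M i 0 t * star (M i 0 t) +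
        (star (M i 1 t) * M i 1 t + M i 1 t * star (M i 1 t)) =
          1 + star (Z i t) * Z i t := by
  classical
  obtain ⟨Φ₀, hl, h0⟩ := exists_left_hom D (G : Set (Blk ℂ D.p D.q)) hη.le U hU1 hU2 hG
  obtain ⟨Φ₁, hr, h1⟩ := exists_right_hom D (G : Set (Blk ℂ D.p D.q)) hη.le U hU1 hU2 hG
  obtain ⟨Φ, hΦ, hm⟩ := exists_mid_hom D (G : Set (Blk ℂ D.p D.q)) hη.le U hU1 hU2 hG
  obtain ⟨ρ, hρ, hρs, hρ0, hρm, hρ1, hc0, hc1⟩ := exists_weights D (G.image (D.conn ℂ)) hη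
  refine ⟨ρ, fun i e => ![ContinuousMap.const _ (Φ₀ (shift _ e)), ⟨_, hΦ (shift _ e)⟩,
      ContinuousMap.const _ (Φ₁ (shift _ e))] i,
    ![ContinuousMap.const _ (Φ₀ (inner _)), ⟨_, hΦ (inner _)⟩,
      ContinuousMap.const _ (Φ₁ (inner _))], hρ, hρs, fun i e => ?_, fun i e => ?_, fun i => ?_, fun i => ?_,
    fun i t => ?_⟩
  · fin_cases i
    · exact ⟨fun _ => shift_image D Φ₀ e, fun g hg t ht => near_comm (shift_image D Φ₀ e).1
        (h0 g hg _ (norm_shift _ _)) (hc0 _ (Finset.mem_image_of_mem _ hg) t ht)⟩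
    · exact ⟨fun t => shift_image D (Φ t) e, fun g hg t _ =>
        (hm g hg _ (norm_shift _ _) t).trans (by linarith)⟩
    · exact ⟨fun _ => shift_image D Φ₁ e, fun g hg t ht => near_comm (shift_image D Φ₁ e).1
        (h1 g hg _ (norm_shift _ _)) (hc1 _ (Finset.mem_image_of_mem _ hg) t ht)⟩
  · fin_cases i
    · exact exists_block D (.inr ⟨hρ0.1, hl _⟩) (.inl hρ0.2)
    · exact exists_block D (.inl hρm.1) (.inl hρm.2)
    · exact exists_block D (.inl hρ1.1) (.inr ⟨hρ1.2, hr _⟩)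
  · fin_cases i
    · exact ⟨fun _ => inner_image D Φ₀, fun g hg t ht => near_comm (inner_image D Φ₀)
        (h0 g hg _ (norm_inner _)) (hc0 _ (Finset.mem_image_of_mem _ hg) t ht)⟩
    · exact ⟨fun t => inner_image D (Φ t), fun g hg t _ =>
        (hm g hg _ (norm_inner _) t).trans (by linarith)⟩
    · exact ⟨fun _ => inner_image D Φ₁, fun g hg t ht => near_comm (inner_image D Φ₁)
        (h1 g hg _ (norm_inner _)) (hc1 _ (Finset.mem_image_of_mem _ hg) t ht)⟩
  · fin_cases i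
    · exact exists_block D (.inr ⟨hρ0.1, hl _⟩) (.inl hρ0.2)
    · exact exists_block D (.inl hρm.1) (.inl hρm.2)
    · exact exists_block D (.inl hρ1.1) (.inr ⟨hρ1.2, hr _⟩)
  · fin_cases i
    · exact cover_image D (two_le_left D) Φ₀
    · exact cover_image D (two_le_k D) (Φ t)
    · exact cover_image D (two_le_right D) Φ₁

/-- One step: six elements of square zero, almost commuting with the images. -/
theorem exists_step_nilpotents (G : Finset (Blk ℂ D.p D.q)) {η : ℝ} (hη : 0 < η)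
    (U : MPath ℂ (Ix D.p D.q)) (hU1 : star U * U = 1) (hU2 : U * star U = 1)
    (hG : ∀ g ∈ G, ∀ t s : unitInterval,
      ‖star (U t) * (g : MPath ℂ (Ix D.p D.q)) t * U t
        - star (U s) * (g : MPath ℂ (Ix D.p D.q)) s * U s‖ ≤ η) :
    ∃ (q : Fin 6 → Blk ℂ D.p' D.q') (z : Fin 3 → Blk ℂ D.p' D.q'),
      (∀ i, ‖q i‖ ≤ 1 ∧ q i * q i = 0 ∧ ∀ g ∈ G,
        ‖q i * D.conn ℂ g - D.conn ℂ g * q i‖ ≤ 4 * η) ∧
      (∀ i, ‖z i‖ ≤ 1 ∧ ∀ g ∈ G, ‖z i * D.conn ℂ g - D.conn ℂ g * z i‖ ≤ 4 * η) ∧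
      ∑ i, (star (q i) * q i + q i * star (q i)) = 1 + ∑ i, star (z i) * z i := by
  obtain ⟨ρ, M, Z, hρ, hρs, hM, hx, hZ, hz, hcov⟩ := exists_pieces D G hη U hU1 hU2 hG
  choose x hx using hx
  choose z hz using hz
  refine ⟨![x 0 0, x 0 1, x 1 0, x 1 1, x 2 0, x 2 1], z, ?_, fun i => ⟨norm_piece D (hρ i) (hZ i).1 _ (hz i), fun g hg =>
    small_piece D (by positivity) (hρ i) ((hZ i).2 g hg) _ (hz i)⟩, ?_⟩
  · have good : ∀ i e, ‖x i e‖ ≤ 1 ∧ x i e * x i e = 0 ∧ ∀ g ∈ G,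
        ‖x i e * D.conn ℂ g - D.conn ℂ g * x i e‖ ≤ 4 * η := fun i e => by
      have h := sq_piece D (hρ i) (fun t => ((hM i e).1 t).1) (fun t => ((hM i e).1 t).2) _ (hx i e)
      exact ⟨h.1, h.2, fun g hg => small_piece D (by positivity) (hρ i) ((hM i e).2 g hg) _ (hx i e)⟩
    intro i
    fin_cases i
    · exact good 0 0
    · exact good 0 1
    · exact good 1 0
    · exact good 1 1
    · exact good 2 0
    · exact good 2 1
  · refine Subtype.ext (ContinuousMap.ext fun t => ?_)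
    simp only [Fin.sum_univ_six, Fin.sum_univ_three, AddMemClass.coe_add, MulMemClass.coe_mul,
      StarMemClass.coe_star, OneMemClass.coe_one, Matrix.cons_val, hx, hz,
      ContinuousMap.add_apply, ContinuousMap.mul_apply, ContinuousMap.star_apply,
      ContinuousMap.one_apply]
    exact cover_sum D (hρ 0 t).1 (hρ 1 t).1 (hρ 2 t).1 (hρs t) _ _ _ _ _ _ _ _ _
      (hcov 0 t) (hcov 1 t) (hcov 2 t)

end step

/-- Far out in the system finitely many elements almost commute with six elements of square zero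
which cover the unit. -/
theorem exists_central (m : ℕ) (G : Finset (Blk ℂ (P m) (Q m))) {ε : ℝ} (hε : 0 < ε) :
    ∃ (d : ℕ) (q : Fin 6 → Blk ℂ (P (m + d)) (Q (m + d)))
      (z : Fin 3 → Blk ℂ (P (m + d)) (Q (m + d))),
      (∀ i, ‖q i‖ ≤ 1 ∧ q i * q i = 0 ∧ ∀ g ∈ G,
        ‖q i * connTo ℂ m d g - connTo ℂ m d g * q i‖ ≤ ε) ∧
      (∀ i, ‖z i‖ ≤ 1 ∧ ∀ g ∈ G, ‖z i * connTo ℂ m d g - connTo ℂ m d g * z i‖ ≤ ε) ∧
      ∑ i, (star (q i) * q i + q i * star (q i)) = 1 + ∑ i, star (z i) * z i := by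
  classical
  obtain ⟨d, U, hU1, hU2, hU3⟩ := collapse m G (η := ε / 4) (by positivity)
  obtain ⟨q, z, hq, hw, hz⟩ := exists_step_nilpotents (stepData (m + d))
    (G.image (connTo ℂ m d)) (η := ε / 4) (by positivity) U hU1 hU2 (fun g hg => by
      obtain ⟨g', hg', rfl⟩ := Finset.mem_image.1 hg
      exact hU3 g' hg')
  refine ⟨d + 1, q, z, fun i => ⟨(hq i).1, (hq i).2.1, fun g hg => ?_⟩,
    fun i => ⟨(hw i).1, fun g hg => ?_⟩, hz⟩
  · rw [connTo_succ]
    exact ((hq i).2.2 _ (Finset.mem_image_of_mem _ hg)).trans (by linarith)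
  · rw [connTo_succ]
    exact ((hw i).2 _ (Finset.mem_image_of_mem _ hg)).trans (by linarith)

end

end Vale.Agent.P095.JSCentral
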