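import Vale.Agent.P095.Elem.CertData

/-!
# P095, amenable groups: the certificate

Almost invariant absorbing leaves, built in commuting copies, give the certificate.
-/

namespace Vale.Agent.P095.Elem.CertAux

open VAgent.P101 Vale.Agent.P101 Calc Filter Topology
open scoped CStarAlgebra ComplexOrder

noncomputable section

variable {F : Type*} [CStarAlgebra F] {G : Type*} [Group G]

theorem list_prod_kill {c : F} :
    ∀ l : List F, (∀ x ∈ l, Commute c x ∨ c * x = 0) → (∃ x ∈ l, c * x = 0) → c * l.prod = 0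
  | [], _, ⟨_, hx, _⟩ => by simp at hx
  | a :: l, h, hex => by
    rw [List.prod_cons, ← mul_assoc]
    by_cases ha : c * a = 0
    · rw [ha, zero_mul]
    · obtain ⟨x, hx, h0⟩ := hex
      have hx' : x ∈ l := (List.mem_cons.1 hx).resolve_left fun e => ha (e ▸ h0)
      rw [((h a List.mem_cons_self).resolve_right ha).eq, mul_assoc,
        list_prod_kill l (fun y hy => h y (List.mem_cons_of_mem _ hy)) ⟨x, hx', h0⟩, mul_zero]

theorem list_prod_fix {c : F} : ∀ l : List F, (∀ x ∈ l, c * x = c) → c * l.prod = c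
  | [], _ => by simp
  | a :: l, h => by
    rw [List.prod_cons, ← mul_assoc, h a List.mem_cons_self,
      list_prod_fix l fun y hy => h y (List.mem_cons_of_mem _ hy)]

theorem AF_oprodF {σ : F →⋆ₐ[ℂ] F} :
    ∀ (M : ℕ) (f : ℕ → Fin M → F), (∀ l, AF σ fun n => f n l) → AF σ fun n => oprodF (f n)
  | 0, f, _ => AF.one.congr fun n => by simp [oprodF]
  | M + 1, f, h => ((h 0).mul (AF_oprodF M (fun n l => f n l.succ) fun l => h l.succ)).congr
      fun n => by simp [oprodF, List.ofFn_succ, List.prod_cons]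

/-- The comparison function. -/
def sF (t : ℝ) : ℝ := Real.sqrt (2 * e0F t)

theorem continuous_sF : Continuous sF := (continuous_const.mul continuous_e0F).sqrt

/-- The source of the comparison element. -/
def srcF (t : ℝ) : ℝ := max (zF t - 1 / 2) 0 + max (zF t - 1 / 2) 0

theorem continuous_srcF : Continuous srcF := by
  have := continuous_zF; unfold srcF; fun_prop

theorem srcF_mem (t : ℝ) : 0 ≤ srcF t ∧ srcF t ≤ 1 := by
  have := zF_mem t
  constructor
  · exact add_nonneg (le_max_right _ _) (le_max_right _ _)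
  · have h : max (zF t - 1 / 2) 0 ≤ 1 / 2 := max_le (by linarith) (by norm_num)
    unfold srcF; linarith

/-- The properties of the slots of one leaf. -/
theorem slots {y v : F} (hy : y * y = 0)
    (hv : star v * cfc e0F (star y * y) * v = cut (1 / 2) (cfc zF (diagSum y))) :
    (IsPosC (cfc qF (diagSum y)) ∧ IsPosC (cfc qpF (diagSum y)) ∧
      IsPosC (cfc eF (star y * y)) ∧ ‖cfc sF (star y * y) * v‖ ≤ 1) ∧
    cfc qpF (diagSum y) * cfc qF (diagSum y) = cfc qF (diagSum y) ∧
    cfc eF (star y * y) * cfc qpF (diagSum y) = 0 ∧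
    cfc sF (star y * y) * v * cfc qpF (diagSum y) = cfc sF (star y * y) * v ∧
    cfc eF (star y * y) * (cfc sF (star y * y) * v) = cfc sF (star y * y) * v ∧
    star (cfc sF (star y * y) * v) * (cfc sF (star y * y) * v) * cfc qF (diagSum y) =
      cfc qF (diagSum y) := by
  have hsa := isSelfAdjoint_diagSum y
  set t := cfc sF (star y * y) * v with ht
  have htt : star t * t = cfc srcF (diagSum y) := by
    have h2 : cfc sF (star y * y) * cfc sF (star y * y) =
        cfc e0F (star y * y) + cfc e0F (star y * y) := by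
      rw [← cfc_add (a := star y * y) e0F e0F continuous_e0F.continuousOn
        continuous_e0F.continuousOn]
      exact cfc_mul_fun _ continuous_sF continuous_sF fun s => by
        rw [sF, Real.mul_self_sqrt (by linarith [(e0F_mem s).1])]; ring
    calc star t * t = star v * (cfc sF (star y * y) * cfc sF (star y * y)) * v := by
          rw [ht, star_mul, (cfc_predicate _ _ : IsSelfAdjoint (cfc sF (star y * y))).star_eq]
          noncomm_ring
      _ = cut (1 / 2) (cfc zF (diagSum y)) + cut (1 / 2) (cfc zF (diagSum y)) := by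
          rw [h2, ← hv]; noncomm_ring
      _ = cfc srcF (diagSum y) := by
          rw [cut, ← cfc_comp' (fun s : ℝ => max (s - 1 / 2) 0) zF (diagSum y) (by fun_prop)
            continuous_zF.continuousOn hsa,
            ← cfc_add (a := diagSum y) _ _ ?_ ?_]
          · rfl
          all_goals exact (((continuous_zF.sub continuous_const).max continuous_const).continuousOn)
  refine ⟨⟨isPosC_cfc _ continuous_qF qF_mem, isPosC_cfc _ continuous_qpF qpF_mem,
    isPosC_cfc _ continuous_eF eF_mem, ?_⟩, qp_mul_q, e_mul_qp hy, ?_, ?_, ?_⟩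
  · have h : ‖t‖ * ‖t‖ ≤ 1 := by
      rw [← CStarRing.norm_star_mul_self, htt]
      exact norm_cfc_le zero_le_one fun s _ => by
        rw [Real.norm_eq_abs, abs_of_nonneg (srcF_mem s).1]; exact (srcF_mem s).2
    nlinarith [norm_nonneg t]
  · have h0 : t * (1 - cfc qpF (diagSum y)) = 0 := by
      rw [← CStarRing.star_mul_self_eq_zero_iff, star_mul, mul_assoc, ← mul_assoc (star t) t, htt]
      have : cfc srcF (diagSum y) * (1 - cfc qpF (diagSum y)) = 0 := by
        rw [mul_sub, mul_one, sub_eq_zero]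
        refine ((cfc_mul_fun _ continuous_srcF continuous_qpF fun s => ?_)).symm
        rcases le_total s (1 / 8) with h | h
        · rw [qpF_one h, mul_one]
        · simp [srcF, zF_zero h]
      rw [this, mul_zero]
    rw [mul_sub, mul_one, sub_eq_zero] at h0
    exact h0.symm
  · rw [ht, ← mul_assoc]
    congr 1
    exact cfc_mul_fun _ continuous_eF continuous_sF fun s => by
      rcases le_total s (1 / 2) with h | h
      · simp [sF, e0F_zero h]
      · rw [eF_one h, one_mul]
  · rw [htt]
    exact cfc_mul_fun _ continuous_srcF continuous_qF fun s => by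
      rcases le_total s (3 / 32) with h | h
      · rw [srcF, zF_one h]; norm_num
      · simp [qF_zero h]

variable {β : G →* (F ≃⋆ₐ[ℂ] F)}

theorem tendsto_of_le {f : ℕ → ℝ} (h0 : ∀ n, 0 ≤ f n) (h : ∀ n, f n ≤ 1 / ((n : ℝ) + 1)) :
    Tendsto f atTop (𝓝 0) :=
  squeeze_zero h0 h tendsto_one_div_add_atTop_nhds_zero_nat

end

end Vale.Agent.P095.Elem.CertAux

namespace Vale.Agent.P095.Elem

open VAgent.P101 Vale.Agent.P101 Calc CertAux Filter Topology
open scoped CStarAlgebra ComplexOrder

noncomputable section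

variable {F : Type*} [CStarAlgebra F] {G : Type*} [Group G] {β : G →* (F ≃⋆ₐ[ℂ] F)}

/-- Comparison, the two kinds of leaves and absorption give the certificate. -/
theorem certStatement (h : Dyn β) (hcmp : CompareStatement F) (hsmall : LeafSmallStatement β)
    (hfull : LeafFullStatement β) (habs : AbsorbStatement β) : CertStatement β := by
  classical
  refine ⟨4, fun K η hη => ?_⟩
  rcases subsingleton_or_nontrivial F with hF | hF
  · have h0 : ∀ z : F, ‖z‖ = 0 := fun z => by rw [Subsingleton.elim z 0, norm_zero]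
    exact ⟨0, 0, 0, 0, 0, by simp, Subsingleton.elim _ _, fun g _ => by rw [h0]; exact hη.le,
      fun i => by simp, fun i => ⟨fun g _ => by rw [h0]; exact hη.le,
        fun g _ => by rw [h0]; exact hη.le, fun g _ => by rw [h0]; exact hη.le,
        fun g _ => by rw [h0]; exact hη.le⟩, by rw [h0]; exact hη.le⟩
  let _ := CStarAlgebra.spectralOrder F
  let _ := CStarAlgebra.spectralOrderedRing F
  obtain ⟨W, M, ηA, hηA, habs⟩ := habs K η hη
  set K' := K ∪ W with hK'
  have hd : ∀ n : ℕ, LeafData β K' (1 / ((n : ℝ) + 1)) := fun n =>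
    exists_leafData h hcmp hsmall hfull K' (by positivity)
  choose ys yf hs hf hc hys hyf hysK hyfK v hv using hd
  set y := fun n => (OZ.join (by norm_num : (0 : ℝ) < 1 / 6) (hc n)).x 1 0 with hy
  have hy0 : ∀ n, y n * y n = 0 := fun n => x10_sq _
  have hyAF : ∀ g ∈ K', AF (σ β g) y := by
    intro g hg
    have hb : ∀ z : ℕ → F, (∀ n, ‖z n‖ ≤ 1) → (∀ n : ℕ, AlmostFixed β K' (1 / ((n : ℝ) + 1)) (z n)) →
        AF (σ β g) z := fun z h1 h2 =>
      ⟨⟨1, h1⟩, tendsto_of_le (fun n => norm_nonneg _) fun n => h2 n g hg⟩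
    exact AF_join (by norm_num) hc (AF_nOZ hs (by norm_num) (hb _ hys hysK))
      (AF_nOZ hf (by norm_num) (hb _ hyf hyfK)) 1 0
  -- the copies
  choose φ hφe hφc using fun n => exists_copies h ({y n, v n} : Finset F) M
  let y' : ∀ n, OrbAlg β ({y n, v n} : Finset F) := fun n =>
    ⟨y n, mem_orbAlg' β (Finset.mem_insert_self _ _)⟩
  let v' : ∀ n, OrbAlg β ({y n, v n} : Finset F) := fun n =>
    ⟨v n, mem_orbAlg' β (Finset.mem_insert_of_mem (Finset.mem_singleton_self _))⟩
  have hcfc : ∀ n l (f : ℝ → ℝ), Continuous f → ∀ a, IsSelfAdjoint a →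
      φ n l (cfc f a) = cfc f (φ n l a) := fun n l f hfc a ha =>
    StarAlgHomClass.map_cfc (φ n l) f a hfc.continuousOn (map_continuous _) ha (ha.map (φ n l))
  set Y := fun n l => φ n l (y' n) with hY
  set V := fun n l => φ n l (v' n) with hV
  have hY0 : ∀ n l, Y n l * Y n l = 0 := fun n l => by
    simp only [hY]; rw [← map_mul, show y' n * y' n = 0 from Subtype.ext (hy0 n), map_zero]
  have hYd : ∀ n l, diagSum (Y n l) = φ n l (diagSum (y' n)) := fun n l => by
    simp only [hY, diagSum, map_add, map_mul, map_star]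
  have hYs : ∀ n l, star (Y n l) * Y n l = φ n l (star (y' n) * y' n) := fun n l => by
    simp only [hY, map_mul, map_star]
  have hVY : ∀ n l, star (V n l) * cfc e0F (star (Y n l) * Y n l) * V n l =
      cut (1 / 2) (cfc zF (diagSum (Y n l))) := by
    intro n l
    have e : star (v' n) * cfc e0F (star (y' n) * y' n) * v' n =
        cut (1 / 2) (cfc zF (diagSum (y' n))) := by
      refine Subtype.ext ?_
      rw [cut, MulMemClass.coe_mul, MulMemClass.coe_mul,
        coe_cfc _ (IsSelfAdjoint.star_mul_self _) _ continuous_e0F,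
        coe_cfc _ (cfc_predicate _ _ : IsSelfAdjoint (cfc zF (diagSum (y' n)))) _ (by fun_prop),
        coe_cfc _ (isSelfAdjoint_diagSum _) _ continuous_zF]
      exact hv n
    have e' := congrArg (φ n l) e
    rw [map_mul, map_mul, map_star, hcfc n l _ continuous_e0F _ (IsSelfAdjoint.star_mul_self _),
      ← hYs, cut, hcfc n l _ (by fun_prop) _ (cfc_predicate _ _),
      hcfc n l _ continuous_zF _ (isSelfAdjoint_diagSum _), ← hYd] at e'
    exact e'
  set Q := fun n l => cfc qF (diagSum (Y n l)) with hQ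
  set Q' := fun n l => cfc qpF (diagSum (Y n l)) with hQ'
  set E := fun n l => cfc eF (star (Y n l) * Y n l) with hE
  set S := fun n l => cfc sF (star (Y n l) * Y n l) * V n l with hS
  -- the ranges of the copies
  have hrange : ∀ n l x, x ∈ ({Q n l, Q' n l, E n l, S n l} : Set F) → ∃ a, x = φ n l a := by
    intro n l x hx
    simp only [Set.mem_insert_iff, Set.mem_singleton_iff] at hx
    rcases hx with rfl | rfl | rfl | rfl
    · exact ⟨_, by simp only [hQ]; rw [hYd, ← hcfc n l _ continuous_qF _ (isSelfAdjoint_diagSum _)]⟩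
    · exact ⟨_, by simp only [hQ']; rw [hYd, ← hcfc n l _ continuous_qpF _ (isSelfAdjoint_diagSum _)]⟩
    · exact ⟨_, by simp only [hE]; rw [hYs, ← hcfc n l _ continuous_eF _ (IsSelfAdjoint.star_mul_self _)]⟩
    · exact ⟨_, by
        simp only [hS, hV]
        rw [hYs, ← hcfc n l _ continuous_sF _ (IsSelfAdjoint.star_mul_self _), ← map_mul]⟩
  have horb : ∀ n l l', l ≠ l' → ∀ a b, OrbCommute β (φ n l a) (φ n l' b) := fun n l l' hne a b g =>
    ⟨by rw [← hφe]; exact hφc n l l' hne _ _, by
      rw [← hφe, ← map_star]; exact hφc n l l' hne _ _⟩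
  -- the normalised leaves and their join
  set A := fun n l => nOZ (hY0 n l) (1 / 4) with hA
  have hAc : ∀ n l l', l ≠ l' → (A n l).Comm (A n l') := fun n l l' hne i j k m =>
    (nOZ_commute (hY0 n l') (nOZ_commute (hY0 n l) (hφc n l' l hne.symm _ _)
      (by simp only [hY]; rw [← map_star]; exact hφc n l' l hne.symm _ _) i j)
      (by
        simp only [hY]
        rw [← map_star]
        exact nOZ_commute (hY0 n l) (hφc n l' l hne.symm _ _)
          (by rw [← map_star]; exact hφc n l' l hne.symm _ _) i j) k m).symm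
  obtain ⟨J, -, hJAF, hJ1, hJk⟩ := exists_joins (show (0 : ℝ) < 1 / 12 by norm_num) M A hAc
  have hYAF : ∀ g ∈ K', ∀ l, AF (σ β g) fun n => Y n l := by
    intro g hg l
    obtain ⟨⟨C, hC⟩, hlim⟩ := hyAF g hg
    refine ⟨⟨C, fun n => (NonUnitalStarAlgHom.norm_apply_le (φ n l) (y' n)).trans (hC n)⟩, ?_⟩
    refine squeeze_zero (fun n => norm_nonneg _) (fun n => ?_) hlim
    have e : σ β g (Y n l) - Y n l = φ n l (shift β g (y' n) - y' n) := by
      rw [map_sub, hφe]; rfl
    rw [e]
    exact (NonUnitalStarAlgHom.norm_apply_le (φ n l) _).trans le_rfl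
  have hQAF : ∀ g ∈ K', ∀ l, AF (σ β g) (fun n => Q n l) ∧ AF (σ β g) (fun n => Q' n l) ∧
      AF (σ β g) (fun n => E n l) := fun g hg l =>
    have h1 := hYAF g hg l
    have h2 : AF (σ β g) fun n => diagSum (Y n l) := (h1.star.mul h1).add (h1.mul h1.star)
    ⟨h2.cfc (fun n => isSelfAdjoint_diagSum _) continuous_qF,
      h2.cfc (fun n => isSelfAdjoint_diagSum _) continuous_qpF,
      (h1.star.mul h1).cfc (fun n => IsSelfAdjoint.star_mul_self _) continuous_eF⟩
  have hqAF : ∀ g ∈ K', AF (σ β g) fun n => (J n).x 1 0 := fun g hg =>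
    hJAF (σ β g) (fun l => AF_nOZ (fun n => hY0 n l) (by norm_num) (hYAF g hg l)) 1 0
  have hwAF : ∀ g ∈ K', AF (σ β g) fun n => 1 - oprodF (Q n) * oprodF (Q n) := fun g hg =>
    have h1 := AF_oprodF M Q fun l => (hQAF g hg l).1
    AF.one.sub (h1.mul h1)
  -- one index at which everything is almost fixed
  have hev : ∀ᶠ n in atTop, ∀ g ∈ K',
      (∀ l, ‖σ β g (Q n l) - Q n l‖ ≤ ηA ∧ ‖σ β g (Q' n l) - Q' n l‖ ≤ ηA ∧
        ‖σ β g (E n l) - E n l‖ ≤ ηA) ∧ ‖σ β g ((J n).x 1 0) - (J n).x 1 0‖ ≤ η ∧
      ‖σ β g (1 - oprodF (Q n) * oprodF (Q n)) - (1 - oprodF (Q n) * oprodF (Q n))‖ ≤ η := by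
    refine K'.eventually_all.2 fun g hg => Filter.Eventually.and ?_ (Filter.Eventually.and
      ((hqAF g hg).eventually_le hη) ((hwAF g hg).eventually_le hη))
    exact eventually_all.2 fun l => ((hQAF g hg l).1.eventually_le hηA).and
      (((hQAF g hg l).2.1.eventually_le hηA).and ((hQAF g hg l).2.2.eventually_le hηA))
  obtain ⟨n, hn⟩ := hev.exists
  have hsl := fun l => slots (hY0 n l) (hVY n l)
  let L : Leaves β W M ηA :=
    { q := Q n, q' := Q' n, e := E n, t := S n
      pos := fun l => (hsl l).1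
      q'_q := fun l => (hsl l).2.1
      e_q' := fun l => (hsl l).2.2.1
      t_q' := fun l => (hsl l).2.2.2.1
      range := fun l => (hsl l).2.2.2.2.1
      source := fun l => (hsl l).2.2.2.2.2
      inv := fun l => ⟨fun g hg => ((hn g (Finset.mem_union_right _ hg)).1 l).1,
        fun g hg => ((hn g (Finset.mem_union_right _ hg)).1 l).2.1,
        fun g hg => ((hn g (Finset.mem_union_right _ hg)).1 l).2.2⟩
      comm := fun l l' hne x hx z hz => by
        obtain ⟨a, rfl⟩ := hrange n l x hx
        obtain ⟨b, rfl⟩ := hrange n l' z hz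
        exact horb n l l' hne a b }
  obtain ⟨x, hx2, hxK, hxx, -, hfix⟩ := habs L
  -- the kernel of the join
  set c := 1 - (J n).one' with hc0
  have hJpat : ∀ s : Finset (Fin M), s.Nonempty → (J n).one' * L.pat s = L.pat s := by
    rintro s ⟨l, hl⟩
    have hk : comp (1 / 12) (A n l) * L.pat s = 0 := by
      refine list_prod_kill _ (fun z hz => ?_) ⟨E n l, List.mem_ofFn.2 ⟨l, if_pos hl⟩,
        comp_mul_e (hY0 n l)⟩
      obtain ⟨m, rfl⟩ := List.mem_ofFn.1 hz
      by_cases hml : m = l
      · subst hml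
        exact Or.inr (by rw [if_pos hl]; exact comp_mul_e (hY0 n m))
      · have hm : (if m ∈ s then L.e m else L.q' m) ∈ ({Q n m, Q' n m, E n m, S n m} : Set F) := by
          split_ifs
          · exact Or.inr (Or.inr (Or.inl rfl))
          · exact Or.inr (Or.inl rfl)
        obtain ⟨b, hb⟩ := hrange n m _ hm
        rw [hb]
        refine Or.inl ?_
        simp only [hA]
        rw [comp_nOZ, hYd, ← hcfc n l _ ?_ _ (isSelfAdjoint_diagSum _)]
        · exact hφc n l m (Ne.symm hml) _ _
        · exact (continuous_gF _).comp (continuous_hF (by norm_num))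
    have h1 := hJk n l _ hk
    rw [sub_mul, one_mul, sub_eq_zero] at h1
    exact h1.symm
  have htop : c * L.top = c := list_prod_fix _ fun z hz => by
    obtain ⟨l, rfl⟩ := List.mem_ofFn.1 hz
    have h1 := hJk n l _ (comp_mul_q (hY0 n l))
    rw [mul_sub, mul_one, sub_eq_zero] at h1
    exact h1.symm
  set w := 1 - L.top * L.top with hw
  have hJw : (J n).one' * w = w := by
    have h1 : c * w = 0 := by rw [hw, mul_sub, mul_one, ← mul_assoc, htop, htop, sub_self]
    rw [hc0, sub_mul, one_mul, sub_eq_zero] at h1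
    exact h1.symm
  have hJx : (J n).one' * x = x := hfix _ hJpat
  set q := (J n).x 1 0 with hq
  have hwnorm : ‖w‖ ≤ 4 := by
    have hp : ∀ l : List F, (∀ z ∈ l, ‖z‖ ≤ 1) → ‖l.prod‖ ≤ 1 := fun l hl => by
      induction l with
      | nil => simp
      | cons a l ih =>
        rw [List.prod_cons]
        exact (norm_mul_le _ _).trans (mul_le_one₀ (hl a List.mem_cons_self) (norm_nonneg _)
          (ih fun z hz => hl z (List.mem_cons_of_mem _ hz)))
    have ht : ‖L.top‖ ≤ 1 := hp _ fun z hz => by
      obtain ⟨l, rfl⟩ := List.mem_ofFn.1 hz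
      exact (L.pos l).1.2
    refine (norm_sub_le _ _).trans ?_
    have := (norm_mul_le L.top L.top).trans (mul_le_one₀ ht (norm_nonneg _) ht)
    rw [CStarRing.norm_one]
    linarith
  have hwK : AlmostFixed β K η w := fun g hg => (hn g (Finset.mem_union_left _ hg)).2.2
  have hxK' : AlmostFixed β K η (star x) := fun g hg => by
    rw [map_star, ← star_sub, norm_star]; exact hxK g hg
  have h1K : AlmostFixed β K η (1 : F) := fun g _ => by simp [hη.le]
  have h0K : AlmostFixed β K η (0 : F) := fun g _ => by simp [hη.le]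
  have hxs : ‖star x‖ ≤ 4 := by rw [norm_star]; linarith
  refine ⟨q, ![star x, 1, 0], ![x, w, 0], ![star x, 1, 0], ![x, w, 0],
    norm_x10_le _ (hJ1 n).1 (hJ1 n).2, x10_sq _,
    fun g hg => (hn g (Finset.mem_union_left _ hg)).2.1, fun i => ?_, fun i => ?_, ?_⟩
  · fin_cases i <;> simp [hxs, hwnorm, show ‖x‖ ≤ 4 by linarith]
  · fin_cases i <;> simp [hxK, hxK', h1K, h0K, hwK]
  · have hS' : star q * q + q * star q = (J n).one' * (J n).one' := diagSum_x10 _
    have e : (∑ i, (![star x, 1, 0] i * (star q * q) * ![x, w, 0] i +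
        ![star x, 1, 0] i * (q * star q) * ![x, w, 0] i)) =
        star x * ((star q * q + q * star q) * x) + (star q * q + q * star q) * w := by
      simp [Fin.sum_univ_three]
      noncomm_ring
    rw [e, hS', mul_assoc, hJx, hJx, mul_assoc (J n).one' _ w, hJw, hJw, hw]
    rw [show star x * x + (1 - L.top * L.top) - 1 = star x * x - L.top * L.top by abel]
    exact hxx

end

end Vale.Agent.P095.Elem
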