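import Vale.Agent.P095.Elem.CertLeaf

/-!
# P095, amenable groups: copies, and one leaf with its comparison element
-/

namespace Vale.Agent.P095.Elem.CertAux

open VAgent.P101 Vale.Agent.P101 Calc
open scoped CStarAlgebra ComplexOrder

noncomputable section

variable {F : Type*} [CStarAlgebra F] {G : Type*} [Group G] (β : G →* (F ≃⋆ₐ[ℂ] F))

/-- The automorphism of a group element as a unital homomorphism. -/
def σ (g : G) : F →⋆ₐ[ℂ] F := (β g).toStarAlgHom

theorem σ_apply (g : G) (x : F) : σ β g x = β g x := rfl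

theorem mem_orbAlg {T : Finset F} {t : F} (ht : t ∈ T) (g : G) : β g t ∈ OrbAlg β T :=
  StarSubalgebra.le_topologicalClosure _ (StarAlgebra.subset_adjoin ℂ _ ⟨g, t, ht, rfl⟩)

theorem mem_orbAlg' {T : Finset F} {t : F} (ht : t ∈ T) : t ∈ OrbAlg β T := by
  have h := mem_orbAlg β ht 1
  rwa [map_one] at h

theorem orbAlg_le {T : Finset F} {U : StarSubalgebra ℂ F} (hU : IsClosed (U : Set F))
    (h : ∀ g, ∀ t ∈ T, β g t ∈ U) : OrbAlg β T ≤ U :=
  StarSubalgebra.topologicalClosure_minimal
    (StarAlgebra.adjoin_le fun y ⟨g, t, ht, e⟩ => e ▸ h g t ht) hU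

theorem beta_mem {T : Finset F} (g : G) {x : F} (hx : x ∈ OrbAlg β T) : β g x ∈ OrbAlg β T := by
  refine orbAlg_le β (U := (OrbAlg β T).comap (σ β g)) ?_ (fun h t ht => ?_) hx
  · exact (orbAlg_isClosed β T).preimage (map_continuous (σ β g))
  · have e : σ β g (β h t) = β (g * h) t := by rw [map_mul]; rfl
    show σ β g (β h t) ∈ OrbAlg β T
    rw [e]; exact mem_orbAlg β ht _

/-- The translate inside the orbit algebra. -/
def shift {T : Finset F} (g : G) (x : OrbAlg β T) : OrbAlg β T :=
  ⟨β g (x : F), beta_mem β g x.2⟩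

variable {β}

/-- The elements whose images commute with a set and its adjoint form everything, once the
generators do. -/
theorem commute_orb {T : Finset F} (φ : OrbAlg β T →⋆ₐ[ℂ] F) (z : F)
    (h : ∀ (g : G) (t : F) (ht : t ∈ T), Commute z (φ ⟨β g t, mem_orbAlg β ht g⟩) ∧
      Commute z (φ (star ⟨β g t, mem_orbAlg β ht g⟩)))
    (x : OrbAlg β T) : Commute z (φ x) := by
  have hclosed : IsClosed {y : OrbAlg β T | Commute z (φ y)} :=
    isClosed_eq (continuous_const.mul (map_continuous φ)) ((map_continuous φ).mul continuous_const)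
  have key : ∀ a (ha : a ∈ StarAlgebra.adjoin ℂ (orbit β T)),
      Commute z (φ ⟨a, StarSubalgebra.le_topologicalClosure _ ha⟩) ∧
        Commute z (φ (star ⟨a, StarSubalgebra.le_topologicalClosure _ ha⟩)) := by
    intro a ha
    induction ha using StarAlgebra.adjoin_induction with
    | mem a ha =>
      obtain ⟨g, t, ht, rfl⟩ := ha
      exact h g t ht
    | algebraMap c =>
      have e : ∀ c : ℂ, Commute z (φ (algebraMap ℂ (OrbAlg β T) c)) := fun c => by
        rw [AlgHomClass.commutes φ c]; exact Algebra.commute_algebraMap_right c z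
      refine ⟨e c, ?_⟩
      have := e (star c)
      rw [algebraMap_star_comm] at this
      exact this
    | add a b _ _ iha ihb =>
      constructor
      · have := iha.1.add_right ihb.1
        rwa [← map_add] at this
      · have := iha.2.add_right ihb.2
        rwa [← map_add, ← star_add] at this
    | mul a b _ _ iha ihb =>
      constructor
      · have := iha.1.mul_right ihb.1
        rwa [← map_mul] at this
      · have := ihb.2.mul_right iha.2
        rwa [← map_mul, ← star_mul] at this
    | star a _ iha =>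
      constructor
      · exact iha.2
      · have h1 := iha.1
        rw [← star_star (⟨a, StarSubalgebra.le_topologicalClosure _ (by assumption)⟩ : OrbAlg β T)]
          at h1
        exact h1
  obtain ⟨a, ha⟩ := x
  refine hclosed.closure_subset ?_
  rw [Topology.IsInducing.subtypeVal.closure_eq_preimage_closure_image]
  refine closure_mono ?_ ha
  intro b hb
  exact ⟨⟨b, StarSubalgebra.le_topologicalClosure _ hb⟩, (key b hb).1, rfl⟩

/-- Finitely many commuting equivariant copies. -/
theorem exists_copies (h : Dyn β) (T : Finset F) (n : ℕ) :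
    ∃ φ : Fin n → (OrbAlg β T →⋆ₐ[ℂ] F), (∀ i g x, φ i (shift β g x) = β g (φ i x)) ∧
      ∀ i j, i ≠ j → ∀ x y, Commute (φ i x) (φ j y) := by
  classical
  induction n with
  | zero => exact ⟨Fin.elim0, fun i => i.elim0, fun i => i.elim0⟩
  | succ n ih =>
    obtain ⟨φ, he, hc⟩ := ih
    let t₁ : {t // t ∈ T} → OrbAlg β T := fun t => ⟨t.1, mem_orbAlg' β t.2⟩
    obtain ⟨ψ, hψe, hψ⟩ := h.copies T (Finset.univ.biUnion fun i : Fin n =>
      T.attach.biUnion fun t => {φ i (t₁ t), φ i (star (t₁ t))})
    have heψ : ∀ g x, ψ (shift β g x) = β g (ψ x) := fun g x => hψe g x _ rfl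
    have hnew : ∀ i x y, Commute (φ i x) (ψ y) := by
      intro i x y
      refine (commute_orb (φ i) (ψ y) (fun g t ht => ?_) x).symm
      have ey : ψ y = β g (ψ (shift β g⁻¹ y)) := by
        rw [← heψ]
        congr 1
        refine Subtype.ext ?_
        show (y : F) = β g (β g⁻¹ (y : F))
        have e : β g (β g⁻¹ (y : F)) = (β g * β g⁻¹) (y : F) := rfl
        rw [e, ← map_mul, mul_inv_cancel, map_one]; rfl
      have e1 : φ i ⟨β g t, mem_orbAlg β ht g⟩ = β g (φ i (t₁ ⟨t, ht⟩)) := he i g (t₁ ⟨t, ht⟩)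
      have hmem : ∀ z ∈ ({φ i (t₁ ⟨t, ht⟩), φ i (star (t₁ ⟨t, ht⟩))} : Finset F),
          Commute z (ψ (shift β g⁻¹ y)) := fun z hz => hψ z (Finset.mem_biUnion.2
            ⟨i, Finset.mem_univ _, Finset.mem_biUnion.2 ⟨⟨t, ht⟩, Finset.mem_attach _ _, hz⟩⟩) _
      constructor
      · rw [e1, ey]
        exact ((hmem _ (by simp)).map (β g)).symm
      · rw [map_star, e1, ey, ← map_star, ← map_star]
        exact ((hmem _ (by simp)).map (β g)).symm
    refine ⟨Fin.cons ψ φ, ?_, ?_⟩
    · intro i g x
      refine Fin.cases ?_ (fun k => ?_) i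
      · simpa using heψ g x
      · simpa using he k g x
    · intro i j hij x y
      revert hij
      refine Fin.cases ?_ (fun k => ?_) i <;> refine Fin.cases ?_ (fun l => ?_) j
      · exact fun h => absurd rfl h
      · intro _; simpa using (hnew l y x).symm
      · intro _; simpa using hnew k x y
      · intro h; simpa using hc k l (by simpa using h) x y

/-- A dimension state restricts to a closed subalgebra. -/
def restr (D : DimState F) (S : StarSubalgebra ℂ F) [IsClosed (S : Set F)] : DimState S where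
  val x := D (x : F)
  one := D.one
  mono x y hx hy hle := by
    refine D.mono (fun i => (x i : F)) (fun k => (y k : F)) (fun i => ?_) (fun k => ?_) ?_
    · obtain ⟨c, hc⟩ := hx i; exact ⟨c, by rw [hc]; rfl⟩
    · obtain ⟨c, hc⟩ := hy k; exact ⟨c, by rw [hc]; rfl⟩
    · intro ε hε
      obtain ⟨v, hv⟩ := hle ε hε
      refine ⟨fun k i => (v k i : F), fun i j => le_of_eq_of_le ?_ (hv i j)⟩
      show _ = ‖((∑ k, star (v k i) * y k * v k j - if i = j then x i else 0 : S) : F)‖
      congr 1
      split_ifs <;> simp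
  lsc x hx ε hε := by
    obtain ⟨c, hc⟩ := hx
    have hsa : IsSelfAdjoint x := hc ▸ IsSelfAdjoint.star_mul_self c
    obtain ⟨δ, hδ, hle⟩ := D.lsc (x : F) ⟨c, by rw [hc]; rfl⟩ ε hε
    refine ⟨δ, hδ, ?_⟩
    rwa [cut, coe_cfc x hsa _ (by fun_prop)]

section Leaf

variable (β) in
/-- The two commuting elements of square zero of a leaf and the comparison element. -/
def LeafData (K : Finset G) (ζ : ℝ) : Prop :=
  ∃ (ys yf : F) (hs : ys * ys = 0) (hf : yf * yf = 0)
    (hc : (nOZ hs (1 / 2)).Comm (nOZ hf (1 / 2))),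
    ‖ys‖ ≤ 1 ∧ ‖yf‖ ≤ 1 ∧ AlmostFixed β K ζ ys ∧ AlmostFixed β K ζ yf ∧
    ∃ v : F, star v * cfc e0F (star ((OZ.join (by norm_num : (0 : ℝ) < 1 / 6) hc).x 1 0) *
        (OZ.join (by norm_num : (0 : ℝ) < 1 / 6) hc).x 1 0) * v =
      cut (1 / 2) (cfc zF (diagSum ((OZ.join (by norm_num : (0 : ℝ) < 1 / 6) hc).x 1 0)))

theorem exists_leafData [Nontrivial F] (h : Dyn β) (hcmp : CompareStatement F)
    (hsmall : LeafSmallStatement β) (hfull : LeafFullStatement β) (K : Finset G) {ζ : ℝ}
    (hζ : 0 < ζ) : LeafData β K ζ := by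
  classical
  obtain ⟨Tf, yf₀, hf1, hf2, hf3, hff⟩ := hfull K ζ hζ
  -- the witness length of the full element
  set w := fun t : ℝ => max (t - 1 / 2) 0 with hw
  have hwc : Continuous w := by fun_prop
  set s₀ : OrbAlg β Tf := cfc (fun t => Real.sqrt (w t)) (star yf₀ * yf₀) with hs₀
  have hs₀sq : s₀ * s₀ = cut (1 / 2) (star yf₀ * yf₀) :=
    sqrt_mul _ hwc fun t => le_max_right _ _
  have : Nontrivial (OrbAlg β Tf) :=
    ⟨⟨0, 1, fun h => zero_ne_one (α := F) (congrArg Subtype.val h)⟩⟩
  let _ := CStarAlgebra.spectralOrder (OrbAlg β Tf)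
  let _ := CStarAlgebra.spectralOrderedRing (OrbAlg β Tf)
  obtain ⟨n, r, hr⟩ := exists_conj (g := s₀)
    (cfc_predicate _ _ : IsSelfAdjoint s₀).star_eq (by rw [hs₀sq]; exact hff)
  -- the small element and the copy of the full one
  obtain ⟨Ts, ys₀, hy1, hy2, hy3, hθ⟩ := hsmall K ζ (1 / (2 * n + 1)) hζ (by positivity)
  obtain ⟨φ, hφe, hφc⟩ := h.copies Tf {(ys₀ : F), star (ys₀ : F)}
  set ys : F := (ys₀ : F) with hys
  set yf : F := φ yf₀ with hyf
  have hs : ys * ys = 0 := by rw [hys, ← MulMemClass.coe_mul, hy2]; rfl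
  have hfsq : yf * yf = 0 := by rw [hyf, ← map_mul, hf2, map_zero]
  have hcy : ∀ x, Commute ys (φ x) ∧ Commute (star ys) (φ x) := fun x =>
    ⟨hφc _ (by simp [hys]) x, hφc _ (by simp [hys]) x⟩
  have hc : (nOZ hs (1 / 2)).Comm (nOZ hfsq (1 / 2)) := fun i j k l =>
    (nOZ_commute hfsq ((nOZ_commute hs (hcy yf₀).1.symm (hcy yf₀).2.symm i j))
      (by rw [hyf, ← map_star]
          exact nOZ_commute hs (hcy _).1.symm (hcy _).2.symm i j) k l).symm
  refine ⟨ys, yf, hs, hfsq, hc, hy1, ?_, hy3, fun g hg => ?_, ?_⟩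
  · exact (NonUnitalStarAlgHom.norm_apply_le φ yf₀).trans hf1
  · have e : β g yf - yf = φ (shift β g yf₀ - yf₀) := by
      rw [map_sub, hyf, hφe g yf₀ (shift β g yf₀) rfl]
    rw [e]
    exact (NonUnitalStarAlgHom.norm_apply_le φ _).trans (hf3 g hg)
  set h6 : (0 : ℝ) < 1 / 6 := by norm_num
  set Φ := OZ.join h6 hc with hΦ
  set y := Φ.x 1 0 with hy
  have hy0 : y * y = 0 := x10_sq Φ
  set A := star y * y with hA
  have hS : diagSum y = Φ.one' * Φ.one' := diagSum_x10 Φ
  -- the full element is fixed by the unit of the join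
  set sw := φ s₀ with hsw
  have hswsa : star sw = sw := by
    rw [hsw, ← map_star, (cfc_predicate _ _ : IsSelfAdjoint s₀).star_eq]
  have hsweq : sw = cfc (fun t => Real.sqrt (w t)) (star yf * yf) := by
    rw [hsw, hs₀, StarAlgHomClass.map_cfc φ _ (star yf₀ * yf₀) (by fun_prop) (map_continuous φ)
      (IsSelfAdjoint.star_mul_self _) ((IsSelfAdjoint.star_mul_self _).map φ), map_mul, map_star]
  have hfix : Φ.one' * sw = sw := by
    have hB : (nOZ hfsq (1 / 2)).one' * sw = sw := by
      rw [nOZ_one' hfsq (by norm_num), hsweq,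
        diag_mul hfsq (f := fun t => Real.sqrt (w t)) (hwc.sqrt) (continuous_hF (by norm_num))
          (by simp [hw])]
      refine cfc_congr fun t _ => ?_
      rcases le_total t (1 / 2) with h | h
      · simp only [hw]; rw [max_eq_right (show t - 1 / 2 ≤ 0 by linarith), Real.sqrt_zero, mul_zero]
      · rw [hF_eq_one (by norm_num) h, one_mul]
    have := congrArg (fun X => X * sw) (join_one' h6 hc)
    simp only [sub_mul, one_mul, mul_assoc, hB, sub_self, mul_zero] at this
    exact (sub_eq_zero.1 this).symm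
  have hSsa := isSelfAdjoint_diagSum y
  have hSfix : cfc e0F (diagSum y) * sw = sw :=
    fix_of hSsa continuous_e0F (e0F_one (by norm_num)) (by rw [hS, mul_assoc, hfix, hfix])
  -- the range element is full with universal witnesses
  set e0 := cfc e0F A with he0
  set u := nrm (1 / 4) y with hu
  set v : Fin (n + n) → F :=
    Fin.append (fun l => sw * φ (r l)) (fun l => star u * (sw * φ (r l))) with hv
  have hone : ∑ k, star (v k) * e0 * v k = 1 := by
    rw [Fin.sum_univ_add]
    simp only [hv, Fin.append_left, Fin.append_right, star_mul, star_star, hswsa]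
    rw [← Finset.sum_add_distrib]
    have e : ∀ l, star (φ (r l)) * sw * e0 * (sw * φ (r l)) +
        star (φ (r l)) * sw * u * e0 * (star u * (sw * φ (r l))) =
        φ (star (r l) * (s₀ * s₀) * r l) := by
      intro l
      have h2 : e0 + u * e0 * star u = cfc e0F (diagSum y) := by
        rw [hu, he0, hA, conj_e0 hy0, diagSum, cfc_orth_add (IsSelfAdjoint.star_mul_self y)
          (IsSelfAdjoint.mul_star_self y) (orth hy0) continuous_e0F (e0F_zero (by norm_num))]
      calc _ = star (φ (r l)) * (sw * ((e0 + u * e0 * star u) * sw)) * φ (r l) := by noncomm_ring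
        _ = _ := by rw [h2, hSfix, map_mul, map_mul, map_mul, map_star]
    simp only [e, ← map_sum, hr, map_one]
  have hefull : FullSet ({e0} : Set F) :=
    fullSet_of_sum (fun k => star (v k)) v (fun _ => e0) (fun _ => TwoSidedIdeal.subset_span rfl) hone
  have hepos : IsPosC e0 := isPosC_cfc A continuous_e0F e0F_mem
  have hzpos : IsPosC (cfc zF (diagSum y)) := isPosC_cfc _ continuous_zF zF_mem
  refine hcmp _ _ hzpos hepos hefull (fun D => ?_) (1 / 2) (by norm_num)
  -- the lower bound
  have hlow : 1 ≤ (2 * n : ℝ) * D e0 := by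
    have hm := D.mono (fun _ : Fin 1 => (1 : F)) (fun _ : Fin (n + n) => e0)
      (fun _ => ⟨1, by simp⟩) (fun _ => hepos.1) fun ε hε =>
        ⟨fun k _ => v k, fun i j => by
          rw [hone, if_pos (Subsingleton.elim i j), sub_self, norm_zero]; exact hε.le⟩
    simp only [Finset.univ_unique, D.one, Finset.sum_const, Finset.card_univ,
      Fintype.card_fin, nsmul_eq_mul, Nat.cast_add, Finset.card_singleton, Nat.cast_one, mul_one]
      at hm
    linarith
  -- the upper bound
  set d := diagSum ys with hd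
  have hdsa := isSelfAdjoint_diagSum ys
  set gg := fun t : ℝ => 1 - ramp (1 / 4) (1 / 4) t with hgg
  have hggc : Continuous gg := by unfold gg ramp; fun_prop
  set wf := fun t : ℝ => max (3 / 4 - t) 0 with hwf
  set kk := fun t : ℝ => gg t / max (3 / 4 - t) (1 / 4) with hkk
  have hkkc : Continuous kk := hggc.div (by fun_prop) fun t =>
    (lt_max_of_lt_right (by norm_num)).ne'
  have hkk0 : ∀ t, 0 ≤ kk t := fun t => div_nonneg
    (by have := ramp_mem (1 / 4) (1 / 4) t; simp only [hgg]; linarith)
    (le_max_of_le_right (by norm_num))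
  have hwk : ∀ t, kk t * wf t = gg t := by
    intro t
    rcases le_total t (1 / 2) with h | h
    · simp only [hkk, hwf, max_eq_left (show (1 / 4 : ℝ) ≤ 3 / 4 - t by linarith),
        max_eq_left (show (0 : ℝ) ≤ 3 / 4 - t by linarith)]
      exact div_mul_cancel₀ _ (by linarith)
    · have : gg t = 0 := by
        simp only [hgg]
        rw [ramp_of_ge (show (0 : ℝ) < 1 / 4 by norm_num)
          (show (1 / 4 : ℝ) + 1 / 4 ≤ t by linarith), sub_self]
      simp [hkk, this]
  set wel := cfc wf d with hwel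
  have hwθ : D wel ≤ 1 / (2 * n + 1) := by
    have h1 := hθ (restr D (OrbAlg β Ts))
    have e : ((cut (1 / 4) (1 - star ys₀ * ys₀ - ys₀ * star ys₀) : OrbAlg β Ts) : F) = wel := by
      have hsa : IsSelfAdjoint (1 - star ys₀ * ys₀ - ys₀ * star ys₀) :=
        ((IsSelfAdjoint.one _).sub (IsSelfAdjoint.star_mul_self _)).sub
          (IsSelfAdjoint.mul_star_self _)
      rw [cut, coe_cfc _ hsa _ (by fun_prop)]
      have : ((1 - star ys₀ * ys₀ - ys₀ * star ys₀ : OrbAlg β Ts) : F) =
          cfc (fun t : ℝ => 1 - t) d := by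
        rw [cfc_sub (fun _ : ℝ => (1 : ℝ)) (fun t => t) d, cfc_const_one ℝ d, cfc_id' ℝ d, hd,
          diagSum, ← sub_sub]
        simp [hys]
      rw [this, ← cfc_comp' (fun t : ℝ => max (t - 1 / 4) 0) (fun t => 1 - t) d]
      exact cfc_congr fun t _ => by simp only [hwf]; congr 1; ring
    exact e ▸ h1
  set z := cfc zF (diagSum y) with hz
  set ug := cfc (fun t => 1 - gg t) d with hug
  have hcd : Commute Φ.one' d := Φ.one'_comm_of fun m => OZ.join_comm h6 hc
    (fun i j => by
      have hd0 : Commute d ys := commute_diagSum hs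
      exact nOZ_commute hs hd0 (commute_diagSum_star hs) i j)
    (fun i j => by
      have h1 : ∀ x, Commute d (φ x) := fun x =>
        ((hcy x).2.mul_left (hcy x).1).add_left ((hcy x).1.mul_left (hcy x).2)
      exact nOZ_commute hfsq (h1 _) (by rw [hyf, ← map_star]; exact h1 _) i j) m m
  have hufix : Φ.one' * ug = ug := by
    have hk : comp (1 / 6) (nOZ hs (1 / 2)) * ug = 0 := by
      rw [comp, nOZ_one' hs (by norm_num), ← hd,
        ← cfc_comp' (gF (1 / 6)) (hF (1 / 2)) d (continuous_gF _).continuousOn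
          (continuous_hF (by norm_num)).continuousOn hdsa]
      refine cfc_mul_zero _ ((continuous_gF _).comp (continuous_hF (by norm_num)))
        (continuous_const.sub hggc) fun t => ?_
      rcases le_total t (1 / 4) with h | h
      · simp only [hgg]
        rw [ramp_of_le (show (0 : ℝ) < 1 / 4 by norm_num) h, sub_zero, sub_self, mul_zero]
      · have h3 : 3 * (1 / 6 : ℝ) ≤ hF (1 / 2) t := by
          rcases le_total t (1 / 2) with h' | h'
          · rw [hF_of_le h']; linarith
          · rw [hF_eq_one (by norm_num) h']; norm_num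
        rw [gF_eq_zero (by norm_num) h3, zero_mul]
    have hcm : Commute (comp (1 / 6) (nOZ hs (1 / 2))) (1 - (nOZ hfsq (1 / 2)).one') :=
      comp_comm _ ((Commute.one_right _).sub_right (OZ.h_comm_T hc))
    have := congrArg (fun X => X * ug) (join_one' h6 hc)
    simp only [hcm.eq, sub_mul, one_mul, mul_assoc, hk, mul_zero, sub_zero] at this
    exact (sub_eq_zero.1 this).symm
  have hzu : z * ug = 0 := kill_of hSsa continuous_zF (zF_zero (by norm_num))
    (by rw [hS, mul_assoc, hufix, hufix])
  have hzg : z * cfc gg d = z := by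
    rw [hug, cfc_sub (fun _ : ℝ => (1 : ℝ)) gg d (by fun_prop) hggc.continuousOn,
      cfc_const_one ℝ d, mul_sub, mul_one] at hzu
    exact (sub_eq_zero.1 hzu).symm
  have hzle : D z ≤ D wel := by
    set sz := cfc (fun t => Real.sqrt (zF t)) (diagSum y) with hsz
    set sk := cfc (fun t => Real.sqrt (kk t)) d with hsk
    have hm := D.mono (fun _ : Fin 1 => z) (fun _ : Fin 1 => wel) (fun _ => hzpos.1)
      (fun _ => isPos_cfc _ (by fun_prop) fun t => le_max_right _ _) fun ε hε =>
        ⟨fun _ _ => sk * sz, fun i j => by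
          have hcz : Commute sz (cfc gg d) :=
            ((show Commute (diagSum y) d by rw [hS]; exact hcd.mul_left hcd).cfc_real _).symm
              |>.cfc_real _ |>.symm
          have e1 : sk * wel * sk = cfc gg d := by
            rw [hsk, hwel, cfc_mul_fun d hkkc.sqrt (by fun_prop) (h := fun t =>
                Real.sqrt (kk t) * wf t) fun t => rfl,
              cfc_mul_fun d (f := fun t => Real.sqrt (kk t) * wf t)
                (hkkc.sqrt.mul (by fun_prop)) hkkc.sqrt (h := gg)]
            intro t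
            rw [mul_right_comm, Real.mul_self_sqrt (hkk0 t), hwk t]
          have e : star (sk * sz) * wel * (sk * sz) = z := by
            rw [star_mul, (cfc_predicate _ _ : IsSelfAdjoint sz).star_eq,
              (cfc_predicate _ _ : IsSelfAdjoint sk).star_eq]
            calc sz * sk * wel * (sk * sz) = sz * (sk * wel * sk) * sz := by noncomm_ring
              _ = sz * cfc gg d * sz := by rw [e1]
              _ = sz * sz * cfc gg d := by rw [mul_assoc, mul_assoc, hcz.eq]
              _ = z := by rw [hsz, sqrt_mul _ continuous_zF fun t => (zF_mem t).1, hzg]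
          rw [if_pos (Subsingleton.elim i j), Fin.sum_univ_one, e, sub_self, norm_zero]
          exact hε.le⟩
    simpa using hm
  by_contra hcon
  push Not at hcon
  have hn : (0 : ℝ) ≤ 2 * n := by positivity
  have h3 : (2 * n : ℝ) * D e0 ≤ 2 * n * (1 / (2 * n + 1)) :=
    mul_le_mul_of_nonneg_left (hcon.trans (hzle.trans hwθ)) hn
  have h4 : 2 * (n : ℝ) * (1 / (2 * n + 1)) < 1 := by
    rw [mul_one_div, div_lt_one (by positivity)]; linarith
  linarith

end Leaf

end

end Vale.Agent.P095.Elem.CertAux
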