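import Vale.Agent.P095.Elem.Calc
import Vale.Agent.P101.Coord

/-!
# P095, elementary amenable groups: normalised blocks and iterated joins
-/

namespace Vale.Agent.P095.Elem.Calc

open VAgent.P101 Vale.Agent.P101
open scoped CStarAlgebra ComplexOrder

noncomputable section

variable {F : Type*} [CStarAlgebra F]

/-- `1 / √(max t c)`. -/
def kF (c : ℝ) (t : ℝ) : ℝ := 1 / Real.sqrt (max t c)

/-- `t / max t c`. -/
def hF (c : ℝ) (t : ℝ) : ℝ := t / max t c

theorem continuous_kF {c : ℝ} (hc : 0 < c) : Continuous (kF c) :=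
  continuous_const.div (by fun_prop) fun t => by positivity

theorem continuous_hF {c : ℝ} (hc : 0 < c) : Continuous (hF c) :=
  continuous_id.div (by fun_prop) fun _ => (lt_max_of_lt_right hc).ne'

theorem hF_eq_one {c t : ℝ} (hc : 0 < c) (h : c ≤ t) : hF c t = 1 := by
  rw [hF, max_eq_left h, div_self (hc.trans_le h).ne']

theorem hF_of_le {c t : ℝ} (h : t ≤ c) : hF c t = t / c := by rw [hF, max_eq_right h]

theorem kF_sq {c : ℝ} (hc : 0 < c) (t : ℝ) : kF c t * kF c t * t = hF c t := by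
  have hm : 0 < max t c := lt_max_of_lt_right hc
  rw [kF, hF, div_mul_div_comm, Real.mul_self_sqrt hm.le]
  ring

section Nrm

variable {y : F} (hy : y * y = 0) {c : ℝ} (hc : 0 < c)

/-- A normalised element of square zero. -/
def nrm (c : ℝ) (y : F) : F := y * cfc (kF c) (diagSum y)

include hy

theorem comm_diag (f : ℝ → ℝ) : Commute (cfc f (diagSum y)) y :=
  (commute_diagSum hy).cfc_real f

theorem comm_diag_star (f : ℝ → ℝ) : Commute (cfc f (diagSum y)) (star y) :=
  (commute_diagSum_star hy).cfc_real f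

theorem nrm_sq : nrm c y * nrm c y = 0 := by
  rw [nrm, mul_assoc, ← mul_assoc (cfc (kF c) (diagSum y)), (comm_diag hy _).eq, ← mul_assoc,
    ← mul_assoc, hy, zero_mul, zero_mul]

theorem nrm_star_mul : star (nrm c y) * nrm c y =
    star y * y * (cfc (kF c) (diagSum y) * cfc (kF c) (diagSum y)) := by
  have hk : star (cfc (kF c) (diagSum y)) = cfc (kF c) (diagSum y) :=
    (cfc_predicate _ _ : IsSelfAdjoint _).star_eq
  rw [nrm, star_mul, hk]
  have h1 := ((comm_diag_star hy (kF c)).mul_right (comm_diag hy (kF c))).eq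
  calc _ = cfc (kF c) (diagSum y) * (star y * y) * cfc (kF c) (diagSum y) := by noncomm_ring
    _ = _ := by rw [h1]; noncomm_ring

theorem nrm_mul_star : nrm c y * star (nrm c y) =
    y * star y * (cfc (kF c) (diagSum y) * cfc (kF c) (diagSum y)) := by
  have hk : star (cfc (kF c) (diagSum y)) = cfc (kF c) (diagSum y) :=
    (cfc_predicate _ _ : IsSelfAdjoint _).star_eq
  rw [nrm, star_mul, hk]
  have h1 := (comm_diag_star hy (kF c))
  calc _ = y * (cfc (kF c) (diagSum y) * cfc (kF c) (diagSum y) * star y) := by noncomm_ring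
    _ = _ := by rw [(h1.mul_left h1).eq]; noncomm_ring

include hc in
theorem diagSum_nrm : diagSum (nrm c y) = cfc (hF c) (diagSum y) := by
  have hsa := isSelfAdjoint_diagSum y
  rw [diagSum, nrm_star_mul hy, nrm_mul_star hy, ← add_mul, ← diagSum,
    cfc_mul_fun (diagSum y) (continuous_kF hc) (continuous_kF hc) (h := fun t => kF c t * kF c t)
      fun _ => rfl]
  conv_lhs => enter [1]; rw [← cfc_id ℝ (diagSum y)]
  exact cfc_mul_fun _ continuous_id ((continuous_kF hc).mul (continuous_kF hc)) fun t => by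
    rw [← kF_sq hc t, id]; ring

/-- The order zero map of a normalised element of square zero. -/
def nOZ (c : ℝ) : OZ 2 F :=
  letI := CStarAlgebra.spectralOrder F
  letI := CStarAlgebra.spectralOrderedRing F
  { x := unitTwo (nrm c y)
    x_star := unitTwo_star
    x_mul := unitTwo_mul (nrm_sq hy) }

include hc in
theorem nOZ_one' : (nOZ hy c).one' = cfc (hF c) (diagSum y) := by
  rw [← diagSum_nrm hy hc]
  simp [OZ.one', nOZ, unitTwo, diagSum, Fin.sum_univ_two]

theorem nOZ_commute {z : F} (h : Commute z y) (h' : Commute z (star y)) (i j : Fin 2) :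
    Commute ((nOZ hy c).x i j) z := by
  have hk : Commute z (cfc (kF c) (diagSum y)) :=
    (((h'.mul_right h).add_right (h.mul_right h')).symm.cfc_real _).symm
  have h1 : Commute z (nrm c y) := h.mul_right hk
  have h2 : Commute z (star (nrm c y)) := by
    rw [nrm, star_mul, (cfc_predicate _ _ : IsSelfAdjoint (cfc (kF c) (diagSum y))).star_eq]
    exact hk.mul_right h'
  exact (commute_unitTwo h1 h2 i j).symm

end Nrm

theorem AF_nOZ {σ : F →⋆ₐ[ℂ] F} {y : ℕ → F} (hy : ∀ n, y n * y n = 0) {c : ℝ} (hc : 0 < c)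
    (h : AF σ y) (i j : Fin 2) : AF σ fun n => (nOZ (hy n) c).x i j := by
  have hd : AF σ fun n => diagSum (y n) := (h.star.mul h).add (h.mul h.star)
  have hn : AF σ fun n => nrm c (y n) :=
    h.mul (hd.cfc (fun n => isSelfAdjoint_diagSum _) (continuous_kF hc))
  have hr : AF σ fun n => rootSum (nrm c (y n)) :=
    ((hn.star.mul hn).add (hn.mul hn.star)).cfc (fun n => isSelfAdjoint_diagSum _)
      Real.continuous_sqrt
  fin_cases i <;> fin_cases j
  · exact hn.star.mul hn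
  · exact hr.mul hn.star
  · exact hn.mul hr
  · exact hn.mul hn.star

theorem AF_one' {σ : F →⋆ₐ[ℂ] F} {A : ℕ → OZ 2 F} (h : ∀ i j, AF σ fun n => (A n).x i j) :
    AF σ fun n => (A n).one' :=
  AF.sum Finset.univ fun m _ => h m m

theorem AF_join {σ : F →⋆ₐ[ℂ] F} {A B : ℕ → OZ 2 F} {a : ℝ} (ha : 0 < a)
    (hAB : ∀ n, (A n).Comm (B n)) (hA : ∀ i j, AF σ fun n => (A n).x i j)
    (hB : ∀ i j, AF σ fun n => (B n).x i j) (i j : Fin 2) :
    AF σ fun n => (OZ.join ha (hAB n)).x i j := by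
  have he := fun f => AF.ev (AF_one' hA) f
  exact (((he _).mul (hA i j)).add ((he _).mul (hB i j))).add
    (AF.sum Finset.univ fun c _ => AF.sum Finset.univ fun c' _ =>
      (he _).mul ((hA _ _).mul (hB _ _)))

/-- The square of `qR`. -/
def gF (a t : ℝ) : ℝ := OZ.qR a t * OZ.qR a t

theorem continuous_gF (a : ℝ) : Continuous (gF a) := by unfold gF OZ.qR; fun_prop

theorem gF_mem (a t : ℝ) : 0 ≤ gF a t ∧ gF a t ≤ 1 := by
  have h0 : 0 ≤ OZ.qR a t := le_max_left _ _
  have h1 : OZ.qR a t ≤ 1 := max_le zero_le_one (min_le_left _ _)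
  exact ⟨mul_nonneg h0 h0, mul_le_one₀ h1 h0 h1⟩

theorem gF_eq_zero {a t : ℝ} (ha : 0 < a) (h : 3 * a ≤ t) : gF a t = 0 := by
  simp [gF, OZ.qR_eq_zero ha h]

/-- The complement of a leaf. -/
def comp (a : ℝ) (A : OZ 2 F) : F := cfc (gF a) A.one'

theorem join_one' {A B : OZ 2 F} {a : ℝ} (ha : 0 < a) (hAB : A.Comm B) :
    1 - (OZ.join ha hAB).one' = comp a A * (1 - B.one') := by
  rw [OZ.join_defect ha hAB, comp, ← map_mul,
    ev_ofReal A (OZ.qC a * OZ.qC a) (g := gF a) fun t => by simp [OZ.qC, gF]]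

theorem comp_comm {A : OZ 2 F} {y : F} (a : ℝ) (h : Commute A.one' y) : Commute (comp a A) y :=
  h.cfc_real _

theorem star_mul_x10 (A : OZ 2 F) : star (A.x 1 0) * A.x 1 0 = A.x 0 0 * A.one' := by
  rw [A.x_star, A.x_mul', if_pos rfl]

theorem x10_mul_star (A : OZ 2 F) : A.x 1 0 * star (A.x 1 0) = A.x 1 1 * A.one' := by
  rw [A.x_star, A.x_mul', if_pos rfl]

theorem x10_sq (A : OZ 2 F) : A.x 1 0 * A.x 1 0 = 0 := by
  rw [A.x_mul', if_neg (by decide)]

theorem one'_eq (A : OZ 2 F) : A.one' = A.x 0 0 + A.x 1 1 := by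
  simp [OZ.one', Fin.sum_univ_two]

theorem diagSum_x10 (A : OZ 2 F) : diagSum (A.x 1 0) = A.one' * A.one' := by
  rw [diagSum, star_mul_x10, x10_mul_star, ← add_mul, ← one'_eq]

section Ord

variable [PartialOrder F] [StarOrderedRing F]

theorem isPosC_comp (a : ℝ) (A : OZ 2 F) : 0 ≤ comp a A ∧ ‖comp a A‖ ≤ 1 :=
  ⟨cfc_nonneg fun t _ => (gF_mem a t).1, norm_cfc_le zero_le_one fun t _ => by
    rw [Real.norm_eq_abs, abs_of_nonneg (gF_mem a t).1]; exact (gF_mem a t).2⟩

/-- Joins along sequences of commuting families. -/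
theorem exists_joins {a : ℝ} (ha : 0 < a) :
    ∀ (M : ℕ) (A : ℕ → Fin M → OZ 2 F), (∀ n l l', l ≠ l' → (A n l).Comm (A n l')) →
      ∃ J : ℕ → OZ 2 F,
        (∀ n y, (∀ l i j, Commute ((A n l).x i j) y) → ∀ i j, Commute ((J n).x i j) y) ∧
        (∀ σ : F →⋆ₐ[ℂ] F, (∀ l i j, AF σ fun n => (A n l).x i j) →
          ∀ i j, AF σ fun n => (J n).x i j) ∧
        (∀ n, 0 ≤ 1 - (J n).one' ∧ ‖1 - (J n).one'‖ ≤ 1) ∧
        ∀ n l P, comp a (A n l) * P = 0 → (1 - (J n).one') * P = 0 := by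
  intro M
  induction M with
  | zero =>
    intro A _
    refine ⟨fun _ => OZ.zero, fun n y _ i j => Commute.zero_left y, fun _ _ i j => AF.zero,
      fun n => ?_, fun n l => l.elim0⟩
    rw [OZ.zero_one', sub_zero]
    refine ⟨zero_le_one, ?_⟩
    rcases subsingleton_or_nontrivial F with hF | hF
    · rw [Subsingleton.elim (1 : F) 0, norm_zero]; exact zero_le_one
    · rw [CStarRing.norm_one]
  | succ M ih =>
    intro A hA
    obtain ⟨J, hJc, hJAF, hJ1, hJk⟩ := ih (fun n l => A n l.succ)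
      (fun n l l' h => hA n _ _ fun e => h (Fin.succ_injective _ e))
    have hc : ∀ n, (A n 0).Comm (J n) := fun n i j k l =>
      (hJc n _ (fun m p q => hA n m.succ 0 (Fin.succ_ne_zero m) p q i j) k l).symm
    refine ⟨fun n => OZ.join ha (hc n), fun n y hy i j => ?_, fun σ hAF i j => ?_, fun n => ?_,
      fun n l P hP => ?_⟩
    · exact OZ.join_comm ha (hc n) (hy 0) (hJc n y fun m => hy m.succ) i j
    · exact AF_join ha hc (hAF 0) (hJAF σ fun l => hAF l.succ) i j
    · have hcm : Commute (comp a (A n 0)) (1 - (J n).one') :=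
        comp_comm a ((Commute.one_right _).sub_right (OZ.h_comm_T (hc n)))
      rw [join_one']
      exact ⟨hcm.mul_nonneg (isPosC_comp _ _).1 (hJ1 n).1, (norm_mul_le _ _).trans
        (mul_le_one₀ (isPosC_comp _ _).2 (norm_nonneg _) (hJ1 n).2)⟩
    · rw [join_one']
      refine Fin.cases ?_ (fun m hP => ?_) l hP
      · intro hP
        have hcm : Commute (comp a (A n 0)) (1 - (J n).one') :=
          comp_comm a ((Commute.one_right _).sub_right (OZ.h_comm_T (hc n)))
        rw [hcm.eq, mul_assoc, hP, mul_zero]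
      · rw [mul_assoc, hJk n m P hP, mul_zero]

theorem norm_x10_le (A : OZ 2 F) (h0 : 0 ≤ 1 - A.one') (h1 : ‖1 - A.one'‖ ≤ 1) :
    ‖A.x 1 0‖ ≤ 1 := by
  rcases subsingleton_or_nontrivial F with hF | hF
  · rw [Subsingleton.elim (A.x 1 0) 0, norm_zero]; exact zero_le_one
  have hle : 1 - A.one' ≤ 1 := (CStarAlgebra.norm_le_one_iff_of_nonneg _ h0).1 h1
  have ho : ‖A.one'‖ ≤ 1 :=
    (CStarAlgebra.norm_le_one_iff_of_nonneg _ (by simpa using hle)).2 (by simpa using h0)
  have hsa : IsSelfAdjoint (A.x 0 0) := A.x_star 0 0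
  have e : A.x 0 0 * A.x 0 0 = A.x 0 0 * A.one' := A.x_mul' 0 0 0 0 |>.trans (if_pos rfl)
  have h2 : ‖A.x 0 0‖ * ‖A.x 0 0‖ ≤ ‖A.x 0 0‖ := by
    calc _ = ‖A.x 0 0 * A.x 0 0‖ := by
          conv_rhs => rw [show A.x 0 0 * A.x 0 0 = star (A.x 0 0) * A.x 0 0 by rw [hsa.star_eq]]
          exact CStarRing.norm_star_mul_self.symm
      _ ≤ ‖A.x 0 0‖ * ‖A.one'‖ := by rw [e]; exact norm_mul_le _ _
      _ ≤ _ := mul_le_of_le_one_right (norm_nonneg _) ho
  have h3 : ‖A.x 0 0‖ ≤ 1 := by nlinarith [norm_nonneg (A.x 0 0)]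
  have h4 : ‖A.x 1 0‖ * ‖A.x 1 0‖ ≤ 1 := by
    rw [← CStarRing.norm_star_mul_self, star_mul_x10]
    exact (norm_mul_le _ _).trans (mul_le_one₀ h3 (norm_nonneg _) ho)
  nlinarith [norm_nonneg (A.x 1 0)]

end Ord

end

end Vale.Agent.P095.Elem.Calc
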