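import Vale.Agent.P095.Elem.Defs
import Vale.Agent.P095.Elem.Joins
import Vale.Agent.P101.Block

/-!
# P095, amenable groups: the slots of one leaf
-/

namespace Vale.Agent.P095.Elem.CertAux

open VAgent.P101 Vale.Agent.P101 Calc
open scoped CStarAlgebra ComplexOrder

noncomputable section

variable {F : Type*} [CStarAlgebra F]

theorem isPos_cfc (a : F) {f : ℝ → ℝ} (hf : Continuous f) (h0 : ∀ t, 0 ≤ f t) :
    IsPos (cfc f a) :=
  ⟨cfc (fun t => Real.sqrt (f t)) a, by
    rw [(cfc_predicate _ a : IsSelfAdjoint (cfc (fun t => Real.sqrt (f t)) a)).star_eq,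
      sqrt_mul a hf h0]⟩

theorem isPosC_cfc (a : F) {f : ℝ → ℝ} (hf : Continuous f) (h : ∀ t, 0 ≤ f t ∧ f t ≤ 1) :
    IsPosC (cfc f a) :=
  ⟨isPos_cfc a hf fun t => (h t).1, norm_cfc_le zero_le_one fun t _ => by
    rw [Real.norm_eq_abs, abs_of_nonneg (h t).1]; exact (h t).2⟩

theorem ramp_mem (A ε t : ℝ) : 0 ≤ ramp A ε t ∧ ramp A ε t ≤ 1 :=
  ⟨le_max_left _ _, max_le zero_le_one (min_le_left _ _)⟩

/-- The source function. -/
def qF (t : ℝ) : ℝ := 1 - ramp (1 / 16) (1 / 32) t

/-- The function of the middle source. -/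
def zF (t : ℝ) : ℝ := 1 - ramp (3 / 32) (1 / 32) t

theorem continuous_zF : Continuous zF := by unfold zF ramp; fun_prop

theorem zF_mem (t : ℝ) : 0 ≤ zF t ∧ zF t ≤ 1 := by
  have := ramp_mem (3 / 32) (1 / 32) t; unfold zF; constructor <;> linarith

theorem zF_one {t : ℝ} (h : t ≤ 3 / 32) : zF t = 1 := by
  rw [zF, ramp_of_le (by norm_num) h, sub_zero]

theorem zF_zero {t : ℝ} (h : 1 / 8 ≤ t) : zF t = 0 := by
  rw [zF, ramp_of_ge (by norm_num) (by linarith), sub_self]

/-- The function of the outer source. -/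
def qpF (t : ℝ) : ℝ := 1 - ramp (1 / 8) (1 / 8) t

/-- The range function. -/
def eF (t : ℝ) : ℝ := ramp (1 / 4) (1 / 4) t

/-- The inner range function. -/
def e0F (t : ℝ) : ℝ := ramp (1 / 2) (1 / 4) t

theorem continuous_qF : Continuous qF := by unfold qF ramp; fun_prop
theorem continuous_qpF : Continuous qpF := by unfold qpF ramp; fun_prop
theorem continuous_eF : Continuous eF := by unfold eF ramp; fun_prop
theorem continuous_e0F : Continuous e0F := by unfold e0F ramp; fun_prop

theorem qF_mem (t : ℝ) : 0 ≤ qF t ∧ qF t ≤ 1 := by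
  have := ramp_mem (1 / 16) (1 / 32) t; unfold qF; constructor <;> linarith

theorem qpF_mem (t : ℝ) : 0 ≤ qpF t ∧ qpF t ≤ 1 := by
  have := ramp_mem (1 / 8) (1 / 8) t; unfold qpF; constructor <;> linarith

theorem eF_mem (t : ℝ) : 0 ≤ eF t ∧ eF t ≤ 1 := ramp_mem _ _ t
theorem e0F_mem (t : ℝ) : 0 ≤ e0F t ∧ e0F t ≤ 1 := ramp_mem _ _ t

theorem eF_zero {t : ℝ} (h : t ≤ 1 / 4) : eF t = 0 := ramp_of_le (by norm_num) h
theorem eF_one {t : ℝ} (h : 1 / 2 ≤ t) : eF t = 1 := ramp_of_ge (by norm_num) (by linarith)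
theorem e0F_zero {t : ℝ} (h : t ≤ 1 / 2) : e0F t = 0 := ramp_of_le (by norm_num) h
theorem e0F_one {t : ℝ} (h : 3 / 4 ≤ t) : e0F t = 1 := ramp_of_ge (by norm_num) (by linarith)

theorem qF_one {t : ℝ} (h : t ≤ 1 / 16) : qF t = 1 := by
  rw [qF, ramp_of_le (by norm_num) h, sub_zero]

theorem qF_zero {t : ℝ} (h : 3 / 32 ≤ t) : qF t = 0 := by
  rw [qF, ramp_of_ge (by norm_num) (by linarith), sub_self]

theorem qpF_one {t : ℝ} (h : t ≤ 1 / 8) : qpF t = 1 := by
  rw [qpF, ramp_of_le (by norm_num) h, sub_zero]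

theorem qpF_zero {t : ℝ} (h : 1 / 4 ≤ t) : qpF t = 0 := by
  rw [qpF, ramp_of_ge (by norm_num) (by linarith), sub_self]

section Slots

variable {y : F} (hy : y * y = 0)
include hy

theorem orth : star y * y * (y * star y) = 0 := by
  rw [mul_assoc, ← mul_assoc y y, hy, zero_mul, mul_zero]

/-- Functions of the diagonal, multiplied with functions of `y* y`. -/
theorem diag_mul {f g : ℝ → ℝ} (hf : Continuous f) (hg : Continuous g) (h0 : f 0 = 0) :
    cfc g (diagSum y) * cfc f (star y * y) = cfc (fun t => g t * f t) (star y * y) :=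
  cfc_orth_mul (IsSelfAdjoint.star_mul_self y) (IsSelfAdjoint.mul_star_self y) (orth hy) hf hg h0

omit hy in
theorem qp_mul_q : cfc qpF (diagSum y) * cfc qF (diagSum y) = cfc qF (diagSum y) :=
  cfc_mul_fun _ continuous_qpF continuous_qF fun t => by
    rcases le_total t (1 / 8) with h | h
    · rw [qpF_one h, one_mul]
    · rw [qF_zero (by linarith), mul_zero]

theorem e_mul_qp : cfc eF (star y * y) * cfc qpF (diagSum y) = 0 := by
  have h : cfc qpF (diagSum y) * cfc eF (star y * y) = 0 := by
    rw [diag_mul hy continuous_eF continuous_qpF (eF_zero (by norm_num)), ← cfc_zero ℝ (star y * y)]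
    refine cfc_congr fun t _ => ?_
    rcases le_total t (1 / 4) with h | h
    · simp [eF_zero h]
    · simp [qpF_zero h]
  have h' := congrArg star h
  rwa [star_mul, star_zero, (cfc_predicate eF _ : IsSelfAdjoint (cfc eF (star y * y))).star_eq,
    (cfc_predicate qpF _ : IsSelfAdjoint (cfc qpF (diagSum y))).star_eq] at h'

theorem comp_nOZ : comp (1 / 12) (nOZ hy (1 / 4)) =
    cfc (fun t => gF (1 / 12) (hF (1 / 4) t)) (diagSum y) := by
  rw [comp, nOZ_one' hy (by norm_num), ← cfc_comp' (gF (1 / 12)) (hF (1 / 4)) (diagSum y)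
    (continuous_gF _).continuousOn
    (continuous_hF (by norm_num)).continuousOn (isSelfAdjoint_diagSum y)]

theorem comp_mul_e : comp (1 / 12) (nOZ hy (1 / 4)) * cfc eF (star y * y) = 0 := by
  rw [comp_nOZ hy, diag_mul hy continuous_eF (g := fun t => gF (1 / 12) (hF (1 / 4) t))
    ((continuous_gF _).comp (continuous_hF (by norm_num))) (eF_zero (by norm_num)),
    ← cfc_zero ℝ (star y * y)]
  refine cfc_congr fun t _ => ?_
  rcases le_total t (1 / 4) with h | h
  · simp [eF_zero h]
  · rw [hF_eq_one (by norm_num : (0 : ℝ) < 1 / 4) h, gF_eq_zero (a := 1 / 12) (t := 1)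
      (by norm_num) (by norm_num), zero_mul]; rfl

theorem comp_mul_q : comp (1 / 12) (nOZ hy (1 / 4)) * (1 - cfc qF (diagSum y)) = 0 := by
  have hsa := isSelfAdjoint_diagSum y
  have e : 1 - cfc qF (diagSum y) = cfc (fun t => 1 - qF t) (diagSum y) := by
    rw [cfc_sub (fun _ => (1 : ℝ)) qF _ (by fun_prop) continuous_qF.continuousOn,
      cfc_const_one ℝ (diagSum y)]
  rw [comp_nOZ hy, e]
  refine cfc_mul_zero _ ((continuous_gF _).comp (continuous_hF (by norm_num)))
    (continuous_const.sub continuous_qF) fun t => ?_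
  rcases le_total t (1 / 16) with h | h
  · simp [qF_one h]
  · have h3 : 3 * (1 / 12 : ℝ) ≤ hF (1 / 4) t := by
      rcases le_total t (1 / 4) with h' | h'
      · rw [hF_of_le h']; linarith
      · rw [hF_eq_one (by norm_num) h']; norm_num
    rw [gF_eq_zero (by norm_num) h3, zero_mul]

/-- The range element of the other corner is a conjugate of the first one. -/
theorem conj_e0 : nrm (1 / 4) y * cfc e0F (star y * y) * star (nrm (1 / 4) y) =
    cfc e0F (y * star y) := by
  set k := kF (1 / 4) with hk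
  have hkc : Continuous k := continuous_kF (by norm_num)
  have h0 : e0F 0 = 0 := e0F_zero (by norm_num)
  have hA := IsSelfAdjoint.star_mul_self y
  have hB := IsSelfAdjoint.mul_star_self y
  set f := fun t => k t * k t * e0F t with hf
  have hfc : Continuous f := (hkc.mul hkc).mul continuous_e0F
  have hf0 : f 0 = 0 := by simp [hf, h0]
  have hyB : y * cfc f (y * star y) = 0 :=
    kill_zero' hB hfc hf0 (by rw [← mul_assoc, hy, zero_mul])
  have hks : star (cfc k (diagSum y)) = cfc k (diagSum y) :=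
    (cfc_predicate _ _ : IsSelfAdjoint _).star_eq
  have e1 : cfc k (diagSum y) * cfc e0F (star y * y) * cfc k (diagSum y) =
      cfc f (star y * y) := by
    rw [diag_mul hy continuous_e0F hkc h0]
    have h1 := congrArg star
      (diag_mul hy (f := fun t => k t * e0F t) (g := k) (hkc.mul continuous_e0F) hkc (by simp [h0]))
    rw [star_mul, hks, (cfc_predicate _ _ : IsSelfAdjoint (cfc (fun t => k t * e0F t) _)).star_eq,
      (cfc_predicate _ _ : IsSelfAdjoint (cfc (fun t => k t * (k t * e0F t)) _)).star_eq] at h1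
    rw [h1]
    exact cfc_congr fun t _ => by simp [hf, mul_assoc]
  calc nrm (1 / 4) y * cfc e0F (star y * y) * star (nrm (1 / 4) y)
      = y * (cfc k (diagSum y) * cfc e0F (star y * y) * cfc k (diagSum y)) * star y := by
        rw [nrm, star_mul, hks]; noncomm_ring
    _ = y * cfc f (diagSum y) * star y := by
        rw [e1, diagSum, cfc_orth_add hA hB (orth hy) hfc hf0, mul_add, hyB, add_zero]
    _ = cfc f (diagSum y) * (y * star y) := by rw [← (comm_diag hy f).eq, mul_assoc]
    _ = cfc e0F (y * star y) := by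
        have h2 := cfc_orth_mul hB hA (by
          have := congrArg star (orth hy)
          simpa [star_mul, mul_assoc] using this) (f := id) (g := f) continuous_id hfc rfl
        rw [cfc_id ℝ (y * star y), add_comm] at h2
        rw [diagSum, h2]
        refine cfc_congr fun t _ => ?_
        have e3 : f t * id t = hF (1 / 4) t * e0F t := by
          rw [← kF_sq (by norm_num : (0 : ℝ) < 1 / 4) t, id]; simp only [hf, hk]; ring
        rw [e3]
        rcases le_total t (1 / 2) with h | h
        · simp [e0F_zero h]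
        · rw [hF_eq_one (by norm_num) (by linarith), one_mul]

end Slots

end

end Vale.Agent.P095.Elem.CertAux
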