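import Vale.Agent.P095.Elem.Tau

/-!
# P095, amenable groups: comparisons of the cuts of nearby self-adjoint elements

Functions of one element are compared by their supports; cuts of two elements are compared when
they differ by a number and an element of small dimension.
-/

namespace Vale.Agent.P095.Elem

open scoped CStarAlgebra
open VAgent.P101

noncomputable section

namespace Half

open Spec

variable {B : Type*} [CStarAlgebra B] (D : DimState B) {x y d e : B}

theorem val_sum_two (hx : IsPos x) (hy : IsPos y) (hxy : IsPos (x + y)) :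
    D (x + y) ≤ D x + D y := by
  have := D.mono (m := 1) (n := 2) (fun _ => x + y) ![x, y] (fun _ => hxy)
    (Fin.forall_fin_two.mpr ⟨by simpa using hx, by simpa using hy⟩)
    fun ε hε => ⟨fun _ _ => 1, fun i j => by
      rw [Subsingleton.elim i j, if_pos rfl]
      simp [Fin.sum_univ_two, hε.le]⟩
  simpa [Fin.sum_univ_two] using this

theorem isPos_cfc {f : ℝ → ℝ} (h : ∀ t, 0 ≤ f t) (x : B) : IsPos (cfc f x) := by
  let := CStarAlgebra.spectralOrder B
  have := CStarAlgebra.spectralOrderedRing B
  exact Spec.isPos_iff_le'.mpr (cfc_nonneg fun t _ => h t)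

/-- A function of `x` as a function on the spectrum of the algebra of `x`. -/
theorem cfc_eq_fval (hx : IsSelfAdjoint x) {f : ℝ → ℝ} (hf : Continuous f) :
    cfc f x = fval (jointHom (commSA_singleton hx))
      ⟨fun ω => f (coord (commSA_singleton hx) (x := x) rfl ω),
        hf.comp (coord (commSA_singleton hx) (x := x) rfl).continuous⟩ := by
  conv_lhs => arg 2; rw [← jointHom_coord (commSA_singleton hx) (x := x) rfl]
  exact cfc_fval _ _ hf

/-- Functions of one element compare by their supports. -/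
theorem val_cfc_le (hx : IsSelfAdjoint x) {f g : ℝ → ℝ} (hf : Continuous f) (hg : Continuous g)
    (hf0 : ∀ t, 0 ≤ f t) (hg0 : ∀ t, 0 ≤ g t) (h : ∀ t, |t| ≤ ‖x‖ → 0 < f t → 0 < g t) :
    D (cfc f x) ≤ D (cfc g x) := by
  rw [cfc_eq_fval hx hf, cfc_eq_fval hx hg]
  refine val_mono D _ (ContinuousMap.le_def.mpr fun ω => hf0 _)
    (ContinuousMap.le_def.mpr fun ω => hg0 _) fun ω hω => h _ ?_ hω
  refine (Complex.abs_re_le_norm _).trans ?_
  have := (gelfandTransform_isometry (Abel _ (commSA_singleton hx))).norm_map_of_map_zero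
    (map_zero _) (⟨x, mem_abel (commSA_singleton hx) rfl⟩ : Abel _ (commSA_singleton hx))
  refine le_trans ?_ this.le
  exact (WeakDual.gelfandTransform ℂ (Abel _ (commSA_singleton hx))
    ⟨x, mem_abel (commSA_singleton hx) rfl⟩).norm_coe_le_norm ω

theorem val_cfc_congr (hx : IsSelfAdjoint x) {f g : ℝ → ℝ} (hf : Continuous f) (hg : Continuous g)
    (hf0 : ∀ t, 0 ≤ f t) (hg0 : ∀ t, 0 ≤ g t) (h : ∀ t, |t| ≤ ‖x‖ → (0 < f t ↔ 0 < g t)) :
    D (cfc f x) = D (cfc g x) :=
  le_antisymm (val_cfc_le D hx hf hg hf0 hg0 fun t ht => (h t ht).1)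
    (val_cfc_le D hx hg hf hg0 hf0 fun t ht => (h t ht).2)

/-- Orthogonal functions of one element add up to at most one. -/
theorem val_cfc_add_le_one (hx : IsSelfAdjoint x) {f g : ℝ → ℝ} (hf : Continuous f)
    (hg : Continuous g) (hf0 : ∀ t, 0 ≤ f t) (hg0 : ∀ t, 0 ≤ g t)
    (h : ∀ t, |t| ≤ ‖x‖ → 0 < f t → g t = 0) : D (cfc f x) + D (cfc g x) ≤ 1 := by
  let F : C(WeakDual.characterSpace ℂ (Abel _ (commSA_singleton hx)), ℝ) :=
    ⟨fun ω => f (coord (commSA_singleton hx) (x := x) rfl ω),
      hf.comp (coord (commSA_singleton hx) (x := x) rfl).continuous⟩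
  let G : C(WeakDual.characterSpace ℂ (Abel _ (commSA_singleton hx)), ℝ) :=
    ⟨fun ω => g (coord (commSA_singleton hx) (x := x) rfl ω),
      hg.comp (coord (commSA_singleton hx) (x := x) rfl).continuous⟩
  have hF : 0 ≤ F := ContinuousMap.le_def.mpr fun ω => hf0 _
  have hG : 0 ≤ G := ContinuousMap.le_def.mpr fun ω => hg0 _
  rw [cfc_eq_fval hx hf, cfc_eq_fval hx hg]
  refine (val_le_add D (jointHom (commSA_singleton hx)) hF hG fun ω hω => h _ ?_ hω).trans
    (val_le_one D (isPos_fval _ (add_nonneg hF hG)))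
  refine (Complex.abs_re_le_norm _).trans ?_
  have := (gelfandTransform_isometry (Abel _ (commSA_singleton hx))).norm_map_of_map_zero
    (map_zero _) (⟨x, mem_abel (commSA_singleton hx) rfl⟩ : Abel _ (commSA_singleton hx))
  refine le_trans ?_ this.le
  exact (WeakDual.gelfandTransform ℂ (Abel _ (commSA_singleton hx))
    ⟨x, mem_abel (commSA_singleton hx) rfl⟩).norm_coe_le_norm ω

theorem cut_neg_eq (hx : IsSelfAdjoint x) (t : ℝ) :
    cut t (-x) = cfc (fun s : ℝ => max (-s - t) 0) x := by
  rw [cut, ← cfc_comp_neg (fun s : ℝ => max (s - t) 0) x]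

/-- Cuts of nearby elements: `x ≤ y + e + r`. -/
theorem val_cut_le_shift (hx : IsSelfAdjoint x) (hy : IsSelfAdjoint y) (he : IsPos e) {r s t : ℝ}
    (h : IsPos (y + e + algebraMap ℝ B r - x)) (hst : t + r < s) :
    D (cut s x) ≤ D (cut t y) + D e := by
  let := CStarAlgebra.spectralOrder B
  have := CStarAlgebra.spectralOrderedRing B
  let l : ℝ → ℝ := fun u => Real.sqrt (max (u - s) 0 / (max u s - (t + r)))
  have hpos : ∀ u, 0 < max u s - (t + r) := fun u => by linarith [le_max_right u s]
  have hlc : Continuous l := (((continuous_id.sub continuous_const).max continuous_const).div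
    ((continuous_id.max continuous_const).sub continuous_const) fun u => (hpos u).ne').sqrt
  have hl2 : ∀ u, l u * (u - (t + r)) * l u = max (u - s) 0 := fun u => by
    simp only [l]
    rw [mul_right_comm, Real.mul_self_sqrt (div_nonneg (le_max_right _ _) (hpos u).le)]
    rcases le_or_gt s u with hu | hu
    · rw [max_eq_left (a := u) hu, div_mul_cancel₀ _ (by linarith)]
    · rw [max_eq_right (a := u - s) (by linarith), zero_div, zero_mul]
  set w := cfc l x
  have hw : IsSelfAdjoint w := IsSelfAdjoint.cfc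
  have e1 : star w * (x - algebraMap ℝ B (t + r)) * w = cut s x := by
    rw [hw.star_eq, show x - algebraMap ℝ B (t + r) = cfc (fun u : ℝ => u - (t + r)) x by
        rw [cfc_sub .., cfc_id' ℝ x, cfc_const _ x],
      ← cfc_mul l _ x hlc.continuousOn (by fun_prop),
      ← cfc_mul (fun u => l u * (u - (t + r))) l x (by fun_prop) hlc.continuousOn]
    exact cfc_congr fun u _ => hl2 u
  have hle : x - algebraMap ℝ B (t + r) ≤ cut t y + e := by
    have h1 : x ≤ y + e + algebraMap ℝ B r := sub_nonneg.mp (Spec.isPos_iff_le'.mp h)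
    refine (sub_le_sub_right h1 _).trans ?_
    rw [show y + e + algebraMap ℝ B r - algebraMap ℝ B (t + r) = (y - algebraMap ℝ B t) + e by
      rw [map_add]; abel]
    refine add_le_add_left ?_ _
    rw [show y - algebraMap ℝ B t = cfc (fun u : ℝ => u - t) y by
        rw [cfc_sub .., cfc_id' ℝ y, cfc_const _ y], cut]
    exact cfc_mono fun u _ => le_max_left _ _
  have hc : IsPos (cut t y + e) := Spec.isPos_iff_le'.mpr
    (add_nonneg (Spec.isPos_iff_le'.mp (Spec.cut_isPos t y)) (Spec.isPos_iff_le'.mp he))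
  have hv : IsPos (star w * (cut t y + e) * w) :=
    Spec.isPos_iff_le'.mpr (star_left_conjugate_nonneg (Spec.isPos_iff_le'.mp hc) w)
  refine (val_le_of_sub D (Spec.cut_isPos s x) hv ?_).trans
    ((val_le_of_approx D hv hc fun ε hε => ⟨w, by rw [sub_self, norm_zero]; exact hε.le⟩).trans
      (val_sum_two D (Spec.cut_isPos t y) he hc))
  rw [← e1]
  exact Spec.isPos_iff_le'.mpr (sub_nonneg.mpr (star_left_conjugate_le_conjugate hle w))

/-- A self-adjoint element is below a number plus the excess of its modulus. -/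
theorem exists_excess (hd : IsSelfAdjoint d) {θ : ℝ} (hθ : 0 ≤ θ) :
    ∃ e : B, IsPos e ∧ (∀ D : DimState B, D e ≤ D (cut θ (star d * d))) ∧
      IsPos (e + algebraMap ℝ B (√θ) - d) ∧ IsPos (e + algebraMap ℝ B (√θ) + d) := by
  refine ⟨cfc (fun u : ℝ => max (|u| - √θ) 0) d, isPos_cfc (fun u => le_max_right _ _) d,
    fun D => ?_, ?_, ?_⟩
  · have e2 : cut θ (star d * d) = cfc (fun u : ℝ => max (u * u - θ) 0) d := by
      rw [hd.star_eq, cut, show d * d = cfc (fun u : ℝ => u * u) d by
          rw [cfc_mul .., cfc_id' ℝ d],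
        ← cfc_comp' (fun u : ℝ => max (u - θ) 0) (fun u : ℝ => u * u) d]
    rw [e2]
    refine val_cfc_le D hd (by fun_prop) (by fun_prop) (fun u => le_max_right _ _)
      (fun u => le_max_right _ _) fun u _ hu => lt_max_of_lt_left ?_
    have h1 : √θ < |u| := by
      rcases lt_max_iff.mp hu with h | h
      · linarith
      · exact absurd h (lt_irrefl _)
    nlinarith [Real.mul_self_sqrt hθ, Real.sqrt_nonneg θ, abs_mul_abs_self u]
  · rw [show cfc (fun u : ℝ => max (|u| - √θ) 0) d + algebraMap ℝ B (√θ) - d =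
        cfc (fun u : ℝ => max (|u| - √θ) 0 + √θ - u) d by
      rw [cfc_sub .., cfc_add .., cfc_const _ d, cfc_id' ℝ d]]
    exact isPos_cfc (fun u => by linarith [le_max_left (|u| - √θ) 0, le_abs_self u]) d
  · rw [show cfc (fun u : ℝ => max (|u| - √θ) 0) d + algebraMap ℝ B (√θ) + d =
        cfc (fun u : ℝ => max (|u| - √θ) 0 + √θ + u) d by
      rw [cfc_add .., cfc_add .., cfc_const _ d, cfc_id' ℝ d]]
    exact isPos_cfc (fun u => by linarith [le_max_left (|u| - √θ) 0, neg_abs_le u]) d

/-- Cuts of elements whose difference has small modulus outside a small set. -/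
theorem val_cut_le_of_diff (hx : IsSelfAdjoint x) (hy : IsSelfAdjoint y) {θ : ℝ} (hθ : 0 ≤ θ)
    {s t : ℝ} (hst : t + √θ < s) :
    D (cut s x) ≤ D (cut t y) + D (cut θ (star (x - y) * (x - y))) := by
  obtain ⟨e, he, hD, h1, -⟩ := exists_excess (hx.sub hy) hθ
  refine (val_cut_le_shift D hx hy he (r := √θ) ?_ hst).trans (add_le_add_right (hD D) _)
  rwa [show y + e + algebraMap ℝ B √θ - x = e + algebraMap ℝ B √θ - (x - y) by abel]

theorem val_cut_anti (hx : IsSelfAdjoint x) {a b : ℝ} (hab : a ≤ b) :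
    D (cut b x) ≤ D (cut a x) :=
  val_cfc_le D hx (by fun_prop) (by fun_prop) (fun _ => le_max_right _ _)
    (fun _ => le_max_right _ _) fun t _ ht => lt_max_of_lt_left (by
      rcases lt_max_iff.mp ht with h | h
      · linarith
      · exact absurd h (lt_irrefl _))

theorem val_cut_add_le_one (hx : IsSelfAdjoint x) {a b : ℝ} (ha : 0 ≤ a) (hb : 0 ≤ b) :
    D (cut a x) + D (cut b (-x)) ≤ 1 := by
  rw [cut_neg_eq hx, cut]
  refine val_cfc_add_le_one D hx (by fun_prop) (by fun_prop) (fun _ => le_max_right _ _)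
    (fun _ => le_max_right _ _) fun t _ ht => max_eq_right ?_
  rcases lt_max_iff.mp ht with h | h
  · linarith
  · exact absurd h (lt_irrefl _)

/-- The defect of a self-adjoint contraction is what the two high cuts leave. -/
theorem val_defect_le (hx : IsSelfAdjoint x) {θ t : ℝ} (ht : 0 ≤ t) (hθ : 1 - t * t ≤ θ) :
    D (cut θ (1 - x * x)) + (D (cut t x) + D (cut t (-x))) ≤ 1 := by
  have e1 : cut θ (1 - x * x) = cfc (fun u : ℝ => max (1 - u * u - θ) 0) x := by
    rw [cut, show 1 - x * x = cfc (fun u : ℝ => 1 - u * u) x by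
        rw [cfc_sub .., cfc_const_one ℝ x, cfc_mul .., cfc_id' ℝ x],
      ← cfc_comp' (fun u : ℝ => max (u - θ) 0) (fun u : ℝ => 1 - u * u) x]
  let hp : ℝ → ℝ := fun u => max (u - t) 0
  let hn : ℝ → ℝ := fun u => max (-u - t) 0
  have hsum : D (cut t x) + D (cut t (-x)) ≤ D (cfc (fun u => hp u + hn u) x) := by
    rw [cut_neg_eq hx, cut, cfc_eq_fval hx (by fun_prop : Continuous fun u : ℝ => max (u - t) 0),
      cfc_eq_fval hx (by fun_prop : Continuous fun u : ℝ => max (-u - t) 0),
      cfc_eq_fval hx (by fun_prop : Continuous fun u => hp u + hn u)]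
    refine (val_le_add D _ (ContinuousMap.le_def.mpr fun ω => le_max_right _ _)
      (ContinuousMap.le_def.mpr fun ω => le_max_right _ _) fun ω hω => max_eq_right ?_).trans
      (le_of_eq ?_)
    · rcases lt_max_iff.mp hω with h | h
      · linarith
      · exact absurd h (lt_irrefl _)
    · rfl
  rw [e1]
  refine (add_le_add_right hsum _).trans (val_cfc_add_le_one D hx (by fun_prop) (by fun_prop)
    (fun _ => le_max_right _ _) (fun u => add_nonneg (le_max_right _ _) (le_max_right _ _))
    fun u _ hu => ?_)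
  have h1 : u * u < t * t := by
    rcases lt_max_iff.mp hu with h | h
    · linarith
    · exact absurd h (lt_irrefl _)
  have h2 : |u| < t := by nlinarith [abs_nonneg u, abs_mul_abs_self u]
  simp only [hp, hn]
  rw [max_eq_right (by linarith [le_abs_self u]), max_eq_right (by linarith [neg_abs_le u]),
    add_zero]

end Half

end

end Vale.Agent.P095.Elem
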