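import Vale.Agent.P095.Elem.Defs

/-!
# P095, amenable groups: orbit algebras and equivariant copies

Membership in orbit algebras, the action restricted to one of them, and finitely many equivariant
copies all of whose translates commute.
-/

namespace Vale.Agent.P095.Elem

open VAgent.P101
open scoped CStarAlgebra

noncomputable section

namespace Half

variable {F : Type*} [CStarAlgebra F] {G : Type*} [Group G] {β : G →* (F ≃⋆ₐ[ℂ] F)}
  {T T₀ : Finset F}

theorem act_act (g h : G) (x : F) : β g (β h x) = β (g * h) x := by rw [map_mul]; rfl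

theorem act_one (x : F) : β 1 x = x := by rw [map_one]; rfl

theorem act_inv_act (g : G) (x : F) : β g⁻¹ (β g x) = x := by
  rw [act_act, inv_mul_cancel, act_one]

theorem act_mem_orbAlg_of_mem (g : G) {t : F} (ht : t ∈ T) : β g t ∈ OrbAlg β T :=
  StarSubalgebra.le_topologicalClosure _ (StarAlgebra.subset_adjoin ℂ _ ⟨g, t, ht, rfl⟩)

theorem mem_orbAlg {t : F} (ht : t ∈ T) : t ∈ OrbAlg β T := by
  simpa [act_one] using act_mem_orbAlg_of_mem (β := β) (1 : G) ht

/-- An orbit algebra is contained in every closed star subalgebra which contains the orbit. -/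
theorem orbAlg_le {S : StarSubalgebra ℂ F} (hS : IsClosed (S : Set F))
    (h : ∀ (g : G), ∀ t ∈ T, β g t ∈ S) : OrbAlg β T ≤ S :=
  StarSubalgebra.topologicalClosure_minimal (StarAlgebra.adjoin_le (by
    rintro y ⟨g, t, ht, rfl⟩
    exact h g t ht)) hS

theorem orbAlg_mono (h : T₀ ⊆ T) : OrbAlg β T₀ ≤ OrbAlg β T :=
  orbAlg_le (orbAlg_isClosed β T) fun g _ ht => act_mem_orbAlg_of_mem g (h ht)

theorem act_mem_orbAlg (g : G) {x : F} (hx : x ∈ OrbAlg β T) : β g x ∈ OrbAlg β T := by
  have h : OrbAlg β T ≤ (OrbAlg β T).comap (β g : F →⋆ₐ[ℂ] F) := by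
    refine orbAlg_le ((orbAlg_isClosed β T).preimage (map_continuous (β g))) fun k t ht => ?_
    show β g (β k t) ∈ OrbAlg β T
    rw [act_act]
    exact act_mem_orbAlg_of_mem (g * k) ht
  exact h hx

/-- The action on an orbit algebra. -/
def orbShift (β : G →* (F ≃⋆ₐ[ℂ] F)) (T : Finset F) (g : G) :
    OrbAlg β T →⋆ₐ[ℂ] OrbAlg β T :=
  ((β g : F →⋆ₐ[ℂ] F).comp (OrbAlg β T).subtype).codRestrict (OrbAlg β T)
    fun x => act_mem_orbAlg g x.2

@[simp] theorem coe_orbShift (g : G) (x : OrbAlg β T) :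
    (orbShift β T g x : F) = β g (x : F) := rfl

theorem orbShift_one (x : OrbAlg β T) : orbShift β T 1 x = x :=
  Subtype.ext (act_one (x : F))

/-- An equivariant map out of an orbit algebra. -/
def Equivariant (φ : OrbAlg β T₀ →⋆ₐ[ℂ] F) : Prop :=
  ∀ (g : G) (x y : OrbAlg β T₀), (y : F) = β g (x : F) → φ y = β g (φ x)

theorem Equivariant.shift {φ : OrbAlg β T₀ →⋆ₐ[ℂ] F} (h : Equivariant φ) (g : G)
    (x : OrbAlg β T₀) : φ (orbShift β T₀ g x) = β g (φ x) := h g x _ rfl

/-- The range of an equivariant map lies in any orbit algebra containing the images of the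
generators. -/
theorem Equivariant.mem_orbAlg {φ : OrbAlg β T₀ →⋆ₐ[ℂ] F} (h : Equivariant φ)
    (hT : ∀ t (ht : t ∈ T₀), φ ⟨t, Half.mem_orbAlg ht⟩ ∈ OrbAlg β T) (x : OrbAlg β T₀) :
    φ x ∈ OrbAlg β T := by
  have hclosed : IsClosed {y : OrbAlg β T₀ | φ y ∈ OrbAlg β T} :=
    (orbAlg_isClosed β T).preimage (map_continuous φ)
  have key : ∀ a (ha : a ∈ StarAlgebra.adjoin ℂ (orbit β T₀)),
      φ ⟨a, StarSubalgebra.le_topologicalClosure _ ha⟩ ∈ OrbAlg β T := by
    intro a ha
    induction ha using StarAlgebra.adjoin_induction with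
    | mem a ha =>
      obtain ⟨g, t, ht, rfl⟩ := ha
      rw [h g ⟨t, Half.mem_orbAlg ht⟩ _ rfl]
      exact act_mem_orbAlg g (hT t ht)
    | algebraMap c =>
      rw [show (⟨algebraMap ℂ F c, _⟩ : OrbAlg β T₀) = algebraMap ℂ (OrbAlg β T₀) c from rfl,
        AlgHomClass.commutes φ c]
      exact algebraMap_mem (OrbAlg β T) c
    | add a b ha' hb' iha ihb =>
      have := add_mem iha ihb
      rwa [← map_add] at this
    | mul a b ha' hb' iha ihb =>
      have := mul_mem iha ihb
      rwa [← map_mul] at this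
    | star a ha' iha =>
      have := star_mem iha
      rwa [← map_star] at this
  obtain ⟨a, ha⟩ := x
  refine hclosed.closure_subset ?_
  rw [Topology.IsInducing.subtypeVal.closure_eq_preimage_closure_image]
  refine closure_mono ?_ ha
  intro b hb
  exact ⟨⟨b, StarSubalgebra.le_topologicalClosure _ hb⟩, key b hb, rfl⟩

/-- Corestriction of an equivariant map to an orbit algebra. -/
def orbLift (T : Finset F) (φ : OrbAlg β T₀ →⋆ₐ[ℂ] F) (h : Equivariant φ)
    (hT : ∀ t (ht : t ∈ T₀), φ ⟨t, Half.mem_orbAlg ht⟩ ∈ OrbAlg β T) :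
    OrbAlg β T₀ →⋆ₐ[ℂ] OrbAlg β T :=
  φ.codRestrict (OrbAlg β T) (h.mem_orbAlg hT)

@[simp] theorem coe_orbLift (T : Finset F) (φ : OrbAlg β T₀ →⋆ₐ[ℂ] F) (h : Equivariant φ)
    (hT : ∀ t (ht : t ∈ T₀), φ ⟨t, Half.mem_orbAlg ht⟩ ∈ OrbAlg β T) (x : OrbAlg β T₀) :
    (orbLift T φ h hT x : F) = φ x := rfl

/-- An element commuting with the images of the generators of an equivariant map, and with all
their translates, commutes with the range. -/
theorem Equivariant.commute_range {φ : OrbAlg β T₀ →⋆ₐ[ℂ] F} (h : Equivariant φ) (z : F)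
    (hz : ∀ (g : G) (t : F) (ht : t ∈ T₀), Commute z (β g (φ ⟨t, Half.mem_orbAlg ht⟩)) ∧
      Commute z (star (β g (φ ⟨t, Half.mem_orbAlg ht⟩)))) (x : OrbAlg β T₀) :
    Commute z (φ x) := by
  have hclosed : IsClosed {y : OrbAlg β T₀ | Commute z (φ y)} :=
    isClosed_eq (continuous_const.mul (map_continuous φ)) ((map_continuous φ).mul continuous_const)
  have key : ∀ a (ha : a ∈ StarAlgebra.adjoin ℂ (orbit β T₀)),
      Commute z (φ ⟨a, StarSubalgebra.le_topologicalClosure _ ha⟩) ∧
        Commute z (star (φ ⟨a, StarSubalgebra.le_topologicalClosure _ ha⟩)) := by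
    intro a ha
    induction ha using StarAlgebra.adjoin_induction with
    | mem a ha =>
      obtain ⟨g, t, ht, rfl⟩ := ha
      rw [h g ⟨t, Half.mem_orbAlg ht⟩ _ rfl]
      exact hz g t ht
    | algebraMap c =>
      rw [show (⟨algebraMap ℂ F c, _⟩ : OrbAlg β T₀) = algebraMap ℂ (OrbAlg β T₀) c from rfl,
        AlgHomClass.commutes φ c, ← algebraMap_star_comm]
      exact ⟨Algebra.commute_algebraMap_right c z, Algebra.commute_algebraMap_right _ z⟩
    | add a b ha' hb' iha ihb =>
      have h1 := iha.1.add_right ihb.1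
      have h2 := iha.2.add_right ihb.2
      rw [← star_add] at h2
      rw [← map_add] at h1 h2
      exact ⟨h1, h2⟩
    | mul a b ha' hb' iha ihb =>
      have h1 := iha.1.mul_right ihb.1
      have h2 := ihb.2.mul_right iha.2
      rw [← star_mul] at h2
      rw [← map_mul] at h1 h2
      exact ⟨h1, h2⟩
    | star a ha' iha =>
      have h1 := iha.2
      have h2 : Commute z (star (star (φ ⟨a, StarSubalgebra.le_topologicalClosure _ ha'⟩))) := by
        rw [star_star]; exact iha.1
      rw [← map_star] at h1 h2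
      exact ⟨h1, h2⟩
  obtain ⟨a, ha⟩ := x
  refine hclosed.closure_subset ?_
  rw [Topology.IsInducing.subtypeVal.closure_eq_preimage_closure_image]
  refine closure_mono ?_ ha
  intro b hb
  exact ⟨⟨b, StarSubalgebra.le_topologicalClosure _ hb⟩, (key b hb).1, rfl⟩

/-- Finitely many equivariant copies commuting with all translates of a finite set and of each
other. -/
theorem exists_orbCopies (hd : Dyn β) (T₀ S : Finset F) (n : ℕ) :
    ∃ φ : Fin n → (OrbAlg β T₀ →⋆ₐ[ℂ] F), (∀ i, Equivariant (φ i)) ∧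
      (∀ i, ∀ g : G, ∀ z ∈ S, ∀ x, Commute (β g z) (φ i x)) ∧
      ∀ i j, i ≠ j → ∀ x y, Commute (φ i x) (φ j y) := by
  classical
  induction n with
  | zero => exact ⟨Fin.elim0, fun i => i.elim0, fun i => i.elim0, fun i => i.elim0⟩
  | succ n ih =>
    obtain ⟨φ, he, hS, hc⟩ := ih
    obtain ⟨ψ, hψe, hψ⟩ := hd.copies T₀ (S ∪ Finset.univ.biUnion fun i : Fin n =>
      T₀.attach.biUnion fun t =>
        {φ i ⟨t.1, mem_orbAlg t.2⟩, star (φ i ⟨t.1, mem_orbAlg t.2⟩)})
    have tr : ∀ (g : G) (z : F), (∀ x, Commute z (ψ x)) → ∀ x, Commute (β g z) (ψ x) := by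
      intro g z hz x
      have e : ψ x = β g (ψ (orbShift β T₀ g⁻¹ x)) := by
        rw [hψe g⁻¹ x _ (coe_orbShift g⁻¹ x), act_act, mul_inv_cancel, act_one]
      rw [e]
      exact (hz _).map (β g)
    have hnew : ∀ i x y, Commute (φ i x) (ψ y) := by
      intro i x y
      refine ((he i).commute_range (ψ y) (fun g t ht => ⟨?_, ?_⟩) x).symm
      · refine (tr g _ (fun x => hψ _ ?_ x) y).symm
        refine Finset.mem_union_right _ (Finset.mem_biUnion.2 ⟨i, Finset.mem_univ _, ?_⟩)
        exact Finset.mem_biUnion.2 ⟨⟨t, ht⟩, Finset.mem_attach _ _, by simp⟩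
      · rw [← map_star]
        refine (tr g _ (fun x => hψ _ ?_ x) y).symm
        refine Finset.mem_union_right _ (Finset.mem_biUnion.2 ⟨i, Finset.mem_univ _, ?_⟩)
        exact Finset.mem_biUnion.2 ⟨⟨t, ht⟩, Finset.mem_attach _ _, by simp⟩
    refine ⟨Fin.cons ψ φ, ?_, ?_, ?_⟩
    · intro i
      refine Fin.cases ?_ (fun k => ?_) i
      · rw [Fin.cons_zero]; exact hψe
      · rw [Fin.cons_succ]; exact he k
    · intro i g z hz x
      refine Fin.cases ?_ (fun k => ?_) i
      · rw [Fin.cons_zero]; exact tr g z (fun y => hψ z (Finset.mem_union_left _ hz) y) x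
      · rw [Fin.cons_succ]; exact hS k g z hz x
    · intro i j hij x y
      revert hij
      refine Fin.cases ?_ (fun k => ?_) i <;> refine Fin.cases ?_ (fun l => ?_) j
      · exact fun h => absurd rfl h
      · intro _; simpa using (hnew l y x).symm
      · intro _; simpa using hnew k x y
      · intro h; simpa using hc k l (by simpa using h) x y

/-- Copies in the sense of P101. -/
theorem hasCopies_of_dyn (hd : Dyn β) : HasCopies F := by
  intro T S
  obtain ⟨φ, -, hφ⟩ := hd.copies T S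
  refine ⟨φ.comp (StarSubalgebra.inclusion ?_), fun z hz x => hφ z hz _⟩
  exact StarSubalgebra.topologicalClosure_minimal (StarAlgebra.adjoin_le fun t ht => mem_orbAlg ht)
    (orbAlg_isClosed β T)

end Half

end

end Vale.Agent.P095.Elem
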