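import Vale.Agent.P095.Elem.Quot
import Vale.Agent.P095.Elem.OrbTools
import Vale.Agent.P095.Elem.HalfCmp

/-!
# P095, amenable groups: bounds at all states pass to large orbit algebras

If a bound on a cut holds at every dimension state of `F`, a slightly weaker one holds at every
dimension state of all orbit algebras of large enough finite sets: otherwise the bad states of the
orbit algebras have a limit state on `F`.
-/

namespace Vale.Agent.P095.Elem

open VAgent.P101 Filter
open scoped CStarAlgebra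

noncomputable section

namespace Half

variable {F : Type*} [CStarAlgebra F] {G : Type*} [Group G] {β : G →* (F ≃⋆ₐ[ℂ] F)}

theorem coe_cut {T : Finset F} {y : OrbAlg β T} (hy : IsSelfAdjoint y) (t : ℝ) :
    ((cut t y : OrbAlg β T) : F) = cut t (y : F) :=
  coe_cfc y hy _ (by fun_prop)

/-- The inclusion of orbit algebras. -/
def orbInclusion (β : G →* (F ≃⋆ₐ[ℂ] F)) {T T' : Finset F} (h : T ⊆ T') :
    OrbAlg β T →⋆ₐ[ℂ] OrbAlg β T' :=
  ((OrbAlg β T).subtype).codRestrict _ fun x => orbAlg_mono h x.2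

theorem coe_orbInclusion {T T' : Finset F} (h : T ⊆ T') (x : OrbAlg β T) :
    (orbInclusion β h x : F) = x :=
  StarAlgHom.coe_codRestrict (OrbAlg β T).subtype (OrbAlg β T') (fun x => orbAlg_mono h x.2) x

variable (D : ∀ T : Finset F, DimState (OrbAlg β T))

/-- The filter of large finite sets. -/
def largeSets : Ultrafilter (Finset F) := by
  classical exact Ultrafilter.of atTop

theorem eventually_mem (a : F) :
    ∀ᶠ T in (largeSets : Ultrafilter (Finset F)), a ∈ OrbAlg β T := by
  classical
  have h : ∀ᶠ T in (largeSets : Ultrafilter (Finset F)), ({a} : Finset F) ≤ T :=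
    Ultrafilter.of_le atTop (eventually_ge_atTop ({a} : Finset F))
  exact h.mono fun T hT => mem_orbAlg (hT (Finset.mem_singleton_self a))

open Classical in
/-- The value of a cut in one orbit algebra. -/
def cutVal (T : Finset F) (t : ℝ) (x : F) : ℝ :=
  if h : x ∈ OrbAlg β T then D T (cut t ⟨x, h⟩) else 0

theorem cutVal_nonneg (T : Finset F) (t : ℝ) (x : F) : 0 ≤ cutVal D T t x := by
  unfold cutVal; split_ifs
  · exact Spec.val_nonneg (D T) (Spec.cut_isPos _ _)
  · exact le_rfl

theorem cutVal_le_one (T : Finset F) (t : ℝ) (x : F) : cutVal D T t x ≤ 1 := by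
  unfold cutVal; split_ifs
  · exact val_le_one (D T) (Spec.cut_isPos _ _)
  · exact zero_le_one

theorem cutVal_cut {x : F} (hx : IsSelfAdjoint x) {s : ℝ} (hs : 0 ≤ s) (t : ℝ) {T : Finset F}
    (h : x ∈ OrbAlg β T) : cutVal D T s (cut t x) = cutVal D T (t + s) x := by
  have hxs : IsSelfAdjoint (⟨x, h⟩ : OrbAlg β T) := Subtype.ext hx.star_eq
  have e : (cut t x : F) = ((cut t (⟨x, h⟩ : OrbAlg β T) : OrbAlg β T) : F) :=
    (coe_cut hxs t).symm
  have hm : cut t x ∈ OrbAlg β T := e ▸ SetLike.coe_mem _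
  rw [cutVal, dif_pos hm, cutVal, dif_pos h,
    show (⟨cut t x, hm⟩ : OrbAlg β T) = cut t ⟨x, h⟩ from Subtype.ext e, DQ.cut_cut hxs hs]

theorem cutVal_anti {x : F} (hx : IsSelfAdjoint x) {s t : ℝ} (hst : s ≤ t) (T : Finset F) :
    cutVal D T t x ≤ cutVal D T s x := by
  unfold cutVal; split_ifs with h
  · exact val_cut_anti (D T) (Subtype.ext hx.star_eq) hst
  · exact le_rfl

/-- The eventual lower bounds. -/
def lowerSet (x : F) : Set ℝ :=
  {c | ∃ t : ℝ, 0 < t ∧ ∀ᶠ T in (largeSets : Ultrafilter (Finset F)), c ≤ cutVal D T t x}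

theorem zero_mem_lowerSet (x : F) : (0 : ℝ) ∈ lowerSet D x :=
  ⟨1, one_pos, Eventually.of_forall fun T => cutVal_nonneg D T _ x⟩

theorem bddAbove_lowerSet (x : F) : BddAbove (lowerSet D x) := ⟨1, by
  rintro c ⟨t, -, hc⟩
  obtain ⟨T, hT⟩ := hc.exists
  exact hT.trans (cutVal_le_one D T t x)⟩

/-- The value of the limit. -/
def limVal (x : F) : ℝ := sSup (lowerSet D x)

theorem le_limVal {x : F} {c t : ℝ} (ht : 0 < t)
    (h : ∀ᶠ T in (largeSets : Ultrafilter (Finset F)), c ≤ cutVal D T t x) : c ≤ limVal D x :=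
  le_csSup (bddAbove_lowerSet D x) ⟨t, ht, h⟩

theorem exists_eventually {x : F} {ε : ℝ} (hε : 0 < ε) :
    ∃ t : ℝ, 0 < t ∧
      ∀ᶠ T in (largeSets : Ultrafilter (Finset F)), limVal D x - ε ≤ cutVal D T t x := by
  obtain ⟨c, ⟨t, ht, hc⟩, hlt⟩ := exists_lt_of_lt_csSup ⟨0, zero_mem_lowerSet D x⟩
    (show limVal D x - ε < limVal D x by linarith)
  exact ⟨t, ht, hc.mono fun T hT => hlt.le.trans hT⟩

theorem limVal_le {x : F} {c : ℝ}
    (h : ∀ t : ℝ, 0 < t → ∀ᶠ T in (largeSets : Ultrafilter (Finset F)), cutVal D T t x ≤ c) :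
    limVal D x ≤ c := by
  refine csSup_le ⟨0, zero_mem_lowerSet D x⟩ ?_
  rintro d ⟨t, ht, hd⟩
  obtain ⟨T, h1, h2⟩ := (hd.and (h t ht)).exists
  exact h1.trans h2

/-- The limit of states of the orbit algebras of large sets is a dimension state. -/
def limOrbState : DimState F where
  val := limVal D
  one := by
    refine le_antisymm (limVal_le D fun t _ => Eventually.of_forall fun T => cutVal_le_one D T t _)
      (le_limVal D (t := 1 / 2) (by norm_num) (Eventually.of_forall fun T => ?_))
    rw [cutVal, dif_pos (one_mem _), show (⟨1, one_mem _⟩ : OrbAlg β T) = 1 from rfl]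
    refine le_trans (le_of_eq (D T).one.symm) ?_
    refine val_le_of_approx (D T) ⟨1, by simp⟩ (Spec.cut_isPos _ _) fun ε hε =>
      ⟨algebraMap ℝ (OrbAlg β T) (√2), ?_⟩
    have e : cut (1 / 2) (1 : OrbAlg β T) = algebraMap ℝ (OrbAlg β T) (1 / 2) := by
      rw [cut, cfc_apply_one]
      norm_num
    rw [e, ← algebraMap_star_comm, star_trivial, ← map_mul, ← map_mul]
    refine le_trans (le_of_eq ?_) hε.le
    rw [show (√2 * (1 / 2) * √2 : ℝ) = 1 by
      rw [mul_right_comm, Real.mul_self_sqrt zero_le_two]; norm_num, map_one, sub_self, norm_zero]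
  mono := by
    intro m n x y hx hy hxy
    refine le_of_forall_pos_le_add fun ε hε => ?_
    set ε' := ε / (m + n + 1) with hε'
    have hε'0 : 0 < ε' := by positivity
    choose t ht htx using fun i => exists_eventually D (x := x i) hε'0
    obtain ⟨t0, ht0, ht0le⟩ : ∃ t0 : ℝ, 0 < t0 ∧ ∀ i, t0 ≤ t i := by
      refine ⟨(1 + ∑ i, (t i)⁻¹)⁻¹, inv_pos.2 (add_pos_of_pos_of_nonneg one_pos
        (Finset.sum_nonneg fun i _ => (inv_pos.2 (ht i)).le)), fun i => inv_le_of_inv_le₀ (ht i) ?_⟩
      linarith [Finset.single_le_sum (f := fun i => (t i)⁻¹) (fun j _ => (inv_pos.2 (ht j)).le)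
        (Finset.mem_univ i)]
    set err := t0 / (2 * ((m : ℝ) * m + 1)) with herr
    have herr0 : 0 < err := by positivity
    obtain ⟨v, hv⟩ := hxy (err / 2) (by positivity)
    set V := ∑ k, ∑ i, ∑ j, ‖v k i‖ * ‖v k j‖ with hV
    have hV0 : 0 ≤ V := by positivity
    set s := err / (2 * (V + 1)) with hs
    have hs0 : 0 < s := by positivity
    have hyk : ∀ k, ∀ᶠ T in (largeSets : Ultrafilter (Finset F)),
        cutVal D T s (y k) ≤ limVal D (y k) + ε' := fun k => by
      by_contra h
      rw [← Ultrafilter.eventually_not] at h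
      have := le_limVal D (c := limVal D (y k) + ε') hs0 (h.mono fun T hT => (not_le.mp hT).le)
      linarith
    have hev : ∀ᶠ T in (largeSets : Ultrafilter (Finset F)),
        (∀ i, x i ∈ OrbAlg β T ∧ limVal D (x i) - ε' ≤ cutVal D T (t i) (x i)) ∧
        (∀ k, y k ∈ OrbAlg β T ∧ cutVal D T s (y k) ≤ limVal D (y k) + ε') ∧
        ∀ k i, v k i ∈ OrbAlg β T :=
      (eventually_all.2 fun i => (eventually_mem (x i)).and (htx i)).and
        ((eventually_all.2 fun k => (eventually_mem (y k)).and (hyk k)).and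
          (eventually_all.2 fun k => eventually_all.2 fun i => eventually_mem (v k i)))
    obtain ⟨T, hTx, hTy, hTv⟩ := hev.exists
    let := CStarAlgebra.spectralOrder (OrbAlg β T)
    have := CStarAlgebra.spectralOrderedRing (OrbAlg β T)
    let X : Fin m → OrbAlg β T := fun i => ⟨x i, (hTx i).1⟩
    let Y : Fin n → OrbAlg β T := fun k => ⟨y k, (hTy k).1⟩
    have hXs : ∀ i, IsSelfAdjoint (X i) := fun i => Subtype.ext (Spec.sa_of_isPos (hx i)).star_eq
    have hYs : ∀ k, IsSelfAdjoint (Y k) := fun k => Subtype.ext (Spec.sa_of_isPos (hy k)).star_eq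
    have eX : ∀ i, ((cut 0 (X i) : OrbAlg β T) : F) = x i := fun i => by
      rw [coe_cut (hXs i)]; exact (ppart_of_isPos (hx i)).1
    have eX' : ∀ i, cut 0 (X i) = X i := fun i => Subtype.ext (eX i)
    have key : TupLe (fun i => cut t0 (X i)) fun k => cut s (Y k) := by
      refine DQ.tupLe_of_approx (fun i => ?_) (fun k => DQ.cut_nonneg _ _)
        (fun k i => ⟨v k i, hTv k i⟩) (err := err) ?_ ht0 fun i j => ?_
      · rw [← eX' i]; exact DQ.cut_nonneg _ _
      · rw [herr, mul_div_assoc', div_lt_iff₀ (by positivity)]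
        nlinarith [show (0 : ℝ) ≤ (m : ℝ) * m by positivity]
      · show ‖((∑ k, star (⟨v k i, hTv k i⟩ : OrbAlg β T) * cut s (Y k) * ⟨v k j, hTv k j⟩ -
          if i = j then X i else 0 : OrbAlg β T) : F)‖ ≤ err
        have e : ((if i = j then X i else 0 : OrbAlg β T) : F) = if i = j then x i else 0 := by
          split_ifs <;> rfl
        simp only [AddSubgroupClass.coe_sub, AddSubmonoidClass.coe_finsetSum, MulMemClass.coe_mul,
          StarMemClass.coe_star, e, coe_cut (hYs _)]
        have hd : ∀ k, ‖cut s (y k) - y k‖ ≤ s := fun k => by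
          let := CStarAlgebra.spectralOrder F
          have := CStarAlgebra.spectralOrderedRing F
          conv_lhs => arg 1; arg 2; rw [← cfc_id' ℝ (y k) (Spec.sa_of_isPos (hy k))]
          rw [cut, ← cfc_sub (fun u : ℝ => max (u - s) 0) (fun u : ℝ => u) (y k)]
          refine norm_cfc_le hs0.le fun u hu => ?_
          have hu0 := spectrum_nonneg_of_nonneg (Spec.isPos_iff_le'.mp (hy k)) hu
          rw [Real.norm_eq_abs, abs_le]
          constructor <;> cases max_cases (u - s) 0 <;> linarith
        rw [show (∑ k, star (v k i) * cut s ((Y k : F)) * v k j) - (if i = j then x i else 0) =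
          ((∑ k, star (v k i) * y k * v k j) - if i = j then x i else 0) +
            ∑ k, star (v k i) * (cut s (y k) - y k) * v k j by
          simp only [mul_sub, sub_mul, Finset.sum_sub_distrib, Y]; abel]
        refine (norm_add_le _ _).trans ((add_le_add (hv i j) ((norm_sum_le _ _).trans
          (Finset.sum_le_sum fun k _ => (norm_mul₃_le).trans
            (mul_le_mul_of_nonneg_right (mul_le_mul_of_nonneg_left (hd k) (norm_nonneg _))
              (norm_nonneg _))))).trans ?_)
        have h1 : ∑ k, ‖star (v k i)‖ * s * ‖v k j‖ ≤ V * s := by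
          rw [hV, Finset.sum_mul]
          refine Finset.sum_le_sum fun k _ => ?_
          rw [norm_star, mul_right_comm]
          refine mul_le_mul_of_nonneg_right (le_trans ?_ (Finset.single_le_sum
            (f := fun i => ∑ j, ‖v k i‖ * ‖v k j‖) (fun _ _ => by positivity)
            (Finset.mem_univ i))) hs0.le
          exact Finset.single_le_sum (f := fun j => ‖v k i‖ * ‖v k j‖) (fun _ _ => by positivity)
            (Finset.mem_univ j)
        have h2 : V * s ≤ err / 2 := by
          rw [hs, mul_div_assoc', div_le_div_iff₀ (by positivity) two_pos]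
          nlinarith
        linarith
    have hsum := (D T).mono _ _ (fun i => Spec.cut_isPos _ _) (fun k => Spec.cut_isPos _ _) key
    have hl : ∑ i, limVal D (x i) ≤ ∑ i, D T (cut t0 (X i)) + m * ε' := by
      rw [← sub_le_iff_le_add, show (m : ℝ) * ε' = ∑ _i : Fin m, ε' by simp,
        ← Finset.sum_sub_distrib]
      refine Finset.sum_le_sum fun i _ => (hTx i).2.trans ((cutVal_anti D
        (Spec.sa_of_isPos (hx i)) (ht0le i) T).trans (le_of_eq ?_))
      rw [cutVal, dif_pos (hTx i).1]
    have hr : ∑ k, D T (cut s (Y k)) ≤ ∑ k, limVal D (y k) + n * ε' := by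
      rw [show (n : ℝ) * ε' = ∑ _k : Fin n, ε' by simp, ← Finset.sum_add_distrib]
      refine Finset.sum_le_sum fun k _ => le_trans (le_of_eq ?_) (hTy k).2
      rw [cutVal, dif_pos (hTy k).1]
    have h3 : (m : ℝ) * ε' + n * ε' ≤ ε := by
      rw [← add_mul, hε', mul_div_assoc', div_le_iff₀ (by positivity)]
      nlinarith
    linarith
  lsc := by
    intro x hx ε hε
    obtain ⟨t, ht, h⟩ := exists_eventually D (x := x) hε
    refine ⟨t / 2, by positivity, le_limVal D (t := t / 2) (by positivity) ?_⟩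
    filter_upwards [h, eventually_mem (β := β) x] with T hT hm
    rwa [cutVal_cut D (Spec.sa_of_isPos hx) (by positivity) _ hm, add_halves]

omit D

theorem bad_family {x : F} {t : ℝ} (hx : IsSelfAdjoint x) {P : ℝ → Prop}
    (h : ∀ W : Finset F, ∃ T : Finset F, W ⊆ T ∧ ∃ y : OrbAlg β T, (y : F) = x ∧
      ∃ D : DimState (OrbAlg β T), P (D (cut t y))) (T₀ : Finset F) :
    ∃ D : DimState (OrbAlg β T₀), ∀ hm : x ∈ OrbAlg β T₀, P (D (cut t ⟨x, hm⟩)) := by
  obtain ⟨T, hT, y, hy, D, hD⟩ := h T₀
  refine ⟨DQ.comap D (orbInclusion β hT), fun hm => ?_⟩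
  have hxs : IsSelfAdjoint (⟨x, hm⟩ : OrbAlg β T₀) := Subtype.ext hx.star_eq
  show P (D (orbInclusion β hT (cut t ⟨x, hm⟩)))
  rw [show orbInclusion β hT (cut t ⟨x, hm⟩) = cut t y from Subtype.ext ?_]
  · exact hD
  · have hys : IsSelfAdjoint y := Subtype.ext (by rw [StarMemClass.coe_star, hy]; exact hx.star_eq)
    rw [coe_orbInclusion, coe_cut hxs, coe_cut hys, hy]

/-- An upper bound at every state of `F` holds in all large orbit algebras. -/
theorem exists_cert_le {x : F} (hx : IsSelfAdjoint x) {t s c c' : ℝ} (hts : t < s) (hc : c < c')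
    (h : ∀ D : DimState F, D (cut t x) ≤ c) :
    ∃ W : Finset F, x ∈ W ∧ ∀ T : Finset F, W ⊆ T → ∀ y : OrbAlg β T, (y : F) = x →
      ∀ D : DimState (OrbAlg β T), D (cut s y) ≤ c' := by
  classical
  by_contra hcon
  push Not at hcon
  have hbad : ∀ W : Finset F, ∃ T : Finset F, W ⊆ T ∧ ∃ y : OrbAlg β T, (y : F) = x ∧
      ∃ D : DimState (OrbAlg β T), c' < D (cut s y) := fun W => by
    obtain ⟨T, hT, hrest⟩ := hcon (insert x W) (Finset.mem_insert_self x W)
    exact ⟨T, (Finset.subset_insert x W).trans hT, hrest⟩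
  choose D hD using bad_family (t := s) (P := fun r => c' < r) hx hbad
  have h1 : c' ≤ limOrbState D (cut t x) := by
    refine le_limVal D (t := s - t) (by linarith) ((eventually_mem (β := β) x).mono fun T hm => ?_)
    rw [cutVal_cut D hx (by linarith) _ hm, add_sub_cancel, cutVal, dif_pos hm]
    exact (hD T hm).le
  linarith [h (limOrbState D)]

/-- A lower bound at every state of `F` holds in all large orbit algebras. -/
theorem exists_cert_ge {x : F} (hx : IsSelfAdjoint x) {t s c c' : ℝ} (hts : t ≤ s) (hc : c < c')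
    (h : ∀ D : DimState F, c' ≤ D (cut s x)) :
    ∃ W : Finset F, x ∈ W ∧ ∀ T : Finset F, W ⊆ T → ∀ y : OrbAlg β T, (y : F) = x →
      ∀ D : DimState (OrbAlg β T), c ≤ D (cut t y) := by
  classical
  by_contra hcon
  push Not at hcon
  have hbad : ∀ W : Finset F, ∃ T : Finset F, W ⊆ T ∧ ∃ y : OrbAlg β T, (y : F) = x ∧
      ∃ D : DimState (OrbAlg β T), D (cut t y) < c := fun W => by
    obtain ⟨T, hT, hrest⟩ := hcon (insert x W) (Finset.mem_insert_self x W)
    exact ⟨T, (Finset.subset_insert x W).trans hT, hrest⟩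
  choose D hD using bad_family (t := t) (P := fun r => r < c) hx hbad
  have h1 : limOrbState D (cut s x) ≤ c := by
    refine limVal_le D fun u hu => (eventually_mem (β := β) x).mono fun T hm => ?_
    rw [cutVal_cut D hx hu.le _ hm]
    refine (cutVal_anti D hx (by linarith : t ≤ s + u) T).trans ?_
    rw [cutVal, dif_pos hm]
    exact (hD T hm).le
  linarith [h (limOrbState D)]

end Half

end

end Vale.Agent.P095.Elem
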