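import Vale.Agent.P095.Elem.CuntzDim

/-!
# P095, amenable groups: Cuntz toolkit, dimension states, comparison (helper5)
-/

namespace Vale.Agent.P095.Elem

open VAgent.P101 CuntzAux
open scoped CStarAlgebra

noncomputable section

attribute [local instance] CStarAlgebra.spectralOrder CStarAlgebra.spectralOrderedRing

variable {F B : Type*} [CStarAlgebra F] [CStarAlgebra B]

/-! ### Positive elements and cuts -/

theorem IsPos.isSelfAdjoint {x : F} (hx : IsPos x) : IsSelfAdjoint x :=
  .of_nonneg (isPos_iff.1 hx)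

theorem isPos_iff_nonneg {A : Type*} [CStarAlgebra A] [PartialOrder A] [StarOrderedRing A]
    {x : A} : IsPos x ↔ 0 ≤ x :=
  CStarAlgebra.nonneg_iff_eq_star_mul_self.symm

theorem isPos_star_mul_self (x : F) : IsPos (star x * x) := ⟨x, rfl⟩

theorem isPos_one : IsPos (1 : F) := ⟨1, by simp⟩

theorem isPos_zero : IsPos (0 : F) := ⟨0, by simp⟩

theorem IsPos.conj {x : F} (hx : IsPos x) (v : F) : IsPos (star v * x * v) :=
  isPos_iff.2 (star_left_conjugate_nonneg (isPos_iff.1 hx) v)

theorem IsPos.add {x y : F} (hx : IsPos x) (hy : IsPos y) : IsPos (x + y) :=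
  isPos_iff.2 (add_nonneg (isPos_iff.1 hx) (isPos_iff.1 hy))

theorem IsPos.mul {x y : F} (hx : IsPos x) (hy : IsPos y) (h : Commute x y) :
    IsPos (x * y) :=
  isPos_iff.2 (h.mul_nonneg (isPos_iff.1 hx) (isPos_iff.1 hy))

theorem IsPos.sum {ι : Type*} (s : Finset ι) (x : ι → F) (hx : ∀ i, IsPos (x i)) :
    IsPos (∑ i ∈ s, x i) :=
  isPos_iff.2 (Finset.sum_nonneg fun i _ => isPos_iff.1 (hx i))

theorem IsPos.map {x : F} (hx : IsPos x) (φ : F →⋆ₐ[ℂ] B) : IsPos (φ x) := by
  obtain ⟨c, rfl⟩ := hx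
  exact ⟨φ c, by rw [map_mul, map_star]⟩

theorem isPos_cut (ε : ℝ) (x : F) : IsPos (cut ε x) := isPos_iff.2 (cut_nonneg ε x)

theorem norm_cut_sub_le {x : F} (hx : IsPos x) {ε : ℝ} (hε : 0 ≤ ε) : ‖cut ε x - x‖ ≤ ε :=
  norm_cut_sub (isPos_iff.1 hx) hε

theorem cut_cut {x : F} (hx : IsSelfAdjoint x) {a b : ℝ} (ha : 0 ≤ a) :
    cut a (cut b x) = cut (a + b) x :=
  cut_cut_eq ha hx

theorem cut_zero {x : F} (hx : IsPos x) : cut 0 x = x := by
  rw [← sub_eq_zero, ← norm_le_zero_iff]
  exact norm_cut_sub_le hx le_rfl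

theorem map_cut (φ : F →⋆ₐ[ℂ] B) {x : F} (hx : IsSelfAdjoint x) (ε : ℝ) :
    φ (cut ε x) = cut ε (φ x) :=
  StarAlgHomClass.map_cfc φ (fun t : ℝ => max (t - ε) 0) x
    (Continuous.continuousOn (by fun_prop)) (map_continuous φ) hx (hx.map φ)

/-! ### Cuntz subequivalence -/

/-- Cuntz subequivalence of single elements. -/
def Cle (x y : F) : Prop := ∀ ε : ℝ, 0 < ε → ∃ v : F, ‖star v * y * v - x‖ ≤ ε

theorem gle_one_iff {x y : F} : GLe (fun _ : Fin 1 => x) (fun _ : Fin 1 => y) ↔ Cle x y := by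
  refine forall₂_congr fun ε _ => ⟨?_, ?_⟩
  · rintro ⟨v, hv, -⟩
    exact ⟨v 0 0, by simpa using hv 0⟩
  · rintro ⟨v, hv⟩
    exact ⟨fun _ _ => v, fun i => by simpa using hv,
      fun i j h => absurd (Subsingleton.elim i j) h⟩

theorem tupLe_one_iff {x y : F} : TupLe ![x] ![y] ↔ Cle x y := by
  rw [tupLe_iff, ← gle_one_iff]
  have e : ∀ z : F, ![z] = fun _ : Fin 1 => z := fun z => funext fun i => by fin_cases i; rfl
  rw [e, e]

theorem cle_refl (x : F) : Cle x x := fun ε hε => ⟨1, by simpa using hε.le⟩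

theorem Cle.trans {x y z : F} (h : Cle x y) (h' : Cle y z) : Cle x z :=
  gle_one_iff.1 ((gle_one_iff.2 h).trans (gle_one_iff.2 h'))

theorem TupLe.trans {l m n : ℕ} {x : Fin l → F} {y : Fin m → F} {z : Fin n → F}
    (h : TupLe x y) (h' : TupLe y z) : TupLe x z :=
  tupLe_iff.2 ((tupLe_iff.1 h).trans (tupLe_iff.1 h'))

theorem TupLe.append {l m l' m' : ℕ} {x : Fin l → F} {y : Fin m → F} {x' : Fin l' → F}
    {y' : Fin m' → F} (h : TupLe x y) (h' : TupLe x' y') :
    TupLe (Fin.append x x') (Fin.append y y') := by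
  have h2 := ((tupLe_iff.1 h).sum (tupLe_iff.1 h')).reindex finSumFinEquiv.symm
    finSumFinEquiv.symm.injective finSumFinEquiv
  refine tupLe_iff.2 ?_
  convert h2 using 1 <;> funext i <;> induction i using Fin.addCases <;> simp

theorem cle_conj (v y : F) : Cle (star v * y * v) y := fun ε hε => ⟨v, by simpa using hε.le⟩

theorem cle_of_le {x y : F} (hx : IsPos x) (h : IsPos (y - x)) : Cle x y := fun _ε hε =>
  cle_aux_of_le (isPos_iff.1 hx) (sub_nonneg.1 (isPos_iff.1 h)) hε

theorem cle_one {x : F} (hx : IsPos x) : Cle x 1 :=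
  gle_one_iff.1 (gle_const_one fun _ : Fin 1 => (⟨x, hx⟩ : Pos F))

theorem cle_star_mul_self (x : F) : Cle (star x * x) (x * star x) := by
  intro ε hε
  set a := star x * x with ha
  have h0 : 0 ≤ a := star_mul_self_nonneg x
  have hsa : IsSelfAdjoint a := .of_nonneg h0
  set k := cfc (dF ε) a
  refine ⟨x * k, ?_⟩
  have e : star (x * k) * (x * star x) * (x * k) - a =
      cfc (fun t => dF ε t * (t * t) * dF ε t - t) a := by
    have hd := continuous_dF hε
    rw [cfc_sub (fun t => dF ε t * (t * t) * dF ε t) (fun t => t) a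
      (((hd.mul (continuous_id'.mul continuous_id')).mul hd).continuousOn) continuousOn_id,
      ← cfc_mul3 hsa (dF ε) (fun t => t * t) (dF ε) hd (by fun_prop) hd,
      cfc_mul (fun t : ℝ => t) (fun t : ℝ => t) a continuousOn_id continuousOn_id, cfc_id' ℝ a,
      star_mul, show star k = k from sa_cfc _ _, ha]
    noncomm_ring
  rw [e]
  refine norm_cfc_le hε.le fun t ht => ?_
  have ht0 := spec_nonneg h0 ht
  have h4 : 0 < t + ε := by linarith
  rw [show dF ε t * (t * t) * dF ε t = t * (dF ε t * t * dF ε t) by ring, dF_eq hε ht0,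
    show t * (t / (t + ε)) - t = -(t * ε / (t + ε)) by field_simp; ring,
    Real.norm_eq_abs, abs_neg, abs_of_nonneg (by positivity), div_le_iff₀ h4]
  nlinarith

theorem cut_cle {x : F} (hx : IsPos x) {ε : ℝ} (hε : 0 ≤ ε) : Cle (cut ε x) x := by
  refine cle_of_le (isPos_cut _ _) (isPos_iff.2 (sub_nonneg.2 ?_))
  exact (cut_anti hx.isSelfAdjoint hε).trans_eq (cut_zero hx)

theorem gle_perm_one {x : F} {ι : Type*} [Fintype ι] [Subsingleton ι] (i : ι) :
    GLe (fun _ : ι => x) (fun _ : Fin 1 => x) :=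
  GLe.of_inj (fun _ : Fin 1 => x) (fun _ : ι => 0) fun a b _ => Subsingleton.elim a b

/-- `‖a - b‖ < ε` gives `(a - ε)_+ ≾ b`. -/
theorem cut_cle_of_near {a b : F} (ha : IsSelfAdjoint a) (hb : IsPos b) {ε : ℝ}
    (h : ‖a - b‖ < ε) : Cle (cut ε a) b := fun _η hη =>
  near_approx ha (isPos_iff.1 hb) h hη

/-- Exact form, with a left unit: if `a` is close to `x*x`, then `(a - ε)_+ = W*W` with `W` in
the closure of `x F`. -/
theorem exists_cut_eq {a X : F} (ha : IsSelfAdjoint a) {ε : ℝ} (h : ‖a - star X * X‖ < ε) :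
    ∃ W : F, star W * W = cut ε a ∧ ∀ k : F, k * X = X → k * W = W :=
  exists_cut_root ha h

/-- An exact witness from one approximate witness. -/
theorem exists_eq_of_near {x y : F} (hx : IsSelfAdjoint x) (hy : IsPos y) (v : F) {ε : ℝ}
    (h : ‖star v * y * v - x‖ < ε) : ∃ w : F, star w * y * w = cut ε x := by
  have hy0 := isPos_iff.1 hy
  have hya : IsSelfAdjoint y := .of_nonneg hy0
  set η := (ε - ‖star v * y * v - x‖) / (2 * (‖v‖ ^ 2 + 1)) with hη
  have hη0 : 0 < η := div_pos (sub_pos.2 h) (by positivity)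
  let sf : ℝ → ℝ := fun t => Real.sqrt (max (t - η) 0)
  have hsf : Continuous sf := by fun_prop
  set X := cfc sf y * v with hX
  have hXX : star X * X = star v * cut η y * v := by
    rw [hX, star_mul, show star (cfc sf y) = cfc sf y from sa_cfc _ _, mul_assoc,
      ← mul_assoc (cfc sf y), ← cfc_mul sf sf y hsf.continuousOn hsf.continuousOn, cut,
      cfc_congr (f := fun t => sf t * sf t) (g := fun t => max (t - η) 0) fun t _ =>
        Real.mul_self_sqrt (le_max_right _ _), mul_assoc]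
  have hnear : ‖x - star X * X‖ < ε := by
    rw [hXX, norm_sub_rev]
    refine lt_of_le_of_lt (norm_sub_le_norm_sub_add_norm_sub _ (star v * y * v) _) ?_
    have h1 : ‖star v * cut η y * v - star v * y * v‖ ≤ ‖v‖ * η * ‖v‖ := by
      rw [← sub_mul, ← mul_sub]
      refine norm_mul₃_le.trans ?_
      rw [norm_star]
      gcongr
      exact norm_cut_sub_le hy hη0.le
    have h2 : η * (2 * (‖v‖ ^ 2 + 1)) = ε - ‖star v * y * v - x‖ := by
      rw [hη, div_mul_cancel₀]; positivity
    nlinarith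
  obtain ⟨W, hW, hkW⟩ := exists_cut_eq hx hnear
  let kf : ℝ → ℝ := fun t => Real.sqrt (max t 0) / max t η
  let hf : ℝ → ℝ := fun t => max t 0 / max t η
  have hkf : Continuous kf :=
    (by fun_prop : Continuous fun t : ℝ => Real.sqrt (max t 0)).div (by fun_prop)
      fun t => (lt_max_of_lt_right hη0).ne'
  have hhf : Continuous hf :=
    (by fun_prop : Continuous fun t : ℝ => max t 0).div (by fun_prop)
      fun t => (lt_max_of_lt_right hη0).ne'
  have hhX : cfc hf y * X = X := by
    rw [hX, ← mul_assoc, ← cfc_mul hf sf y hhf.continuousOn hsf.continuousOn]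
    congr 1
    refine cfc_congr fun t _ => ?_
    simp only [hf, sf]
    rcases le_or_gt t η with ht | ht
    · simp [max_eq_right (show t - η ≤ 0 by linarith)]
    · rw [max_eq_left (by linarith : (0 : ℝ) ≤ t), max_eq_left ht.le,
        div_self (by linarith), one_mul]
  refine ⟨cfc kf y * W, ?_⟩
  have e1 : cfc kf y * y * cfc kf y = cfc hf y * cfc hf y := by
    rw [← cfc_mul hf hf y hhf.continuousOn hhf.continuousOn]
    conv_lhs => enter [1, 2]; rw [← cfc_id' ℝ y hya]
    rw [cfc_mul3 hya kf (fun t => t) kf hkf continuous_id hkf]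
    refine cfc_congr fun t ht => ?_
    have ht0 := spec_nonneg hy0 ht
    simp only [kf, hf]
    rw [max_eq_left ht0, div_mul_eq_mul_div, div_mul_div_comm,
      mul_right_comm (Real.sqrt t) t, Real.mul_self_sqrt ht0, div_mul_div_comm]
  calc star (cfc kf y * W) * y * (cfc kf y * W) = star W * (cfc kf y * y * cfc kf y) * W := by
        rw [star_mul, show star (cfc kf y) = cfc kf y from sa_cfc _ _]; noncomm_ring
    _ = star (cfc hf y * W) * (cfc hf y * W) := by
        rw [e1, star_mul, show star (cfc hf y) = cfc hf y from sa_cfc _ _]; noncomm_ring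
    _ = _ := by rw [hkW _ hhX, hW]

/-- An exact witness from a subequivalence. -/
theorem Cle.exists_eq {x y : F} (hx : IsSelfAdjoint x) (hy : IsPos y) (h : Cle x y) {ε : ℝ}
    (hε : 0 < ε) : ∃ v : F, star v * y * v = cut ε x := by
  obtain ⟨v, hv⟩ := h (ε / 2) (half_pos hε)
  exact exists_eq_of_near hx hy v (lt_of_le_of_lt hv (by linarith))

theorem fullSet_of_cle {x y : F} (h : Cle x y) (hx : FullSet ({x} : Set F)) :
    FullSet ({y} : Set F) := by
  refine hx.approx fun z hz ε hε => ?_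
  obtain rfl := Set.mem_singleton_iff.1 hz
  obtain ⟨v, hv⟩ := h ε hε
  exact ⟨_, TwoSidedIdeal.mul_mem_right _ _ _ (TwoSidedIdeal.mul_mem_left _ _ _
    (TwoSidedIdeal.subset_span (Set.mem_singleton y))), by rwa [norm_sub_rev]⟩

/-- Finitely many copies of a full positive element dominate the unit. -/
theorem exists_gle_one {e : F} (he : IsPos e) (h : FullSet ({e} : Set F)) :
    ∃ n : ℕ, GLe (fun _ : Fin 1 => (1 : F)) fun _ : Fin n => e := by
  obtain ⟨n, a, b, f, hf, hsum⟩ := h.exists_sum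
  have he' : ∀ i, f i = e := fun i => Set.mem_singleton_iff.1 (hf i)
  simp only [he'] at hsum
  set s := cfc Real.sqrt e with hs
  have hss : s * s = e := sqrt_mul (isPos_iff.1 he)
  have hsa : star s = s := sa_cfc _ _
  let u : Fin n → F := fun i => a i * s
  let w : Fin n → F := fun i => s * b i
  have h1 : ∑ i, u i * w i = 1 := by
    rw [← hsum]; refine Finset.sum_congr rfl fun i _ => ?_
    simp only [u, w]; rw [← hss]; noncomm_ring
  set C := (n : ℝ) * (∑ i, ‖u i‖ ^ 2) + 1 with hC
  have hC0 : 0 ≤ C := by positivity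
  have hle : (1 : F) ≤ ∑ i, star (Real.sqrt C • b i) * e * (Real.sqrt C • b i) := by
    have h2 : (n : ℝ) • ∑ i, star (u i * w i) * (u i * w i) -
        star (∑ i, u i * w i) * (∑ i, u i * w i) =
        (2⁻¹ : ℝ) • ∑ i, ∑ j, star (u i * w i - u j * w j) * (u i * w i - u j * w j) := by
      set p : Fin n → F := fun i => u i * w i
      have e2 : ∑ i, ∑ j, star (p i - p j) * (p i - p j) =
          (2 : ℝ) • ((n : ℝ) • ∑ i, star (p i) * p i - star (∑ i, p i) * ∑ i, p i) := by
        simp only [star_sub, sub_mul, mul_sub, Finset.sum_sub_distrib, ← Finset.mul_sum,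
          Finset.sum_const, Finset.card_univ, Fintype.card_fin, ← Finset.sum_mul, ← star_sum,
          mul_smul_comm, ← Finset.smul_sum, Nat.cast_smul_eq_nsmul ℝ, two_smul]
        abel
      change _ = (2⁻¹ : ℝ) • ∑ i, ∑ j, star (p i - p j) * (p i - p j)
      rw [e2, smul_smul, inv_mul_cancel₀ two_ne_zero, one_smul]
    have h3 : (1 : F) ≤ (n : ℝ) • ∑ i, star (u i * w i) * (u i * w i) := by
      rw [← sub_nonneg]
      have : (1 : F) = star (∑ i, u i * w i) * ∑ i, u i * w i := by rw [h1]; simp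
      conv_rhs => enter [2]; rw [this]
      rw [h2]
      exact smul_nonneg (by norm_num) (Finset.sum_nonneg fun i _ => Finset.sum_nonneg fun j _ =>
        star_mul_self_nonneg _)
    refine h3.trans ?_
    rw [Finset.smul_sum]
    refine Finset.sum_le_sum fun i _ => ?_
    have h4 : star (u i) * u i ≤ algebraMap ℝ F (‖u i‖ ^ 2) :=
      CStarAlgebra.star_mul_le_algebraMap_norm_sq
    have h5 : star (u i * w i) * (u i * w i) ≤ (‖u i‖ ^ 2) • (star (b i) * e * b i) := by
      have := star_left_conjugate_le_conjugate h4 (w i)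
      convert this using 1
      · rw [star_mul]; noncomm_ring
      · simp only [w, Algebra.algebraMap_eq_smul_one, mul_smul_comm, smul_mul_assoc, mul_one,
          star_mul, hsa]
        rw [← hss]; noncomm_ring
    calc (n : ℝ) • (star (u i * w i) * (u i * w i))
        ≤ (n : ℝ) • ((‖u i‖ ^ 2) • (star (b i) * e * b i)) :=
          smul_le_smul_of_nonneg_left h5 (Nat.cast_nonneg n)
      _ ≤ C • (star (b i) * e * b i) := by
          rw [smul_smul]
          refine smul_le_smul_of_nonneg_right ?_ (star_left_conjugate_nonneg (isPos_iff.1 he) _)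
          rw [hC]
          have := Finset.single_le_sum (f := fun i => ‖u i‖ ^ 2) (fun i _ => sq_nonneg _)
            (Finset.mem_univ i)
          nlinarith [Nat.cast_nonneg (α := ℝ) n]
      _ = _ := by
          rw [star_smul, star_trivial (Real.sqrt C), smul_mul_assoc, smul_mul_assoc, mul_smul_comm, smul_smul,
            Real.mul_self_sqrt hC0]
  refine ⟨n, fun η hη => ?_⟩
  obtain ⟨d, hd⟩ := cle_aux_of_le zero_le_one hle hη
  refine ⟨fun k _ => (Real.sqrt C • b k) * d, fun i => ?_,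
    fun i j hij => absurd (Subsingleton.elim i j) hij⟩
  refine le_of_eq_of_le (congrArg (fun q => ‖q - (1 : F)‖) ?_) hd
  simp only [Finset.sum_mul, Finset.mul_sum, star_mul, mul_assoc]

/-! ### Dimension states -/

namespace DimState

variable (D : DimState F)

theorem gle_mono {ι κ : Type*} [Fintype ι] [Fintype κ] {x : ι → F} {y : κ → F}
    (hx : ∀ i, IsPos (x i)) (hy : ∀ k, IsPos (y k)) (h : GLe x y) :
    ∑ i, D (x i) ≤ ∑ k, D (y k) := by
  have h' := tupLe_iff.2
    (h.reindex (Fintype.equivFin ι).symm (Fintype.equivFin ι).symm.injective (Fintype.equivFin κ))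
  have := D.mono _ _ (fun i => hx _) (fun k => hy _) h'
  rwa [(Fintype.equivFin ι).symm.sum_comp fun i => D.val (x i),
    (Fintype.equivFin κ).symm.sum_comp fun k => D.val (y k)] at this

theorem mono1 {x y : F} (hx : IsPos x) (hy : IsPos y) (h : Cle x y) : D x ≤ D y := by
  simpa using D.gle_mono (fun _ => hx) (fun _ => hy) (gle_one_iff.2 h)

theorem nonneg {x : F} (hx : IsPos x) : 0 ≤ D x := by
  simpa using D.gle_mono (fun i : Fin 0 => i.elim0) (fun _ : Fin 1 => hx)
    (x := fun i : Fin 0 => i.elim0) (fun _ε _ => ⟨fun _ i => i.elim0, fun i => i.elim0,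
      fun i => i.elim0⟩)

theorem zero : D (0 : F) = 0 := by
  refine le_antisymm ?_ (D.nonneg isPos_zero)
  simpa using D.gle_mono (fun _ : Fin 1 => isPos_zero) (fun i : Fin 0 => i.elim0)
    (y := fun i : Fin 0 => i.elim0) (fun _ε hε => ⟨fun i => i.elim0, fun i => by simpa using hε.le,
      fun i j _ => by simpa using hε.le⟩)

theorem le_one {x : F} (hx : IsPos x) : D x ≤ 1 :=
  (D.mono1 hx isPos_one (cle_one hx)).trans_eq D.one

theorem mono_le {x y : F} (hx : IsPos x) (h : IsPos (y - x)) : D x ≤ D y :=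
  D.mono1 hx (by simpa using hx.add h) (cle_of_le hx h)

theorem conj_le {y : F} (hy : IsPos y) (v : F) : D (star v * y * v) ≤ D y :=
  D.mono1 (hy.conj v) hy (cle_conj v y)

theorem star_mul_self_comm (x : F) : D (star x * x) = D (x * star x) := by
  have h' : IsPos (x * star x) := ⟨star x, by simp⟩
  refine le_antisymm (D.mono1 (isPos_star_mul_self x) h' (cle_star_mul_self x))
    (D.mono1 h' (isPos_star_mul_self x) ?_)
  simpa using cle_star_mul_self (star x)

theorem add_le {x y : F} (hx : IsPos x) (hy : IsPos y) : D (x + y) ≤ D x + D y := by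
  have := D.gle_mono (x := fun _ : Fin 1 => x + y) (y := ![x, y]) (fun _ => hx.add hy)
    (fun k => by fin_cases k <;> assumption)
    (fun ε hε => ⟨fun _ _ => 1, fun i => by simpa [Fin.sum_univ_two] using hε.le,
      fun i j h => absurd (Subsingleton.elim i j) h⟩)
  simpa [Fin.sum_univ_two] using this

theorem add_of_orth {x y : F} (hx : IsPos x) (hy : IsPos y) (h : x * y = 0) :
    D (x + y) = D x + D y := by
  refine le_antisymm (D.add_le hx hy) ?_
  have h' : y * x = 0 := by
    simpa [hx.isSelfAdjoint.star_eq, hy.isSelfAdjoint.star_eq] using congrArg star h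
  have := D.gle_mono (x := ![x, y]) (y := fun _ : Fin 1 => x + y)
    (fun k => by fin_cases k <;> assumption) (fun _ => hx.add hy) (fun ε hε => ?_)
  · simpa [Fin.sum_univ_two] using this
  let gf : ℝ → ℝ := fun t => (max t 0 + ε / 2)⁻¹
  let f : ℝ → ℝ := fun t => t * gf t
  have hgf : Continuous gf := Continuous.inv₀ (by fun_prop) fun t => by positivity
  have key : ∀ a b : F, IsPos a → a * b = 0 → b * a = 0 →
      cfc f a * b = 0 ∧ b * cfc f a = 0 ∧ ‖cfc f a * a * cfc f a - a‖ ≤ ε := by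
    intro a b ha hab hba
    have haa := ha.isSelfAdjoint
    have e1 : cfc f a = cfc gf a * a := by
      rw [show f = fun t => gf t * t from funext fun t => mul_comm _ _,
        cfc_mul gf (fun t => t) a hgf.continuousOn continuousOn_id, cfc_id' ℝ a]
    have e2 : cfc f a = a * cfc gf a := by
      rw [cfc_mul (fun t => t) gf a continuousOn_id hgf.continuousOn, cfc_id' ℝ a]
    refine ⟨by rw [e1, mul_assoc, hab, mul_zero], by rw [e2, ← mul_assoc, hba, zero_mul], ?_⟩
    conv_lhs => enter [1, 2]; rw [← cfc_id' ℝ a haa]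
    conv_lhs => enter [1, 1, 1, 2]; rw [← cfc_id' ℝ a haa]
    rw [cfc_mul3 haa f (fun t => t) f (continuous_id'.mul hgf) continuous_id
      (continuous_id'.mul hgf), ← cfc_sub (fun t => f t * t * f t) (fun t => t) a
      (((continuous_id'.mul hgf).mul continuous_id').mul (continuous_id'.mul hgf)).continuousOn
      continuousOn_id]
    refine norm_cfc_le hε.le fun t ht => ?_
    have ht0 := spec_nonneg (isPos_iff.1 ha) ht
    have h4 : 0 < t + ε / 2 := by linarith
    have h5 : f t * t * f t - t = -(t * (ε / 2) * (2 * t + ε / 2)) / (t + ε / 2) ^ 2 := by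
      simp only [f, gf, max_eq_left ht0]; field_simp; ring
    rw [Real.norm_eq_abs, h5, abs_div, abs_neg, abs_of_nonneg (by positivity),
      abs_of_pos (by positivity), div_le_iff₀ (by positivity)]
    nlinarith [mul_nonneg ht0 hε.le, mul_nonneg hε.le hε.le,
      mul_nonneg (mul_nonneg hε.le hε.le) ht0, mul_nonneg (mul_nonneg hε.le hε.le) hε.le]
  obtain ⟨x1, x2, x3⟩ := key x y hx h h'
  obtain ⟨y1, y2, y3⟩ := key y x hy h' h
  refine ⟨fun _ i => ![cfc f x, cfc f y] i, fun i => ?_, fun i j hij => ?_⟩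
  · fin_cases i
    · simpa [(sa_cfc f x).star_eq, mul_add, add_mul, x1] using x3
    · simpa [(sa_cfc f y).star_eq, mul_add, add_mul, y1] using y3
  · fin_cases i <;> fin_cases j <;> first | exact absurd rfl hij | skip
    · simpa [(sa_cfc f x).star_eq, mul_add, add_mul, x1, mul_assoc, y2] using hε.le
    · simpa [(sa_cfc f y).star_eq, mul_add, add_mul, y1, mul_assoc, x2] using hε.le

theorem sum_le {ι : Type*} (s : Finset ι) (x : ι → F) (hx : ∀ i, IsPos (x i)) :
    D (∑ i ∈ s, x i) ≤ ∑ i ∈ s, D (x i) := by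
  classical
  induction s using Finset.induction_on with
  | empty => simp [D.zero]
  | insert i s his ih =>
    rw [Finset.sum_insert his, Finset.sum_insert his]
    exact (D.add_le (hx i) (IsPos.sum s x hx)).trans (add_le_add le_rfl ih)

theorem sum_of_orth {ι : Type*} (s : Finset ι) (x : ι → F) (hx : ∀ i, IsPos (x i))
    (h : (s : Set ι).Pairwise fun i j => x i * x j = 0) :
    D (∑ i ∈ s, x i) = ∑ i ∈ s, D (x i) := by
  classical
  induction s using Finset.induction_on with
  | empty => simp [D.zero]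
  | insert i s his ih =>
    rw [Finset.sum_insert his, Finset.sum_insert his, D.add_of_orth (hx i) (IsPos.sum s x hx),
      ih (h.mono (by simp))]
    rw [Finset.mul_sum]
    exact Finset.sum_eq_zero fun j hj =>
      h (by simp) (by simp [hj]) fun e => his (e ▸ hj)

theorem cut_mono {x : F} (hx : IsSelfAdjoint x) {a b : ℝ} (hab : a ≤ b) :
    D (cut b x) ≤ D (cut a x) :=
  D.mono_le (isPos_cut _ _) (isPos_iff.2 (sub_nonneg.2 (cut_anti hx hab)))

theorem cut_le {x : F} (hx : IsPos x) {a : ℝ} (ha : 0 ≤ a) : D (cut a x) ≤ D x :=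
  D.mono1 (isPos_cut _ _) hx (cut_cle hx ha)

theorem near_le {a b : F} (ha : IsSelfAdjoint a) (hb : IsPos b) {ε : ℝ} (h : ‖a - b‖ < ε) :
    D (cut ε a) ≤ D b :=
  D.mono1 (isPos_cut _ _) hb (cut_cle_of_near ha hb h)

theorem smul_eq {x : F} (hx : IsPos x) {r : ℝ} (hr : 0 < r) : D (r • x) = D x := by
  have key : ∀ s : ℝ, 0 < s → ∀ y : F, Cle (s • y) y := fun s hs y ε hε =>
    ⟨Real.sqrt s • (1 : F), by
      rw [star_smul, star_trivial, star_one, smul_mul_assoc, one_mul, smul_mul_assoc,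
        mul_smul_comm, mul_one, smul_smul, Real.mul_self_sqrt hs.le]
      simpa using hε.le⟩
  have hp : IsPos (r • x) := isPos_iff.2 (smul_nonneg hr.le (isPos_iff.1 hx))
  refine le_antisymm (D.mono1 hp hx (key r hr x)) (D.mono1 hx hp ?_)
  have := key r⁻¹ (inv_pos.2 hr) (r • x)
  rwa [smul_smul, inv_mul_cancel₀ hr.ne', one_smul] at this

theorem pos_of_full {e : F} (he : IsPos e) (h : FullSet ({e} : Set F)) : 0 < D e := by
  obtain ⟨n, hn⟩ := exists_gle_one he h
  have := D.gle_mono (fun _ => isPos_one) (fun _ => he) hn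
  simp only [Finset.sum_const, Finset.card_univ, Fintype.card_fin, one_smul, D.one,
    nsmul_eq_mul] at this
  by_contra h0
  push Not at h0
  nlinarith [Nat.cast_nonneg (α := ℝ) n]

/-- Pull back along a unital star homomorphism. -/
def comap (φ : B →⋆ₐ[ℂ] F) : DimState B where
  val x := D (φ x)
  one := by rw [map_one]; exact D.one
  mono := fun x y hx hy h => by
    refine D.mono (fun i => φ (x i)) (fun k => φ (y k)) (fun i => (hx i).map φ)
      (fun k => (hy k).map φ) fun ε hε => ?_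
    obtain ⟨v, hv⟩ := h ε hε
    refine ⟨fun k i => φ (v k i), fun i j => le_trans ?_ (hv i j)⟩
    refine le_of_eq_of_le ?_ (NonUnitalStarAlgHom.norm_apply_le φ _)
    congr 1
    simp only [map_sub, map_sum, map_mul, map_star, apply_ite φ, map_zero]
  lsc := fun x hx ε hε => by
    obtain ⟨δ, hδ, h⟩ := D.lsc (φ x) (hx.map φ) ε hε
    exact ⟨δ, hδ, h.trans_eq (by rw [map_cut φ hx.isSelfAdjoint])⟩

@[simp] theorem comap_apply (φ : B →⋆ₐ[ℂ] F) (x : B) : (D.comap φ) x = D (φ x) := rfl

end DimState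

/-- Separation: a strict inequality at all states gives a gap by multiples. -/
theorem exists_tupLe_of_lt {z e : F} (hz : IsPos z) (he : IsPos e)
    (hfull : FullSet ({e} : Set F)) (h : ∀ D : DimState F, D z < D e) {ε : ℝ} (hε : 0 < ε) :
    ∃ m : ℕ, 0 < m ∧ TupLe (fun _ : Fin (m + 1) => cut ε z) (fun _ : Fin m => e) := by
  obtain ⟨l, hl⟩ := exists_gle_one he hfull
  obtain ⟨m, hm, hg⟩ := exists_gap (fun _ : Fin 1 => z) (fun _ : Fin 1 => e) (fun _ => hz)
    (fun _ => he) l (hl.reindex id Function.injective_id (Equiv.prodUnique (Fin l) (Fin 1)).symm)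
    (fun D => by simpa using h D) hε
  exact ⟨m, hm, tupLe_iff.2 (hg.reindex (Equiv.prodUnique (Fin (m + 1)) (Fin 1)).symm
    (Equiv.injective _) (Equiv.prodUnique (Fin m) (Fin 1)))⟩

/-! ### Comparison -/

theorem compare_of_hasCopies (hchar : ∀ χ : F →⋆ₙₐ[ℂ] ℂ, χ = 0) (hcop : HasCopies F)
    {z e : F} (hz : IsPos z) (he : IsPos e) (hfull : FullSet ({e} : Set F))
    (h : ∀ D : DimState F, D z < D e) {ε : ℝ} (hε : 0 < ε) :
    ∃ v : F, star v * e * v = cut ε z := by
  classical
  cases subsingleton_or_nontrivial F with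
  | inl h => exact ⟨0, Subsingleton.elim _ _⟩
  | inr hF =>
  obtain ⟨m, hm, hgap⟩ := exists_tupLe_of_lt hz he hfull h (show 0 < ε / 4 by linarith)
  have : NeZero m := ⟨hm.ne'⟩
  set z' := cut (ε / 4) z
  set r := ε / (8 * ((m : ℝ) + 1) ^ 2) with hr
  obtain ⟨V, hd, ho⟩ := (tupLe_iff.1 hgap) r (by positivity)
  set S : Finset F := insert z' (insert e (Finset.univ.image fun p : Fin m × Fin (m + 1) => V p.1 p.2))
  obtain ⟨R, hR⟩ := exists_rel_comm hcop hchar m S
  set C := ‖e‖ * (∑ l, (∑ k, ‖V l k‖) ^ 2) + 2 * ‖z'‖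
  have hC : 0 ≤ C := by positivity
  set η := ε / (8 * (C + 1)) with hη
  obtain ⟨u, hu⟩ := perforation_step R z' e V hd ho (hR z' (by simp [S]))
    (hR e (by simp [S])).1
    (fun k l => (hR (V k l) (Finset.mem_insert_of_mem (Finset.mem_insert_of_mem
      (Finset.mem_image.2 ⟨(k, l), Finset.mem_univ _, rfl⟩)))).1) (η := η) (by positivity)
  have h1 : ((m : ℝ) + 1) ^ 2 * r = ε / 8 := by rw [hr]; field_simp
  have h2 : η * C ≤ ε / 8 := by
    rw [hη, div_mul_eq_mul_div, div_le_iff₀ (by positivity)]; nlinarith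
  have h3 : ‖star u * e * u - z'‖ < 3 * ε / 4 := by
    have : η * ‖e‖ * (∑ l, (∑ k, ‖V l k‖) ^ 2) + ((m : ℝ) + 1) ^ 2 * r + 2 * η * ‖z'‖ =
        η * C + ((m : ℝ) + 1) ^ 2 * r := by ring
    linarith
  obtain ⟨w, hw⟩ := exists_eq_of_near (isPos_cut _ _).isSelfAdjoint he u h3
  refine ⟨w, hw.trans ?_⟩
  rw [cut_cut hz.isSelfAdjoint (by linarith)]
  congr 1; ring

section Dyn

variable {G : Type*} [Group G] {β : G →* (F ≃⋆ₐ[ℂ] F)}

theorem self_mem_orbAlg {T : Finset F} {x : F} (hx : x ∈ T) : x ∈ OrbAlg β T :=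
  StarSubalgebra.le_topologicalClosure _
    (StarAlgebra.subset_adjoin ℂ _ ⟨1, x, hx, by simp⟩)

theorem Dyn.hasCopies (h : Dyn β) : HasCopies F := by
  intro T S
  obtain ⟨φ, -, hφ⟩ := h.copies T S
  have hle : GenAlg T ≤ OrbAlg β T :=
    StarSubalgebra.topologicalClosure_minimal
      (StarAlgebra.adjoin_le fun x hx => self_mem_orbAlg hx) (orbAlg_isClosed β T)
  exact ⟨φ.comp (StarSubalgebra.inclusion hle), fun z hz x => hφ z hz _⟩

theorem compareStatement (h : Dyn β) : CompareStatement F :=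
  fun _z _e hz he hf hlt _ε hε => compare_of_hasCopies h.nochar h.hasCopies hz.1 he.1 hf hlt hε

end Dyn

end

end Vale.Agent.P095.Elem
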