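import Vale.Agent.P095.Elem.Measure
import Vale.Agent.P095.Elem.Cuntz

/-!
# P095, amenable groups: pullbacks and contexts of dimension states

A dimension state pulls back along a unital star homomorphism, and a positive element commuting
with the range gives a conditional state.
-/

namespace Vale.Agent.P095.Elem

open VAgent.P101
open scoped CStarAlgebra ComplexOrder

noncomputable section

variable {A : Type*} [CStarAlgebra A] {B : Type*} [CStarAlgebra B]

/-- The value of a cut function in the calculus. -/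
lemma map_cfc' (φ : A →⋆ₐ[ℂ] B) {f : ℝ → ℝ} (hf : Continuous f) {x : A} (hx : IsSelfAdjoint x) :
    φ (cfc f x) = cfc f (φ x) :=
  StarAlgHomClass.map_cfc φ f x hf.continuousOn (map_continuous φ) hx (hx.map φ)

lemma isPos_cfc {f : ℝ → ℝ} (hf : ∀ t, 0 ≤ f t) (x : B) : IsPos (cfc f x) := by
  let := CStarAlgebra.spectralOrder B
  have := CStarAlgebra.spectralOrderedRing B
  exact isPos_iff_nonneg.mpr (cfc_nonneg fun t _ => hf t)

lemma IsPos.spectrum_nonneg {x : B} (h : IsPos x) {t : ℝ} (ht : t ∈ spectrum ℝ x) : 0 ≤ t := by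
  let := CStarAlgebra.spectralOrder B
  have := CStarAlgebra.spectralOrderedRing B
  exact spectrum_nonneg_of_nonneg (isPos_iff_nonneg.mp h) ht

/-! ### Functions of a commuting family -/

namespace Spec

variable {c : Set B} (h : CommSA c)

/-- The function carrying `cfc k x`. -/
def fn {x : B} (hx : x ∈ c) (k : ℝ → ℝ) (hk : Continuous k) :
    C(WeakDual.characterSpace ℂ (Abel c h), ℝ) :=
  ⟨fun χ => k (coord h hx χ), hk.comp (coord h hx).continuous⟩

lemma fval_fn {x : B} (hx : x ∈ c) {k : ℝ → ℝ} (hk : Continuous k) :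
    fval (jointHom h) (fn h hx k hk) = cfc k x := by
  rw [fn, ← cfc_fval (jointHom h) (coord h hx) hk, jointHom_coord]

lemma abs_coord_le {x : B} (hx : x ∈ c) (χ : WeakDual.characterSpace ℂ (Abel c h)) :
    |coord h hx χ| ≤ ‖x‖ :=
  (Complex.abs_re_le_norm _).trans (NonUnitalStarAlgHom.norm_apply_le χ _)

lemma coord_nonneg {x : B} (hx : x ∈ c) (hp : IsPos x)
    (χ : WeakDual.characterSpace ℂ (Abel c h)) : 0 ≤ coord h hx χ := by
  let z : Abel c h := ⟨x, mem_abel h hx⟩
  have hz : IsSelfAdjoint z := Subtype.ext (h.1 x hx).star_eq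
  have hk : Continuous fun t : ℝ => max t 0 := by fun_prop
  have e : cfc (fun t : ℝ => max t 0) z = z := by
    refine Subtype.ext ?_
    rw [coe_cfc z hz _ hk]
    show cfc (fun t : ℝ => max t 0) x = x
    conv_rhs => rw [← cfc_id ℝ x hp.isSelfAdjoint]
    exact cfc_congr fun t ht => max_eq_left (hp.spectrum_nonneg ht)
  have e2 := char_cfc χ hz _ hk
  rw [e] at e2
  show 0 ≤ (χ z).re
  have e3 := congr_arg Complex.re e2
  rw [Complex.ofReal_re] at e3
  rw [e3]
  exact le_max_right _ _

end Spec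

/-! ### Contexts -/

section Ctx

variable (D : DimState B) (φ : A →⋆ₐ[ℂ] B) {x : B}

lemma commSA_ctx_pair {y : B} (hx : IsSelfAdjoint x) (hy : IsSelfAdjoint y) (h : Commute x y) :
    CommSA ({x, y} : Set B) := by
  refine ⟨?_, ?_⟩
  · rintro z (rfl | rfl) <;> assumption
  · rintro z (rfl | rfl) w (rfl | rfl) <;> first | exact Commute.refl _ | exact h | exact h.symm

lemma val_mul_le {y : B} (hx : IsPos x) (hy : IsPos y) (h : Commute x y) : D (x * y) ≤ D x := by
  have hc := commSA_ctx_pair hx.isSelfAdjoint hy.isSelfAdjoint h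
  set Φ := Spec.jointHom hc
  set X := Spec.coord hc (x := x) (by simp)
  set Y := Spec.coord hc (x := y) (by simp)
  have eX : Spec.fval Φ X = x := Spec.jointHom_coord hc _
  have eY : Spec.fval Φ Y = y := Spec.jointHom_coord hc _
  have hX : 0 ≤ X := ContinuousMap.le_def.mpr fun ω => Spec.coord_nonneg hc _ hx ω
  have hY : 0 ≤ Y := ContinuousMap.le_def.mpr fun ω => Spec.coord_nonneg hc _ hy ω
  have hXY : 0 ≤ X * Y := mul_nonneg hX hY
  have hmain := Spec.val_mono D Φ hXY hX fun ω hω => by
    rcases (ContinuousMap.le_def.mp hX ω).lt_or_eq with h' | h'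
    · exact h'
    · rw [ContinuousMap.mul_apply, ← h', ContinuousMap.zero_apply, zero_mul] at hω
      exact absurd hω (lt_irrefl _)
  rwa [Spec.fval_mul, eX, eY] at hmain

/-- The conditional state behind a positive element commuting with the range. -/
theorem exists_ctx (hx : IsPos x) (hc : ∀ a, Commute x (φ a)) (h0 : 0 < D x) :
    ∃ D' : DimState A, ∀ a, D' a = D (x * φ a) / D x := by
  have hpos : ∀ {a : A}, IsPos a → IsPos (x * φ a) := fun ha =>
    hx.mul (ha.map φ) (hc _)
  refine ⟨{ val := fun a => D (x * φ a) / D x, one := ?_, mono := ?_, lsc := ?_ }, fun a => rfl⟩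
  · rw [map_one, mul_one, div_self h0.ne']
  · intro m n a b ha hb hab
    rw [← Finset.sum_div, ← Finset.sum_div]
    refine div_le_div_of_nonneg_right ?_ h0.le
    refine D.mono _ _ (fun i => hpos (ha i)) (fun k => hpos (hb k)) fun ε hε => ?_
    obtain ⟨v, hv⟩ := hab (ε / (‖x‖ + 1)) (by positivity)
    refine ⟨fun k i => φ (v k i), fun i j => ?_⟩
    have e : ∑ k, star (φ (v k i)) * (x * φ (b k)) * φ (v k j) - (if i = j then x * φ (a i) else 0)
        = x * φ (∑ k, star (v k i) * b k * v k j - if i = j then a i else 0) := by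
      rw [map_sub, map_sum, mul_sub, Finset.mul_sum, apply_ite φ, map_zero, mul_ite, mul_zero]
      refine congr_arg₂ _ (Finset.sum_congr rfl fun k _ => ?_) rfl
      rw [map_mul, map_mul, map_star, ← mul_assoc (star (φ (v k i))) x,
        show star (φ (v k i)) * x = x * star (φ (v k i)) by
          rw [← map_star]; exact (hc _).eq.symm]
      simp only [mul_assoc]
    rw [e]
    calc ‖x * φ _‖ ≤ ‖x‖ * ‖φ (∑ k, star (v k i) * b k * v k j - if i = j then a i else 0)‖ :=
          norm_mul_le _ _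
      _ ≤ ‖x‖ * (ε / (‖x‖ + 1)) := mul_le_mul_of_nonneg_left
          ((NonUnitalStarAlgHom.norm_apply_le φ _).trans (hv i j)) (norm_nonneg x)
      _ ≤ ε := by
          rw [mul_div_assoc', div_le_iff₀ (by positivity)]
          nlinarith [norm_nonneg x, hε]
  · intro a ha ε hε
    obtain ⟨δ, hδ, hlsc⟩ := D.lsc (x * φ a) (hpos ha) (ε * D x) (by positivity)
    have hδ' : 0 < δ / (‖x‖ + 1) := by positivity
    refine ⟨δ / (‖x‖ + 1), hδ', ?_⟩
    rw [div_sub' h0.ne', mul_comm (D x) ε]
    refine div_le_div_of_nonneg_right (hlsc.trans ?_) h0.le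
    have hcs := commSA_ctx_pair hx.isSelfAdjoint (ha.map φ).isSelfAdjoint (hc a)
    set Φ := Spec.jointHom hcs
    set X := Spec.coord hcs (x := x) (by simp)
    set Y := Spec.coord hcs (x := φ a) (by simp)
    have eX : Spec.fval Φ X = x := Spec.jointHom_coord hcs _
    have eY : Spec.fval Φ Y = φ a := Spec.jointHom_coord hcs _
    have hX : ∀ ω, 0 ≤ X ω := fun ω => Spec.coord_nonneg hcs _ hx ω
    have hk : Continuous fun t : ℝ => max (t - δ / (‖x‖ + 1)) 0 := by fun_prop
    have hXb : ∀ ω, X ω ≤ ‖x‖ := fun ω => (le_abs_self _).trans (Spec.abs_coord_le hcs _ ω)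
    have hmain := Spec.val_mono D Φ
      (f := ⟨fun ω => max ((X * Y) ω - δ) 0,
        ((X * Y).continuous.sub continuous_const).max continuous_const⟩)
      (g := X * Spec.fn hcs (x := φ a) (by simp) _ hk)
      (ContinuousMap.le_def.mpr fun ω => le_max_right _ _)
      (mul_nonneg (ContinuousMap.le_def.mpr hX)
        (ContinuousMap.le_def.mpr fun ω => le_max_right _ _)) fun ω hω => by
        change 0 < max (X ω * Y ω - δ) 0 at hω
        have h1 : δ < X ω * Y ω := by
          by_contra hle
          rw [max_eq_right (by linarith)] at hω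
          exact lt_irrefl _ hω
        have hX0 : 0 < X ω := by
          rcases (hX ω).lt_or_eq with h' | h'
          · exact h'
          · rw [← h', zero_mul] at h1; exact absurd h1 (not_lt.mpr hδ.le)
        show 0 < X ω * max (Y ω - δ / (‖x‖ + 1)) 0
        refine mul_pos hX0 (lt_max_of_lt_left (sub_pos.mpr ?_))
        rw [div_lt_iff₀ (by positivity)]
        nlinarith [hXb ω, norm_nonneg x, h1, hX0]
    rwa [← Spec.cut_fval, Spec.fval_mul, Spec.fval_mul, eX, eY, Spec.fval_fn,
      ← map_cfc' φ hk ha.isSelfAdjoint] at hmain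

theorem ctx_le (hx : IsPos x) (hc : ∀ a, Commute x (φ a)) {y : A} (hy : IsPos y) {r : ℝ}
    (h : ∀ D' : DimState A, D' y ≤ r) : D (x * φ y) ≤ r * D x := by
  rcases (Spec.val_nonneg D hx).lt_or_eq with h0 | h0
  · obtain ⟨D', hD'⟩ := exists_ctx D φ hx hc h0
    rw [← div_le_iff₀ h0, ← hD']
    exact h D'
  · exact (val_mul_le D hx (hy.map φ) (hc y)).trans (by rw [← h0, mul_zero])

theorem le_ctx (hx : IsPos x) (hc : ∀ a, Commute x (φ a)) {y : A} (hy : IsPos y) {r : ℝ}
    (h : ∀ D' : DimState A, r ≤ D' y) : r * D x ≤ D (x * φ y) := by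
  rcases (Spec.val_nonneg D hx).lt_or_eq with h0 | h0
  · obtain ⟨D', hD'⟩ := exists_ctx D φ hx hc h0
    rw [← le_div_iff₀ h0, ← hD']
    exact h D'
  · rw [← h0, mul_zero]
    exact Spec.val_nonneg D (hx.mul (hy.map φ) (hc y))

end Ctx

end

end Vale.Agent.P095.Elem
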