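import Vale.Agent.P095.Elem.Context

/-!
# P095, amenable groups: the orbit algebra and equivariant copies

The action on `OrbAlg β T`, finitely many commuting equivariant copies, and transport of `Sign`
and `FullIn`.
-/

namespace Vale.Agent.P095.Elem

open VAgent.P101
open scoped CStarAlgebra

noncomputable section

variable {F : Type*} [CStarAlgebra F] {G : Type*} [Group G] {β : G →* (F ≃⋆ₐ[ℂ] F)}
variable {T T' : Finset F}

lemma orbit_subset_orbAlg : orbit β T ⊆ (OrbAlg β T : Set F) := fun _ hx =>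
  StarSubalgebra.le_topologicalClosure _ (StarAlgebra.subset_adjoin ℂ _ hx)

lemma translate_mem_orbAlg (g : G) {t : F} (ht : t ∈ T) : β g t ∈ OrbAlg β T :=
  orbit_subset_orbAlg ⟨g, t, ht, rfl⟩

lemma beta_one_apply (x : F) : β 1 x = x := by rw [map_one]; rfl

lemma beta_mul_apply (g h : G) (x : F) : β (g * h) x = β g (β h x) := by rw [map_mul]; rfl

lemma mem_orbAlg {t : F} (ht : t ∈ T) : t ∈ OrbAlg β T :=
  beta_one_apply (β := β) t ▸ translate_mem_orbAlg 1 ht

/-- A closed subalgebra containing all translates of `T` contains the orbit algebra. -/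
lemma orbAlg_le {S : StarSubalgebra ℂ F} (hS : IsClosed (S : Set F))
    (h : ∀ g : G, ∀ t ∈ T, β g t ∈ S) : OrbAlg β T ≤ S :=
  StarSubalgebra.topologicalClosure_minimal
    (StarAlgebra.adjoin_le (by rintro _ ⟨g, t, ht, rfl⟩; exact h g t ht)) hS

lemma act_mem {x : F} (hx : x ∈ OrbAlg β T) (g : G) : β g x ∈ OrbAlg β T := by
  have hcont : Continuous (β g : F → F) := map_continuous ((β g : F →⋆ₐ[ℂ] F))
  refine orbAlg_le (S := (OrbAlg β T).comap (β g : F →⋆ₐ[ℂ] F))
    ((orbAlg_isClosed β T).preimage hcont) (fun k t ht => ?_) hx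
  show β g (β k t) ∈ OrbAlg β T
  rw [← beta_mul_apply]
  exact translate_mem_orbAlg _ ht

/-- The action on the orbit algebra. -/
def act (β : G →* (F ≃⋆ₐ[ℂ] F)) (T : Finset F) (g : G) : OrbAlg β T →⋆ₐ[ℂ] OrbAlg β T :=
  (((β g : F →⋆ₐ[ℂ] F)).comp (OrbAlg β T).subtype).codRestrict _ fun x => act_mem x.2 g

@[simp] lemma coe_act (g : G) (x : OrbAlg β T) : (act β T g x : F) = β g x := rfl

lemma act_act_inv (g : G) (x : OrbAlg β T) : act β T g (act β T g⁻¹ x) = x :=
  Subtype.ext (by simp only [coe_act, ← beta_mul_apply, mul_inv_cancel, beta_one_apply])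

lemma orbAlg_mono (h : T ⊆ T') : OrbAlg β T ≤ OrbAlg β T' :=
  orbAlg_le (orbAlg_isClosed β T') fun g _ ht => translate_mem_orbAlg g (h ht)

/-- The inclusion of orbit algebras. -/
def orbIncl (β : G →* (F ≃⋆ₐ[ℂ] F)) (h : T ⊆ T') : OrbAlg β T →⋆ₐ[ℂ] OrbAlg β T' :=
  ((OrbAlg β T).subtype).codRestrict _ fun x => orbAlg_mono h x.2

@[simp] lemma coe_orbIncl (h : T ⊆ T') (x : OrbAlg β T) : (orbIncl β h x : F) = x :=
  StarAlgHom.coe_codRestrict (OrbAlg β T).subtype (OrbAlg β T') (fun x => orbAlg_mono h x.2) x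

/-- An equivariant homomorphism on an orbit algebra. -/
def Equivariant (φ : OrbAlg β T →⋆ₐ[ℂ] F) : Prop :=
  ∀ (g : G) (x : OrbAlg β T), φ (act β T g x) = β g (φ x)

/-- Equality of two homomorphisms on the orbit algebra can be tested on the translates. -/
lemma orbAlg_hom_ext {B : Type*} [CStarAlgebra B] {φ ψ : OrbAlg β T →⋆ₐ[ℂ] B}
    (h : ∀ g t (ht : t ∈ T), φ ⟨β g t, translate_mem_orbAlg g ht⟩ =
      ψ ⟨β g t, translate_mem_orbAlg g ht⟩) : φ = ψ := by
  refine StarAlgHom.ext_topologicalClosure (map_continuous φ) (map_continuous ψ) ?_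
  refine StarAlgHom.ext_adjoin fun x hx => ?_
  obtain ⟨g, t, ht, hxe⟩ := hx
  have e : StarSubalgebra.inclusion (StarSubalgebra.le_topologicalClosure _) x =
      (⟨β g t, translate_mem_orbAlg g ht⟩ : OrbAlg β T) := Subtype.ext hxe
  show φ _ = ψ _
  exact (congr_arg φ e).trans ((h g t ht).trans (congr_arg ψ e).symm)

/-- The range of an equivariant homomorphism lies in the orbit algebra of the images of `T`. -/
lemma Equivariant.range_le {φ : OrbAlg β T →⋆ₐ[ℂ] F} (hφ : Equivariant φ)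
    (h : ∀ t (ht : t ∈ T), φ ⟨t, mem_orbAlg ht⟩ ∈ OrbAlg β T') (x : OrbAlg β T) :
    φ x ∈ OrbAlg β T' := by
  have key : (StarAlgebra.adjoin ℂ (orbit β T)) ≤
      StarSubalgebra.map (OrbAlg β T).subtype ((OrbAlg β T').comap φ) := by
    refine StarAlgebra.adjoin_le ?_
    rintro _ ⟨g, t, ht, rfl⟩
    refine ⟨act β T g ⟨t, mem_orbAlg ht⟩, ?_, rfl⟩
    show φ _ ∈ OrbAlg β T'
    rw [hφ]
    exact act_mem (h t ht) g
  have hcl : IsClosed {y : OrbAlg β T | φ y ∈ OrbAlg β T'} :=
    (orbAlg_isClosed β T').preimage (map_continuous φ)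
  obtain ⟨a, ha⟩ := x
  refine hcl.closure_subset ?_
  rw [Topology.IsInducing.subtypeVal.closure_eq_preimage_closure_image]
  refine closure_mono ?_ ha
  intro b hb
  obtain ⟨y, hy, rfl⟩ := key hb
  exact ⟨y, hy, rfl⟩

/-- Commutation with an equivariant image is tested on the translates of `T`. -/
lemma commute_of_orbit (φ : OrbAlg β T →⋆ₐ[ℂ] F) (z : F)
    (h : ∀ g t (ht : t ∈ T), Commute z (φ ⟨β g t, translate_mem_orbAlg g ht⟩) ∧
      Commute (star z) (φ ⟨β g t, translate_mem_orbAlg g ht⟩))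
    (x : OrbAlg β T) : Commute z (φ x) := by
  have hle : OrbAlg β T ≤
      StarSubalgebra.map (OrbAlg β T).subtype ((StarSubalgebra.centralizer ℂ {z}).comap φ) := by
    refine StarSubalgebra.topologicalClosure_minimal (StarAlgebra.adjoin_le ?_) ?_
    · rintro _ ⟨g, t, ht, rfl⟩
      refine ⟨⟨β g t, translate_mem_orbAlg g ht⟩, ?_, rfl⟩
      show φ _ ∈ StarSubalgebra.centralizer ℂ {z}
      rw [StarSubalgebra.mem_centralizer_iff]
      rintro w rfl
      exact ⟨(h g t ht).1.eq, (h g t ht).2.eq⟩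
    · rw [StarSubalgebra.coe_map]
      refine (orbAlg_isClosed β T).isClosedEmbedding_subtypeVal.isClosedMap _ ?_
      exact (Set.isClosed_centralizer _).preimage (map_continuous φ)
  obtain ⟨y, hy, hxy⟩ := hle x.2
  obtain rfl : y = x := Subtype.ext hxy
  have hy' : φ y ∈ StarSubalgebra.centralizer ℂ {z} := hy
  rw [StarSubalgebra.mem_centralizer_iff] at hy'
  exact (hy' z rfl).1

/-- Finitely many pairwise commuting equivariant copies which commute with a given set. The ranges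
are invariant, so all translates commute. -/
theorem Dyn.exists_copies (h : Dyn β) (T S : Finset F) (n : ℕ) :
    ∃ φ : Fin n → (OrbAlg β T →⋆ₐ[ℂ] F), (∀ i, Equivariant (φ i)) ∧
      (∀ i, ∀ z ∈ S, ∀ x, Commute z (φ i x) ∧ ∀ g, Commute (β g z) (φ i x)) ∧
      ∀ i j, i ≠ j → ∀ x y, Commute (φ i x) (φ j y) := by
  classical
  suffices hs : ∃ φ : Fin n → (OrbAlg β T →⋆ₐ[ℂ] F), (∀ i, Equivariant (φ i)) ∧
      (∀ i, ∀ z ∈ S, ∀ x, Commute z (φ i x)) ∧
      ∀ i j, i ≠ j → ∀ x y, Commute (φ i x) (φ j y) by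
    obtain ⟨φ, he, hS, hc⟩ := hs
    refine ⟨φ, he, fun i z hz x => ⟨hS i z hz x, fun g => ?_⟩, hc⟩
    have := (hS i z hz (act β T g⁻¹ x)).map ((β g : F →⋆ₐ[ℂ] F))
    change Commute (β g z) (β g (φ i _)) at this
    rwa [← he i g, act_act_inv] at this
  induction n with
  | zero => exact ⟨Fin.elim0, fun i => i.elim0, fun i => i.elim0, fun i => i.elim0⟩
  | succ n ih =>
    obtain ⟨φ, he, hS, hc⟩ := ih
    obtain ⟨ψ, hψ, hψS⟩ := h.copies T (S ∪ Finset.univ.biUnion fun i : Fin n =>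
      T.attach.biUnion fun t =>
        {φ i ⟨t.1, mem_orbAlg t.2⟩, star (φ i ⟨t.1, mem_orbAlg t.2⟩)})
    have heψ : Equivariant ψ := fun g x => hψ g x _ (coe_act g x)
    have hnew : ∀ i x y, Commute (φ i x) (ψ y) := by
      intro i x y
      refine (commute_of_orbit (φ i) (ψ y) (fun g t ht => ?_) x).symm
      have e : (⟨β g t, translate_mem_orbAlg g ht⟩ : OrbAlg β T) =
          act β T g ⟨t, mem_orbAlg ht⟩ := rfl
      have key : ∀ y', Commute (φ i (act β T g ⟨t, mem_orbAlg ht⟩)) (ψ y') := fun y' => by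
        have hm := hψS (φ i ⟨t, mem_orbAlg ht⟩) (Finset.mem_union_right _
          (Finset.mem_biUnion.2 ⟨i, Finset.mem_univ _,
            Finset.mem_biUnion.2 ⟨⟨t, ht⟩, Finset.mem_attach _ _, by simp⟩⟩)) (act β T g⁻¹ y')
        have := hm.map ((β g : F →⋆ₐ[ℂ] F))
        change Commute (β g (φ i _)) (β g (ψ _)) at this
        rwa [← he i g, ← heψ g, act_act_inv] at this
      rw [e]
      refine ⟨(key y).symm, ?_⟩
      rw [← map_star]
      exact (key (star y)).symm
    refine ⟨Fin.cons ψ φ, ?_, ?_, ?_⟩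
    · intro i
      refine Fin.cases ?_ (fun k => ?_) i
      · simpa using heψ
      · simpa using he k
    · intro i z hz x
      refine Fin.cases ?_ (fun k => ?_) i
      · simpa using hψS z (Finset.mem_union_left _ hz) x
      · simpa using hS k z hz x
    · intro i j hij x y
      revert hij
      refine Fin.cases ?_ (fun k => ?_) i <;> refine Fin.cases ?_ (fun l => ?_) j
      · exact fun h => absurd rfl h
      · intro _; simpa using (hnew l y x).symm
      · intro _; simpa using hnew k x y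
      · intro h; simpa using hc k l (by simpa using h) x y

lemma fullSet_map {A B : Type*} [CStarAlgebra A] [CStarAlgebra B] (φ : A →⋆ₐ[ℂ] B) {x : A}
    (h : FullSet ({x} : Set A)) : FullSet ({φ x} : Set B) := by
  obtain ⟨n, a, b, e, he, hsum⟩ := h.exists_sum
  refine fullSet_of_norm_lt _ (z := ∑ i, φ (a i) * φ (e i) * φ (b i))
    (sum_mem fun i _ => TwoSidedIdeal.mul_mem_right _ _ _ (TwoSidedIdeal.mul_mem_left _ _ _ ?_)) ?_
  · rw [Set.mem_singleton_iff.mp (he i)]
    exact TwoSidedIdeal.subset_span rfl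
  · simp [← map_mul, ← map_sum, hsum]

/-- A sign stays one in a larger orbit algebra. -/
theorem Sign.mono {K : Finset G} {η θ : ℝ} {S : OrbAlg β T} (h : Sign β T K η θ S)
    (hT : T ⊆ T') : Sign β T' K η θ (orbIncl β hT S) := by
  have e1 : (1 : OrbAlg β T') - orbIncl β hT S * orbIncl β hT S =
      orbIncl β hT (1 - S * S) := by rw [map_sub, map_mul, map_one]
  have hsq : IsSelfAdjoint (1 - S * S) :=
    (IsSelfAdjoint.one _).sub (h.sa.commute_iff h.sa |>.mp (Commute.refl S))
  refine ⟨h.sa.map _, (NonUnitalStarAlgHom.norm_apply_le _ S).trans h.contr,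
    fun g hg => by rw [coe_orbIncl]; exact h.inv g hg,
    fun D => ?_, fun D => ?_, fun D => ?_, ?_, ?_⟩
  · rw [ppart, ← map_cut _ h.sa]; exact h.half_pos (D.comap (orbIncl β hT))
  · rw [← map_neg, ppart, ← map_cut _ h.sa.neg]; exact h.half_neg (D.comap (orbIncl β hT))
  · rw [e1, ← map_cut _ hsq]; exact h.defect (D.comap (orbIncl β hT))
  · rw [FullIn, ← map_cut _ h.sa]; exact fullSet_map _ h.full_pos
  · rw [FullIn, ← map_neg, ← map_cut _ h.sa.neg]; exact fullSet_map _ h.full_neg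

end

end Vale.Agent.P095.Elem
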