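import Vale.Agent.P095.Elem.Defs

/-!
# P095: functional calculus and tuple lemmas behind the Cuntz toolkit (helper5)
-/

namespace Vale.Agent.P095.Elem.CuntzAux

open VAgent.P101
open scoped CStarAlgebra

noncomputable section

attribute [local instance] CStarAlgebra.spectralOrder CStarAlgebra.spectralOrderedRing

variable {F : Type*} [CStarAlgebra F]

theorem isPos_iff {x : F} : IsPos x ↔ 0 ≤ x :=
  CStarAlgebra.nonneg_iff_eq_star_mul_self.symm

theorem sa_cfc (f : ℝ → ℝ) (a : F) : IsSelfAdjoint (cfc f a) := cfc_predicate f a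

theorem cfc_mul3 {a : F} (ha : IsSelfAdjoint a) (f g h : ℝ → ℝ) (hf : Continuous f)
    (hg : Continuous g) (hh : Continuous h) :
    cfc f a * cfc g a * cfc h a = cfc (fun t => f t * g t * h t) a := by
  rw [← cfc_mul f g a hf.continuousOn hg.continuousOn,
    ← cfc_mul (fun t => f t * g t) h a (hf.mul hg).continuousOn hh.continuousOn]

theorem spec_nonneg {a : F} (ha : 0 ≤ a) {t : ℝ} (ht : t ∈ spectrum ℝ a) : 0 ≤ t :=
  spectrum_nonneg_of_nonneg ha ht

/-- `s = √x`, squared back. -/
theorem sqrt_mul {x : F} (hx : 0 ≤ x) : cfc Real.sqrt x * cfc Real.sqrt x = x := by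
  rw [← cfc_mul Real.sqrt Real.sqrt x Real.continuous_sqrt.continuousOn
    Real.continuous_sqrt.continuousOn]
  conv_rhs => rw [← cfc_id' ℝ x]
  exact cfc_congr fun t ht => Real.mul_self_sqrt (spec_nonneg hx ht)

theorem norm_star_mul_comm (y : F) : ‖star y * y‖ = ‖y * star y‖ := by
  rw [CStarRing.norm_star_mul_self, CStarRing.norm_self_mul_star]

theorem norm_sandwich_le {x c u : F} (hx : 0 ≤ x) (hxc : x ≤ c) :
    ‖star u * x * u‖ ≤ ‖star u * c * u‖ :=
  CStarAlgebra.norm_le_norm_of_nonneg_of_le (star_left_conjugate_nonneg hx u)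
    (star_left_conjugate_le_conjugate hxc u)

/-- The regularised inverse root. -/
def dF (η t : ℝ) : ℝ := (Real.sqrt (max t 0 + η))⁻¹

theorem continuous_dF {η : ℝ} (hη : 0 < η) : Continuous (dF η) := by
  refine Continuous.inv₀ (by fun_prop) fun t => ?_
  exact (Real.sqrt_pos.2 (by positivity)).ne'

theorem dF_eq {η t : ℝ} (hη : 0 < η) (ht : 0 ≤ t) : dF η t * t * dF η t = t / (t + η) := by
  rw [dF, max_eq_left ht, mul_right_comm, ← mul_inv, Real.mul_self_sqrt (by linarith)]
  field_simp

theorem sandwich_dF_norm {x c : F} (hx : 0 ≤ x) (hxc : x ≤ c) {η : ℝ} (hη : 0 < η) :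
    ‖star (cfc (dF η) c * cfc Real.sqrt x) * c * (cfc (dF η) c * cfc Real.sqrt x) - x‖ ≤ η := by
  have hc : 0 ≤ c := hx.trans hxc
  have hca : IsSelfAdjoint c := .of_nonneg hc
  set s := cfc Real.sqrt x with hs
  set d := cfc (dF η) c with hd
  have hss : IsSelfAdjoint s := sa_cfc _ _
  set k := cfc (fun t => Real.sqrt (η / (max t 0 + η))) c with hk
  have hkc : Continuous fun t => Real.sqrt (η / (max t 0 + η)) := by
    refine (continuous_const.div (by fun_prop) fun t => ?_).sqrt
    positivity
  have e : 1 - d * c * d = k * k := by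
    have hcid : c = cfc (fun t : ℝ => t) c := (cfc_id' ℝ c).symm
    conv_lhs => rw [hd]; enter [2, 1, 2]; rw [hcid]
    rw [cfc_mul3 hca _ (fun t => t) _ (continuous_dF hη) continuous_id (continuous_dF hη), hk,
      ← cfc_mul (fun t => Real.sqrt (η / (max t 0 + η))) (fun t => Real.sqrt (η / (max t 0 + η))) c
        hkc.continuousOn hkc.continuousOn, show (1 : F) = cfc (fun _ : ℝ => (1 : ℝ)) c from (cfc_const_one ℝ c hca).symm,
      ← cfc_sub (fun _ : ℝ => (1 : ℝ)) (fun t => dF η t * t * dF η t) c continuousOn_const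
        (((continuous_dF hη).mul continuous_id).mul (continuous_dF hη)).continuousOn]
    refine cfc_congr fun t ht => ?_
    have ht0 := spec_nonneg hc ht
    rw [dF_eq hη ht0, Real.mul_self_sqrt (by positivity), max_eq_left ht0]
    field_simp
    ring
  have hds : star (d * s) = s * d := by
    rw [star_mul, hss.star_eq, (sa_cfc (dF η) c).star_eq]
  have e2 : star (d * s) * c * (d * s) - x = -(star (k * s) * (k * s)) := by
    rw [hds, star_mul, (sa_cfc _ c).star_eq, hss.star_eq]
    have hx' : s * s = x := sqrt_mul hx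
    calc s * d * c * (d * s) - x = s * (d * c * d) * s - s * s := by rw [hx']; noncomm_ring
      _ = -(s * (1 - d * c * d) * s) := by noncomm_ring
      _ = _ := by rw [e]; noncomm_ring
  rw [e2, norm_neg, norm_star_mul_comm, star_mul, (sa_cfc _ c).star_eq, hss.star_eq,
    show k * s * (s * k) = k * (s * s) * k by noncomm_ring, sqrt_mul hx]
  have h1 := norm_sandwich_le (u := k) hx hxc
  rw [(sa_cfc _ c).star_eq] at h1
  refine h1.trans ?_
  have hcid : c = cfc (fun t : ℝ => t) c := (cfc_id' ℝ c).symm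
  conv_lhs => enter [1, 1, 2]; rw [hcid]
  rw [hk, cfc_mul3 hca _ (fun t => t) _ hkc continuous_id hkc]
  refine norm_cfc_le hη.le fun t ht => ?_
  have ht0 := spec_nonneg hc ht
  rw [mul_right_comm, Real.mul_self_sqrt (by positivity), max_eq_left ht0, Real.norm_eq_abs,
    abs_of_nonneg (by positivity), div_mul_eq_mul_div, div_le_iff₀ (by positivity)]
  nlinarith

theorem cle_aux_of_le {x c : F} (hx : 0 ≤ x) (hxc : x ≤ c) {η : ℝ} (hη : 0 < η) :
    ∃ v : F, ‖star v * c * v - x‖ ≤ η :=
  ⟨_, sandwich_dF_norm hx hxc hη⟩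

/-- The weight used in `(a - ε)_+ ≤ g b g`. -/
def gF (r ε t : ℝ) : ℝ := Real.sqrt (max (t - ε) 0 / max (t - r) (ε - r))

theorem continuous_gF {r ε : ℝ} (h : r < ε) : Continuous (gF r ε) := by
  refine (Continuous.div (by fun_prop) (by fun_prop) fun t => ?_).sqrt
  exact (lt_max_of_lt_right (by linarith)).ne'

theorem cut_le_sandwich {a b : F} (ha : IsSelfAdjoint a) (hb : 0 ≤ b) {r ε : ℝ}
    (hr : ‖a - b‖ ≤ r) (h : r < ε) :
    cut ε a ≤ star (cfc (gF r ε) a) * b * cfc (gF r ε) a := by
  have hba : IsSelfAdjoint (b - a) := (IsSelfAdjoint.of_nonneg hb).sub ha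
  have h1 : a - algebraMap ℝ F r ≤ b := by
    have h2 := hba.neg_algebraMap_norm_le_self
    rw [norm_sub_rev] at h2
    have h3 : algebraMap ℝ F ‖a - b‖ ≤ algebraMap ℝ F r := algebraMap_mono F hr
    rw [neg_le_iff_add_nonneg] at h2
    rw [sub_le_iff_le_add]
    calc a ≤ b + algebraMap ℝ F ‖a - b‖ := by
          rw [← sub_nonneg]
          calc (0 : F) ≤ b - a + algebraMap ℝ F ‖a - b‖ := h2
            _ = b + algebraMap ℝ F ‖a - b‖ - a := by abel
      _ ≤ b + algebraMap ℝ F r := by gcongr
  refine le_of_eq_of_le ?_ (star_left_conjugate_le_conjugate h1 _)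
  rw [(sa_cfc _ a).star_eq]
  have e : a - algebraMap ℝ F r = cfc (fun t : ℝ => t - r) a := by
    rw [cfc_sub (fun t : ℝ => t) (fun _ => r) a continuousOn_id continuousOn_const, cfc_id' ℝ a,
      cfc_const r a]
  rw [e, cfc_mul3 ha _ (fun t => t - r) _ (continuous_gF h) (by fun_prop) (continuous_gF h), cut]
  refine cfc_congr fun t _ => ?_
  show max (t - ε) 0 = gF r ε t * (t - r) * gF r ε t
  rw [gF, mul_right_comm, Real.mul_self_sqrt (div_nonneg (le_max_right _ _)
    (le_max_of_le_right (by linarith)))]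
  rcases le_or_gt t ε with ht | ht
  · simp [max_eq_right (show t - ε ≤ 0 by linarith)]
  · rw [max_eq_left (show ε - r ≤ t - r by linarith), div_mul_cancel₀ _ (by linarith)]

theorem cut_nonneg (ε : ℝ) (a : F) : 0 ≤ cut ε a := cfc_nonneg fun _ _ => le_max_right _ _

/-- Approximate form of `(a - ε)_+ ≾ b`. -/
theorem near_approx {a b : F} (ha : IsSelfAdjoint a) (hb : 0 ≤ b) {ε : ℝ} (h : ‖a - b‖ < ε)
    {η : ℝ} (hη : 0 < η) : ∃ v : F, ‖star v * b * v - cut ε a‖ ≤ η := by
  obtain ⟨v, hv⟩ := cle_aux_of_le (cut_nonneg ε a) (cut_le_sandwich ha hb le_rfl h) hη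
  refine ⟨cfc (gF ‖a - b‖ ε) a * v, ?_⟩
  simpa [star_mul, mul_assoc] using hv

theorem tdF_bound {η : ℝ} (hη : 0 < η) {t : ℝ} (ht : 0 ≤ t) :
    t * dF η t ≤ Real.sqrt t ∧ Real.sqrt t - Real.sqrt η ≤ t * dF η t := by
  rw [dF, max_eq_left ht]
  have hp : 0 < Real.sqrt (t + η) := Real.sqrt_pos.2 (by linarith)
  have h1 : Real.sqrt t ≤ Real.sqrt (t + η) := Real.sqrt_le_sqrt (by linarith)
  have h2 : Real.sqrt t * Real.sqrt t = t := Real.mul_self_sqrt ht
  have h3 : Real.sqrt η * Real.sqrt η = η := Real.mul_self_sqrt hη.le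
  have h4 : Real.sqrt (t + η) * Real.sqrt (t + η) = t + η := Real.mul_self_sqrt (by linarith)
  have ht' := Real.sqrt_nonneg t
  have hη' := Real.sqrt_nonneg η
  constructor
  · rw [← div_eq_mul_inv, div_le_iff₀ hp]
    nlinarith
  · rw [← div_eq_mul_inv, le_div_iff₀ hp]
    have h5 : Real.sqrt (t + η) ≤ Real.sqrt t + Real.sqrt η := by nlinarith
    rcases le_or_gt (Real.sqrt t) (Real.sqrt η) with h6 | h6
    · nlinarith
    · nlinarith

/-- The exact root below `star Z * Z`. -/
theorem exists_root {x Z : F} (hx : 0 ≤ x) (hxc : x ≤ star Z * Z) :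
    ∃ W : F, star W * W = x ∧ ∀ k : F, k * Z = Z → k * W = W := by
  set c := star Z * Z with hc'
  have hc : 0 ≤ c := star_mul_self_nonneg _
  have hca : IsSelfAdjoint c := .of_nonneg hc
  set s := cfc Real.sqrt x with hs
  have hsa : IsSelfAdjoint s := sa_cfc _ _
  let η : ℕ → ℝ := fun n => 1 / ((n : ℝ) + 1)
  have hη : ∀ n, 0 < η n := fun n => by positivity
  let W : ℕ → F := fun n => Z * (cfc (dF (η n)) c * s)
  have hmono : ∀ {N n : ℕ}, N ≤ n → η n ≤ η N := fun {N n} h => by
    simp only [η]; gcongr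
  have hd : ∀ n m N, N ≤ n → N ≤ m → dist (W n) (W m) ≤ Real.sqrt (η N) := by
    intro n m N hn hm
    rw [dist_eq_norm]
    set f := fun t => dF (η n) t - dF (η m) t with hf'
    have hf : Continuous f := (continuous_dF (hη n)).sub (continuous_dF (hη m))
    set Δ := cfc f c with hΔ
    have hΔe : Δ = cfc (dF (η n)) c - cfc (dF (η m)) c :=
      cfc_sub _ _ c (continuous_dF (hη n)).continuousOn (continuous_dF (hη m)).continuousOn
    have e0 : W n - W m = Z * (Δ * s) := by simp only [W, hΔe]; noncomm_ring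
    set q := cfc Real.sqrt c with hq
    have hqa : IsSelfAdjoint q := sa_cfc _ _
    have hΔa : IsSelfAdjoint Δ := sa_cfc _ _
    have e1 : star (W n - W m) * (W n - W m) = star (q * Δ * s) * (q * Δ * s) := by
      rw [e0, star_mul, star_mul, star_mul, star_mul, hsa.star_eq, hqa.star_eq, hΔa.star_eq]
      calc s * Δ * star Z * (Z * (Δ * s)) = s * Δ * c * (Δ * s) := by rw [hc']; noncomm_ring
        _ = s * Δ * (q * q) * (Δ * s) := by rw [sqrt_mul hc]
        _ = _ := by noncomm_ring
    have e2 : ‖W n - W m‖ * ‖W n - W m‖ ≤ ‖star (Δ * q) * c * (Δ * q)‖ := by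
      rw [← CStarRing.norm_star_mul_self, e1, norm_star_mul_comm]
      refine le_of_eq_of_le (congrArg _ ?_) (norm_sandwich_le (u := Δ * q) hx hxc)
      rw [star_mul, star_mul, star_mul, hsa.star_eq, hqa.star_eq, hΔa.star_eq]
      calc q * Δ * s * (s * (Δ * q)) = q * Δ * (s * s) * (Δ * q) := by noncomm_ring
        _ = _ := by rw [sqrt_mul hx]
    have e3 : ‖star (Δ * q) * c * (Δ * q)‖ ≤ η N := by
      have hcid : c = cfc (fun t : ℝ => t) c := (cfc_id' ℝ c).symm
      rw [star_mul, hqa.star_eq, hΔa.star_eq]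
      conv_lhs => enter [1, 1, 2]; rw [hcid]
      rw [hq, hΔ, ← cfc_mul Real.sqrt f c Real.continuous_sqrt.continuousOn hf.continuousOn,
        ← cfc_mul f Real.sqrt c hf.continuousOn Real.continuous_sqrt.continuousOn,
        cfc_mul3 hca (fun t => Real.sqrt t * f t) (fun t => t) (fun t => f t * Real.sqrt t)
          (Real.continuous_sqrt.mul hf) continuous_id (hf.mul Real.continuous_sqrt)]
      refine norm_cfc_le (hη N).le fun t ht => ?_
      have ht0 := spec_nonneg hc ht
      have h1 := tdF_bound (hη n) ht0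
      have h2 := tdF_bound (hη m) ht0
      have h3 : Real.sqrt (η n) ≤ Real.sqrt (η N) := Real.sqrt_le_sqrt (hmono hn)
      have h4 : Real.sqrt (η m) ≤ Real.sqrt (η N) := Real.sqrt_le_sqrt (hmono hm)
      rw [Real.norm_eq_abs, show Real.sqrt t * f t * t * (f t * Real.sqrt t) =
        Real.sqrt t * Real.sqrt t * t * (f t * f t) by ring, Real.mul_self_sqrt ht0,
        show t * t * (f t * f t) = (t * f t) * (t * f t) by ring, abs_mul_self]
      have h5 : |t * f t| ≤ Real.sqrt (η N) := by
        rw [hf', mul_sub, abs_le]; constructor <;> linarith [h1.1, h1.2, h2.1, h2.2]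
      have h6 := abs_mul_self (t * f t)
      nlinarith [abs_nonneg (t * f t), Real.mul_self_sqrt (hη N).le, abs_mul (t * f t) (t * f t)]
    nlinarith [e2.trans e3, Real.sqrt_nonneg (η N), Real.mul_self_sqrt (hη N).le,
      norm_nonneg (W n - W m)]
  have hlim : Filter.Tendsto (fun N => Real.sqrt (η N)) Filter.atTop (nhds 0) := by
    have := (tendsto_one_div_add_atTop_nhds_zero_nat (𝕜 := ℝ)).sqrt
    simpa [η] using this
  obtain ⟨W₀, hW₀⟩ := cauchySeq_tendsto_of_complete
    (cauchySeq_of_le_tendsto_0 _ hd hlim)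
  refine ⟨W₀, tendsto_nhds_unique ((hW₀.star).mul hW₀) ?_, fun k hk => ?_⟩
  · rw [tendsto_iff_norm_sub_tendsto_zero]
    refine squeeze_zero (fun n => norm_nonneg _) (fun n => ?_)
      (g := η) (tendsto_one_div_add_atTop_nhds_zero_nat (𝕜 := ℝ))
    refine le_of_eq_of_le (congrArg _ ?_) (sandwich_dF_norm hx hxc (hη n))
    simp only [W, hc', ← hs, star_mul]
    noncomm_ring
  · refine tendsto_nhds_unique (hW₀.const_mul k) (hW₀.congr fun n => ?_)
    simp only [W]
    rw [← mul_assoc k, hk]

theorem exists_cut_root {a X : F} (ha : IsSelfAdjoint a) {ε : ℝ} (h : ‖a - star X * X‖ < ε) :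
    ∃ W : F, star W * W = cut ε a ∧ ∀ k : F, k * X = X → k * W = W := by
  set g := cfc (gF ‖a - star X * X‖ ε) a
  have h1 : cut ε a ≤ star (X * g) * (X * g) :=
    (cut_le_sandwich ha (star_mul_self_nonneg X) le_rfl h).trans_eq
      (by simp only [g, star_mul, mul_assoc])
  obtain ⟨W, hW, hk⟩ := exists_root (cut_nonneg ε a) h1
  exact ⟨W, hW, fun k hk' => hk k (by rw [← mul_assoc, hk'])⟩

/-! ### Tuples over arbitrary finite index types -/

variable {ι κ μ ι' κ' : Type*} [Fintype ι] [Fintype κ] [Fintype μ] [Fintype ι'] [Fintype κ']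

/-- Subequivalence of finite diagonals. -/
def GLe (x : ι → F) (y : κ → F) : Prop :=
  ∀ ε : ℝ, 0 < ε → ∃ v : κ → ι → F, (∀ i, ‖(∑ k, star (v k i) * y k * v k i) - x i‖ ≤ ε) ∧
    ∀ i j, i ≠ j → ‖∑ k, star (v k i) * y k * v k j‖ ≤ ε

theorem tupLe_iff {m n : ℕ} {x : Fin m → F} {y : Fin n → F} : TupLe x y ↔ GLe x y := by
  refine forall₂_congr fun ε _ => exists_congr fun v => ?_
  constructor
  · intro h
    exact ⟨fun i => by simpa using h i i, fun i j hij => by simpa [hij] using h i j⟩
  · rintro ⟨h1, h2⟩ i j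
    rcases eq_or_ne i j with rfl | hij
    · simpa using h1 i
    · simpa [hij] using h2 i j hij

theorem GLe.reindex {x : ι → F} {y : κ → F} (h : GLe x y) (e : ι' → ι) (he : Function.Injective e)
    (f : κ ≃ κ') : GLe (x ∘ e) (y ∘ f.symm) := by
  intro ε hε
  obtain ⟨v, hv, hv'⟩ := h ε hε
  refine ⟨fun k i => v (f.symm k) (e i), fun i => ?_, fun i j hij => ?_⟩
  · have := f.symm.sum_comp fun k => star (v k (e i)) * y k * v k (e i)
    simpa [this] using hv (e i)
  · have := f.symm.sum_comp fun k => star (v k (e i)) * y k * v k (e j)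
    simpa [this] using hv' _ _ (he.ne hij)

/-- A part of a diagonal lies below the whole. -/
theorem GLe.of_inj (x : κ → F) (e : ι → κ) (he : Function.Injective e) : GLe (x ∘ e) x := by
  classical
  intro ε hε
  refine ⟨fun k i => if e i = k then 1 else 0, fun i => ?_, fun i j hij => ?_⟩
  · rw [Finset.sum_eq_single (e i) (fun b _ hb => by simp [Ne.symm hb]) (by simp)]
    simpa using hε.le
  · rw [Finset.sum_eq_zero fun b _ => ?_]
    · simpa using hε.le
    · by_cases h : e i = b
      · have : e j ≠ b := fun h' => hij (he (h.trans h'.symm))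
        simp [this]
      · simp [h]

theorem GLe.refl (x : ι → F) : GLe x x := GLe.of_inj x id Function.injective_id

theorem GLe.trans {x : ι → F} {y : κ → F} {z : μ → F} (h : GLe x y) (h' : GLe y z) : GLe x z := by
  classical
  intro ε hε
  obtain ⟨v, hv, hv'⟩ := h (ε / 2) (half_pos hε)
  set C := ∑ k, ∑ k', ∑ i, ∑ j, ‖v k i‖ * ‖v k' j‖ with hC
  have hC0 : 0 ≤ C := by positivity
  obtain ⟨w, hw, hw'⟩ := h' (ε / (2 * (C + 1))) (by positivity)
  set η := ε / (2 * (C + 1))
  let u : μ → ι → F := fun l i => ∑ k, w l k * v k i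
  let E : κ → κ → F := fun k k' => (∑ l, star (w l k) * z l * w l k') - if k = k' then y k else 0
  have hE : ∀ k k', ‖E k k'‖ ≤ η := fun k k' => by
    rcases eq_or_ne k k' with rfl | hk
    · simpa [E] using hw k
    · simpa [E, hk] using hw' k k' hk
  have key : ∀ i j, ‖(∑ l, star (u l i) * z l * u l j) - ∑ k, star (v k i) * y k * v k j‖
      ≤ ε / 2 := by
    intro i j
    have e : (∑ l, star (u l i) * z l * u l j) - ∑ k, star (v k i) * y k * v k j =
        ∑ k, ∑ k', star (v k i) * E k k' * v k' j := by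
      simp only [E, mul_sub, sub_mul, Finset.sum_sub_distrib, mul_ite, mul_zero, ite_mul, zero_mul,
        Finset.sum_ite_eq, Finset.mem_univ, if_true]
      congr 1
      simp only [u, star_sum, star_mul, Finset.sum_mul, Finset.mul_sum]
      rw [Finset.sum_comm]
      conv_rhs => rw [Finset.sum_comm]
      refine Finset.sum_congr rfl fun k _ => ?_
      rw [Finset.sum_comm]
      exact Finset.sum_congr rfl fun k' _ => Finset.sum_congr rfl fun l _ => by noncomm_ring
    rw [e]
    calc _ ≤ ∑ k, ∑ k', ‖v k i‖ * η * ‖v k' j‖ :=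
          (norm_sum_le _ _).trans (Finset.sum_le_sum fun k _ => (norm_sum_le _ _).trans
            (Finset.sum_le_sum fun k' _ => norm_mul₃_le.trans (by
              rw [norm_star]; gcongr; exact hE k k')))
      _ = η * ∑ k, ∑ k', ‖v k i‖ * ‖v k' j‖ := by
          simp only [Finset.mul_sum]
          exact Finset.sum_congr rfl fun k _ => Finset.sum_congr rfl fun k' _ => by ring
      _ ≤ η * C := by
          gcongr
          refine Finset.sum_le_sum fun k _ => Finset.sum_le_sum fun k' _ => ?_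
          refine le_trans ?_ (Finset.single_le_sum (f := fun i => ∑ j, ‖v k i‖ * ‖v k' j‖)
            (fun _ _ => by positivity) (Finset.mem_univ i))
          exact Finset.single_le_sum (f := fun j => ‖v k i‖ * ‖v k' j‖)
            (fun _ _ => by positivity) (Finset.mem_univ j)
      _ ≤ ε / 2 := by
          simp only [η]
          rw [div_mul_eq_mul_div, div_le_div_iff₀ (by positivity) two_pos]
          nlinarith
  refine ⟨u, fun i => ?_, fun i j hij => ?_⟩
  · linarith [norm_sub_le_norm_sub_add_norm_sub (∑ l, star (u l i) * z l * u l i)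
      (∑ k, star (v k i) * y k * v k i) (x i), key i i, hv i]
  · linarith [norm_le_norm_add_norm_sub' (∑ l, star (u l i) * z l * u l j)
      (∑ k, star (v k i) * y k * v k j), key i j, hv' i j hij,
      norm_sub_rev (∑ l, star (u l i) * z l * u l j) (∑ k, star (v k i) * y k * v k j)]

theorem GLe.sum {x : ι → F} {y : κ → F} {x' : ι' → F} {y' : κ' → F} (h : GLe x y)
    (h' : GLe x' y') : GLe (Sum.elim x x') (Sum.elim y y') := by
  intro ε hε
  obtain ⟨v, hv, hv2⟩ := h ε hε
  obtain ⟨w, hw, hw2⟩ := h' ε hε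
  refine ⟨fun k i => Sum.elim (fun k => Sum.elim (v k) (fun _ => 0) i)
    (fun k => Sum.elim (fun _ => 0) (w k) i) k, ?_, ?_⟩
  · rintro (i | i) <;> simp [Fintype.sum_sum_type, hv, hw]
  · rintro (i | i) (j | j) hij
    · simpa [Fintype.sum_sum_type] using hv2 i j (by simpa using hij)
    · simpa [Fintype.sum_sum_type] using hε.le
    · simpa [Fintype.sum_sum_type] using hε.le
    · simpa [Fintype.sum_sum_type] using hw2 i j (by simpa using hij)

/-- The bound of a matrix norm by its entries. -/
theorem matrix_norm_le [DecidableEq ι] (M : CStarMatrix ι ι F) : ‖M‖ ≤ ∑ j, ∑ i, ‖M i j‖ := by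
  rw [CStarMatrix.norm_def]
  refine (CStarMatrix.toCLM M).opNorm_le_bound (by positivity) fun v => ?_
  simp only [CStarMatrix.toCLM_apply_eq_sum, Finset.sum_mul]
  apply WithCStarModule.pi_norm_le_sum_norm _ |>.trans
  gcongr with i _
  apply norm_sum_le _ _ |>.trans
  gcongr with j _
  apply norm_mul_le _ _ |>.trans
  rw [mul_comm]
  gcongr
  exact WithCStarModule.norm_apply_le_norm v j

instance piCFC {κ₀ : Type*} [Fintype κ₀] :
    ContinuousFunctionalCalculus ℝ (κ₀ → F) IsSelfAdjoint :=
  IsSelfAdjoint.instContinuousFunctionalCalculus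

instance matCFC {κ₀ : Type*} [Fintype κ₀] [DecidableEq κ₀] :
    ContinuousFunctionalCalculus ℝ (CStarMatrix κ₀ κ₀ F) IsSelfAdjoint :=
  IsSelfAdjoint.instContinuousFunctionalCalculus

/-- Diagonal matrices. -/
def diagHom [DecidableEq ι] : (ι → F) →⋆ₐ[ℂ] CStarMatrix ι ι F where
  toAlgHom := (CStarMatrix.ofMatrixStarAlgEquiv : Matrix ι ι F ≃⋆ₐ[ℂ] CStarMatrix ι ι F).toAlgEquiv.toAlgHom.comp
    (Matrix.diagonalAlgHom ℂ)
  map_star' x := by
    ext i j
    rw [CStarMatrix.star_apply]
    show Matrix.diagonal (star x) i j = star (Matrix.diagonal x j i)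
    rcases eq_or_ne i j with rfl | h
    · simp
    · simp [h, h.symm]

theorem diagHom_apply [DecidableEq ι] (x : ι → F) (i j : ι) :
    diagHom x i j = if i = j then x i else 0 := by
  show Matrix.diagonal x i j = _
  rcases eq_or_ne i j with rfl | h <;> simp [*]

/-- One approximate witness gives a subequivalence of the cuts. -/
theorem GLe.of_approx {x : ι → F} {y : κ → F} (hx : ∀ i, IsSelfAdjoint (x i))
    (hy : ∀ k, IsPos (y k)) {r ε : ℝ} (v : κ → ι → F)
    (hd : ∀ i, ‖(∑ k, star (v k i) * y k * v k i) - x i‖ ≤ r)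
    (ho : ∀ i j, i ≠ j → ‖∑ k, star (v k i) * y k * v k j‖ ≤ r)
    (hr : (Fintype.card ι : ℝ) ^ 2 * r < ε) : GLe (fun i => cut ε (x i)) y := by
  classical
  cases isEmpty_or_nonempty ι with
  | inl h => exact fun η hη => ⟨fun _ i => isEmptyElim i, fun i => isEmptyElim i, fun i => isEmptyElim i⟩
  | inr h =>
    obtain ⟨i₀⟩ := h
    set X : CStarMatrix ι ι F := diagHom x with hX
    have hXsa : IsSelfAdjoint X := by
      show star X = X
      rw [← map_star]
      exact congrArg _ (funext fun i => (hx i).star_eq)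
    choose c hc using hy
    let R : κ → CStarMatrix ι ι F := fun k =>
      CStarMatrix.ofMatrix (Matrix.of fun i j => if i = i₀ then c k * v k j else 0)
    set b : CStarMatrix ι ι F := ∑ k, star (R k) * R k with hb
    have hbe : ∀ i j, b i j = ∑ k, star (v k i) * y k * v k j := by
      intro i j
      rw [hb, show (∑ k, star (R k) * R k) i j = ∑ k, (star (R k) * R k) i j from
        Matrix.sum_apply i j _ _]
      refine Finset.sum_congr rfl fun k _ => ?_
      rw [CStarMatrix.mul_apply]
      simp only [CStarMatrix.star_apply, R, CStarMatrix.ofMatrix_apply, Matrix.of_apply]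
      simp [hc k, mul_assoc]
    have hb0 : 0 ≤ b := Finset.sum_nonneg fun k _ => star_mul_self_nonneg _
    have hdist : ‖X - b‖ < ε := by
      refine lt_of_le_of_lt ((matrix_norm_le _).trans ?_) hr
      calc ∑ j, ∑ i, ‖(X - b) i j‖ ≤ ∑ _j : ι, ∑ _i : ι, r :=
            Finset.sum_le_sum fun j _ => Finset.sum_le_sum fun i _ => by
              rw [CStarMatrix.sub_apply, hX, diagHom_apply, hbe, norm_sub_rev]
              rcases eq_or_ne i j with rfl | hij
              · simpa using hd i
              · simpa [hij] using ho i j hij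
        _ = _ := by simp [pow_two, mul_assoc]
    have hcut : cut ε X = diagHom fun i => cut ε (x i) := by
      have hxsa : IsSelfAdjoint x := funext fun i => (hx i).star_eq
      have hcont : Continuous fun t : ℝ => max (t - ε) 0 := by fun_prop
      rw [cut, hX]
      refine Eq.trans (StarAlgHomClass.map_cfc diagHom (fun t : ℝ => max (t - ε) 0) x hcont.continuousOn
        (map_continuous _) hxsa hXsa).symm (congrArg diagHom ?_)
      funext i
      exact (StarAlgHomClass.map_cfc (Pi.evalStarAlgHom ℂ (fun _ : ι => F) i) _ x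
        hcont.continuousOn (continuous_apply i) hxsa (hx i))
    intro η hη
    obtain ⟨d, hd'⟩ := near_approx hXsa hb0 hdist hη
    let u : κ → ι → F := fun k j => ∑ l, v k l * d l j
    have hu : ∀ i j, (star d * b * d) i j = ∑ k, star (u k i) * y k * u k j := by
      intro i j
      simp only [u, star_sum, star_mul, CStarMatrix.mul_apply, CStarMatrix.star_apply, hbe,
        Finset.sum_mul, Finset.mul_sum]
      conv_rhs => rw [Finset.sum_comm]
      refine Finset.sum_congr rfl fun a _ => ?_
      rw [Finset.sum_comm]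
      exact Finset.sum_congr rfl fun b _ => Finset.sum_congr rfl fun k _ => by simp only [mul_assoc]
    refine ⟨u, fun i => ?_, fun i j hij => ?_⟩
    · have := (CStarMatrix.norm_entry_le_norm (i := i) (j := i)).trans hd'
      rwa [CStarMatrix.sub_apply, hu, hcut, diagHom_apply, if_pos rfl] at this
    · have := (CStarMatrix.norm_entry_le_norm (i := i) (j := j)).trans hd'
      rwa [CStarMatrix.sub_apply, hu, hcut, diagHom_apply, if_neg hij, sub_zero] at this

end

end Vale.Agent.P095.Elem.CuntzAux
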