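import Vale.Agent.P095.Elem.CuntzSep
import Vale.Agent.P101.Coord

/-!
# P095: almost unperforation from commuting dimension drop relations (helper5)
-/

namespace Vale.Agent.P095.Elem.CuntzAux

open VAgent.P101 Vale.Agent.P101
open scoped CStarAlgebra

noncomputable section

attribute [local instance] CStarAlgebra.spectralOrder CStarAlgebra.spectralOrderedRing

variable {F : Type*} [CStarAlgebra F]

/-- Without characters, commuting copies give the relations of `Z_{n,n+1}`. -/
theorem exists_rel [Nontrivial F] (hF : HasCopies F) (hchar : ∀ χ : F →⋆ₙₐ[ℂ] ℂ, χ = 0)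
    (n : ℕ) [NeZero n] : Nonempty (DDRel n F) := by
  classical
  obtain ⟨w₀, g₀, hg₀, hfull₀⟩ := exists_commFull hchar
  obtain ⟨H, hH, hHfull⟩ := exists_nonscalar hF g₀ hg₀ hfull₀
  obtain ⟨a, b, -, -, hab, hfa, hfb⟩ := exists_pair hF H hH hHfull
  obtain ⟨X, hX, hXfull⟩ := exists_squareZero hF H a b hH hHfull hab hfa hfb
  obtain ⟨x, g, g', w, r, hb, hr⟩ := exists_block hX hXfull
  set N := Fintype.card (Fin n → Fin w) with hN
  set m := N + 1
  set Node := {p : List (Fin N) // p.length ≤ m}
  haveI : Finite Node := (List.finite_length_le (Fin N) m).to_subtype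
  haveI : Fintype Node := Fintype.ofFinite Node
  set T : Finset F := insert x (insert g (Finset.univ.image r))
  obtain ⟨φ, -, hc⟩ := exists_copies hF T ∅ (Fintype.card (Node × Fin n))
  let e := Fintype.equivFin (Node × Fin n)
  let mk : Fin (Fintype.card (Node × Fin n)) → BlockData F w := fun k =>
    { x := φ k ⟨x, mem_genAlg (by simp [T])⟩
      g := φ k ⟨g, mem_genAlg (by simp [T])⟩
      r := fun q => φ k ⟨r q, mem_genAlg (by simp [T])⟩
      sq := by
        rw [← map_mul, show (⟨x, _⟩ : GenAlg T) * ⟨x, mem_genAlg (by simp [T])⟩ = 0 from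
          Subtype.ext hb.sq, map_zero]
      gsa := by rw [← map_star]; exact congrArg _ (Subtype.ext hb.gsa)
      fix := by
        rw [← map_star, ← map_mul, ← map_mul]
        exact congrArg _ (Subtype.ext hb.fix_g)
      full := by
        simp only [← map_star, ← map_mul, ← map_sum]
        rw [← map_one (φ k)]
        refine congrArg _ (Subtype.ext ?_)
        simp only [AddSubmonoidClass.coe_finsetSum, MulMemClass.coe_mul, StarMemClass.coe_star,
          OneMemClass.coe_one]
        exact hr }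
  have hmk : ∀ k l, k ≠ l → (mk k).Comm (mk l) := by
    intro k l hkl u hu v hv
    have hu' : ∃ u', φ k u' = u := by
      rcases hu with (hu | ⟨q, rfl⟩) | ⟨q, rfl⟩
      · rcases hu with rfl | rfl | rfl
        exacts [⟨_, rfl⟩, ⟨_, map_star _ _⟩, ⟨_, rfl⟩]
      · exact ⟨_, rfl⟩
      · exact ⟨_, map_star _ _⟩
    have hv' : ∃ v', φ l v' = v := by
      rcases hv with (hv | ⟨q, rfl⟩) | ⟨q, rfl⟩
      · rcases hv with rfl | rfl | rfl
        exacts [⟨_, rfl⟩, ⟨_, map_star _ _⟩, ⟨_, rfl⟩]
      · exact ⟨_, rfl⟩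
      · exact ⟨_, map_star _ _⟩
    obtain ⟨u', rfl⟩ := hu'
    obtain ⟨v', rfl⟩ := hv'
    exact hc k l hkl u' v'
  have hne : ∀ (p : Node) (i j : Fin n), i ≠ j → (mk (e (p, i))).Comm (mk (e (p, j))) :=
    fun p i j h => hmk _ _ fun he => h (Prod.ext_iff.1 (e.injective he)).2
  let C : List (Fin N) → Coord n N F := fun p => if hp : p.length ≤ m then
    coordOf (fun i => mk (e (⟨p, hp⟩, i))) (hne ⟨p, hp⟩)
    else coordOf (fun i => mk (e (⟨[], Nat.zero_le _⟩, i))) (hne ⟨[], Nat.zero_le _⟩)
  have hC : ∀ p q : List (Fin N), p.length ≤ m → q.length ≤ m → p ≠ q →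
      Coord.Comm (C p) (C q) := fun p q hp hq hpq => by
    simp only [C, dif_pos hp, dif_pos hq]
    exact comm_coordOf _ _ _ _ fun i j => hmk _ _ fun he =>
      hpq (congrArg Subtype.val (Prod.ext_iff.1 (e.injective he)).1)
  rcases Nat.lt_or_ge n 2 with hn | hn
  · have hn1 : n = 1 := by have := NeZero.ne n; omega
    subst hn1
    exact ⟨{ φ := fun _ _ => 1
             φ_star := fun _ _ => star_one F
             φ_mul := fun i j k l => by
               rw [if_pos (Subsingleton.elim (α := Fin 1) j k)]; simp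
             φ_one_nonneg := by simp
             v := 0
             v_star_mul := by simp
             φ_mul_v := by simp }⟩
  exact Vale.Agent.P101.exists_ddRel (C := C) hC (a := 1 / 6) (m := m)
    ((Nat.lt_pow_self hn).le.trans (Nat.pow_le_pow_right (by omega) (Nat.le_succ N)))
    (Nat.succ_pos _) (by norm_num) slot_star (fun s hs => slot_low hs)
    (fun p hp => by simp only [C, dif_pos hp]; exact coordOf_rel _ _)

/-- The relations, commuting with a given finite set. -/
theorem exists_rel_comm [Nontrivial F] (hF : HasCopies F) (hchar : ∀ χ : F →⋆ₙₐ[ℂ] ℂ, χ = 0)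
    (n : ℕ) [NeZero n] (S : Finset F) :
    ∃ R : DDRel n F, ∀ z ∈ S, (∀ i j, Commute z (R.φ i j)) ∧ Commute z R.v ∧
      Commute z (star R.v) := by
  classical
  obtain ⟨R⟩ := exists_rel hF hchar n
  set T : Finset F := insert R.v (Finset.univ.image fun p : Fin n × Fin n => R.φ p.1 p.2)
  obtain ⟨ψ, hψ⟩ := hF T S
  let P : Fin n → Fin n → GenAlg T := fun i j =>
    ⟨R.φ i j, mem_genAlg (Finset.mem_insert_of_mem (Finset.mem_image.2 ⟨(i, j), by simp, rfl⟩))⟩
  let V : GenAlg T := ⟨R.v, mem_genAlg (Finset.mem_insert_self _ _)⟩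
  refine ⟨{ φ := fun i j => ψ (P i j)
            φ_star := fun i j => by
              rw [← map_star]; exact congrArg _ (Subtype.ext (R.φ_star i j))
            φ_mul := fun i j k l => by
              have e : P i j * P k l = if j = k then P i l * ∑ m, P m m else 0 :=
                Subtype.ext (by
                  rw [MulMemClass.coe_mul]
                  refine (R.φ_mul i j k l).trans ?_
                  split_ifs <;> simp [P])
              rw [← map_mul, e]
              split_ifs <;> simp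
            φ_one_nonneg := by
              rw [← map_sum]
              obtain ⟨c, hc⟩ : ∃ c : GenAlg T, ∑ m, P m m = star c * c := by
                have h1 : IsSelfAdjoint (∑ m, P m m) := by
                  simp only [IsSelfAdjoint, star_sum]
                  exact Finset.sum_congr rfl fun m _ => Subtype.ext (R.φ_star m m)
                refine ⟨cfc Real.sqrt (∑ m, P m m), ?_⟩
                rw [(cfc_predicate Real.sqrt (∑ m, P m m)).star_eq]
                apply Subtype.ext
                rw [MulMemClass.coe_mul, coe_cfc _ h1 _ Real.continuous_sqrt, sqrt_mul ?_]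
                · simp [P]
                  exact R.φ_one_nonneg
              rw [hc, map_mul, map_star]
              exact star_mul_self_nonneg _
            v := ψ V
            v_star_mul := by
              rw [← map_sum, ← map_one ψ, ← map_star, ← map_mul, ← map_sub]
              exact congrArg _ (Subtype.ext (by simpa [P, V] using R.v_star_mul))
            φ_mul_v := by
              rw [← map_mul]; exact congrArg _ (Subtype.ext R.φ_mul_v) },
    fun z hz => ⟨fun i j => hψ z hz _, hψ z hz _, by rw [← map_star]; exact hψ z hz _⟩⟩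

section Rel

variable {n : ℕ} [NeZero n] (R : DDRel n F)

theorem rel_one_le : R.one' ≤ 1 := by
  have := R.d_nonneg
  rwa [DDRel.d, sub_nonneg] at this

theorem rel_diag_bound (i : Fin n) (f : ℝ → ℝ) {c : ℝ} (hc : 0 ≤ c) (hfc : Continuous f)
    (hf : ∀ t, 0 ≤ t → t ≤ 1 → |t * f t| ≤ c) : ‖R.φ i i * cfc f R.one'‖ ≤ c := by
  have h0 : 0 ≤ R.one' := R.φ_one_nonneg
  have hsa : ∀ j, IsSelfAdjoint (R.φ j j) := fun j => R.φ_star j j
  set k := cfc f R.one'
  have hk : IsSelfAdjoint k := sa_cfc _ _
  have hsq : R.φ i i * R.φ i i ≤ R.one' * R.one' := by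
    have e : R.one' * R.one' = ∑ j, R.φ j j * R.φ j j := by
      conv_lhs => rw [show R.one' * R.one' = (∑ j, R.φ j j) * R.one' from rfl]
      rw [Finset.sum_mul]
      exact Finset.sum_congr rfl fun j _ => by rw [R.φ_mul' j j j j, if_pos rfl]
    rw [e]
    exact Finset.single_le_sum (f := fun j => R.φ j j * R.φ j j)
      (fun j _ => by have := star_mul_self_nonneg (R.φ j j); rwa [(hsa j).star_eq] at this)
      (Finset.mem_univ i)
  have h1 : ‖star (R.φ i i * k) * (R.φ i i * k)‖ ≤ c * c := by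
    rw [star_mul, (hsa i).star_eq,
      show star k * R.φ i i * (R.φ i i * k) = star k * (R.φ i i * R.φ i i) * k by noncomm_ring]
    refine (norm_sandwich_le (u := k) ?_ hsq).trans ?_
    · have := star_mul_self_nonneg (R.φ i i); rwa [(hsa i).star_eq] at this
    · have hid : R.one' = cfc (fun t : ℝ => t) R.one' := (cfc_id' ℝ _).symm
      rw [hk.star_eq]
      conv_lhs => enter [1, 1, 2]; rw [hid]; rw [← cfc_mul (fun t : ℝ => t) (fun t : ℝ => t) R.one' continuousOn_id continuousOn_id]
      rw [cfc_mul3 (.of_nonneg h0) f (fun t => t * t) f hfc (by fun_prop) hfc]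
      refine norm_cfc_le (mul_self_nonneg c) fun t ht => ?_
      have h2 := hf t (spec_nonneg h0 ht) ((CFC.le_one_iff R.one' (.of_nonneg R.φ_one_nonneg)).1
        (rel_one_le R) t ht)
      rw [Real.norm_eq_abs, show f t * (t * t) * f t = (t * f t) * (t * f t) by ring, abs_mul]
      exact mul_le_mul h2 h2 (abs_nonneg _) hc
  rw [CStarRing.norm_star_mul_self] at h1
  nlinarith [norm_nonneg (R.φ i i * k)]

theorem rel_cfc_comm (f : ℝ → ℝ) {y : F} (hy : ∀ i j, Commute y (R.φ i j)) :
    Commute (cfc f R.one') y :=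
  Commute.cfc_real (Commute.sum_left _ _ _ fun i _ => (hy i i).symm) f

theorem rel_cfc_comm_φ (f : ℝ → ℝ) (i j) : Commute (cfc f R.one') (R.φ i j) :=
  Commute.cfc_real (R.one'_comm i j) f

theorem rel_spec {t : ℝ} (ht : t ∈ spectrum ℝ R.one') : 0 ≤ t ∧ t ≤ 1 :=
  ⟨spec_nonneg R.φ_one_nonneg ht,
    (CFC.le_one_iff R.one' (.of_nonneg R.φ_one_nonneg)).1 (rel_one_le R) t ht⟩

theorem rel_one_mul (f : ℝ → ℝ) (hf : Continuous f) :
    R.one' * cfc f R.one' = cfc (fun t => t * f t) R.one' := by
  have h1a : IsSelfAdjoint R.one' := .of_nonneg R.φ_one_nonneg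
  conv_lhs => enter [1]; rw [← cfc_id' ℝ R.one' h1a]
  exact (cfc_mul (fun t : ℝ => t) f R.one' continuousOn_id hf.continuousOn).symm

/-- `(t + η)⁻¹`. -/
def gW (η t : ℝ) : ℝ := (max t 0 + η)⁻¹

theorem continuous_gW {η : ℝ} (hη : 0 < η) : Continuous (gW η) :=
  Continuous.inv₀ (by fun_prop) fun t => by positivity

/-- Witnesses for `1 ≾ (n + 1) φ 0 0`. -/
def relW (η : ℝ) : Fin (n + 1) → F := Fin.cons R.v fun i => R.φ 0 i * cfc (gW η) R.one'

theorem norm_relW_le {η : ℝ} (hη : 0 < η) (i : Fin (n + 1)) : ‖relW R η i‖ ≤ 1 := by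
  induction i using Fin.cases with
  | zero =>
    simp only [relW, Fin.cons_zero]
    have h2 : ‖star R.v * R.v‖ ≤ 1 := by
      rw [R.d_eq]
      exact (CStarAlgebra.norm_le_one_iff_of_nonneg _ R.d_nonneg).2 R.d_le_one
    rw [CStarRing.norm_star_mul_self] at h2
    nlinarith [norm_nonneg R.v]
  | succ i =>
    simp only [relW, Fin.cons_succ]
    have hg : Continuous (gW η) := continuous_gW hη
    have h1a : IsSelfAdjoint R.one' := .of_nonneg R.φ_one_nonneg
    set g := cfc (gW η) R.one' with hgdef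
    have e3 : g * R.one' * g = cfc (fun t => gW η t * t * gW η t) R.one' := by
      rw [← cfc_mul3 h1a (gW η) (fun t => t) (gW η) hg continuous_id hg, cfc_id' ℝ R.one' h1a]
    have h2 : ‖star (R.φ 0 i * g) * (R.φ 0 i * g)‖ ≤ 1 := by
      have e : star (R.φ 0 i * g) * (R.φ 0 i * g) = R.φ i i * (g * R.one' * g) := by
        rw [star_mul, show star g = g from sa_cfc _ _, R.φ_star,
          show g * R.φ i 0 * (R.φ 0 i * g) = g * (R.φ i 0 * R.φ 0 i) * g by noncomm_ring,
          R.φ_mul', if_pos rfl, ← mul_assoc, (rel_cfc_comm_φ R _ i i).eq]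
        simp only [hgdef, mul_assoc]
      rw [e, e3]
      refine rel_diag_bound R i _ zero_le_one ((hg.mul continuous_id).mul hg) fun t ht _ => ?_
      have e2 : t * (gW η t * t * gW η t) = (t / (t + η)) * (t / (t + η)) := by
        simp only [gW, max_eq_left ht]; ring
      have h3 : t / (t + η) ≤ 1 := by rw [div_le_one (by linarith)]; linarith
      have h4 : 0 ≤ t / (t + η) := by positivity
      rw [e2, abs_mul, abs_of_nonneg h4]
      nlinarith
    rw [CStarRing.norm_star_mul_self] at h2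
    nlinarith [norm_nonneg (R.φ 0 i * g)]

theorem relW_sum {η : ℝ} (hη : 0 < η) :
    ‖(∑ i, star (relW R η i) * R.φ 0 0 * relW R η i) - 1‖ ≤ 2 * η := by
  have hg : Continuous (gW η) := continuous_gW hη
  have h1a : IsSelfAdjoint R.one' := .of_nonneg R.φ_one_nonneg
  set g := cfc (gW η) R.one' with hgdef
  have hog : R.one' * g = cfc (fun t => t * gW η t) R.one' := rel_one_mul R _ hg
  have hgc : Commute g R.one' := (Commute.cfc_real (Commute.refl R.one') _)
  have e1 : ∀ i, star (relW R η i.succ) * R.φ 0 0 * relW R η i.succ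
      = R.φ i i * cfc (fun t => (t * gW η t) * (t * gW η t)) R.one' := fun i => by
    simp only [relW, Fin.cons_succ]
    rw [star_mul, show star g = g from sa_cfc _ _, R.φ_star]
    calc g * R.φ i 0 * R.φ 0 0 * (R.φ 0 i * g)
        = g * (R.φ i 0 * R.φ 0 0) * (R.φ 0 i * g) := by noncomm_ring
      _ = g * (R.one' * (R.φ i 0 * R.φ 0 i)) * g := by
          rw [R.φ_mul', if_pos rfl, ← (R.one'_comm i 0).eq]; noncomm_ring
      _ = g * R.one' * R.φ i i * (R.one' * g) := by
          rw [R.φ_mul', if_pos rfl]; noncomm_ring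
      _ = R.φ i i * ((R.one' * g) * (R.one' * g)) := by
          rw [hgc.eq, ((R.one'_comm i i).mul_left (rel_cfc_comm_φ R _ i i)).eq, mul_assoc]
      _ = _ := by
          rw [hog, ← cfc_mul (fun t => t * gW η t) (fun t => t * gW η t) R.one'
            (continuous_id'.mul hg).continuousOn (continuous_id'.mul hg).continuousOn]
  have e2 : star (relW R η 0) * R.φ 0 0 * relW R η 0 = 1 - R.one' := by
    simp only [relW, Fin.cons_zero]
    rw [mul_assoc, R.φ_mul_v, R.v_star_mul]; rfl
  have hq : Continuous fun t : ℝ => (t * gW η t) * (t * gW η t) :=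
    (continuous_id'.mul hg).mul (continuous_id'.mul hg)
  rw [Fin.sum_univ_succ, e2, Finset.sum_congr rfl fun i _ => e1 i, ← Finset.sum_mul,
    show (∑ i, R.φ i i) = R.one' from rfl, rel_one_mul R _ hq,
    show 1 - R.one' + cfc (fun t => t * ((t * gW η t) * (t * gW η t))) R.one' - 1 =
      cfc (fun t => t * ((t * gW η t) * (t * gW η t))) R.one' - R.one' by abel]
  conv_lhs => enter [1, 2]; rw [← cfc_id' ℝ R.one' h1a]
  rw [← cfc_sub (fun t : ℝ => t * ((t * gW η t) * (t * gW η t))) (fun t => t) R.one'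
    (continuous_id'.mul hq).continuousOn continuousOn_id]
  refine norm_cfc_le (by positivity) fun t ht => ?_
  obtain ⟨ht0, -⟩ := rel_spec R ht
  have h4 : 0 < t + η := by linarith
  have h5 : t * ((t * gW η t) * (t * gW η t)) - t = -(t * η * (2 * t + η)) / (t + η) ^ 2 := by
    simp only [gW, max_eq_left ht0]; field_simp; ring
  rw [Real.norm_eq_abs, h5, abs_div, abs_neg, abs_of_nonneg (by positivity),
    abs_of_pos (by positivity), div_le_iff₀ (by positivity)]
  nlinarith [mul_nonneg ht0 hη.le, mul_nonneg hη.le hη.le,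
    mul_nonneg (mul_nonneg hη.le hη.le) ht0, mul_nonneg (mul_nonneg hη.le hη.le) hη.le]

theorem relW_comm (η : ℝ) {z : F} (h : ∀ i j, Commute z (R.φ i j)) (hv : Commute z (star R.v))
    (i : Fin (n + 1)) : z * star (relW R η i) = star (relW R η i) * z := by
  induction i using Fin.cases with
  | zero => simpa [relW] using hv.eq
  | succ i =>
    simp only [relW, Fin.cons_succ]
    rw [star_mul, show star (cfc (gW η) R.one') = cfc (gW η) R.one' from sa_cfc _ _, R.φ_star,
      ← mul_assoc, ← (rel_cfc_comm R _ h).eq, mul_assoc, (h i 0).eq, mul_assoc]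

/-- `n` orthogonal copies of `e φ 0 0` inside `e`. -/
theorem exists_merge (e : F) (hce : ∀ i j, Commute e (R.φ i j)) {η : ℝ} (hη : 0 < η)
    (U : Fin n → F) :
    ∃ u : F, ‖star u * e * u - ∑ l, star (U l) * (e * R.φ 0 0) * U l‖ ≤
      η * ‖e‖ * ∑ l, ‖U l‖ ^ 2 := by
  have hd : Continuous (dF η) := continuous_dF hη
  have h1a : IsSelfAdjoint R.one' := .of_nonneg R.φ_one_nonneg
  set k := cfc (dF η) R.one' with hk
  set q := cfc (fun t => dF η t * t * dF η t) R.one' with hq
  have hke : ∀ l j, star (R.φ l 0 * k) * e * (R.φ j 0 * k) =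
      if l = j then e * (R.φ 0 0 * q) else 0 := by
    intro l j
    rw [star_mul, show star k = k from sa_cfc _ _, R.φ_star,
      show k * R.φ 0 l * e * (R.φ j 0 * k) = k * (R.φ 0 l * e) * (R.φ j 0 * k) by noncomm_ring,
      ← (hce 0 l).eq, show k * (e * R.φ 0 l) * (R.φ j 0 * k) =
        k * e * (R.φ 0 l * R.φ j 0) * k by noncomm_ring, (rel_cfc_comm R _ hce).eq, R.φ_mul']
    split_ifs
    · have e2 : k * R.one' * k = q := by
        rw [hq, ← cfc_mul3 h1a (dF η) (fun t => t) (dF η) hd continuous_id hd, cfc_id' ℝ R.one' h1a]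
      calc e * k * (R.φ 0 0 * R.one') * k = e * (k * R.φ 0 0 * R.one' * k) := by noncomm_ring
        _ = e * (R.φ 0 0 * (k * R.one' * k)) := by
            rw [(rel_cfc_comm_φ R _ 0 0).eq]; noncomm_ring
        _ = _ := by rw [e2]
    · simp
  refine ⟨∑ l, R.φ l 0 * k * U l, ?_⟩
  have hu : star (∑ l, R.φ l 0 * k * U l) * e * (∑ l, R.φ l 0 * k * U l) =
      ∑ l, star (U l) * (e * (R.φ 0 0 * q)) * U l := by
    rw [star_sum, Finset.sum_mul, Finset.sum_mul]
    refine Finset.sum_congr rfl fun l _ => ?_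
    rw [Finset.mul_sum, Finset.sum_eq_single l (fun j _ hj => ?_) (by simp)]
    · rw [star_mul, show star (U l) * star (R.φ l 0 * k) * e * (R.φ l 0 * k * U l) =
        star (U l) * (star (R.φ l 0 * k) * e * (R.φ l 0 * k)) * U l by noncomm_ring, hke,
        if_pos rfl]
    · rw [star_mul, show star (U l) * star (R.φ l 0 * k) * e * (R.φ j 0 * k * U j) =
        star (U l) * (star (R.φ l 0 * k) * e * (R.φ j 0 * k)) * U j by noncomm_ring, hke,
        if_neg (Ne.symm hj), mul_zero, zero_mul]
  have h2 : ‖R.φ 0 0 * q - R.φ 0 0‖ ≤ η := by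
    have hkk : Continuous fun t : ℝ => dF η t * t * dF η t := (hd.mul continuous_id').mul hd
    have e3 : R.φ 0 0 * q - R.φ 0 0 =
        R.φ 0 0 * cfc (fun t => dF η t * t * dF η t - 1) R.one' := by
      rw [cfc_sub (fun t => dF η t * t * dF η t) (fun _ => (1 : ℝ)) _ hkk.continuousOn
        continuousOn_const, cfc_const_one ℝ R.one' h1a, mul_sub, mul_one]
    rw [e3]
    refine rel_diag_bound R 0 _ hη.le (hkk.sub continuous_const) fun t ht _ => ?_
    have h4 : 0 < t + η := by linarith
    have e4 : t * (dF η t * t * dF η t - 1) = -(t * η / (t + η)) := by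
      rw [dF_eq hη ht]; field_simp; ring
    rw [e4, abs_neg, abs_of_nonneg (by positivity), div_le_iff₀ h4]
    nlinarith
  rw [hu, ← Finset.sum_sub_distrib, Finset.mul_sum]
  refine (norm_sum_le _ _).trans (Finset.sum_le_sum fun l _ => ?_)
  rw [← sub_mul, ← mul_sub, ← mul_sub]
  refine norm_mul₃_le.trans ?_
  rw [norm_star, sq]
  calc ‖U l‖ * ‖e * (R.φ 0 0 * q - R.φ 0 0)‖ * ‖U l‖
      ≤ ‖U l‖ * (‖e‖ * η) * ‖U l‖ := by
        gcongr; exact (norm_mul_le _ _).trans (by gcongr)
    _ = _ := by ring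

end Rel

/-- `(m + 1) z ≾ m e` up to `r` and the relations give `z ≾ e` up to errors. -/
theorem perforation_step {m : ℕ} [NeZero m] (R : DDRel m F) (z e : F)
    (V : Fin m → Fin (m + 1) → F) {r : ℝ}
    (hd : ∀ i, ‖(∑ k, star (V k i) * e * V k i) - z‖ ≤ r)
    (ho : ∀ i j, i ≠ j → ‖∑ k, star (V k i) * e * V k j‖ ≤ r)
    (hcz : (∀ i j, Commute z (R.φ i j)) ∧ Commute z R.v ∧ Commute z (star R.v))
    (hce : ∀ i j, Commute e (R.φ i j))
    (hcV : ∀ k l i j, Commute (V k l) (R.φ i j)) {η : ℝ} (hη : 0 < η) :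
    ∃ u : F, ‖star u * e * u - z‖ ≤
      η * ‖e‖ * (∑ l, (∑ k, ‖V l k‖) ^ 2) + ((m : ℝ) + 1) ^ 2 * r + 2 * η * ‖z‖ := by
  set W := relW R η with hW
  let U : Fin m → F := fun l => ∑ i, V l i * W i
  have hWn : ∀ i, ‖W i‖ ≤ 1 := norm_relW_le R hη
  have hUn : ∀ l, ‖U l‖ ≤ ∑ i, ‖V l i‖ := fun l => (norm_sum_le _ _).trans
    (Finset.sum_le_sum fun i _ => (norm_mul_le _ _).trans
      (mul_le_of_le_one_right (norm_nonneg _) (hWn i)))
  obtain ⟨u, hu⟩ := exists_merge R e hce hη U
  have herr1 : ‖star u * e * u - ∑ l, star (U l) * (e * R.φ 0 0) * U l‖ ≤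
      η * ‖e‖ * ∑ l, (∑ i, ‖V l i‖) ^ 2 :=
    hu.trans (mul_le_mul_of_nonneg_left (Finset.sum_le_sum fun l _ => by gcongr; exact hUn l)
      (by positivity))
  have herr2 : ‖(∑ l, star (U l) * (e * R.φ 0 0) * U l) - z * ∑ i, star (W i) * R.φ 0 0 * W i‖
      ≤ ((m : ℝ) + 1) ^ 2 * r := by
    let E : Fin (m + 1) → Fin (m + 1) → F := fun i j =>
      (∑ l, star (V l i) * e * V l j) - if i = j then z else 0
    have e3 : (∑ l, star (U l) * (e * R.φ 0 0) * U l) - z * ∑ i, star (W i) * R.φ 0 0 * W i =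
        ∑ i, ∑ j, star (W i) * (E i j * R.φ 0 0) * W j := by
      simp only [E, sub_mul, mul_sub, Finset.sum_sub_distrib, ite_mul, zero_mul, mul_ite, mul_zero,
        Finset.sum_ite_eq, Finset.mem_univ, if_true]
      congr 1
      · simp only [U, star_sum, star_mul, Finset.sum_mul, Finset.mul_sum]
        rw [Finset.sum_comm]
        conv_rhs => rw [Finset.sum_comm]
        refine Finset.sum_congr rfl fun j _ => ?_
        rw [Finset.sum_comm]
        refine Finset.sum_congr rfl fun i _ => Finset.sum_congr rfl fun l _ => ?_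
        calc star (W i) * star (V l i) * (e * R.φ 0 0) * (V l j * W j)
            = star (W i) * star (V l i) * e * (R.φ 0 0 * V l j) * W j := by noncomm_ring
          _ = _ := by rw [← (hcV l j 0 0).eq]; noncomm_ring
      · rw [Finset.mul_sum]
        exact Finset.sum_congr rfl fun i _ => by
          rw [← mul_assoc, ← mul_assoc, relW_comm R η hcz.1 hcz.2.2 i, mul_assoc (star (W i)) z]
    rw [e3]
    have hE : ∀ i j, ‖E i j‖ ≤ r := fun i j => by
      rcases eq_or_ne i j with rfl | hij
      · simpa [E] using hd i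
      · simpa [E, hij] using ho i j hij
    have hr : 0 ≤ r := (norm_nonneg _).trans (hd 0)
    have hφ : ‖R.φ 0 0‖ ≤ 1 := by
      simpa [cfc_const_one ℝ R.one' (IsSelfAdjoint.of_nonneg R.φ_one_nonneg)] using
        rel_diag_bound R 0 (fun _ => (1 : ℝ)) zero_le_one continuous_const
          fun t ht ht1 => by rw [mul_one, abs_of_nonneg ht]; exact ht1
    calc ‖∑ i, ∑ j, star (W i) * (E i j * R.φ 0 0) * W j‖
        ≤ ∑ i, ∑ j, ‖star (W i) * (E i j * R.φ 0 0) * W j‖ :=
          (norm_sum_le _ _).trans (Finset.sum_le_sum fun i _ => norm_sum_le _ _)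
      _ ≤ ∑ _i : Fin (m + 1), ∑ _j : Fin (m + 1), r := by
          refine Finset.sum_le_sum fun i _ => Finset.sum_le_sum fun j _ => ?_
          refine norm_mul₃_le.trans ?_
          have h2 : ‖E i j * R.φ 0 0‖ ≤ r :=
            ((norm_mul_le (E i j) _).trans (mul_le_of_le_one_right (norm_nonneg _) hφ)).trans
              (hE i j)
          have h3 := hWn i
          have h4 := hWn j
          rw [norm_star]
          calc ‖W i‖ * ‖E i j * R.φ 0 0‖ * ‖W j‖ ≤ 1 * r * 1 := by gcongr
            _ = r := by ring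
      _ = _ := by simp; ring
  have herr3 : ‖z * (∑ i, star (W i) * R.φ 0 0 * W i) - z‖ ≤ 2 * η * ‖z‖ := by
    rw [show ∀ q : F, z * q - z = z * (q - 1) from fun q => by noncomm_ring]
    refine (norm_mul_le _ _).trans ?_
    rw [mul_comm (2 * η)]
    exact mul_le_mul_of_nonneg_left (relW_sum R hη) (norm_nonneg _)
  refine ⟨u, ?_⟩
  have t1 := norm_sub_le_norm_sub_add_norm_sub (star u * e * u)
    (∑ l, star (U l) * (e * R.φ 0 0) * U l) z
  have t2 := norm_sub_le_norm_sub_add_norm_sub (∑ l, star (U l) * (e * R.φ 0 0) * U l)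
    (z * ∑ i, star (W i) * R.φ 0 0 * W i) z
  linarith

end

end Vale.Agent.P095.Elem.CuntzAux
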