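import Vale.Agent.P095.Elem.CuntzAux

/-!
# P095: dimension states separate multiples in the Cuntz preorder (helper5)

If every dimension state is strictly smaller on a tuple `x` than on a full tuple `y`, then some
`m + 1` copies of the cuts of `x` lie below `m` copies of `y`.
-/

namespace Vale.Agent.P095.Elem.CuntzAux

open scoped CStarAlgebra

noncomputable section

attribute [local instance] CStarAlgebra.spectralOrder CStarAlgebra.spectralOrderedRing

variable {F : Type*} [CStarAlgebra F]

variable (F) in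
/-- The positive elements. -/
abbrev Pos : Type _ := {x : F // IsPos x}

/-- The unit, as a positive element. -/
def pone : Pos F := ⟨1, 1, by simp⟩

variable {ι κ ι' : Type*} [Fintype ι] [Fintype κ] [Fintype ι']

/-- The multiset of a tuple. -/
def mult (x : ι → Pos F) : Multiset (Pos F) := Finset.univ.val.map x

theorem mult_elim (x : ι → Pos F) (x' : ι' → Pos F) :
    mult (Sum.elim x x') = mult x + mult x' := by
  simp [mult, ← Finset.univ_disjSum_univ, Finset.val_disjSum, Multiset.disjSum, Multiset.map_map]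

theorem mult_prod (n : ℕ) (x : ι → Pos F) :
    mult (fun p : Fin n × ι => x p.2) = n • mult x := by
  classical
  ext a
  simp only [mult, Multiset.count_nsmul, Multiset.count_map, ← Finset.filter_val,
    Finset.card_val]
  rw [show (Finset.univ.filter fun p : Fin n × ι => a = x p.2) =
    (Finset.univ : Finset (Fin n)) ×ˢ (Finset.univ.filter fun i => a = x i) by ext p; simp,
    Finset.card_product, Finset.card_univ, Fintype.card_fin]

theorem exists_tuple (A : Multiset (Pos F)) : ∃ (n : ℕ) (x : Fin n → Pos F), mult x = A :=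
  ⟨A.toList.length, A.toList.get, by
    rw [mult, Fin.univ_val_map, List.ofFn_get, Multiset.coe_toList]⟩

theorem exists_equiv {x : ι → Pos F} {x' : ι' → Pos F} (h : mult x = mult x') :
    ∃ e : ι ≃ ι', ∀ i, x' (e i) = x i := by
  classical
  have hc : ∀ a, Fintype.card {i // x i = a} = Fintype.card {i // x' i = a} := fun a => by
    have := congrArg (Multiset.count a) h
    simp only [mult, Multiset.count_map, ← Finset.filter_val, Finset.card_val] at this
    simpa [Fintype.card_subtype, eq_comm] using this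
  exact ⟨Equiv.ofFiberEquiv fun a => Fintype.equivOfCardEq (hc a),
    fun i => Equiv.ofFiberEquiv_map _ i⟩

/-- Subequivalence of multisets of positive elements. -/
def MLe (A B : Multiset (Pos F)) : Prop :=
  ∃ (m n : ℕ) (x : Fin m → Pos F) (y : Fin n → Pos F), mult x = A ∧ mult y = B ∧
    GLe (fun i => (x i : F)) (fun k => (y k : F))

theorem MLe.of {x : ι → Pos F} {y : κ → Pos F}
    (h : GLe (fun i => (x i : F)) fun k => (y k : F)) : MLe (mult x) (mult y) := by
  classical
  refine ⟨_, _, fun i => x ((Fintype.equivFin ι).symm i), fun k => y ((Fintype.equivFin κ).symm k),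
    ?_, ?_, h.reindex _ (Fintype.equivFin ι).symm.injective (Fintype.equivFin κ)⟩
  · simp only [mult]
    conv_rhs => rw [← Finset.map_univ_equiv (Fintype.equivFin ι).symm]
    rw [Finset.map_val, Multiset.map_map]
    rfl
  · simp only [mult]
    conv_rhs => rw [← Finset.map_univ_equiv (Fintype.equivFin κ).symm]
    rw [Finset.map_val, Multiset.map_map]
    rfl

theorem MLe.gle {x : ι → Pos F} {y : κ → Pos F} (h : MLe (mult x) (mult y)) :
    GLe (fun i => (x i : F)) fun k => (y k : F) := by
  obtain ⟨m, n, x', y', hx, hy, h⟩ := h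
  obtain ⟨e, he⟩ := exists_equiv hx.symm
  obtain ⟨f, hf⟩ := exists_equiv hy
  have := h.reindex e e.injective f
  simp only [Function.comp_def] at this
  have e1 : (fun i => (x' (e i) : F)) = fun i => (x i : F) := funext fun i => by rw [he i]
  have e2 : (fun k => (y' (f.symm k) : F)) = fun k => (y k : F) := funext fun k => by
    rw [← hf (f.symm k), f.apply_symm_apply]
  rwa [e1, e2] at this

theorem MLe.trans {A B C : Multiset (Pos F)} (h : MLe A B) (h' : MLe B C) : MLe A C := by
  obtain ⟨m, n, x, y, rfl, rfl, h⟩ := h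
  obtain ⟨n', l, z, rfl⟩ : ∃ (n' l : ℕ) (z : Fin l → Pos F), mult z = C := by
    obtain ⟨l, z, hz⟩ := exists_tuple C; exact ⟨0, l, z, hz⟩
  exact MLe.of (h.trans h'.gle)

theorem MLe.add {A B A' B' : Multiset (Pos F)} (h : MLe A B) (h' : MLe A' B') :
    MLe (A + A') (B + B') := by
  obtain ⟨m, n, x, y, rfl, rfl, h⟩ := h
  obtain ⟨m', n', x', y', rfl, rfl, h'⟩ := h'
  rw [← mult_elim, ← mult_elim]
  refine MLe.of ?_
  convert h.sum h' using 1 <;> funext i <;> rcases i with i | i <;> rfl

theorem MLe.of_le {A B : Multiset (Pos F)} (h : A ≤ B) : MLe A B := by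
  obtain ⟨C, rfl⟩ := Multiset.le_iff_exists_add.1 h
  obtain ⟨m, x, rfl⟩ := exists_tuple A
  obtain ⟨n, z, rfl⟩ := exists_tuple C
  rw [← mult_elim]
  exact MLe.of (GLe.of_inj (fun s => ((Sum.elim x z s : Pos F) : F)) Sum.inl Sum.inl_injective)

theorem MLe.refl (A : Multiset (Pos F)) : MLe A A := MLe.of_le le_rfl

theorem MLe.nsmul {A B : Multiset (Pos F)} (h : MLe A B) : ∀ n : ℕ, MLe (n • A) (n • B)
  | 0 => by simpa using MLe.refl 0
  | n + 1 => by rw [succ_nsmul, succ_nsmul]; exact (MLe.nsmul h n).add h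

theorem gle_const_one (x : ι → Pos F) : GLe (fun i => (x i : F)) (fun _ : ι => (1 : F)) := by
  classical
  intro ε hε
  have hs : ∀ i, star (cfc Real.sqrt (x i : F)) * cfc Real.sqrt (x i : F) = x i := fun i => by
    rw [(sa_cfc _ _).star_eq, sqrt_mul (isPos_iff.1 (x i).2)]
  refine ⟨fun k i => if k = i then cfc Real.sqrt (x i : F) else 0, fun i => ?_, fun i j hij => ?_⟩
  · rw [Finset.sum_eq_single i (fun b _ hb => by simp [hb]) (by simp)]
    simpa [hs] using hε.le
  · rw [Finset.sum_eq_zero fun b _ => ?_]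
    · simpa using hε.le
    · by_cases h : b = i
      · simp [h, hij]
      · simp [h]

theorem MLe.le_ones (A : Multiset (Pos F)) : MLe A (A.card • {pone}) := by
  obtain ⟨n, x, rfl⟩ := exists_tuple A
  have h : MLe (mult x) (mult fun _ : Fin n => (pone : Pos F)) := MLe.of (gle_const_one x)
  have e : mult (fun _ : Fin n => (pone : Pos F)) = (mult x).card • {pone} := by
    simp [mult, Multiset.nsmul_singleton]
  rwa [e] at h

/-- The vector of a multiset. -/
def vec (A : Multiset (Pos F)) : Pos F →₀ ℝ := (A.map fun p => Finsupp.single p (1 : ℝ)).sum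

theorem vec_add (A B : Multiset (Pos F)) : vec (A + B) = vec A + vec B := by simp [vec]

theorem vec_apply [DecidableEq (Pos F)] (A : Multiset (Pos F)) (p : Pos F) :
    vec A p = A.count p := by
  induction A using Multiset.induction with
  | empty => simp [vec]
  | cons a s ih =>
    have e : vec (a ::ₘ s) = Finsupp.single a 1 + vec s := by simp [vec]
    rw [e, Finsupp.add_apply, ih, Multiset.count_cons, Finsupp.single_apply]
    by_cases h : a = p
    · subst h; simp [add_comm]
    · simp [h, Ne.symm h]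

theorem vec_eval {M : Type*} [AddCommMonoid M] [Module ℝ M] (g : (Pos F →₀ ℝ) →ₗ[ℝ] M)
    (A : Multiset (Pos F)) : g (vec A) = (A.map fun p => g (Finsupp.single p 1)).sum := by
  rw [vec, map_multiset_sum, Multiset.map_map]; rfl

/-- Either a gap by multiples, or a monotone additive functional reversing the inequality. -/
theorem gap_or_state (X Y : Multiset (Pos F)) (l : ℕ) (hl : MLe {pone} (l • Y)) :
    (∃ m : ℕ, 0 < m ∧ MLe ((m + 1) • X) (m • Y)) ∨
    ∃ f : F → ℝ, f 1 = 1 ∧
      (∀ A B, MLe A B → (A.map fun p : Pos F => f p).sum ≤ (B.map fun p : Pos F => f p).sum) ∧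
      (Y.map fun p : Pos F => f p).sum ≤ (X.map fun p : Pos F => f p).sum := by
  classical
  let InK : (Pos F →₀ ℝ) → Prop := fun v => ∃ (n : ℕ) (c : Fin n → ℝ)
    (A B : Fin n → Multiset (Pos F)) (c₀ : ℝ), (∀ i, 0 ≤ c i ∧ MLe (A i) (B i)) ∧ 0 ≤ c₀ ∧
    v = (∑ i, c i • (vec (B i) - vec (A i))) + c₀ • (vec X - vec Y)
  by_cases hneg : InK (-Finsupp.single pone 1)
  · left
    obtain ⟨n, c, A, B, c₀, hc, hc₀, hv⟩ := hneg
    set G : Multiset (Pos F) := (∑ i, (B i + A i)) + (X + Y) with hG
    set L := G.card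
    set D := L + 1 with hD
    let N : Fin n → ℕ := fun i => ⌈(D : ℝ) * c i⌉₊
    let N₀ : ℕ := ⌈(D : ℝ) * c₀⌉₊
    set Aₜ : Multiset (Pos F) := (∑ i, N i • A i) + N₀ • Y with hAt
    set Bₜ : Multiset (Pos F) := (∑ i, N i • B i) + N₀ • X + D • {pone} with hBt
    have hR : Bₜ - Aₜ ≤ G := by
      rw [Multiset.le_iff_count]
      intro p
      have key := congrArg (fun v => v p) hv
      simp only [Finsupp.neg_apply, Finsupp.add_apply, Finsupp.finsetSum_apply,
        Finsupp.smul_apply, Finsupp.sub_apply, vec_apply, smul_eq_mul] at key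
      have hb : ∀ i, ((N i : ℝ) - D * c i) * ((B i).count p - (A i).count p)
          ≤ (B i).count p + (A i).count p := fun i => by
        have h1 := Nat.le_ceil ((D : ℝ) * c i)
        have h2 := Nat.ceil_lt_add_one (mul_nonneg (Nat.cast_nonneg D) (hc i).1)
        have h3 : ((B i).count p : ℝ) - (A i).count p ≤ (B i).count p + (A i).count p := by
          linarith [Nat.cast_nonneg (α := ℝ) ((A i).count p)]
        have h4 : (0 : ℝ) ≤ (B i).count p + (A i).count p := by positivity
        simp only [N]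
        nlinarith
      have hb0 : ((N₀ : ℝ) - D * c₀) * (X.count p - Y.count p) ≤ X.count p + Y.count p := by
        have h1 := Nat.le_ceil ((D : ℝ) * c₀)
        have h2 := Nat.ceil_lt_add_one (mul_nonneg (Nat.cast_nonneg D) hc₀)
        have h3 : (X.count p : ℝ) - Y.count p ≤ X.count p + Y.count p := by
          linarith [Nat.cast_nonneg (α := ℝ) (Y.count p)]
        have h4 : (0 : ℝ) ≤ X.count p + Y.count p := by positivity
        simp only [N₀]
        nlinarith
      have hsum := Finset.sum_le_sum (s := Finset.univ) fun i _ => hb i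
      have main : ((Bₜ.count p : ℕ) : ℝ) - Aₜ.count p ≤ (G.count p : ℕ) := by
        have e1 : (Finsupp.single (pone : Pos F) (1 : ℝ)) p
            = ((({pone} : Multiset (Pos F)).count p : ℕ) : ℝ) := by
          rw [Finsupp.single_apply, Multiset.count_singleton]
          by_cases h : (pone : Pos F) = p
          · simp [h]
          · simp [h, Ne.symm h]
        rw [e1] at key
        simp only [hBt, hAt, hG, Multiset.count_add, Multiset.count_nsmul, Multiset.count_sum',
          Nat.cast_add, Nat.cast_mul, Nat.cast_sum]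
        simp only [sub_mul, mul_sub, Finset.sum_sub_distrib, mul_assoc, ← Finset.mul_sum] at hsum
        simp only [mul_sub, Finset.sum_sub_distrib] at key
        rw [Finset.sum_add_distrib] at hsum ⊢
        nlinarith
      rw [Multiset.count_sub]
      rcases le_or_gt (Bₜ.count p) (Aₜ.count p) with h | h
      · simp [Nat.sub_eq_zero_of_le h]
      · exact_mod_cast (by push_cast [Nat.cast_sub h.le]; exact main :
          ((Bₜ.count p - Aₜ.count p : ℕ) : ℝ) ≤ (G.count p : ℕ))
    have hsplit : Bₜ + (Aₜ - Bₜ) = Aₜ + (Bₜ - Aₜ) := by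
      ext p
      simp only [Multiset.count_add, Multiset.count_sub]
      omega
    set W : Multiset (Pos F) := (∑ i, N i • A i) + L • {pone} with hW
    set P : Multiset (Pos F) := N₀ • X + {pone}
    set Q : Multiset (Pos F) := N₀ • Y
    have hAB : MLe (∑ i, N i • A i) (∑ i, N i • B i) := by
      suffices ∀ s : Finset (Fin n), MLe (∑ i ∈ s, N i • A i) (∑ i ∈ s, N i • B i) from this _
      intro s
      induction s using Finset.induction_on with
      | empty => simpa using MLe.refl (0 : Multiset (Pos F))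
      | insert i s his ih =>
        rw [Finset.sum_insert his, Finset.sum_insert his]
        exact ((hc i).2.nsmul (N i)).add ih
    have hstep : MLe (W + P) (W + Q) := by
      have h1 : MLe (W + P) Bₜ := by
        have e : W + P = (∑ i, N i • A i) + (N₀ • X + D • {pone}) := by
          simp only [hW, hD, succ_nsmul, P]; abel
        rw [e, hBt, add_assoc]
        exact hAB.add (MLe.refl _)
      have h2 : MLe Bₜ (Aₜ + (Bₜ - Aₜ)) := hsplit ▸ MLe.of_le (Multiset.le_add_right _ _)
      have h3 : MLe (Bₜ - Aₜ) (L • {pone}) := by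
        refine (MLe.le_ones _).trans (MLe.of_le ?_)
        rw [Multiset.nsmul_singleton, Multiset.nsmul_singleton, Multiset.replicate_le_replicate]
        exact Multiset.card_le_card hR
      have h4 : Aₜ + L • {pone} = W + Q := by simp only [hW, hAt, Q]; abel
      exact h1.trans (h2.trans (h4 ▸ (MLe.refl Aₜ).add h3))
    have hiter : ∀ k : ℕ, MLe (W + k • P) (W + k • Q) := by
      intro k
      induction k with
      | zero => simpa using MLe.refl W
      | succ k ih =>
        have h1 := hstep.add (MLe.refl (k • P))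
        have h2 := ih.add (MLe.refl Q)
        refine (show W + (k + 1) • P = W + P + k • P by rw [succ_nsmul]; abel) ▸ h1.trans ?_
        exact (show W + Q + k • P = W + k • P + Q by abel) ▸
          (show W + (k + 1) • Q = W + k • Q + Q by rw [succ_nsmul]; abel) ▸ h2
    set s := X.card
    set j := W.card * l + 2
    refine ⟨W.card * l + 1 + s * j * N₀, by omega, ?_⟩
    have h5 : MLe ((W.card * l + 1 + s * j * N₀ + 1) • X) (W + (s * j) • P) := by
      have e1 : W.card * l + 1 + s * j * N₀ + 1 = s * j * N₀ + j := by omega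
      have e2 : (s * j) • P = (s * j * N₀) • X + j • (s • ({pone} : Multiset (Pos F))) := by
        simp only [P, nsmul_add, smul_smul]
        rw [mul_comm j s]
      rw [e1, add_nsmul, e2]
      exact ((MLe.refl _).add ((MLe.le_ones X).nsmul j)).trans
        (MLe.of_le (Multiset.le_add_left _ _))
    have h6 : MLe (W + (s * j) • Q) ((W.card * l + 1 + s * j * N₀) • Y) := by
      have h7 : MLe W ((W.card * l) • Y) := by
        rw [mul_nsmul']
        exact (MLe.le_ones W).trans (hl.nsmul _)
      rw [add_assoc (W.card * l), add_nsmul, add_nsmul, ← mul_nsmul']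
      exact h7.add (MLe.of_le (Multiset.le_add_left _ _))
    exact h5.trans ((hiter _).trans h6)
  · right
    let K : PointedCone ℝ (Pos F →₀ ℝ) :=
      { carrier := {v | InK v}
        zero_mem' := ⟨0, Fin.elim0, Fin.elim0, Fin.elim0, 0, fun i => i.elim0, le_rfl, by simp⟩
        add_mem' := by
          rintro v w ⟨n, c, A, B, c₀, hc, hc₀, rfl⟩ ⟨n', c', A', B', c₀', hc', hc₀', rfl⟩
          refine ⟨n + n', Fin.append c c', Fin.append A A', Fin.append B B', c₀ + c₀',
            fun i => Fin.addCases (fun i => by simpa using hc i) (fun i => by simpa using hc' i) i,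
            add_nonneg hc₀ hc₀', ?_⟩
          simp only [Fin.sum_univ_add, Fin.append_left, Fin.append_right, add_smul]
          abel
        smul_mem' := by
          rintro ⟨r, hr⟩ v ⟨n, c, A, B, c₀, hc, hc₀, rfl⟩
          refine ⟨n, fun i => r * c i, A, B, r * c₀,
            fun i => ⟨mul_nonneg hr (hc i).1, (hc i).2⟩, mul_nonneg hr hc₀, ?_⟩
          simp [Nonneg.mk_smul, smul_add, Finset.smul_sum, smul_smul] }
    have mem1 : ∀ A B, MLe A B → ∀ c : ℝ, 0 ≤ c → c • (vec B - vec A) ∈ K := fun A B h c hc =>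
      ⟨1, fun _ => c, fun _ => A, fun _ => B, 0, fun _ => ⟨hc, h⟩, le_rfl, by simp⟩
    have hsingle : ∀ (p : Pos F) (r : ℝ), 0 ≤ r → Finsupp.single p r ∈ K := fun p r hr => by
      have := mem1 0 {p} (MLe.of_le (Multiset.zero_le _)) r hr
      simpa [vec, Finsupp.smul_single] using this
    have hne : Finsupp.single (pone : Pos F) (1 : ℝ) ≠ 0 := by simp
    set f : (Pos F →₀ ℝ) →ₗ.[ℝ] ℝ := LinearPMap.mkSpanSingleton _ (1 : ℝ) hne
    have hpos : ∀ x : f.domain, (x : Pos F →₀ ℝ) ∈ K → 0 ≤ f x := by
      rintro ⟨x, hx⟩ hxK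
      obtain ⟨c, rfl⟩ := Submodule.mem_span_singleton.1 hx
      rw [show f ⟨_, hx⟩ = c • (1 : ℝ) from LinearPMap.mkSpanSingleton'_apply _ _ _ c hx,
        smul_eq_mul, mul_one]
      by_contra hlt
      push Not at hlt
      refine hneg ?_
      have := K.smul_mem (inv_pos.2 (show 0 < -c by linarith)).le hxK
      show -Finsupp.single pone 1 ∈ K
      convert this using 1
      show _ = (-c)⁻¹ • (c • Finsupp.single pone (1 : ℝ))
      rw [smul_smul, inv_neg, neg_mul, inv_mul_cancel₀ hlt.ne, neg_smul, one_smul]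
    have hdense : ∀ y, ∃ x : f.domain, (x : Pos F →₀ ℝ) + y ∈ K := by
      intro y
      induction y using Finsupp.induction_linear with
      | zero => exact ⟨0, by simp⟩
      | add y z hy hz =>
        obtain ⟨a, ha⟩ := hy
        obtain ⟨b, hb⟩ := hz
        refine ⟨a + b, ?_⟩
        have := K.add_mem ha hb
        convert this using 1
        simp only [Submodule.coe_add]
        abel
      | single p r =>
        refine ⟨⟨|r| • Finsupp.single pone 1,
          Submodule.smul_mem _ _ (Submodule.mem_span_singleton_self _)⟩, ?_⟩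
        show |r| • Finsupp.single pone (1 : ℝ) + Finsupp.single p r ∈ K
        rcases le_or_gt 0 r with hr | hr
        · exact K.add_mem (by simpa using hsingle pone |r| (abs_nonneg r)) (hsingle p r hr)
        · have := mem1 {p} {pone} (by simpa using MLe.le_ones ({p} : Multiset (Pos F))) |r|
            (abs_nonneg r)
          simpa [vec, abs_of_neg hr, smul_sub, Finsupp.smul_single] using this
    obtain ⟨g, hg, hgK⟩ := riesz_extension K f hpos hdense
    let φ : F → ℝ := fun x => if h : IsPos x then g (Finsupp.single ⟨x, h⟩ 1) else 0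
    have hφ : ∀ A : Multiset (Pos F), (A.map fun p : Pos F => φ p).sum = g (vec A) := fun A => by
      rw [vec_eval]
      exact congrArg _ (Multiset.map_congr rfl fun p _ => by simp [φ, p.2])
    refine ⟨φ, ?_, fun A B h => ?_, ?_⟩
    · simp only [φ, dif_pos (pone : Pos F).2, show (1 : F) = ((pone : Pos F) : F) from rfl,
        Subtype.coe_eta]
      rw [hg ⟨_, Submodule.mem_span_singleton_self _⟩]
      exact LinearPMap.mkSpanSingleton_apply ℝ ℝ hne (1 : ℝ)
    · rw [hφ, hφ]
      have := hgK _ (mem1 A B h 1 zero_le_one)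
      simp only [one_smul, map_sub] at this
      linarith
    · rw [hφ, hφ]
      have := hgK _ (show vec X - vec Y ∈ K from ⟨0, Fin.elim0, Fin.elim0, Fin.elim0, 1,
        fun i => i.elim0, zero_le_one, by simp⟩)
      simp only [map_sub] at this
      linarith

/-! ### Regularisation -/

theorem cut_cut_eq {a b : ℝ} (ha : 0 ≤ a) {x : F} (hx : IsSelfAdjoint x) :
    cut a (cut b x) = cut (a + b) x := by
  rw [cut, cut, cut, ← cfc_comp' (fun t : ℝ => max (t - a) 0) (fun t => max (t - b) 0) x
    (Continuous.continuousOn (by fun_prop)) (Continuous.continuousOn (by fun_prop))]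
  refine cfc_congr fun t _ => ?_
  show max (max (t - b) 0 - a) 0 = max (t - (a + b)) 0
  rcases le_total (t - b) 0 with h | h
  · rw [max_eq_right h, max_eq_right (by linarith), max_eq_right (by linarith)]
  · rw [max_eq_left h]; congr 1; ring

theorem norm_cut_sub {x : F} (hx : 0 ≤ x) {ε : ℝ} (hε : 0 ≤ ε) : ‖cut ε x - x‖ ≤ ε := by
  have hxa : IsSelfAdjoint x := .of_nonneg hx
  conv_lhs => enter [1, 2]; rw [← cfc_id' ℝ x]
  rw [cut, ← cfc_sub (fun t : ℝ => max (t - ε) 0) (fun t => t) x
    (Continuous.continuousOn (by fun_prop)) continuousOn_id]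
  refine norm_cfc_le hε fun t ht => ?_
  have := spec_nonneg hx ht
  rw [Real.norm_eq_abs, abs_le]
  constructor <;> cases max_cases (t - ε) 0 <;> linarith

theorem cut_anti {x : F} (hx : IsSelfAdjoint x) {a b : ℝ} (hab : a ≤ b) : cut b x ≤ cut a x :=
  cfc_mono (fun _ _ => max_le_max (by linarith) le_rfl) (Continuous.continuousOn (by fun_prop))
    (Continuous.continuousOn (by fun_prop))

theorem gle_single_of_le {x c : F} (hx : 0 ≤ x) (hxc : x ≤ c) :
    GLe (fun _ : Fin 1 => x) fun _ : Fin 1 => c := by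
  intro ε hε
  obtain ⟨v, hv⟩ := cle_aux_of_le hx hxc hε
  exact ⟨fun _ _ => v, fun _ => by simpa using hv, fun i j hij => absurd (Subsingleton.elim i j) hij⟩

theorem GLe.cut_of {x : ι → F} {y : κ → F} (hx : ∀ i, IsPos (x i)) (hy : ∀ k, IsPos (y k))
    (h : GLe x y) {δ : ℝ} (hδ : 0 < δ) :
    ∃ η : ℝ, 0 < η ∧ GLe (fun i => cut δ (x i)) fun k => cut η (y k) := by
  set r := δ / (2 * ((Fintype.card ι : ℝ) ^ 2 + 1)) with hr
  have hr0 : 0 < r := by positivity
  obtain ⟨v, hv, hv'⟩ := h (r / 2) (half_pos hr0)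
  set C := ∑ k, ∑ i, ∑ j, ‖v k i‖ * ‖v k j‖
  have hC : 0 ≤ C := by positivity
  set η := r / (2 * (C + 1)) with hη
  have hη0 : 0 < η := by positivity
  refine ⟨η, hη0, GLe.of_approx (r := r) (fun i => IsSelfAdjoint.of_nonneg (isPos_iff.1 (hx i)))
    (fun k => isPos_iff.2 (cut_nonneg η (y k))) v (fun i => ?_) (fun i j hij => ?_) ?_⟩
  all_goals try
    have hb : ∀ i j, ‖(∑ k, star (v k i) * cut η (y k) * v k j) -
        ∑ k, star (v k i) * y k * v k j‖ ≤ r / 2 := by
      intro i j
      rw [← Finset.sum_sub_distrib]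
      refine (norm_sum_le _ _).trans ?_
      calc _ ≤ ∑ k, ‖v k i‖ * η * ‖v k j‖ := Finset.sum_le_sum fun k _ => by
            rw [← sub_mul, ← mul_sub]
            refine norm_mul₃_le.trans ?_
            rw [norm_star]
            gcongr
            exact norm_cut_sub (isPos_iff.1 (hy k)) hη0.le
        _ = η * ∑ k, ‖v k i‖ * ‖v k j‖ := by
            rw [Finset.mul_sum]; exact Finset.sum_congr rfl fun k _ => by ring
        _ ≤ η * C := by
            gcongr
            refine Finset.sum_le_sum fun k _ => ?_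
            refine le_trans ?_ (Finset.single_le_sum (f := fun i => ∑ j, ‖v k i‖ * ‖v k j‖)
              (fun _ _ => by positivity) (Finset.mem_univ i))
            exact Finset.single_le_sum (f := fun j => ‖v k i‖ * ‖v k j‖)
              (fun _ _ => by positivity) (Finset.mem_univ j)
        _ ≤ r / 2 := by
            rw [hη, div_mul_eq_mul_div, div_le_div_iff₀ (by positivity) two_pos]
            nlinarith
  · linarith [norm_sub_le_norm_sub_add_norm_sub (∑ k, star (v k i) * cut η (y k) * v k i)
      (∑ k, star (v k i) * y k * v k i) (x i), hb i i, hv i]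
  · linarith [norm_le_norm_add_norm_sub' (∑ k, star (v k i) * cut η (y k) * v k j)
      (∑ k, star (v k i) * y k * v k j), hb i j, hv' i j hij]
  · rw [hr, mul_div_assoc', div_lt_iff₀ (by positivity)]
    nlinarith [sq_nonneg (Fintype.card ι : ℝ)]

/-- Dimension states separate multiples. -/
theorem exists_gap (x : ι → F) (y : κ → F) (hx : ∀ i, IsPos (x i)) (hy : ∀ k, IsPos (y k)) (l : ℕ)
    (hl : GLe (fun _ : Fin 1 => (1 : F)) fun p : Fin l × κ => y p.2)
    (h : ∀ D : DimState F, ∑ i, D (x i) < ∑ k, D (y k)) {ε : ℝ} (hε : 0 < ε) :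
    ∃ m : ℕ, 0 < m ∧ GLe (fun p : Fin (m + 1) × ι => cut ε (x p.2)) fun p : Fin m × κ => y p.2 := by
  classical
  let X : ι → Pos F := fun i => ⟨cut ε (x i), isPos_iff.2 (cut_nonneg _ _)⟩
  let Y : κ → Pos F := fun k => ⟨y k, hy k⟩
  have hl' : MLe {pone} (l • mult Y) := by
    rw [← mult_prod]
    have := MLe.of (x := fun _ : Fin 1 => (pone : Pos F)) (y := fun p : Fin l × κ => Y p.2) hl
    simpa [mult] using this
  rcases gap_or_state (mult X) (mult Y) l hl' with ⟨m, hm, hgap⟩ | ⟨f, hf1, hfm, hfXY⟩
  · rw [← mult_prod, ← mult_prod] at hgap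
    exact ⟨m, hm, hgap.gle⟩
  exfalso
  have fm : ∀ {m n : ℕ} (a : Fin m → F) (b : Fin n → F), (∀ i, IsPos (a i)) → (∀ k, IsPos (b k)) →
      GLe a b → ∑ i, f (a i) ≤ ∑ k, f (b k) := fun a b ha hb hab => by
    have := hfm _ _ (MLe.of (x := fun i => (⟨a i, ha i⟩ : Pos F))
      (y := fun k => (⟨b k, hb k⟩ : Pos F)) hab)
    simpa [mult, Multiset.map_map, Function.comp_def, ← List.sum_ofFn] using this
  have f_le : ∀ {a c : F}, 0 ≤ a → a ≤ c → f a ≤ f c := fun {a c} ha hac => by
    simpa using fm (fun _ : Fin 1 => a) (fun _ : Fin 1 => c) (fun _ => isPos_iff.2 ha)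
      (fun _ => isPos_iff.2 (ha.trans hac)) (gle_single_of_le ha hac)
  have f_one : ∀ a : F, IsPos a → f a ≤ 1 := fun a ha => by
    simpa [hf1] using fm (fun _ : Fin 1 => a) (fun _ : Fin 1 => (1 : F)) (fun _ => ha)
      (fun _ => isPos_iff.2 zero_le_one) (gle_const_one fun _ : Fin 1 => (⟨a, ha⟩ : Pos F))
  let g : F → ℝ := fun a => ⨆ δ : {δ : ℝ // 0 < δ}, f (cut δ.1 a)
  have hbdd : ∀ a : F, BddAbove (Set.range fun δ : {δ : ℝ // 0 < δ} => f (cut δ.1 a)) := fun a =>
    ⟨1, by rintro _ ⟨δ, rfl⟩; exact f_one _ (isPos_iff.2 (cut_nonneg _ _))⟩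
  have hle : ∀ (a : F) (δ : ℝ), 0 < δ → f (cut δ a) ≤ g a := fun a δ hδ =>
    le_ciSup (hbdd a) ⟨δ, hδ⟩
  haveI : Nonempty {δ : ℝ // 0 < δ} := ⟨⟨1, one_pos⟩⟩
  have happrox : ∀ (a : F) (e : ℝ), 0 < e → ∃ δ, 0 < δ ∧ g a - e ≤ f (cut δ a) := fun a e he => by
    obtain ⟨⟨δ, hδ⟩, h'⟩ := exists_lt_of_lt_ciSup (show g a - e < g a by linarith)
    exact ⟨δ, hδ, h'.le⟩
  let D : DimState F :=
    { val := g
      one := by
        refine le_antisymm (ciSup_le fun δ => f_one _ (isPos_iff.2 (cut_nonneg _ _))) ?_
        refine le_trans ?_ (hle 1 (1 / 2) (by norm_num))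
        have e : cut (1 / 2) (1 : F) = algebraMap ℝ F (1 / 2) := by
          rw [show (1 : F) = algebraMap ℝ F 1 from (map_one _).symm, cut,
            cfc_algebraMap (1 : ℝ) _]
          norm_num
        rw [e]
        refine le_of_eq_of_le hf1.symm ?_
        have hgle : GLe (fun _ : Fin 1 => (1 : F)) fun _ : Fin 1 => algebraMap ℝ F (1 / 2) := by
          intro e' he'
          refine ⟨fun _ _ => algebraMap ℝ F (Real.sqrt 2), fun i => ?_,
            fun i j hij => absurd (Subsingleton.elim i j) hij⟩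
          rw [Fin.sum_univ_one, ← algebraMap_star_comm, star_trivial, ← map_mul, ← map_mul,
            mul_right_comm, Real.mul_self_sqrt two_pos.le]
          simpa using he'.le
        simpa using fm _ _ (fun _ => isPos_iff.2 zero_le_one)
          (fun _ => isPos_iff.2 (e ▸ cut_nonneg (1 / 2) (1 : F))) hgle
      mono := by
        intro m n a b ha hb hab
        refine le_of_forall_pos_le_add fun e he => ?_
        choose δ hδ hδa using fun i => happrox (a i) (e / ((m : ℝ) + 1)) (by positivity)
        obtain ⟨δ₀, hδ0, hδle⟩ : ∃ δ₀ : ℝ, 0 < δ₀ ∧ ∀ i, δ₀ ≤ δ i := by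
          rcases isEmpty_or_nonempty (Fin m) with hi | hi
          · exact ⟨1, one_pos, fun i => isEmptyElim i⟩
          · obtain ⟨i, hi'⟩ := Finite.exists_min δ
            exact ⟨δ i, hδ i, hi'⟩
        obtain ⟨η, hη, hg⟩ := (tupLe_iff.1 hab).cut_of ha hb hδ0
        have h1 := fm _ _ (fun i => isPos_iff.2 (cut_nonneg _ _))
          (fun k => isPos_iff.2 (cut_nonneg _ _)) hg
        have h2 : ∀ i, g (a i) ≤ f (cut δ₀ (a i)) + e / ((m : ℝ) + 1) := fun i => by
          have := f_le (cut_nonneg (δ i) (a i))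
            (cut_anti (IsSelfAdjoint.of_nonneg (isPos_iff.1 (ha i))) (hδle i))
          linarith [hδa i]
        calc ∑ i, g (a i) ≤ ∑ i, (f (cut δ₀ (a i)) + e / ((m : ℝ) + 1)) :=
              Finset.sum_le_sum fun i _ => h2 i
          _ = ∑ i, f (cut δ₀ (a i)) + m * (e / ((m : ℝ) + 1)) := by
              simp [Finset.sum_add_distrib]
          _ ≤ ∑ k, g (b k) + e := by
              refine add_le_add (h1.trans (Finset.sum_le_sum fun k _ => hle _ _ hη)) ?_
              rw [mul_div_assoc', div_le_iff₀ (by positivity)]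
              nlinarith
      lsc := by
        intro a ha e he
        obtain ⟨δ, hδ, h'⟩ := happrox a e he
        refine ⟨δ / 2, half_pos hδ, h'.trans ?_⟩
        have := hle (cut (δ / 2) a) (δ / 2) (half_pos hδ)
        rwa [cut_cut_eq (half_pos hδ).le (IsSelfAdjoint.of_nonneg (isPos_iff.1 ha)),
          add_halves] at this }
  have h3 := h D
  have h4 : ∑ i, f (X i : F) ≤ ∑ i, D (x i) := Finset.sum_le_sum fun i _ => hle _ _ hε
  have h5 : ∑ k, D (y k) ≤ ∑ k, f (Y k : F) := Finset.sum_le_sum fun k _ =>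
    ciSup_le fun δ => f_le (cut_nonneg _ _) (by
      have h0 := isPos_iff.1 (hy k)
      have := cut_anti (IsSelfAdjoint.of_nonneg h0) (a := 0) δ.2.le
      show cut _ (y k) ≤ y k
      refine this.trans_eq ?_
      conv_rhs => rw [← cfc_id' ℝ (y k)]
      exact cfc_congr fun t ht => by simpa using max_eq_left (spec_nonneg h0 ht))
  simp only [mult, Multiset.map_map, Function.comp_def] at hfXY
  have h6 : ∑ k, f (Y k : F) ≤ ∑ i, f (X i : F) := hfXY
  linarith

end

end Vale.Agent.P095.Elem.CuntzAux
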