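import Vale.Agent.P101.Basic

/-!
# P095, amenable groups: shared definitions

A unital C*-algebra `F` with a group acting by `β`: equivariant copies, Cuntz comparison of finite
diagonals, dimension states, and the statements which are assembled in the main argument.
-/

namespace Vale.Agent.P095.Elem

open VAgent.P101
open scoped CStarAlgebra

noncomputable section

variable {F : Type*} [CStarAlgebra F]

variable {G : Type*} [Group G]

/-- The points of the orbit of a finite set. -/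
def orbit (β : G →* (F ≃⋆ₐ[ℂ] F)) (T : Finset F) : Set F :=
  {y | ∃ g : G, ∃ t ∈ T, y = β g t}

/-- The closed unital star subalgebra generated by the orbit of a finite set. -/
def OrbAlg (β : G →* (F ≃⋆ₐ[ℂ] F)) (T : Finset F) : StarSubalgebra ℂ F :=
  (StarAlgebra.adjoin ℂ (orbit β T)).topologicalClosure

instance orbAlg_isClosed (β : G →* (F ≃⋆ₐ[ℂ] F)) (T : Finset F) :
    IsClosed (OrbAlg β T : Set F) :=
  StarSubalgebra.isClosed_topologicalClosure _

instance orbAlgCStar (β : G →* (F ≃⋆ₐ[ℂ] F)) (T : Finset F) : CStarAlgebra (OrbAlg β T) :=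
  StarSubalgebra.cstarAlgebra (OrbAlg β T)

/-- The Følner condition. -/
def Folner (G : Type*) [Group G] : Prop :=
  ∀ (K : Finset G) (δ : ℝ), 0 < δ → ∃ E : Finset G, E.Nonempty ∧
    ∀ g ∈ K, ({x | x ∈ E ∧ g * x ∉ E}.ncard : ℝ) ≤ δ * E.card

/-- The hypotheses on `(F, β)`: no characters and equivariant commuting copies. -/
structure Dyn (β : G →* (F ≃⋆ₐ[ℂ] F)) : Prop where
  nochar : ∀ χ : F →⋆ₙₐ[ℂ] ℂ, χ = 0
  copies : ∀ T S : Finset F, ∃ φ : OrbAlg β T →⋆ₐ[ℂ] F,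
    (∀ (g : G) (x y : OrbAlg β T), (y : F) = β g (x : F) → φ y = β g (φ x)) ∧
    ∀ z ∈ S, ∀ x, Commute z (φ x)

/-- The elements of `K` move `x` by at most `η`. -/
def AlmostFixed (β : G →* (F ≃⋆ₐ[ℂ] F)) (K : Finset G) (η : ℝ) (x : F) : Prop :=
  ∀ g ∈ K, ‖β g x - x‖ ≤ η

/-- A positive element. -/
def IsPos (x : F) : Prop := ∃ c : F, x = star c * c

/-- A positive contraction. -/
def IsPosC (x : F) : Prop := IsPos x ∧ ‖x‖ ≤ 1

/-- The cut `(x - ε)_+`. -/
def cut (ε : ℝ) (x : F) : F := cfc (fun t : ℝ => max (t - ε) 0) x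

/-- The positive part. -/
def ppart (x : F) : F := cut 0 x

/-- Cuntz subequivalence of two finite diagonals. -/
def TupLe {m n : ℕ} (x : Fin m → F) (y : Fin n → F) : Prop :=
  ∀ ε : ℝ, 0 < ε → ∃ v : Fin n → Fin m → F, ∀ i j,
    ‖(∑ k, star (v k i) * y k * v k j) - (if i = j then x i else 0)‖ ≤ ε

variable (F) in
/-- A lower semicontinuous dimension state. -/
structure DimState where
  val : F → ℝ
  one : val 1 = 1
  mono : ∀ {m n : ℕ} (x : Fin m → F) (y : Fin n → F), (∀ i, IsPos (x i)) → (∀ k, IsPos (y k)) →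
    TupLe x y → ∑ i, val (x i) ≤ ∑ k, val (y k)
  lsc : ∀ x, IsPos x → ∀ ε : ℝ, 0 < ε → ∃ δ : ℝ, 0 < δ ∧ val x - ε ≤ val (cut δ x)

instance : CoeFun (DimState F) (fun _ => F → ℝ) := ⟨DimState.val⟩

/-- An element of `OrbAlg β T` which is full there. -/
def FullIn (β : G →* (F ≃⋆ₐ[ℂ] F)) (T : Finset F) (x : OrbAlg β T) : Prop :=
  FullSet ({x} : Set (OrbAlg β T))

variable (F) in
/-- Comparison: strict inequality at all states against a full element. -/
def CompareStatement : Prop :=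
  ∀ z e : F, IsPosC z → IsPosC e → FullSet ({e} : Set F) →
    (∀ D : DimState F, D z < D e) → ∀ ε : ℝ, 0 < ε → ∃ v : F, star v * e * v = cut ε z

/-- An exactly anticommuting pair, each squaring to one outside a small set. -/
def BaseStatement (β : G →* (F ≃⋆ₐ[ℂ] F)) : Prop :=
  ∀ θ : ℝ, 0 < θ → ∃ (T : Finset F) (P u : OrbAlg β T), IsSelfAdjoint P ∧ IsSelfAdjoint u ∧
    ‖P‖ ≤ 1 ∧ ‖u‖ ≤ 1 ∧ P * u = -(u * P) ∧
    ∀ D : DimState (OrbAlg β T), D (cut θ (1 - P * P)) ≤ θ ∧ D (cut θ (1 - u * u)) ≤ θ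

/-- An almost invariant sign, halving every state. `S = 1` on the positive side and `-1` on the
negative side, outside a set of small measure. -/
structure Sign (β : G →* (F ≃⋆ₐ[ℂ] F)) (T : Finset F) (K : Finset G) (η θ : ℝ)
    (S : OrbAlg β T) : Prop where
  sa : IsSelfAdjoint S
  contr : ‖S‖ ≤ 1
  inv : AlmostFixed β K η (S : F)
  half_pos : ∀ D : DimState (OrbAlg β T), |D (ppart S) - 1 / 2| ≤ θ
  half_neg : ∀ D : DimState (OrbAlg β T), |D (ppart (-S)) - 1 / 2| ≤ θ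
  defect : ∀ D : DimState (OrbAlg β T), D (cut θ (1 - S * S)) ≤ θ
  full_pos : FullIn β T (cut (1 / 2) S)
  full_neg : FullIn β T (cut (1 / 2) (-S))

/-- Halving. -/
def HalfStatement (β : G →* (F ≃⋆ₐ[ℂ] F)) : Prop :=
  ∀ (K : Finset G) (η θ : ℝ), 0 < η → 0 < θ →
    ∃ (T : Finset F) (S : OrbAlg β T), Sign β T K η θ S

/-- A sign and a (not invariant) symmetry anticommuting with it. -/
def FlipStatement (β : G →* (F ≃⋆ₐ[ℂ] F)) : Prop :=
  ∀ (K : Finset G) (η θ : ℝ), 0 < η → 0 < θ →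
    ∃ (T : Finset F) (S u : OrbAlg β T), Sign β T K η θ S ∧
      IsSelfAdjoint u ∧ ‖u‖ ≤ 1 ∧ S * u = -(u * S) ∧
      ∀ D : DimState (OrbAlg β T), D (cut θ (1 - u * u)) ≤ θ

/-- An almost invariant element of square zero which covers all but a small set. -/
def LeafSmallStatement (β : G →* (F ≃⋆ₐ[ℂ] F)) : Prop :=
  ∀ (K : Finset G) (η θ : ℝ), 0 < η → 0 < θ → ∃ (T : Finset F) (y : OrbAlg β T),
    ‖y‖ ≤ 1 ∧ y * y = 0 ∧ AlmostFixed β K η (y : F) ∧
    ∀ D : DimState (OrbAlg β T), D (cut (1 / 4) (1 - star y * y - y * star y)) ≤ θ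

/-- An almost invariant full element of square zero, at a universal level. -/
def LeafFullStatement (β : G →* (F ≃⋆ₐ[ℂ] F)) : Prop :=
  ∀ (K : Finset G) (η : ℝ), 0 < η → ∃ (T : Finset F) (y : OrbAlg β T), ‖y‖ ≤ 1 ∧ y * y = 0 ∧
    AlmostFixed β K η (y : F) ∧ FullIn β T (cut (1 / 2) (star y * y))

/-- All translates of `x` commute with `y` and `star y`. -/
def OrbCommute (β : G →* (F ≃⋆ₐ[ℂ] F)) (x y : F) : Prop :=
  ∀ g : G, Commute (β g x) y ∧ Commute (β g x) (star y)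

/-- Commuting almost invariant leaves for the absorption. -/
structure Leaves (β : G →* (F ≃⋆ₐ[ℂ] F)) (W : Finset G) (M : ℕ) (η : ℝ) where
  q : Fin M → F
  q' : Fin M → F
  e : Fin M → F
  t : Fin M → F
  pos : ∀ l, IsPosC (q l) ∧ IsPosC (q' l) ∧ IsPosC (e l) ∧ ‖t l‖ ≤ 1
  q'_q : ∀ l, q' l * q l = q l
  e_q' : ∀ l, e l * q' l = 0
  t_q' : ∀ l, t l * q' l = t l
  range : ∀ l, e l * t l = t l
  source : ∀ l, star (t l) * t l * q l = q l
  inv : ∀ l, AlmostFixed β W η (q l) ∧ AlmostFixed β W η (q' l) ∧ AlmostFixed β W η (e l)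
  comm : ∀ l l', l ≠ l' → ∀ x ∈ ({q l, q' l, e l, t l} : Set F),
    ∀ y ∈ ({q l', q' l', e l', t l'} : Set F), OrbCommute β x y

/-- Product over a finite family, in increasing order. -/
def oprodF {M : ℕ} (f : Fin M → F) : F := (List.ofFn f).prod

namespace Leaves

variable {β : G →* (F ≃⋆ₐ[ℂ] F)} {W : Finset G} {M : ℕ} {η : ℝ} (L : Leaves β W M η)

/-- The common source. -/
def top : F := oprodF L.q

/-- The pattern with `e` on `σ` and `q'` elsewhere. -/
def pat (σ : Finset (Fin M)) : F := oprodF fun l => if l ∈ σ then L.e l else L.q' l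

end Leaves

/-- Absorption along many leaves. -/
def AbsorbStatement (β : G →* (F ≃⋆ₐ[ℂ] F)) : Prop :=
  ∀ (K : Finset G) (ε : ℝ), 0 < ε → ∃ (W : Finset G) (M : ℕ) (η : ℝ), 0 < η ∧
    ∀ L : Leaves β W M η, ∃ x : F, ‖x‖ ≤ 2 ∧ AlmostFixed β K ε x ∧
      ‖star x * x - L.top * L.top‖ ≤ ε ∧ x * x = 0 ∧
      ∀ P : F, (∀ σ : Finset (Fin M), σ.Nonempty → P * L.pat σ = L.pat σ) → P * x = x

/-- The certificate that excludes invariant characters. -/
def CertStatement (β : G →* (F ≃⋆ₐ[ℂ] F)) : Prop :=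
  ∃ L : ℝ, ∀ (K : Finset G) (η : ℝ), 0 < η → ∃ (q : F) (b c d f : Fin 3 → F), ‖q‖ ≤ 1 ∧
    q * q = 0 ∧ AlmostFixed β K η q ∧
    (∀ i, ‖b i‖ ≤ L ∧ ‖c i‖ ≤ L ∧ ‖d i‖ ≤ L ∧ ‖f i‖ ≤ L) ∧
    (∀ i, AlmostFixed β K η (b i) ∧ AlmostFixed β K η (c i) ∧ AlmostFixed β K η (d i) ∧
      AlmostFixed β K η (f i)) ∧
    ‖(∑ i, (b i * (star q * q) * c i + d i * (q * star q) * f i)) - 1‖ ≤ η

end

end Vale.Agent.P095.Elem
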