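import Vale.Agent.P095.Gen.Reindex

/-!
# P095: diagonal sequences in the ultrapower
-/

namespace Vale.Agent.P095.Elem

open VAgent.P101 Vale.Agent.P095 Filter BoundedContinuousFunction
open scoped CStarAlgebra Topology BoundedContinuousFunction

noncomputable section

universe u

variable {A : Type u} [CStarAlgebra A] {ω : Ultrafilter ℕ}

/-- A lift with almost the same norm. -/
theorem exists_lift_bound (x : UPow A ω) {L : ℝ} (h : ‖x‖ ≤ L) :
    ∃ f : ℕ →ᵇ A, (UPow.mk f : UPow A ω) = x ∧ ‖f‖ ≤ L + 1 := by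
  have h' : ‖x‖ < L + 1 := by linarith
  obtain ⟨g, rfl⟩ := UPow.mk_surjective x
  have h2 : ‖(Submodule.Quotient.mk g : (ℕ →ᵇ A) ⧸ nullIdeal A ω)‖ < L + 1 := h'
  obtain ⟨f, hf, hfn⟩ := QuotientAddGroup.norm_lt_iff.1 h2
  exact ⟨f, hf, hfn.le⟩

/-- Countably many conditions which hold approximately are met exactly by a diagonal sequence. -/
theorem exists_diag (hω : (ω : Filter ℕ) ≤ cofinite) {J : Type*} (C : ℕ → (J → A) → ℝ)
    (f : ℕ → J → ℕ →ᵇ A) {L : ℝ} (hL : ∀ n j, ‖f n j‖ ≤ L)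
    (h : ∀ m, ∀ δ : ℝ, 0 < δ → ∀ᶠ n in atTop, ∀ᶠ k in (ω : Filter ℕ),
      C m (fun j => f n j k) < δ) :
    ∃ g : J → ℕ →ᵇ A, (∀ j, ‖g j‖ ≤ L) ∧
      ∀ m, ∀ δ : ℝ, 0 < δ → ∀ᶠ k in (ω : Filter ℕ), C m (fun j => g j k) < δ := by
  classical
  have hn : ∀ N : ℕ, ∃ n, ∀ m ∈ Finset.range (N + 1),
      ∀ᶠ k in (ω : Filter ℕ), C m (fun j => f n j k) < 1 / (N + 1) := fun N =>
    ((eventually_all_finset _).2 fun m _ => h m _ (by positivity)).exists
  choose nn hnn using hn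
  let X : ℕ → ℕ → Prop := fun N k =>
    N ≤ k ∧ ∀ m ∈ Finset.range (N + 1), C m (fun j => f (nn N) j k) < 1 / (N + 1)
  let pick : ℕ → ℕ := fun k => Nat.findGreatest (fun N => X N k) k
  have htop : (ω : Filter ℕ) ≤ atTop := Nat.cofinite_eq_atTop ▸ hω
  have hL0 : ∀ j, 0 ≤ L := fun j => (norm_nonneg _).trans (hL 0 j)
  refine ⟨fun j => ofNormedAddCommGroupDiscrete (fun k => f (nn (pick k)) j k) L
    fun k => ((f (nn (pick k)) j).norm_coe_le_norm k).trans (hL _ j), fun j => ?_, fun m δ hδ => ?_⟩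
  · exact (norm_le (hL0 j)).2 fun k => ((f (nn (pick k)) j).norm_coe_le_norm k).trans (hL _ j)
  · obtain ⟨N, hN⟩ := exists_nat_gt (1 / δ)
    set N0 := max N m with hN0
    have hX : ∀ᶠ k in (ω : Filter ℕ), X N0 k :=
      (Filter.Eventually.filter_mono htop (eventually_ge_atTop N0)).and ((eventually_all_finset _).2 fun i hi => hnn N0 i hi)
    filter_upwards [hX] with k hk
    have h1 : N0 ≤ pick k := Nat.le_findGreatest hk.1 hk
    have h2 : X (pick k) k := Nat.findGreatest_spec (P := fun N => X N k) hk.1 hk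
    refine lt_of_lt_of_le (h2.2 m (Finset.mem_range.2 (by omega))) ?_
    have h3 : (N : ℝ) ≤ (pick k : ℝ) := by exact_mod_cast le_trans (le_max_left N m) h1
    rw [div_le_iff₀ (by positivity)]
    rw [div_lt_iff₀ hδ] at hN
    nlinarith

/-- A bound on an element of the ultrapower passes to almost all terms. -/
theorem eventually_lt_of_norm {f : ℕ →ᵇ A} {r δ : ℝ} (h : ‖(UPow.mk f : UPow A ω)‖ ≤ r)
    (hr : r < δ) : ∀ᶠ k in (ω : Filter ℕ), ‖f k‖ < δ :=
  UPow.eventually_of_norm_lt (lt_of_le_of_lt h hr)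

/-- An element with terms tending to zero is zero. -/
theorem eq_zero_of_eventually {f : ℕ →ᵇ A}
    (h : ∀ δ : ℝ, 0 < δ → ∀ᶠ k in (ω : Filter ℕ), ‖f k‖ < δ) : (UPow.mk f : UPow A ω) = 0 :=
  norm_le_zero_iff.1 (le_of_forall_pos_le_add fun δ hδ => by
    rw [zero_add]
    exact UPow.norm_le_of_eventually hδ.le ((h δ hδ).mono fun k hk => hk.le))

end

end Vale.Agent.P095.Elem
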