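import Mathlib

/-!
# P095: Fejér positivity for powers of a contraction
-/

namespace Vale.Agent.P095.Elem.Fejer

open scoped ComplexOrder
open Finset

noncomputable section

variable {A : Type*} [CStarAlgebra A] [PartialOrder A] [StarOrderedRing A]

theorem star_conj_le_of_norm_le_one {T : A} (hT : ‖T‖ ≤ 1) (y : A) :
    star (T * y) * (T * y) ≤ star y * y := by
  have h : star T * T ≤ 1 := (CStarAlgebra.norm_le_one_iff_of_nonneg _ (star_mul_self_nonneg T)).1 (by
    rw [CStarRing.norm_star_mul_self]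
    exact mul_le_one₀ hT (norm_nonneg _) hT)
  calc star (T * y) * (T * y) = star y * (star T * T) * y := by rw [star_mul]; simp only [mul_assoc]
    _ ≤ star y * 1 * y := star_left_conjugate_le_conjugate h y
    _ = star y * y := by rw [mul_one]

/-- Partial geometric sums of `T`. -/
def geo (T : A) (n : ℕ) : A := ∑ j ∈ range n, T ^ j

omit [PartialOrder A] [StarOrderedRing A] in
theorem geo_succ (T : A) (n : ℕ) : geo T (n + 1) = 1 + T * geo T n := by
  rw [geo, geo, Finset.sum_range_succ', pow_zero, add_comm, Finset.mul_sum]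
  exact congrArg _ (Finset.sum_congr rfl fun j _ => pow_succ' T j)

/-- The Fejér sum `n + ∑ (n - j) (T ^ j + (T ^ j)⋆)`. -/
def fejer (T : A) (n : ℕ) : A :=
  (n : ℝ) • (1 : A) + ∑ j ∈ Finset.Ico 1 n, ((n : ℝ) - j) • (T ^ j + star (T ^ j))

omit [PartialOrder A] [StarOrderedRing A] in
theorem fejer_succ (T : A) (n : ℕ) :
    fejer T (n + 1) = fejer T n + (geo T (n + 1) + star (geo T (n + 1)) - 1) := by
  have h0 : ∀ m : ℕ, geo T (m + 1) = 1 + ∑ j ∈ Finset.Ico 1 (m + 1), T ^ j := fun m => by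
    rw [geo, Finset.range_eq_Ico, ← Finset.sum_Ico_consecutive _ (Nat.zero_le 1) (by omega),
      Finset.sum_Ico_eq_sum_range]
    simp
  rcases n.eq_zero_or_pos with rfl | hn
  · simp [fejer, geo]
  · have hsum : ∑ j ∈ Finset.Ico 1 (n + 1), (((n + 1 : ℕ) : ℝ) - j) • (T ^ j + star (T ^ j)) =
        ∑ j ∈ Finset.Ico 1 n, ((n : ℝ) - j) • (T ^ j + star (T ^ j)) +
          ∑ j ∈ Finset.Ico 1 (n + 1), (T ^ j + star (T ^ j)) := by
      rw [Finset.sum_Ico_succ_top hn, Finset.sum_Ico_succ_top hn, ← add_assoc,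
        ← Finset.sum_add_distrib]
      congr 1
      · refine Finset.sum_congr rfl fun j _ => ?_
        push_cast
        rw [show (n : ℝ) + 1 - j = (n : ℝ) - j + 1 by ring, add_smul, one_smul]
      · push_cast
        rw [add_sub_cancel_left, one_smul]
    rw [h0, fejer, fejer, hsum, Finset.sum_add_distrib, star_add, star_one, star_sum]
    push_cast
    rw [add_smul, one_smul]
    abel

theorem star_geo_mul_geo_le_fejer {T : A} (hT : ‖T‖ ≤ 1) :
    ∀ n, star (geo T n) * geo T n ≤ fejer T n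
  | 0 => by simp [geo, fejer]
  | n + 1 => by
    have h1 := star_geo_mul_geo_le_fejer hT n
    have h2 := star_conj_le_of_norm_le_one hT (geo T n)
    have e : geo T (n + 1) + star (geo T (n + 1)) - 1 =
        star (geo T (n + 1)) * geo T (n + 1) - star (T * geo T n) * (T * geo T n) := by
      rw [geo_succ, star_add, star_one, add_mul, one_mul, mul_add, mul_one]
      abel
    rw [fejer_succ, e, ← add_sub_assoc]
    refine le_sub_iff_add_le.2 ?_
    rw [add_comm (fejer T n)]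
    exact add_le_add le_rfl (h2.trans h1)

theorem fejer_nonneg {T : A} (hT : ‖T‖ ≤ 1) (n : ℕ) : 0 ≤ fejer T n :=
  (star_mul_self_nonneg _).trans (star_geo_mul_geo_le_fejer hT n)

/-- `1/2 + Re ∑ (1 - j/n) T ^ j ≥ 0`. -/
theorem fejer_re_ge {T : A} (hT : ‖T‖ ≤ 1) {n : ℕ} (hn : 0 < n) :
    -((1 / 2 : ℝ) • (1 : A)) ≤
      ∑ j ∈ Finset.Ico 1 n, ((1 - (j : ℝ) / n) / 2) • (T ^ j + star (T ^ j)) := by
  have hn0 : (0 : ℝ) < n := by exact_mod_cast hn
  have h := smul_nonneg (show (0 : ℝ) ≤ (2 * (n : ℝ))⁻¹ by positivity) (fejer_nonneg hT n)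
  rw [fejer, smul_add, Finset.smul_sum, smul_smul] at h
  have e1 : (2 * (n : ℝ))⁻¹ * n = 1 / 2 := by field_simp
  have e2 : ∀ j : ℕ, (2 * (n : ℝ))⁻¹ * ((n : ℝ) - j) = (1 - (j : ℝ) / n) / 2 := fun j => by
    field_simp
  simp only [smul_smul, e2] at h
  rw [e1] at h
  exact neg_le_iff_add_nonneg'.2 h

/-- The Fejér weighted sum `∑_{1 ≤ j < n} (1 - j/n) T ^ j`. -/
def fejerSum (n : ℕ) (T : A) : A := ∑ j ∈ Finset.Ico 1 n, (1 - (j : ℝ) / n) • T ^ j

omit [PartialOrder A] [StarOrderedRing A] in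
theorem fejerSum_star (n : ℕ) (T : A) : star (fejerSum n T) = fejerSum n (star T) := by
  simp [fejerSum, star_sum, star_smul, star_pow]

theorem fejerSum_re_ge {T : A} (hT : ‖T‖ ≤ 1) {n : ℕ} (hn : 0 < n) :
    -(1 : A) ≤ fejerSum n T + fejerSum n (star T) := by
  have h := smul_le_smul_of_nonneg_left (fejer_re_ge hT hn) (zero_le_two (α := ℝ))
  rw [smul_neg, smul_smul, show (2 : ℝ) * (1 / 2) = 1 by norm_num, one_smul, Finset.smul_sum] at h
  refine h.trans_eq ?_
  rw [fejerSum, fejerSum, ← Finset.sum_add_distrib]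
  refine Finset.sum_congr rfl fun j _ => ?_
  rw [smul_smul, mul_div_cancel₀ _ two_ne_zero, smul_add, star_pow]

section pairs

variable {ι : Type*} (s : Finset ι) (T : ι → ι → A) (n : ℕ)

/-- The quadratic form of the Fejér sums of a kernel. -/
def fejerForm (c : ι → ℝ) : A := ∑ g ∈ s, ∑ h ∈ s, (c g * c h) • fejerSum n (T g h)

variable {s T n}

omit [PartialOrder A] [StarOrderedRing A] in
/-- Symmetrising the quadratic form. -/
theorem fejerForm_symm (c : ι → ℝ) (hT : ∀ g ∈ s, ∀ h ∈ s, star (T g h) = T h g) :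
    fejerForm s T n c = ∑ g ∈ s, ∑ h ∈ s,
      (c g * c h / 2) • (fejerSum n (T g h) + fejerSum n (star (T g h))) := by
  have e : fejerForm s T n c = ∑ g ∈ s, ∑ h ∈ s, (c g * c h) • fejerSum n (star (T g h)) := by
    rw [fejerForm, Finset.sum_comm]
    refine Finset.sum_congr rfl fun g hg => Finset.sum_congr rfl fun h hh => ?_
    rw [hT g hg h hh, mul_comm]
  calc fejerForm s T n c = (1 / 2 : ℝ) • (fejerForm s T n c + fejerForm s T n c) := by module
    _ = _ := by
      nth_rw 2 [e]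
      rw [fejerForm, ← Finset.sum_add_distrib, Finset.smul_sum]
      refine Finset.sum_congr rfl fun g _ => ?_
      rw [← Finset.sum_add_distrib, Finset.smul_sum]
      refine Finset.sum_congr rfl fun h _ => ?_
      rw [← smul_add, smul_smul]
      congr 1
      ring

/-- Toeplitz lower bound: the diagonal terms win up to `(∑ c) ^ 2 / 2`. -/
theorem fejerForm_ge (c : ι → ℝ) (hc : ∀ g ∈ s, 0 ≤ c g)
    (hT : ∀ g ∈ s, ∀ h ∈ s, star (T g h) = T h g) (hn1 : ∀ g ∈ s, ∀ h ∈ s, ‖T g h‖ ≤ 1)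
    (hn : 0 < n) :
    ∑ g ∈ s, (c g ^ 2) • fejerSum n (T g g) - ((∑ g ∈ s, c g) ^ 2 / 2) • (1 : A) ≤
      fejerForm s T n c := by
  classical
  rw [fejerForm_symm c hT, sq (∑ g ∈ s, c g), Finset.sum_mul_sum, Finset.sum_div, Finset.sum_smul,
    ← Finset.sum_sub_distrib]
  refine Finset.sum_le_sum fun g hg => ?_
  rw [Finset.sum_div, Finset.sum_smul, ← Finset.add_sum_erase s _ hg,
    ← Finset.add_sum_erase s (fun h => (c g * c h / 2) •
      (fejerSum n (T g h) + fejerSum n (star (T g h)))) hg, hT g hg g hg]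
  have h1 : -(∑ h ∈ s.erase g, (c g * c h / 2) • (1 : A)) ≤
      ∑ h ∈ s.erase g, (c g * c h / 2) • (fejerSum n (T g h) + fejerSum n (star (T g h))) := by
    rw [← Finset.sum_neg_distrib]
    refine Finset.sum_le_sum fun h hh => ?_
    rw [← smul_neg]
    exact smul_le_smul_of_nonneg_left (fejerSum_re_ge (hn1 g hg h (Finset.mem_of_mem_erase hh)) hn)
      (by have := hc g hg; have := hc h (Finset.mem_of_mem_erase hh); positivity)
  have h2 : (c g ^ 2) • fejerSum n (T g g) =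
      (c g * c g / 2) • (fejerSum n (T g g) + fejerSum n (T g g)) := by
    rw [← two_smul ℝ (fejerSum n (T g g)), smul_smul]
    congr 1
    ring
  rw [h2]
  calc (c g * c g / 2) • (fejerSum n (T g g) + fejerSum n (T g g)) -
        ((c g * c g / 2) • (1 : A) + ∑ h ∈ s.erase g, (c g * c h / 2) • (1 : A))
      ≤ (c g * c g / 2) • (fejerSum n (T g g) + fejerSum n (T g g)) +
          -(∑ h ∈ s.erase g, (c g * c h / 2) • (1 : A)) := by
        rw [sub_eq_add_neg, neg_add, ← add_assoc]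
        refine add_le_add ?_ le_rfl
        simpa using smul_nonneg (show 0 ≤ c g * c g / 2 by
          have := hc g hg; positivity) (zero_le_one (α := A))
    _ ≤ _ := add_le_add le_rfl h1

/-- Domination: if `|d| ≤ e c` pointwise then the form of `d` is at most `e²` times that of `c`,
up to `(e ∑ c) ^ 2 / 2`. -/
theorem fejerForm_le (c d : ι → ℝ) (e : ℝ) (hd : ∀ g ∈ s, |d g| ≤ e * c g)
    (hT : ∀ g ∈ s, ∀ h ∈ s, star (T g h) = T h g) (hn1 : ∀ g ∈ s, ∀ h ∈ s, ‖T g h‖ ≤ 1)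
    (hn : 0 < n) :
    fejerForm s T n d ≤ (e ^ 2) • (fejerForm s T n c + ((∑ g ∈ s, c g) ^ 2 / 2) • (1 : A)) := by
  classical
  set X : ι → ι → A := fun g h => fejerSum n (T g h) + fejerSum n (star (T g h)) + 1 with hX
  have hX0 : ∀ g ∈ s, ∀ h ∈ s, 0 ≤ X g h := fun g hg h hh =>
    neg_le_iff_add_nonneg.1 (fejerSum_re_ge (hn1 g hg h hh) hn)
  have hf : ∀ f : ι → ℝ, ∑ g ∈ s, ∑ h ∈ s, (f g * f h / 2) • X g h =
      fejerForm s T n f + ((∑ g ∈ s, f g) ^ 2 / 2) • (1 : A) := fun f => by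
    rw [fejerForm_symm f hT, sq, Finset.sum_mul_sum, Finset.sum_div, Finset.sum_smul,
      ← Finset.sum_add_distrib]
    refine Finset.sum_congr rfl fun g _ => ?_
    rw [Finset.sum_div, Finset.sum_smul, ← Finset.sum_add_distrib]
    exact Finset.sum_congr rfl fun h _ => smul_add _ _ _
  calc fejerForm s T n d ≤ fejerForm s T n d + ((∑ g ∈ s, d g) ^ 2 / 2) • (1 : A) :=
        le_add_of_nonneg_right (smul_nonneg (by positivity) zero_le_one)
    _ = ∑ g ∈ s, ∑ h ∈ s, (d g * d h / 2) • X g h := (hf d).symm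
    _ ≤ ∑ g ∈ s, ∑ h ∈ s, (e ^ 2 * (c g * c h / 2)) • X g h := by
        refine Finset.sum_le_sum fun g hg => Finset.sum_le_sum fun h hh =>
          smul_le_smul_of_nonneg_right ?_ (hX0 g hg h hh)
        have h1 : d g * d h ≤ (e * c g) * (e * c h) := (le_abs_self _).trans (by
          rw [abs_mul]
          exact mul_le_mul (hd g hg) (hd h hh) (abs_nonneg _) ((abs_nonneg _).trans (hd g hg)))
        nlinarith
    _ = _ := by
        rw [← hf c]
        simp only [Finset.smul_sum, smul_smul]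

end pairs

omit [StarOrderedRing A] in
/-- On the diagonal: `τ ^ j ≥ 1 - j (1 - τ)` for `0 ≤ τ ≤ 1`. -/
theorem one_sub_pow_le {τ : A} [StarOrderedRing A] (h0 : 0 ≤ τ) (h1 : τ ≤ 1) (j : ℕ) :
    1 - τ ^ j ≤ (j : ℝ) • (1 - τ) := by
  have hsp : ∀ x ∈ spectrum ℝ τ, 0 ≤ x ∧ x ≤ 1 := fun x hx => by
    refine ⟨spectrum_nonneg_of_nonneg h0 hx, ?_⟩
    rw [← map_one (algebraMap ℝ A)] at h1
    exact (le_algebraMap_iff_spectrum_le (ha := IsSelfAdjoint.of_nonneg h0)).1 h1 x hx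
  have e1 : 1 - τ ^ j = cfc (fun x : ℝ => 1 - x ^ j) τ := by
    rw [cfc_sub (fun _ : ℝ => (1 : ℝ)) (fun x => x ^ j) τ, cfc_const_one ℝ τ, cfc_pow_id τ j]
  have e2 : (j : ℝ) • (1 - τ) = cfc (fun x : ℝ => (j : ℝ) • (1 - x)) τ := by
    rw [cfc_smul (j : ℝ) (fun x : ℝ => 1 - x) τ, cfc_sub (fun _ : ℝ => (1 : ℝ)) (fun x => x) τ,
      cfc_const_one ℝ τ, cfc_id' ℝ τ]
  rw [e1, e2]
  refine cfc_mono fun x hx => ?_
  obtain ⟨hx0, hx1⟩ := hsp x hx
  have h := one_add_mul_le_pow (a := x - 1) (by linarith) j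
  rw [add_sub_cancel] at h
  rw [smul_eq_mul]
  linarith

/-- The diagonal Fejér sum is close to its weight. -/
theorem fejerSum_diag_ge {τ : A} (h0 : 0 ≤ τ) (h1 : τ ≤ 1) (n : ℕ) :
    (∑ j ∈ Finset.Ico 1 n, (1 - (j : ℝ) / n)) • (1 : A) - ((n : ℝ) ^ 2) • (1 - τ) ≤
      fejerSum n τ := by
  have hw : ∀ j ∈ Finset.Ico 1 n, 0 ≤ 1 - (j : ℝ) / n ∧ 1 - (j : ℝ) / n ≤ 1 := fun j hj => by
    have hj' := (Finset.mem_Ico.1 hj).2
    have hn0 : (0 : ℝ) < n := by exact_mod_cast (by omega : 0 < n)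
    have : (j : ℝ) / n ≤ 1 := (div_le_one hn0).2 (by exact_mod_cast hj'.le)
    exact ⟨by linarith, by linarith [show (0 : ℝ) ≤ (j : ℝ) / n by positivity]⟩
  have hd : (0 : A) ≤ 1 - τ := sub_nonneg.2 h1
  have key : ∑ j ∈ Finset.Ico 1 n, (1 - (j : ℝ) / n) • (1 - τ ^ j) ≤ ((n : ℝ) ^ 2) • (1 - τ) := by
    calc _ ≤ ∑ _j ∈ Finset.Ico 1 n, (n : ℝ) • (1 - τ) := by
          refine Finset.sum_le_sum fun j hj => ?_
          refine (smul_le_smul_of_nonneg_left (one_sub_pow_le h0 h1 j) (hw j hj).1).trans ?_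
          rw [smul_smul]
          refine smul_le_smul_of_nonneg_right ?_ hd
          exact (mul_le_of_le_one_left (Nat.cast_nonneg _) (hw j hj).2).trans
            (by exact_mod_cast (Finset.mem_Ico.1 hj).2.le)
      _ ≤ _ := by
          rw [Finset.sum_const, ← Nat.cast_smul_eq_nsmul ℝ, smul_smul, Nat.card_Ico, sq]
          refine smul_le_smul_of_nonneg_right ?_ hd
          exact mul_le_mul_of_nonneg_right (by exact_mod_cast Nat.sub_le n 1) (Nat.cast_nonneg n)
  rw [sub_le_iff_le_add, ← sub_le_iff_le_add']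
  refine le_trans (le_of_eq ?_) key
  rw [fejerSum, Finset.sum_smul, ← Finset.sum_sub_distrib]
  exact Finset.sum_congr rfl fun j _ => (smul_sub _ _ _).symm

end

end Vale.Agent.P095.Elem.Fejer
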