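import Vale.Agent.P095.Elem.FieldFin

/-!
# P095, amenable groups: the norm estimates for a pool

With `s = sin n^{-1/2}`: the commutator part of a pair of field unitaries is null, the even part
tends to `exp (-1 - R)`, and the correlation almost commutes with the field unitaries.
-/

namespace Vale.Agent.P095.Elem.Field

open scoped ComplexOrder CStarAlgebra

noncomputable section

variable {B : Type*} [CStarAlgebra B] (D : DimState B)

/-- `n^{-1/2}`. -/
def hn (n : ℕ) : ℝ := (√(n : ℝ))⁻¹

/-- The cosine. -/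
def cn (n : ℕ) : ℝ := Real.cos (hn n)

/-- The sine. -/
def sn (n : ℕ) : ℝ := Real.sin (hn n)

theorem cn_sn (n : ℕ) : cn n * cn n + sn n * sn n = 1 := by
  have := Real.sin_sq_add_cos_sq (hn n)
  rw [cn, sn]; linarith [sq (Real.sin (hn n)), sq (Real.cos (hn n))]

theorem hn_nonneg (n : ℕ) : 0 ≤ hn n := inv_nonneg.2 (Real.sqrt_nonneg _)

theorem hn_sq {n : ℕ} : hn n ^ 2 = (n : ℝ)⁻¹ := by
  rw [hn, inv_pow, Real.sq_sqrt (Nat.cast_nonneg n)]

theorem hn_le_one (n : ℕ) : hn n ≤ 1 := by
  rcases n.eq_zero_or_pos with rfl | hn'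
  · simp [hn]
  · rw [hn]
    exact inv_le_one_of_one_le₀ (Real.one_le_sqrt.2 (by exact_mod_cast hn'))

theorem abs_sn_le (n : ℕ) : |sn n| ≤ hn n := by
  rw [sn]; exact (Real.abs_sin_le_abs).trans (abs_of_nonneg (hn_nonneg n)).le

theorem sn_sq_le (n : ℕ) : sn n * sn n ≤ hn n ^ 2 := by
  rw [← sq]; exact sq_le_sq.2 ((abs_sn_le n).trans (le_abs_self _))

theorem sn_sq_near (n : ℕ) : hn n ^ 2 - hn n ^ 4 / 3 ≤ sn n * sn n := by
  rcases (hn_nonneg n).eq_or_lt with h | h
  · simp [sn, ← h]
  · have h1 := Real.sin_gt_sub_cube h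
    have h2 : hn n ^ 3 / 6 ≤ hn n := by nlinarith [hn_le_one n, pow_le_one₀ (n := 2) h.le (hn_le_one n)]
    rw [sn]
    nlinarith [mul_self_le_mul_self (by linarith : 0 ≤ hn n - hn n ^ 3 / 6) h1.le,
      sq_nonneg (hn n ^ 3)]

theorem one_add_pow_le {a : ℝ} (ha : 0 ≤ a) (n : ℕ) : (1 + a) ^ n ≤ Real.exp (n * a) := by
  rw [Real.exp_nat_mul]
  exact pow_le_pow_left₀ (by linarith) (by linarith [Real.add_one_le_exp a]) n

theorem norm_comm_pprod_le (n : ℕ) (f : ℕ → B) (x : B) (h1 : ‖(1 : B)‖ ≤ 1)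
    (hf : ∀ r < n, ‖f r‖ ≤ 1) :
    ‖x * pprod n f - pprod n f * x‖ ≤ ∑ t ∈ Finset.range n, ‖x * f t - f t * x‖ := by
  induction n with
  | zero => simp [pprod_zero]
  | succ n ih =>
    have hp : ‖pprod n f‖ ≤ 1 := by
      simpa using norm_pprod_le n f h1 le_rfl fun r hr => hf r (by omega)
    rw [pprod_succ, Finset.sum_range_succ, show x * (pprod n f * f n) - pprod n f * f n * x =
      (x * pprod n f - pprod n f * x) * f n + pprod n f * (x * f n - f n * x) by noncomm_ring]
    refine (norm_add_le _ _).trans (add_le_add ?_ ?_)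
    · exact (norm_mul_le _ _).trans ((mul_le_mul (ih fun r hr => hf r (by omega)) (hf n (by omega))
        (norm_nonneg _) (Finset.sum_nonneg fun _ _ => norm_nonneg _)).trans (mul_one _).le)
    · exact (norm_mul_le _ _).trans ((mul_le_mul hp le_rfl (norm_nonneg _) zero_le_one).trans
        (one_mul _).le)

theorem star_pprod (n : ℕ) (f : ℕ → B)
    (h : ∀ r t, r < n → t < n → r ≠ t → Commute (f r) (f t)) :
    star (pprod n f) = pprod n fun r => star (f r) := by
  induction n with
  | zero => simp [pprod_zero]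
  | succ n ih =>
    have hc : Commute (f n) (pprod n f) :=
      commute_pprod n f fun r hr => h n r (by omega) (by omega) (by omega)
    rw [pprod_succ, pprod_succ, star_mul, ih fun r t hr ht => h r t (by omega) (by omega),
      ← ih fun r t hr ht => h r t (by omega) (by omega), ← star_mul, ← star_mul, hc.eq]

theorem commute_zf {c s c' s' : ℝ} {P Q : B} (h : Commute P Q) :
    Commute (zf c s P) (zf c' s' Q) :=
  ((Commute.one_left _).smul_left _).add_left
    ((((Commute.one_right P).smul_right _).add_right (h.smul_right _)).smul_left _)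

theorem commute_ef {s : ℝ} {P Q x : B} (hP : Commute x P) (hQ : Commute x Q) :
    Commute x (1 + ef s P Q) :=
  (Commute.one_right x).add_right
    (((hP.mul_right hQ).sub_right (hQ.mul_right hP)).smul_right _)

variable {P Q u v : ℕ → B}

/-- The product of the commutator parts. -/
def eprod (s : ℝ) (P Q : ℕ → B) (n : ℕ) : B := pprod n fun r => 1 + ef s (P r) (Q r)

theorem star_eprod_factor (s : ℝ) {P Q : B} (hP : IsSelfAdjoint P) (hQ : IsSelfAdjoint Q) :
    star (1 + ef s P Q) = 1 - ef s P Q := by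
  simp only [ef, star_add, star_one, star_smul, star_sub, star_mul, hP.star_eq, hQ.star_eq,
    Complex.conj_ofReal, RCLike.star_def]
  module

theorem eprod_comm (h : PairPool P Q u v) (s : ℝ) {r t : ℕ} (hne : r ≠ t) :
    Commute (1 + ef s (P r) (Q r)) (1 + ef s (P t) (Q t)) :=
  commute_ef (commute_ef (h.comm_PQ hne.symm (.inl rfl) (.inl rfl))
    (h.comm_PQ hne.symm (.inl rfl) (.inr rfl))).symm
    (commute_ef (h.comm_PQ hne.symm (.inr rfl) (.inl rfl))
    (h.comm_PQ hne.symm (.inr rfl) (.inr rfl))).symm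

theorem star_eprod (h : PairPool P Q u v) (s : ℝ) (n : ℕ) :
    star (eprod s P Q n) = pprod n fun r => 1 - ef s (P r) (Q r) := by
  rw [eprod, star_pprod n _ fun r t _ _ hne => eprod_comm h s hne]
  congr 1; funext r
  exact star_eprod_factor s (h.P_sym r).1 (h.Q_sym r).1

theorem eprod_normal (h : PairPool P Q u v) (s : ℝ) (n : ℕ) :
    Commute (star (eprod s P Q n)) (eprod s P Q n) ∧
      ∀ x : B, (∀ r < n, Commute x (P r) ∧ Commute x (Q r)) →
        Commute x (eprod s P Q n) ∧ Commute x (star (eprod s P Q n)) := by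
  have hneg : ∀ r, 1 - ef s (P r) (Q r) = 1 + ef s (Q r) (P r) := fun r => by
    simp only [ef]; module
  refine ⟨?_, fun x hx => ⟨commute_pprod n _ fun r hr => commute_ef (hx r hr).1 (hx r hr).2, ?_⟩⟩
  · rw [star_eprod h s n]
    refine commute_pprod n _ fun r hr => Commute.symm (commute_pprod n _ fun t ht => ?_)
    rcases eq_or_ne r t with rfl | hne
    · show Commute (1 + ef s (P r) (Q r)) (1 - ef s (P r) (Q r))
      exact ((Commute.one_right _).sub_right (((Commute.one_left _).add_left (Commute.refl _))))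
    · exact (Commute.one_right _).sub_right
        ((Commute.one_left _).add_left (((eprod_comm h s hne).sub_left (Commute.one_left _)).sub_right
          (Commute.one_right _) |> fun h' => by simpa using h'))
  · rw [star_eprod h s n]
    refine commute_pprod n _ fun r hr => ?_
    rw [hneg]; exact commute_ef (hx r hr).2 (hx r hr).1

theorem tau_eprod_re (h : PairPool P Q u v) (s : ℝ) (n : ℕ) :
    tau D (eprod s P Q n + star (eprod s P Q n)) = 2 := by
  induction n with
  | zero =>
    simp only [eprod, pprod_zero, star_one]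
    rw [← two_smul ℝ (1 : B), tau_smul D (IsSelfAdjoint.one B), tau_one, mul_one]
  | succ n ih =>
    set E := eprod s P Q n with hE
    set e := ef s (P n) (Q n) with he
    have hc := (eprod_normal h s n).2 (P n) fun r hr =>
      ⟨h.comm_PQ (by omega) (.inl rfl) (.inl rfl), h.comm_PQ (by omega) (.inl rfl) (.inr rfl)⟩
    have hc' := (eprod_normal h s n).2 (Q n) fun r hr =>
      ⟨h.comm_PQ (by omega) (.inr rfl) (.inl rfl), h.comm_PQ (by omega) (.inr rfl) (.inr rfl)⟩
    have ceE : Commute e E :=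
      (((hc.1.mul_left hc'.1).sub_left (hc'.1.mul_left hc.1)).smul_left _)
    have ceE' : Commute e (star E) :=
      (((hc.2.mul_left hc'.2).sub_left (hc'.2.mul_left hc.2)).smul_left _)
    have hse : star e = -e := by
      have := star_eprod_factor s (h.P_sym n).1 (h.Q_sym n).1
      rwa [← he, star_add, star_one, sub_eq_add_neg, add_right_inj] at this
    have split : eprod s P Q (n + 1) + star (eprod s P Q (n + 1)) =
        (E + star E) + e * (E - star E) := by
      rw [show eprod s P Q (n + 1) = E * (1 + e) from pprod_succ _ _, star_mul, star_add, star_one,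
        hse, mul_add, mul_one, ← ceE.eq]
      noncomm_ring
    have s1 : IsSelfAdjoint (E + star E) := IsSelfAdjoint.add_star_self E
    have s2 : IsSelfAdjoint (e * (E - star E)) := by
      rw [IsSelfAdjoint, star_mul, star_sub, star_star, hse, (ceE.sub_right ceE').eq]
      noncomm_ring
    have cEE := (eprod_normal h s n).1
    have hcomm : Commute (E + star E) (e * (E - star E)) :=
      (ceE.symm.add_left ceE'.symm).mul_right
        (((Commute.refl E).sub_right cEE.symm).add_left (cEE.sub_right (Commute.refl (star E))))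
    have flip0 : tau D (e * (E - star E)) = 0 := by
      refine tau_flip D (h.P_sym n).1 (h.P_sym n).2 s2 ?_
      have ha : P n * e = -(e * P n) := by
        rw [he, ef, mul_smul_comm, smul_mul_assoc, ← smul_neg]
        congr 1
        rw [mul_sub, sub_mul, neg_sub, ← mul_assoc, (h.P_sym n).2, mul_assoc (Q n) (P n) (P n),
          (h.P_sym n).2, one_mul, mul_one, mul_assoc (P n) (Q n) (P n)]
      rw [← mul_assoc, ha, neg_mul, mul_assoc, (hc.1.sub_right hc.2).eq, ← mul_assoc]
    rw [split, tau_add D s1 s2 hcomm, flip0, ih, add_zero]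

theorem norm_eprod_star_mul_le (h : PairPool P Q u v) (s : ℝ) (n : ℕ) (h1 : ‖(1 : B)‖ ≤ 1) :
    ‖star (eprod s P Q n) * eprod s P Q n - 1‖ ≤ (1 + (s * s) ^ 2) ^ n - 1 := by
  induction n with
  | zero => simp [eprod, pprod_zero]
  | succ n ih =>
    set E := eprod s P Q n with hE
    set e := ef s (P n) (Q n) with he
    have hc := (eprod_normal h s n).2 (P n) fun r hr =>
      ⟨h.comm_PQ (by omega) (.inl rfl) (.inl rfl), h.comm_PQ (by omega) (.inl rfl) (.inr rfl)⟩
    have hc' := (eprod_normal h s n).2 (Q n) fun r hr =>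
      ⟨h.comm_PQ (by omega) (.inr rfl) (.inl rfl), h.comm_PQ (by omega) (.inr rfl) (.inr rfl)⟩
    have ceE : Commute e (star E * E) :=
      ((((hc.2.mul_left hc'.2).sub_left (hc'.2.mul_left hc.2)).smul_left _).mul_right
        ((((hc.1.mul_left hc'.1).sub_left (hc'.1.mul_left hc.1)).smul_left _)))
    have hse : star (1 + e) = 1 - e := star_eprod_factor s (h.P_sym n).1 (h.Q_sym n).1
    have key : star (eprod s P Q (n + 1)) * eprod s P Q (n + 1) - 1 =
        (star E * E - 1) * (1 - e * e) + -(e * e) := by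
      rw [show eprod s P Q (n + 1) = E * (1 + e) from pprod_succ _ _, star_mul, hse,
        show (1 - e) * star E * (E * (1 + e)) = (1 - e) * (star E * E) * (1 + e) by noncomm_ring,
        ((Commute.one_left _).sub_left ceE).eq]
      noncomm_ring
    have hee : ‖e * e‖ ≤ (s * s) ^ 2 := by
      rw [sq]
      exact (norm_mul_le _ _).trans (mul_le_mul
        (norm_ef s (norm_symm_le (h.P_sym n).1 (h.P_sym n).2) (norm_symm_le (h.Q_sym n).1 (h.Q_sym n).2))
        (norm_ef s (norm_symm_le (h.P_sym n).1 (h.P_sym n).2) (norm_symm_le (h.Q_sym n).1 (h.Q_sym n).2))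
        (norm_nonneg _) (mul_self_nonneg s))
    rw [key]
    refine (norm_add_le _ _).trans ?_
    rw [norm_neg, pow_succ]
    have h2 : ‖1 - e * e‖ ≤ 1 + (s * s) ^ 2 := (norm_sub_le _ _).trans (by linarith)
    have h3 := (norm_mul_le (star E * E - 1) (1 - e * e)).trans
      (mul_le_mul ih h2 (norm_nonneg _) (le_trans (norm_nonneg _) ih))
    nlinarith [sq_nonneg (s * s)]

/-- The commutator part is null. -/
theorem tau_eprod_null (h : PairPool P Q u v) (s : ℝ) (n : ℕ) (h1 : ‖(1 : B)‖ ≤ 1) (A : B) :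
    tau D (star ((eprod s P Q n - 1) * A) * ((eprod s P Q n - 1) * A)) ≤
      ‖A‖ ^ 2 * ((1 + (s * s) ^ 2) ^ n - 1) := by
  set E := eprod s P Q n with hE
  set z := E - 1 with hz
  have cEE := (eprod_normal h s n).1
  have hzz : z * star z = (star E * E - 1) + ((2 : ℝ) • (1 : B) - (E + star E)) := by
    rw [hz, star_sub, star_one, two_smul, sub_mul, mul_sub, ← cEE.eq]
    noncomm_ring
  have s1 : IsSelfAdjoint (star E * E - 1) :=
    (IsSelfAdjoint.star_mul_self E).sub (IsSelfAdjoint.one B)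
  have s3 : IsSelfAdjoint ((2 : ℝ) • (1 : B)) := (IsSelfAdjoint.all 2).smul (IsSelfAdjoint.one B)
  have s4 : IsSelfAdjoint (E + star E) := IsSelfAdjoint.add_star_self E
  have hcomm : Commute (star E * E - 1) (E + star E) :=
    ((cEE.mul_left (Commute.refl E)).add_right ((Commute.refl (star E)).mul_left cEE.symm)).sub_left
      (Commute.one_left _)
  have b1 : tau D (z * star z) ≤ (1 + (s * s) ^ 2) ^ n - 1 := by
    rw [hzz, tau_add D s1 (s3.sub s4) (((Commute.one_right _).smul_right _).sub_right hcomm),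
      tau_sub D s3 s4 ((Commute.one_left _).smul_left _), tau_smul D (IsSelfAdjoint.one B), tau_one,
      tau_eprod_re D h s n, mul_one, sub_self, add_zero]
    exact ((le_abs_self _).trans (abs_tau_le D s1)).trans (norm_eprod_star_mul_le h s n h1)
  rw [tau_star_mul_self]
  have hsa : ∀ w : B, IsSelfAdjoint (w * star w) := IsSelfAdjoint.mul_star_self
  have hle : tau D (z * A * star (z * A)) ≤ tau D ((‖A‖ ^ 2) • (z * star z)) := by
    refine tau_mono D (hsa _) ((IsSelfAdjoint.all _).smul (hsa z)) ?_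
    let _ : PartialOrder B := CStarAlgebra.spectralOrder B
    have : StarOrderedRing B := CStarAlgebra.spectralOrderedRing B
    rw [Spec.isPos_iff_le', sub_nonneg, star_mul,
      show z * A * (star A * star z) = z * (A * star A) * star z by noncomm_ring]
    have hA : A * star A ≤ algebraMap ℝ B (‖A‖ ^ 2) := by
      refine (IsSelfAdjoint.le_algebraMap_norm_self (IsSelfAdjoint.mul_star_self A)).trans ?_
      rw [CStarRing.norm_self_mul_star, sq]
    refine (star_right_conjugate_le_conjugate hA z).trans (le_of_eq ?_)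
    rw [Algebra.algebraMap_eq_smul_one, mul_smul_comm, mul_one, smul_mul_assoc]
  refine hle.trans ?_
  rw [tau_smul D (hsa z)]
  exact mul_le_mul_of_nonneg_left b1 (sq_nonneg _)

theorem norm_af_le {c s : ℝ} (hcs : c * c + s * s = 1) {P Q : B} (hP : IsSelfAdjoint P)
    (hP2 : P * P = 1) (hQ : IsSelfAdjoint Q) (hQ2 : Q * Q = 1) :
    ‖af c s P Q‖ ≤ 1 + s * s := by
  have : af c s P Q = zf c s P * zf c s Q - ef s P Q := by rw [zf_mul]; abel
  rw [this]
  refine (norm_sub_le _ _).trans (add_le_add ?_ (norm_ef s (norm_symm_le hP hP2) (norm_symm_le hQ hQ2)))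
  rcases subsingleton_or_nontrivial B with hB | hB
  · simp [Subsingleton.elim (zf c s P * zf c s Q) 0]
  · exact (CStarRing.norm_of_mem_unitary
      (mul_mem (zf_unitary hcs hP hP2) (zf_unitary hcs hQ hQ2))).le

theorem kernel_bound {P Q : B} (hP : IsSelfAdjoint P) (hP2 : P * P = 1) (hQ : IsSelfAdjoint Q)
    (hQ2 : Q * Q = 1) : ‖P * Q + Q * P‖ ≤ 2 :=
  (norm_add_le _ _).trans (by
    linarith [(norm_mul_le P Q).trans (mul_le_one₀ (norm_symm_le hP hP2) (norm_nonneg _)
      (norm_symm_le hQ hQ2)), (norm_mul_le Q P).trans (mul_le_one₀ (norm_symm_le hQ hQ2)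
      (norm_nonneg _) (norm_symm_le hP hP2))])

theorem spectrum_bound {x : B} {M : ℝ} (hx : ‖x‖ ≤ M) (h1 : ‖(1 : B)‖ ≤ 1) {t : ℝ}
    (ht : t ∈ spectrum ℝ x) : |t| ≤ M := by
  have := spectrum.norm_le_norm_mul_of_mem ht
  rw [Real.norm_eq_abs] at this
  nlinarith [norm_nonneg x, abs_nonneg t]

theorem pprod_exp (n : ℕ) (z : ℕ → B) (hz : ∀ r t, r < n → t < n → Commute (z r) (z t)) :
    pprod n (fun r => NormedSpace.exp (z r)) = NormedSpace.exp (∑ r ∈ Finset.range n, z r) := by
  induction n with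
  | zero => simp [pprod_zero]
  | succ n ih =>
    let _ : NormedAlgebra ℚ B := NormedAlgebra.restrictScalars ℚ ℂ B
    rw [pprod_succ, Finset.sum_range_succ, NormedSpace.exp_add_of_commute
      (Commute.sum_left _ _ _ fun r hr => hz r n (by simp at hr; omega) (by omega)),
      ih fun r t hr ht => hz r t (by omega) (by omega)]

theorem cfc_affine {x : B} (hx : IsSelfAdjoint x) (a b : ℝ) :
    cfc (fun t : ℝ => a + b * t) x = a • (1 : B) + b • x := by
  rw [cfc_add (a := x) (fun _ => a) (fun t => b * t) continuousOn_const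
    (continuous_const.mul continuous_id).continuousOn, cfc_const a x, cfc_const_mul_id b x,
    Algebra.algebraMap_eq_smul_one]

/-- The correlation. -/
def pairR (P Q : ℕ → B) (n : ℕ) : B :=
  (2 * (n : ℝ))⁻¹ • ∑ r ∈ Finset.range n, (P r * Q r + Q r * P r)

theorem kernels_commute (h : PairPool P Q u v) (r t : ℕ) :
    Commute (P r * Q r + Q r * P r) (P t * Q t + Q t * P t) := by
  rcases eq_or_ne r t with rfl | hne
  · exact Commute.refl _
  · exact (((h.comm_PQ hne (.inl rfl) (.inl rfl)).mul_right (h.comm_PQ hne (.inl rfl) (.inr rfl))).add_right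
      ((h.comm_PQ hne (.inl rfl) (.inr rfl)).mul_right (h.comm_PQ hne (.inl rfl) (.inl rfl)))).mul_left
      (((h.comm_PQ hne (.inr rfl) (.inl rfl)).mul_right (h.comm_PQ hne (.inr rfl) (.inr rfl))).add_right
      ((h.comm_PQ hne (.inr rfl) (.inr rfl)).mul_right (h.comm_PQ hne (.inr rfl) (.inl rfl)))) |>.add_left
      ((((h.comm_PQ hne (.inr rfl) (.inl rfl)).mul_right (h.comm_PQ hne (.inr rfl) (.inr rfl))).add_right
      ((h.comm_PQ hne (.inr rfl) (.inr rfl)).mul_right (h.comm_PQ hne (.inr rfl) (.inl rfl)))).mul_left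
      (((h.comm_PQ hne (.inl rfl) (.inl rfl)).mul_right (h.comm_PQ hne (.inl rfl) (.inr rfl))).add_right
      ((h.comm_PQ hne (.inl rfl) (.inr rfl)).mul_right (h.comm_PQ hne (.inl rfl) (.inl rfl)))))

theorem pairR_sa (h : PairPool P Q u v) (n : ℕ) : IsSelfAdjoint (pairR P Q n) :=
  (IsSelfAdjoint.all _).smul
    (isSelfAdjoint_sum _ fun r _ => sa_kernel (h.P_sym r).1 (h.Q_sym r).1)

/-- The even part converges. -/
theorem norm_wprod_sub_exp (h : PairPool P Q u v) {n : ℕ} (hn0 : 2 ≤ n) (h1 : ‖(1 : B)‖ ≤ 1) :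
    ‖pprod n (fun r => wf (cn n) (sn n) (P r) (Q r)) -
      cfc (fun t : ℝ => Real.exp (-1 - t)) (pairR P Q n)‖ ≤ Real.exp (5 / n) - 1 := by
  have hnR : (2 : ℝ) ≤ n := by exact_mod_cast hn0
  set K : ℕ → B := fun r => P r * Q r + Q r * P r with hK
  set a : ℝ := -(n : ℝ)⁻¹ with ha
  set b : ℝ := -(2 * (n : ℝ))⁻¹ with hb
  set z : ℕ → B := fun r => a • (1 : B) + b • K r with hz
  have hKsa : ∀ r, IsSelfAdjoint (K r) := fun r => sa_kernel (h.P_sym r).1 (h.Q_sym r).1
  have hzsa : ∀ r, IsSelfAdjoint (z r) := fun r =>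
    ((IsSelfAdjoint.all a).smul (IsSelfAdjoint.one B)).add ((IsSelfAdjoint.all b).smul (hKsa r))
  have hKn : ∀ r, ∀ t ∈ spectrum ℝ (K r), |t| ≤ 2 := fun r t ht =>
    spectrum_bound (kernel_bound (h.P_sym r).1 (h.P_sym r).2 (h.Q_sym r).1 (h.Q_sym r).2) h1 ht
  have hexp : ∀ r, NormedSpace.exp (z r) = cfc (fun t : ℝ => Real.exp (a + b * t)) (K r) := by
    intro r
    rw [← CFC.real_exp_eq_normedSpace_exp (hzsa r), cfc_comp' Real.exp (fun t => a + b * t) (K r)
      Real.continuous_exp.continuousOn (by fun_prop), cfc_affine (hKsa r)]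
  have hsum : cfc (fun t : ℝ => Real.exp (-1 - t)) (pairR P Q n) =
      pprod n (fun r => NormedSpace.exp (z r)) := by
    have e : (fun t : ℝ => -1 - t) = fun t => -1 + (-1) * t := by funext t; ring
    rw [pprod_exp n z fun r t _ _ => (((Commute.one_left _).smul_left _).add_left
      ((((Commute.one_right _).smul_right _).add_right
        ((kernels_commute h r t).smul_right _)).smul_left _)),
      ← CFC.real_exp_eq_normedSpace_exp (isSelfAdjoint_sum _ fun r _ => hzsa r),
      cfc_comp' Real.exp (fun t => -1 - t) (pairR P Q n) Real.continuous_exp.continuousOn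
        (by fun_prop) (pairR_sa h n), e, cfc_affine (pairR_sa h n)]
    congr 1
    rw [hz, Finset.sum_add_distrib, Finset.sum_const, Finset.card_range, ← Finset.smul_sum, pairR,
      smul_smul, ← Nat.cast_smul_eq_nsmul ℝ, smul_smul, hb, ha, neg_one_mul]
    congr 2
    field_simp
  rw [hsum, norm_sub_rev]
  refine (norm_pprod_sub_le n _ _ h1 (δ := 5 / (n : ℝ) ^ 2) (fun r _ => ?_) fun r _ => ?_).trans ?_
  · rw [hexp]
    refine norm_cfc_le zero_le_one fun t ht => ?_
    rw [Real.norm_eq_abs, abs_of_pos (Real.exp_pos _)]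
    refine Real.exp_le_one_iff.2 ?_
    have := abs_le.1 (hKn r t ht)
    have : a + b * t = -((2 + t) / (2 * n)) := by rw [ha, hb]; field_simp; ring
    rw [this, neg_nonpos]
    exact div_nonneg (by linarith) (by positivity)
  · rw [hexp]
    have hw : wf (cn n) (sn n) (P r) (Q r) =
        cfc (fun t : ℝ => (1 - sn n * sn n) + -(sn n * sn n / 2) * t) (K r) := by
      rw [cfc_affine (hKsa r), ← Complex.coe_smul, ← Complex.coe_smul, wf,
        show cn n * cn n = 1 - sn n * sn n by linarith [cn_sn n]]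
      push_cast; module
    rw [hw, ← cfc_sub _ _ (K r) (by fun_prop) (by fun_prop)]
    refine norm_cfc_le (by positivity) fun t ht => ?_
    have ht2 := hKn r t ht
    set x := a + b * t with hx
    have hx2 : x = -(1 + t / 2) * (n : ℝ)⁻¹ := by rw [hx, ha, hb]; field_simp; ring
    have hi : (0 : ℝ) ≤ (n : ℝ)⁻¹ := by positivity
    have hn' : (n : ℝ)⁻¹ ≤ 1 / 2 := by rw [inv_le_comm₀ (by linarith) (by norm_num)]; linarith
    have habs : |1 + t / 2| ≤ 2 := abs_le.2 ⟨by linarith [(abs_le.1 ht2).1], by linarith [(abs_le.1 ht2).2]⟩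
    have hxn : |x| ≤ 2 * (n : ℝ)⁻¹ := by
      rw [hx2, abs_mul, abs_neg, abs_of_nonneg hi]
      exact mul_le_mul_of_nonneg_right habs hi
    have h4 := Real.abs_exp_sub_one_sub_id_le (x := x) (by linarith)
    have h5 : |sn n * sn n - (n : ℝ)⁻¹| ≤ ((n : ℝ)⁻¹) ^ 2 / 3 := by
      have e2 : hn n ^ 4 = ((n : ℝ)⁻¹) ^ 2 := by
        rw [show hn n ^ 4 = (hn n ^ 2) ^ 2 by ring, hn_sq]
      have := sn_sq_near n
      have := sn_sq_le n
      rw [hn_sq] at *
      rw [e2] at *
      exact abs_le.2 ⟨by linarith, by nlinarith⟩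
    have e3 : Real.exp x - (1 - sn n * sn n + -(sn n * sn n / 2) * t) =
        (Real.exp x - 1 - x) + (sn n * sn n - (n : ℝ)⁻¹) * (1 + t / 2) := by rw [hx2]; ring
    rw [Real.norm_eq_abs, e3]
    refine (abs_add_le _ _).trans ((add_le_add h4 (le_of_eq (abs_mul _ _))).trans ?_)
    rw [div_eq_mul_inv 5, ← inv_pow]
    nlinarith [sq_abs x, abs_nonneg x, mul_le_mul h5 habs (abs_nonneg _) (by positivity)]
  · have := one_add_pow_le (a := 5 / (n : ℝ) ^ 2) (by positivity) n
    rw [show (n : ℝ) * (5 / (n : ℝ) ^ 2) = 5 / n by field_simp] at this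
    linarith

theorem norm_comm_kernel_zf (c s : ℝ) {K P : B} (hK : ‖K‖ ≤ 2) (hP : ‖P‖ ≤ 1) :
    ‖K * zf c s P - zf c s P * K‖ ≤ 4 * |s| := by
  have e : K * zf c s P - zf c s P * K = (Complex.I * (s : ℂ)) • (K * P - P * K) := by
    simp only [zf, mul_add, add_mul, mul_smul_comm, smul_mul_assoc, mul_one, one_mul]
    module
  rw [e, norm_smul, norm_mul, Complex.norm_I, one_mul, Complex.norm_real, Real.norm_eq_abs]
  have : ‖K * P - P * K‖ ≤ 4 := (norm_sub_le _ _).trans (by
    nlinarith [norm_mul_le K P, norm_mul_le P K, norm_nonneg K, norm_nonneg P])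
  nlinarith [abs_nonneg s]

/-- The correlation almost commutes with whatever moves each term a little. -/
theorem norm_pairR_comm_le (n : ℕ) (x : B) {δ : ℝ}
    (hd : ∀ r < n, ‖(P r * Q r + Q r * P r) * x - x * (P r * Q r + Q r * P r)‖ ≤ δ) (hδ : 0 ≤ δ) :
    ‖pairR P Q n * x - x * pairR P Q n‖ ≤ δ := by
  rw [pairR, smul_mul_assoc, mul_smul_comm, ← smul_sub, Finset.sum_mul, Finset.mul_sum,
    ← Finset.sum_sub_distrib, norm_smul, Real.norm_eq_abs, abs_of_nonneg (by positivity)]
  rcases n.eq_zero_or_pos with rfl | hpos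
  · simpa using hδ
  refine (mul_le_mul_of_nonneg_left ((norm_sum_le _ _).trans (Finset.sum_le_card_nsmul _ _ δ
    fun r hr => hd r (Finset.mem_range.1 hr))) (by positivity)).trans ?_
  rw [Finset.card_range, nsmul_eq_mul, ← mul_assoc]
  have : (0 : ℝ) < n := by exact_mod_cast hpos
  rw [mul_inv, mul_assoc (2 : ℝ)⁻¹, inv_mul_cancel₀ this.ne']
  linarith

end

end Vale.Agent.P095.Elem.Field
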