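import Vale.Agent.P095.Elem.Quot
import Vale.Agent.P095.Elem.FieldEst

/-!
# P095, amenable groups: the commutative algebra of the fields

Pool `i` is made of the indices `Nat.pair i r`, `r < n` at the coordinate `n`. In the quotient the
field unitaries commute with one another and with the correlations.
-/

namespace Vale.Agent.P095.Elem.Field

open Filter BoundedContinuousFunction
open scoped ComplexOrder CStarAlgebra BoundedContinuousFunction

noncomputable section

variable {B : Type*} [CStarAlgebra B]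

theorem norm_one_le : ‖(1 : B)‖ ≤ 1 := by
  rcases subsingleton_or_nontrivial B with hB | hB
  · simp [Subsingleton.elim (1 : B) 0]
  · exact norm_one.le

theorem tendsto_hn : Tendsto hn atTop (nhds 0) :=
  tendsto_inv_atTop_zero.comp (Real.tendsto_sqrt_atTop.comp tendsto_natCast_atTop_atTop)

theorem mul_pow_eq (n : ℕ) : (n : ℝ) * hn n ^ 4 ≤ hn n ^ 2 := by
  rw [show hn n ^ 4 = hn n ^ 2 * hn n ^ 2 by ring, ← mul_assoc, hn_sq]
  rcases n.eq_zero_or_pos with rfl | h
  · simp
  · rw [mul_inv_cancel₀ (by positivity), one_mul]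

theorem zprod_bound (n : ℕ) :
    (1 + sn n * sn n * (2 * (sn n * sn n) + 2 * |cn n * sn n|)) ^ n - 1 ≤
      Real.exp (4 * hn n) - 1 := by
  have h2 := sn_sq_le n
  have h0 := mul_self_nonneg (sn n)
  have hc : |cn n * sn n| ≤ hn n := by
    rw [abs_mul]
    have := mul_le_mul (Real.abs_cos_le_one (hn n)) (abs_sn_le n) (abs_nonneg _) zero_le_one
    simpa [cn] using this
  have hd : sn n * sn n * (2 * (sn n * sn n) + 2 * |cn n * sn n|) ≤ 4 * hn n ^ 3 := by
    have e := hn_nonneg n
    have : hn n ^ 2 ≤ hn n := by nlinarith [hn_le_one n]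
    refine (mul_le_mul h2 (show 2 * (sn n * sn n) + 2 * |cn n * sn n| ≤ 4 * hn n by linarith)
      (by positivity) (sq_nonneg _)).trans (le_of_eq (by ring))
  have key := one_add_pow_le (a := sn n * sn n * (2 * (sn n * sn n) + 2 * |cn n * sn n|))
    (by positivity) n
  refine sub_le_sub_right (key.trans (Real.exp_le_exp.2 ?_)) _
  refine (mul_le_mul_of_nonneg_left hd (Nat.cast_nonneg n)).trans ?_
  rcases n.eq_zero_or_pos with rfl | h
  · simp [hn]
  · rw [show (n : ℝ) * (4 * hn n ^ 3) = 4 * hn n * ((n : ℝ) * hn n ^ 2) by ring, hn_sq,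
      mul_inv_cancel₀ (by positivity), mul_one]

theorem norm_aprod_le {P Q u v : ℕ → B} (h : PairPool P Q u v) (n : ℕ) :
    ‖pprod n (fun r => af (cn n) (sn n) (P r) (Q r))‖ ≤ Real.exp 1 := by
  refine (norm_pprod_le n _ norm_one_le (M := 1 + sn n * sn n)
    (by linarith [mul_self_nonneg (sn n)]) fun r _ =>
      norm_af_le (cn_sn n) (h.P_sym r).1 (h.P_sym r).2 (h.Q_sym r).1 (h.Q_sym r).2).trans ?_
  refine (one_add_pow_le (mul_self_nonneg _) n).trans (Real.exp_le_exp.2 ?_)
  refine (mul_le_mul_of_nonneg_left (sn_sq_le n) (Nat.cast_nonneg n)).trans ?_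
  rcases n.eq_zero_or_pos with rfl | h
  · simp
  · rw [hn_sq, mul_inv_cancel₀ (by positivity)]

theorem norm_zprod_le {c s : ℝ} (hcs : c * c + s * s = 1) (n : ℕ) {P : ℕ → B}
    (hP : ∀ r < n, IsSelfAdjoint (P r) ∧ P r * P r = 1) :
    ‖pprod n (fun r => zf c s (P r))‖ ≤ 1 := by
  simpa using norm_pprod_le n _ norm_one_le le_rfl fun r hr => by
    rcases subsingleton_or_nontrivial B with hB | hB
    · simp [Subsingleton.elim (zf c s (P r)) 0]
    · exact (CStarRing.norm_of_mem_unitary (zf_unitary hcs (hP r hr).1 (hP r hr).2)).le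

theorem star_zprod (c s : ℝ) (n : ℕ) {P : ℕ → B} (hP : ∀ r, IsSelfAdjoint (P r))
    (hc : ∀ r t, r ≠ t → Commute (P r) (P t)) :
    star (pprod n fun r => zf c s (P r)) = pprod n fun r => zf c s (-P r) := by
  rw [star_pprod n _ fun r t _ _ hne => commute_zf (hc r t hne)]
  congr 1; funext r
  rw [star_zf c s (hP r), zf_neg]

/-! ### The set up -/

/-- A pool of symmetries with flips, and further elements commuting with all of it. -/
structure Setup (B : Type*) [CStarAlgebra B] (ι : Type*) (ω : Ultrafilter ℕ) where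
  hω : (ω : Filter ℕ) ≤ atTop
  P : ℕ → ι → B
  u : ℕ → ι → B
  pool : SymPool P u
  extra : Set (DQ B ω)
  extra_sa : ∀ e ∈ extra, IsSelfAdjoint e
  extra_comm : ∀ e ∈ extra, ∀ e' ∈ extra, Commute e e'
  extra_lift : ∀ e ∈ extra, ∃ f : ℕ →ᵇ B, DQ.mk f = e ∧
    ∀ n r a, Commute (f n) (P r a) ∧ Commute (f n) (u r a)

namespace Setup

variable {ι : Type*} {ω : Ultrafilter ℕ} (S : Setup B ι ω)

/-- The symmetries of pool `i`. -/
def pP (i : ℕ) (r : ℕ) (a : ι) : B := S.P (Nat.pair i r) a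

/-- The flips of pool `i`. -/
def pu (i : ℕ) (r : ℕ) (a : ι) : B := S.u (Nat.pair i r) a

theorem pair_ne {i j r t : ℕ} (h : i ≠ j ∨ r ≠ t) : Nat.pair i r ≠ Nat.pair j t := fun e => by
  rcases h with h | h
  · exact h (by simpa using congrArg (fun x => (Nat.unpair x).1) e)
  · exact h (by simpa using congrArg (fun x => (Nat.unpair x).2) e)

theorem P_sym (i r : ℕ) (a : ι) : IsSelfAdjoint (S.pP i r a) ∧ S.pP i r a * S.pP i r a = 1 :=
  ⟨S.pool.P_sa _ _, S.pool.P_sq _ _⟩

theorem comm_P {i j r t : ℕ} (h : i ≠ j ∨ r ≠ t) (a b : ι) :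
    Commute (S.pP i r a) (S.pP j t b) := (S.pool.comm _ _ (pair_ne h) a b).1

theorem pairPool (i : ℕ) (a b : ι) :
    PairPool (fun r => S.pP i r a) (fun r => S.pP i r b)
      (fun r => S.pu i r a) (fun r => S.pu i r b) where
  sym r x hx := by
    rcases hx with rfl | rfl | rfl | rfl
    exacts [S.P_sym i r a, S.P_sym i r b, ⟨S.pool.u_sa _ _, S.pool.u_sq _ _⟩,
      ⟨S.pool.u_sa _ _, S.pool.u_sq _ _⟩]
  antiP r := S.pool.anti _ _
  antiQ r := S.pool.anti _ _
  comm r t hne x hx y hy := by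
    have hp : Nat.pair i r ≠ Nat.pair i t := pair_ne (Or.inr hne)
    have c := S.pool.comm (Nat.pair i r) (Nat.pair i t) hp
    have d := S.pool.comm (Nat.pair i t) (Nat.pair i r) hp.symm
    rcases hx with rfl | rfl | rfl | rfl <;> rcases hy with rfl | rfl | rfl | rfl
    exacts [(c a a).1, (c a b).1, (c a a).2.1, (c a b).2.1,
      (c b a).1, (c b b).1, (c b a).2.1, (c b b).2.1,
      (d a a).2.1.symm, (d b a).2.1.symm, (c a a).2.2, (c a b).2.2,
      (d a b).2.1.symm, (d b b).2.1.symm, (c b a).2.2, (c b b).2.2]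

theorem pairPool_neg (i : ℕ) (a b : ι) :
    PairPool (fun r => S.pP i r a) (fun r => -S.pP i r b)
      (fun r => S.pu i r a) (fun r => S.pu i r b) where
  sym r x hx := by
    rcases hx with rfl | rfl | rfl | rfl
    exacts [S.P_sym i r a, ⟨(S.P_sym i r b).1.neg, by rw [neg_mul_neg, (S.P_sym i r b).2]⟩,
      ⟨S.pool.u_sa _ _, S.pool.u_sq _ _⟩, ⟨S.pool.u_sa _ _, S.pool.u_sq _ _⟩]
  antiP r := S.pool.anti _ _
  antiQ r := by
    show -S.pP i r b * S.pu i r b = -(S.pu i r b * -S.pP i r b)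
    rw [neg_mul, mul_neg, pP, pu, S.pool.anti]
  comm r t hne x hx y hy := by
    have hp : Nat.pair i r ≠ Nat.pair i t := pair_ne (Or.inr hne)
    have c := S.pool.comm (Nat.pair i r) (Nat.pair i t) hp
    have d := S.pool.comm (Nat.pair i t) (Nat.pair i r) hp.symm
    rcases hx with rfl | rfl | rfl | rfl <;> rcases hy with rfl | rfl | rfl | rfl
    exacts [(c a a).1, (c a b).1.neg_right, (c a a).2.1, (c a b).2.1,
      (c b a).1.neg_left, (c b b).1.neg_left.neg_right, (c b a).2.1.neg_left, (c b b).2.1.neg_left,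
      (d a a).2.1.symm, (d b a).2.1.symm.neg_right, (c a a).2.2, (c a b).2.2,
      (d a b).2.1.symm, (d b b).2.1.symm.neg_right, (c b a).2.2, (c b b).2.2]

/-- The sequence of field unitaries. -/
def useq (i : ℕ) (a : ι) : ℕ →ᵇ B :=
  ofNormedAddCommGroupDiscrete (fun n => fieldU (S.pP i) n a) 1 fun n => by
    rw [fieldU_eq]; exact norm_zprod_le (cn_sn n) n fun r _ => S.P_sym i r a

theorem useq_apply (i : ℕ) (a : ι) (n : ℕ) :
    S.useq i a n = pprod n fun r => zf (cn n) (sn n) (S.pP i r a) := fieldU_eq _ n a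

theorem norm_fieldR_le (i : ℕ) (a b : ι) (n : ℕ) : ‖fieldR (S.pP i) n a b‖ ≤ 1 := by
  rw [fieldR, norm_smul, Real.norm_eq_abs, abs_of_nonneg (by positivity)]
  rcases n.eq_zero_or_pos with rfl | h
  · simp
  refine (mul_le_mul_of_nonneg_left ((norm_sum_le _ _).trans (Finset.sum_le_card_nsmul _ _ 2
    fun r _ => kernel_bound (S.P_sym i r a).1 (S.P_sym i r a).2 (S.P_sym i r b).1
      (S.P_sym i r b).2)) (by positivity)).trans ?_
  rw [Finset.card_range, nsmul_eq_mul, mul_comm (n : ℝ) 2, inv_mul_cancel₀ (by positivity)]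

/-- The sequence of correlations. -/
def rseq (i : ℕ) (a b : ι) : ℕ →ᵇ B :=
  ofNormedAddCommGroupDiscrete (fun n => fieldR (S.pP i) n a b) 1 (S.norm_fieldR_le i a b)

theorem rseq_apply (i : ℕ) (a b : ι) (n : ℕ) :
    S.rseq i a b n = pairR (fun r => S.pP i r a) (fun r => S.pP i r b) n := rfl

theorem rseq_sa (i : ℕ) (a b : ι) : IsSelfAdjoint (S.rseq i a b) :=
  DQ.isSelfAdjoint_seq fun n => by
    rw [S.rseq_apply]; exact pairR_sa (S.pairPool i a b) n

/-- The product of the even and odd parts of a pair. -/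
def aseq (i : ℕ) (a b : ι) : ℕ →ᵇ B :=
  ofNormedAddCommGroupDiscrete
    (fun n => pprod n fun r => af (cn n) (sn n) (S.pP i r a) (S.pP i r b)) (Real.exp 1)
    fun n => norm_aprod_le (S.pairPool i a b) n

/-- The same with the second symmetry negated. -/
def aseq' (i : ℕ) (a b : ι) : ℕ →ᵇ B :=
  ofNormedAddCommGroupDiscrete
    (fun n => pprod n fun r => af (cn n) (sn n) (S.pP i r a) (-S.pP i r b)) (Real.exp 1)
    fun n => norm_aprod_le (S.pairPool_neg i a b) n

theorem mk_eq_aprod {P Q u v : ℕ → ℕ → B} (h : ∀ n, PairPool (P n) (Q n) (u n) (v n))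
    (f g k : ℕ →ᵇ B) (hf : ∀ n, f n = pprod n fun r => zf (cn n) (sn n) (P n r))
    (hg : ∀ n, g n = pprod n fun r => zf (cn n) (sn n) (Q n r))
    (hk : ∀ n, k n = pprod n fun r => af (cn n) (sn n) (P n r) (Q n r))
    (hω : (ω : Filter ℕ) ≤ atTop) :
    (DQ.mk (f * g) : DQ B ω) = DQ.mk k := by
  rw [DQ.mk_eq_mk]
  set E : ℕ → B := fun n => (eprod (sn n) (P n) (Q n) n - 1) *
    pprod n fun r => af (cn n) (sn n) (P n r) (Q n r) with hE
  have e1 : DQ.IsSmall ω E := by
    intro ε hε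
    have hev : ∀ᶠ n in (ω : Filter ℕ),
        Real.exp 1 ^ 2 * (Real.exp (hn n ^ 2) - 1) < ε * ε := by
      refine hω ((Tendsto.const_mul _ ((((Real.continuous_exp.tendsto _).comp
        (tendsto_hn.pow 2)).sub_const 1))).eventually_lt_const ?_)
      simpa using mul_pos hε hε
    filter_upwards [hev] with n hn' D
    have b := tau_eprod_null D (h n) (sn n) n norm_one_le
      (pprod n fun r => af (cn n) (sn n) (P n r) (Q n r))
    have b2 : (1 + (sn n * sn n) ^ 2) ^ n - 1 ≤ Real.exp (hn n ^ 2) - 1 := by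
      refine sub_le_sub_right ((one_add_pow_le (sq_nonneg _) n).trans (Real.exp_le_exp.2 ?_)) _
      refine le_trans ?_ (mul_pow_eq n)
      refine mul_le_mul_of_nonneg_left ?_ (Nat.cast_nonneg n)
      rw [show hn n ^ 4 = (hn n ^ 2) ^ 2 by ring]
      exact pow_le_pow_left₀ (mul_self_nonneg _) (sn_sq_le n) 2
    have b3 := mul_val_cut_le_tau D (isPos_star_mul_self' (E n)) hε.le
    have b4 : tau D (star (E n) * E n) < ε * ε := by
      refine lt_of_le_of_lt (b.trans ?_) hn'
      exact mul_le_mul (pow_le_pow_left₀ (norm_nonneg _) (norm_aprod_le (h n) n) 2) b2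
        (sub_nonneg.2 (one_le_pow₀ (by linarith [sq_nonneg (sn n * sn n)]))) (by positivity)
    nlinarith
  have e2 : DQ.IsSmall ω (fun n => f n * g n - (E n + k n)) := by
    refine DQ.IsSmall.of_norm fun ε hε => ?_
    have hev : ∀ᶠ n in (ω : Filter ℕ), Real.exp (4 * hn n) - 1 < ε := by
      refine hω ((((Real.continuous_exp.tendsto _).comp (tendsto_hn.const_mul 4)).sub_const
        1).eventually_lt_const ?_)
      simpa using hε
    filter_upwards [hev] with n hn'
    refine le_trans ?_ ((zprod_bound n).trans hn'.le)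
    have key := norm_zprod_sub_le (cn_sn n) n (P n) (Q n) norm_one_le
      (fun r _ => (h n).P_sym r) (fun r _ => (h n).Q_sym r)
      fun r t _ _ hne => ⟨(h n).comm_PQ hne (.inl rfl) (.inl rfl),
        (h n).comm_PQ hne (.inl rfl) (.inr rfl), (h n).comm_PQ hne (.inr rfl) (.inr rfl)⟩
    refine le_trans (le_of_eq ?_) key
    rw [hf, hg, hk, hE]
    congr 1
    simp only [eprod, sub_mul, one_mul, sub_add_cancel]
  refine DQ.IsSmall.congr (g := fun n => (f n * g n - (E n + k n)) + E n) ?_ (e2.add e1)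
  exact Eventually.of_forall fun n => by simp; abel
where
  isPos_star_mul_self' (x : B) : IsPos (star x * x) := ⟨x, rfl⟩

theorem U_mul (i : ℕ) (a b : ι) :
    (DQ.mk (S.useq i a * S.useq i b) : DQ B ω) = DQ.mk (S.aseq i a b) :=
  mk_eq_aprod (fun _ => S.pairPool i a b) _ _ _ (fun n => S.useq_apply i a n)
    (fun n => S.useq_apply i b n) (fun _ => rfl) S.hω

theorem U_mul_star (i : ℕ) (a b : ι) :
    (DQ.mk (S.useq i a * star (S.useq i b)) : DQ B ω) = DQ.mk (S.aseq' i a b) := by
  refine mk_eq_aprod (fun _ => S.pairPool_neg i a b) _ _ _ (fun n => S.useq_apply i a n)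
    (fun n => ?_) (fun _ => rfl) S.hω
  rw [BoundedContinuousFunction.star_apply, S.useq_apply]
  exact star_zprod _ _ n (fun r => (S.P_sym i r b).1) fun r t hne => S.comm_P (Or.inr hne) b b

theorem af_comm (c s : ℝ) (P Q : B) : af c s P Q = af c s Q P := by
  simp only [af, add_comm]

theorem aseq_comm (i : ℕ) (a b : ι) : S.aseq i a b = S.aseq i b a := by
  ext n
  show (pprod n fun r => _) = pprod n fun r => _
  congr 1; funext r; exact af_comm _ _ _ _

/-- The generators. -/
def gens : Set (DQ B ω) :=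
  (Set.range fun p : ℕ × ι => (DQ.mk (S.useq p.1 p.2) : DQ B ω)) ∪
    (Set.range fun p : ℕ × ι × ι => (DQ.mk (S.rseq p.1 p.2.1 p.2.2) : DQ B ω)) ∪ S.extra

theorem commute_U (i j : ℕ) (a b : ι) :
    Commute (DQ.mk (S.useq i a) : DQ B ω) (DQ.mk (S.useq j b)) ∧
      Commute (DQ.mk (S.useq i a) : DQ B ω) (star (DQ.mk (S.useq j b))) := by
  rcases eq_or_ne i j with rfl | hne
  · refine ⟨?_, ?_⟩
    · rw [Commute, SemiconjBy, ← map_mul, ← map_mul, U_mul, U_mul, S.aseq_comm]
    · rw [Commute, SemiconjBy, ← map_star, ← map_mul, ← map_mul, U_mul_star,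
        mk_eq_aprod (P := fun _ r => -S.pP i r b) (Q := fun _ r => S.pP i r a)
          (u := fun _ r => S.pu i r b) (v := fun _ r => S.pu i r a) ?_ _ _ (S.aseq' i a b)
          (fun n => ?_) (fun n => S.useq_apply i a n) (fun n => ?_) S.hω]
      · intro n
        have h := S.pairPool_neg i a b
        exact ⟨fun r x hx => h.sym r x (by simp [fam] at hx ⊢; tauto), h.antiQ, h.antiP,
          fun r t hne x hx y hy => h.comm r t hne x (by simp [fam] at hx ⊢; tauto) y
            (by simp [fam] at hy ⊢; tauto)⟩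
      · rw [BoundedContinuousFunction.star_apply, S.useq_apply]
        exact star_zprod _ _ n (fun r => (S.P_sym i r b).1) fun r t hne =>
          S.comm_P (Or.inr hne) b b
      · show (pprod n fun r => _) = pprod n fun r => _
        congr 1; funext r; exact af_comm _ _ _ _
  · have h : ∀ n, Commute (S.useq i a n) (S.useq j b n) ∧
        Commute (S.useq i a n) (star (S.useq j b n)) := fun n => by
      rw [S.useq_apply, S.useq_apply, star_zprod _ _ n (fun r => (S.P_sym j r b).1)
        fun r t hne' => S.comm_P (Or.inr hne') b b]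
      exact ⟨commute_pprod n _ fun r _ => (commute_pprod n _ fun t _ =>
          commute_zf (S.comm_P (Or.inl hne.symm) b a)).symm,
        commute_pprod n _ fun r _ => (commute_pprod n _ fun t _ =>
          commute_zf (S.comm_P (Or.inl hne.symm) b a).neg_left).symm⟩
    rw [← map_star]
    exact ⟨DQ.commute_mk (Eventually.of_forall fun n => (h n).1),
      DQ.commute_mk (Eventually.of_forall fun n => (h n).2)⟩

theorem commute_of_norm {f g : ℕ →ᵇ B} (δ : ℕ → ℝ) (hδ : Tendsto δ atTop (nhds 0))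
    (hω : (ω : Filter ℕ) ≤ atTop)
    (h : ∀ n, ‖f n * g n - g n * f n‖ ≤ δ n) : Commute (DQ.mk f : DQ B ω) (DQ.mk g) := by
  rw [Commute, SemiconjBy, ← map_mul, ← map_mul, ← sub_eq_zero, ← map_sub]
  refine DQ.mk_eq_zero_of_norm fun ε hε => ?_
  exact hω ((hδ.eventually_lt_const hε).mono fun n hn' => le_trans (h n) hn'.le)

theorem kernel_comm {i j r t : ℕ} (h : i ≠ j ∨ r ≠ t) (a b c : ι) :
    Commute (S.pP i r a * S.pP i r b + S.pP i r b * S.pP i r a) (S.pP j t c) :=
  ((S.comm_P h a c).mul_left (S.comm_P h b c)).add_left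
    ((S.comm_P h b c).mul_left (S.comm_P h a c))

theorem commute_RU (i j : ℕ) (a b c : ι) :
    Commute (DQ.mk (S.rseq i a b) : DQ B ω) (DQ.mk (S.useq j c)) := by
  refine commute_of_norm (fun n => 4 * hn n) (by simpa using tendsto_hn.const_mul (4 : ℝ)) S.hω
    fun n => ?_
  rw [S.rseq_apply, S.useq_apply]
  refine norm_pairR_comm_le n _ (fun r hr => ?_) (by have := hn_nonneg n; positivity)
  refine (norm_comm_pprod_le n _ _ norm_one_le fun t ht => ?_).trans ?_
  · rcases subsingleton_or_nontrivial B with hB | hB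
    · simp [Subsingleton.elim (zf (cn n) (sn n) (S.pP j t c)) 0]
    · exact (CStarRing.norm_of_mem_unitary
        (zf_unitary (cn_sn n) (S.P_sym j t c).1 (S.P_sym j t c).2)).le
  · rw [Finset.sum_eq_single_of_mem r (Finset.mem_range.2 hr) fun t _ htr => ?_]
    · exact (norm_comm_kernel_zf _ _ (kernel_bound (S.P_sym i r a).1 (S.P_sym i r a).2
        (S.P_sym i r b).1 (S.P_sym i r b).2) (norm_symm_le (S.P_sym j r c).1 (S.P_sym j r c).2)).trans
        (mul_le_mul_of_nonneg_left (abs_sn_le n) (by norm_num))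
    · rw [norm_eq_zero, sub_eq_zero]
      exact (((Commute.one_right _).smul_right _).add_right
        ((S.kernel_comm (Or.inr htr.symm) a b c).smul_right _)).eq

theorem commute_RR (i j : ℕ) (a b c d : ι) :
    Commute (DQ.mk (S.rseq i a b) : DQ B ω) (DQ.mk (S.rseq j c d)) := by
  refine commute_of_norm (fun n => 4 * hn n ^ 2) (by simpa using (tendsto_hn.pow 2).const_mul (4 : ℝ))
    S.hω fun n => ?_
  rw [S.rseq_apply, S.rseq_apply]
  refine norm_pairR_comm_le n _ (fun r hr => ?_) (by positivity)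
  rw [pairR, mul_smul_comm, smul_mul_assoc, ← smul_sub, Finset.sum_mul, Finset.mul_sum,
    ← Finset.sum_sub_distrib, norm_smul, Real.norm_eq_abs, abs_of_nonneg (by positivity),
    Finset.sum_eq_single_of_mem r (Finset.mem_range.2 hr) fun t _ htr => ?_]
  · have k1 := kernel_bound (S.P_sym i r a).1 (S.P_sym i r a).2 (S.P_sym i r b).1 (S.P_sym i r b).2
    have k2 := kernel_bound (S.P_sym j r c).1 (S.P_sym j r c).2 (S.P_sym j r d).1 (S.P_sym j r d).2
    have : (0 : ℝ) < n := by exact_mod_cast (Nat.zero_le r).trans_lt hr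
    refine (mul_le_mul_of_nonneg_left ((norm_sub_le _ _).trans (add_le_add
      ((norm_mul_le _ _).trans (mul_le_mul k1 k2 (norm_nonneg _) zero_le_two))
      ((norm_mul_le _ _).trans (mul_le_mul k2 k1 (norm_nonneg _) zero_le_two))))
      (by positivity)).trans (le_of_eq ?_)
    rw [hn_sq]; field_simp; ring
  · rw [sub_eq_zero]
    exact (((S.kernel_comm (Or.inr htr.symm) a b c).mul_right
      (S.kernel_comm (Or.inr htr.symm) a b d)).add_right
      ((S.kernel_comm (Or.inr htr.symm) a b d).mul_right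
      (S.kernel_comm (Or.inr htr.symm) a b c))).eq

theorem commute_extra {e : DQ B ω} (he : e ∈ S.extra) (i : ℕ) (a b : ι) :
    Commute e (DQ.mk (S.useq i a)) ∧ Commute e (DQ.mk (S.rseq i a b)) := by
  obtain ⟨f, rfl, hf⟩ := S.extra_lift e he
  refine ⟨DQ.commute_mk (Eventually.of_forall fun n => ?_),
    DQ.commute_mk (Eventually.of_forall fun n => ?_)⟩
  · rw [S.useq_apply]
    exact commute_pprod n _ fun r _ =>
      ((Commute.one_right _).smul_right _).add_right ((hf n _ a).1.smul_right _)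
  · rw [S.rseq_apply]
    exact (Commute.sum_right _ _ _ fun r _ =>
      ((hf n _ a).1.mul_right (hf n _ b).1).add_right ((hf n _ b).1.mul_right (hf n _ a).1)).smul_right _

theorem R_sa (i : ℕ) (a b : ι) : IsSelfAdjoint (DQ.mk (S.rseq i a b) : DQ B ω) :=
  (S.rseq_sa i a b).map _

theorem gens_comm : ∀ x ∈ S.gens, ∀ y ∈ S.gens, Commute x y ∧ Commute x (star y) := by
  rintro x ((⟨⟨i, a⟩, rfl⟩ | ⟨⟨i, a, b⟩, rfl⟩) | hx) y ((⟨⟨j, c⟩, rfl⟩ | ⟨⟨j, c, d⟩, rfl⟩) | hy)
  · exact S.commute_U i j a c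
  · rw [(S.R_sa j c d).star_eq]
    exact ⟨(S.commute_RU j i c d a).symm, (S.commute_RU j i c d a).symm⟩
  · rw [(S.extra_sa y hy).star_eq]
    exact ⟨(S.commute_extra hy i a a).1.symm, (S.commute_extra hy i a a).1.symm⟩
  · refine ⟨S.commute_RU i j a b c, ?_⟩
    simpa [(S.R_sa i a b).star_eq] using (S.commute_RU i j a b c).star_star
  · rw [(S.R_sa j c d).star_eq]
    exact ⟨S.commute_RR i j a b c d, S.commute_RR i j a b c d⟩
  · rw [(S.extra_sa y hy).star_eq]
    exact ⟨(S.commute_extra hy i a b).2.symm, (S.commute_extra hy i a b).2.symm⟩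
  · refine ⟨(S.commute_extra hx j c c).1, ?_⟩
    simpa [(S.extra_sa x hx).star_eq] using (S.commute_extra hx j c c).1.star_star
  · rw [(S.R_sa j c d).star_eq]
    exact ⟨(S.commute_extra hx j c d).2, (S.commute_extra hx j c d).2⟩
  · rw [(S.extra_sa y hy).star_eq]
    exact ⟨S.extra_comm x hx y hy, S.extra_comm x hx y hy⟩

/-- The algebra of the fields. -/
def C : StarSubalgebra ℂ (DQ B ω) := (StarAlgebra.adjoin ℂ S.gens).topologicalClosure

instance isClosed_C : IsClosed (S.C : Set (DQ B ω)) :=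
  StarSubalgebra.isClosed_topologicalClosure _

theorem gens_subset : S.gens ⊆ S.C := fun _ hx =>
  StarSubalgebra.le_topologicalClosure _ (StarAlgebra.subset_adjoin ℂ _ hx)

theorem C_comm (x y : S.C) : x * y = y * x := by
  have h1 : S.C ≤ StarSubalgebra.centralizer ℂ (S.gens : Set (DQ B ω)) := by
    refine StarSubalgebra.topologicalClosure_minimal (StarAlgebra.adjoin_le ?_)
      (Set.isClosed_centralizer _)
    intro a ha
    rw [SetLike.mem_coe, StarSubalgebra.mem_centralizer_iff]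
    exact fun g hg => ⟨(S.gens_comm g hg a ha).1.eq, by
      simpa using ((S.gens_comm g hg (a) ha).2.star_star).eq⟩
  have h2 : S.C ≤ StarSubalgebra.centralizer ℂ (S.C : Set (DQ B ω)) := by
    refine StarSubalgebra.topologicalClosure_minimal (StarAlgebra.adjoin_le ?_)
      (Set.isClosed_centralizer _)
    intro a ha
    rw [SetLike.mem_coe, StarSubalgebra.mem_centralizer_iff]
    intro g hg
    exact ⟨((StarSubalgebra.mem_centralizer_iff ℂ).1 (h1 hg) a ha).1.symm,
      ((StarSubalgebra.mem_centralizer_iff ℂ).1 (h1 (star_mem hg)) a ha).1.symm⟩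
  exact Subtype.ext ((StarSubalgebra.mem_centralizer_iff ℂ).1 (h2 y.2) x x.2).1

instance commCStarAlgebra : CommCStarAlgebra S.C where
  __ := (StarSubalgebra.cstarAlgebra S.C : CStarAlgebra S.C)
  mul_comm := S.C_comm

/-- The field unitaries in the algebra. -/
def U (i : ℕ) (a : ι) : S.C :=
  ⟨DQ.mk (S.useq i a), S.gens_subset (Or.inl (Or.inl ⟨(i, a), rfl⟩))⟩

/-- The correlations in the algebra. -/
def R (i : ℕ) (a b : ι) : S.C :=
  ⟨DQ.mk (S.rseq i a b), S.gens_subset (Or.inl (Or.inr ⟨(i, a, b), rfl⟩))⟩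

/-- The further elements in the algebra. -/
def inc (e : S.extra) : S.C := ⟨e.1, S.gens_subset (Or.inr e.2)⟩

/-- The fields. -/
def y (i : ℕ) (a : ι) : S.C :=
  ((√fieldVar)⁻¹ : ℂ) • ((-Complex.I / 2) • (S.U i a - star (S.U i a)))

/-- The covariance. -/
def K (i : ℕ) (a b : ι) : S.C := cfc fieldG (S.R i a b)

/-- The sequence of fields. -/
def yseq (i : ℕ) (a : ι) : ℕ →ᵇ B :=
  ((√fieldVar)⁻¹ : ℂ) • ((-Complex.I / 2) • (S.useq i a - star (S.useq i a)))

theorem yseq_apply (i : ℕ) (a : ι) (n : ℕ) : S.yseq i a n = fieldY (S.pP i) n a := rfl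

theorem coe_y (i : ℕ) (a : ι) : (S.y i a : DQ B ω) = DQ.mk (S.yseq i a) := by
  simp only [y, yseq, U, map_smul, map_sub, map_star]
  rfl

theorem continuous_fieldG : Continuous fieldG := Real.continuous_sinh.div_const _

theorem R_sa' (i : ℕ) (a b : ι) : IsSelfAdjoint (S.R i a b) :=
  Subtype.ext (S.R_sa i a b).star_eq

theorem coe_cfc_R {g : ℝ → ℝ} (hg : Continuous g) (i : ℕ) (a b : ι) :
    ((cfc g (S.R i a b) : S.C) : DQ B ω) = DQ.mk (cfc g (S.rseq i a b)) := by
  rw [DQ.mk_cfc (S.rseq_sa i a b) hg]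
  exact StarAlgHomClass.map_cfc S.C.subtype g (S.R i a b) hg.continuousOn
    continuous_subtype_val (S.R_sa' i a b) (S.R_sa i a b)

theorem coe_K (i : ℕ) (a b : ι) :
    (S.K i a b : DQ B ω) = DQ.mk (cfc fieldG (S.rseq i a b)) :=
  S.coe_cfc_R continuous_fieldG i a b

theorem kseq_apply (i : ℕ) (a b : ι) (n : ℕ) :
    cfc fieldG (S.rseq i a b) n = fieldK (S.pP i) n a b :=
  DQ.apply_cfc (S.rseq_sa i a b) continuous_fieldG n

end Setup

end

end Vale.Agent.P095.Elem.Field
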