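import Vale.Agent.P095.Elem.FieldDefs

/-!
# P095, amenable groups: products of symmetries over a pool

For two symmetries `(c + i s P)(c + i s Q) = A + E` with `A = c² - s² (PQ + QP)/2 + i c s (P + Q)`
and `E` a multiple of the commutator; over a pool of commuting pairs the product of the `A + E`
is `∏ (1 + E) * ∏ A` up to `O(n s³)`.
-/

namespace Vale.Agent.P095.Elem.Field

open scoped ComplexOrder CStarAlgebra

noncomputable section

variable {B : Type*} [CStarAlgebra B]

/-- `c + i s P`. -/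
def zf (c s : ℝ) (P : B) : B := (c : ℂ) • (1 : B) + (Complex.I * (s : ℂ)) • P

/-- `c² - s² (PQ + QP)/2 + i c s (P + Q)`. -/
def af (c s : ℝ) (P Q : B) : B :=
  ((c * c : ℝ) : ℂ) • (1 : B) - ((s * s / 2 : ℝ) : ℂ) • (P * Q + Q * P) +
    (Complex.I * ((c * s : ℝ) : ℂ)) • (P + Q)

/-- The commutator part. -/
def ef (s : ℝ) (P Q : B) : B := ((-(s * s / 2) : ℝ) : ℂ) • (P * Q - Q * P)

/-- The hermitian commutator. -/
def cf (P Q : B) : B := Complex.I • (P * Q - Q * P)

/-- The product over a pool. -/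
def pprod (n : ℕ) (f : ℕ → B) : B := ((List.range n).map f).prod

theorem pprod_zero (f : ℕ → B) : pprod 0 f = 1 := rfl

theorem pprod_succ (n : ℕ) (f : ℕ → B) : pprod (n + 1) f = pprod n f * f n := by
  simp [pprod, List.range_succ]

theorem zf_mul (c s : ℝ) (P Q : B) : zf c s P * zf c s Q = af c s P Q + ef s P Q := by
  have hI : (Complex.I * (s : ℂ)) * (Complex.I * (s : ℂ)) = -((s * s : ℝ) : ℂ) := by
    rw [show (Complex.I * (s : ℂ)) * (Complex.I * (s : ℂ)) =
      (Complex.I * Complex.I) * ((s : ℂ) * (s : ℂ)) by ring, Complex.I_mul_I]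
    push_cast; ring
  simp only [zf, af, ef, add_mul, mul_add, smul_mul_smul_comm, one_mul, mul_one, hI, smul_add,
    smul_sub]
  push_cast
  module

theorem star_zf (c s : ℝ) {P : B} (hP : IsSelfAdjoint P) : star (zf c s P) = zf c (-s) P := by
  simp [zf, star_smul, hP.star_eq, Complex.conj_ofReal]

theorem zf_neg (c s : ℝ) (P : B) : zf c (-s) P = zf c s (-P) := by
  simp [zf]

theorem zf_unitary {c s : ℝ} (hcs : c * c + s * s = 1) {P : B} (hP : IsSelfAdjoint P)
    (h2 : P * P = 1) : zf c s P ∈ unitary B := by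
  have hcs' : (c : ℂ) * c + (s : ℂ) * s = 1 := by exact_mod_cast hcs
  have key : ∀ t : ℝ, t * t = s * s → zf c (-t) P * zf c t P = 1 := by
    intro t ht
    have e : (Complex.I * ((-t : ℝ) : ℂ)) * (Complex.I * (t : ℂ)) = (t : ℂ) * t := by
      rw [show (Complex.I * ((-t : ℝ) : ℂ)) * (Complex.I * (t : ℂ)) =
        -((Complex.I * Complex.I) * ((t : ℂ) * t)) by push_cast; ring, Complex.I_mul_I]
      ring
    have ht' : (t : ℂ) * t = (s : ℂ) * s := by exact_mod_cast ht
    simp only [zf, add_mul, mul_add, smul_mul_smul_comm, one_mul, mul_one, h2, e, ht']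
    rw [show ((c : ℂ) * c) • (1 : B) + (Complex.I * ((-t : ℝ) : ℂ) * c) • P +
      (((c : ℂ) * (Complex.I * t)) • P + ((s : ℂ) * s) • (1 : B)) =
      ((c : ℂ) * c + (s : ℂ) * s) • (1 : B) by push_cast; module, hcs', one_smul]
  refine ⟨?_, ?_⟩
  · rw [star_zf c s hP]; exact key s rfl
  · rw [star_zf c s hP]
    simpa using key (-s) (by ring)

theorem norm_symm_le {P : B} (hP : IsSelfAdjoint P) (h2 : P * P = 1) : ‖P‖ ≤ 1 := by
  rcases subsingleton_or_nontrivial B with hB | hB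
  · simp [Subsingleton.elim P 0]
  have h := CStarRing.norm_star_mul_self (x := P)
  rw [hP.star_eq, h2, norm_one] at h
  nlinarith [norm_nonneg P]

theorem norm_af_sub_one {c s : ℝ} (hcs : c * c + s * s = 1) {P Q : B} (hP : ‖P‖ ≤ 1)
    (hQ : ‖Q‖ ≤ 1) (h1 : ‖(1 : B)‖ ≤ 1) : ‖af c s P Q - 1‖ ≤ 2 * (s * s) + 2 * |c * s| := by
  have e : af c s P Q - 1 = -(((s * s : ℝ) : ℂ) • (1 : B)) -
      ((s * s / 2 : ℝ) : ℂ) • (P * Q + Q * P) + (Complex.I * ((c * s : ℝ) : ℂ)) • (P + Q) := by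
    rw [af, show c * c = 1 - s * s by linarith]; push_cast; module
  rw [e]
  have hn : ∀ x : ℝ, ‖((x : ℝ) : ℂ)‖ = |x| := fun x => by simp
  have hss : 0 ≤ s * s := mul_self_nonneg s
  refine (norm_add_le _ _).trans (add_le_add ((norm_sub_le _ _).trans ?_) ?_)
  · rw [norm_neg, norm_smul, norm_smul, hn, hn, abs_of_nonneg hss,
      abs_of_nonneg (by linarith : 0 ≤ s * s / 2)]
    have h3 : ‖P * Q + Q * P‖ ≤ 2 := (norm_add_le _ _).trans (by
      linarith [(norm_mul_le P Q).trans (mul_le_one₀ hP (norm_nonneg _) hQ),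
        (norm_mul_le Q P).trans (mul_le_one₀ hQ (norm_nonneg _) hP)])
    nlinarith [mul_le_mul_of_nonneg_left h1 hss, mul_le_mul_of_nonneg_left h3 hss]
  · rw [norm_smul, norm_mul, Complex.norm_I, one_mul, hn]
    have h4 : ‖P + Q‖ ≤ 2 := (norm_add_le _ _).trans (by linarith)
    nlinarith [mul_le_mul_of_nonneg_left h4 (abs_nonneg (c * s))]

theorem norm_ef (s : ℝ) {P Q : B} (hP : ‖P‖ ≤ 1) (hQ : ‖Q‖ ≤ 1) : ‖ef s P Q‖ ≤ s * s := by
  rw [ef, norm_smul, Complex.norm_real, Real.norm_eq_abs, abs_neg,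
    abs_of_nonneg (by nlinarith [mul_self_nonneg s] : 0 ≤ s * s / 2)]
  have h3 : ‖P * Q - Q * P‖ ≤ 2 := (norm_sub_le _ _).trans (by
    linarith [(norm_mul_le P Q).trans (mul_le_one₀ hP (norm_nonneg _) hQ),
      (norm_mul_le Q P).trans (mul_le_one₀ hQ (norm_nonneg _) hP)])
  nlinarith [mul_le_mul_of_nonneg_left h3 (mul_self_nonneg s)]

theorem norm_pprod_le (n : ℕ) (f : ℕ → B) (h1 : ‖(1 : B)‖ ≤ 1) {M : ℝ} (hM : 1 ≤ M)
    (hf : ∀ r < n, ‖f r‖ ≤ M) : ‖pprod n f‖ ≤ M ^ n := by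
  induction n with
  | zero => simpa [pprod_zero] using h1
  | succ n ih =>
    rw [pprod_succ, pow_succ]
    exact (norm_mul_le _ _).trans (mul_le_mul (ih fun r hr => hf r (by omega)) (hf n (by omega))
      (norm_nonneg _) (by positivity))

theorem norm_pprod_sub_le (n : ℕ) (f g : ℕ → B) (h1 : ‖(1 : B)‖ ≤ 1) {δ : ℝ}
    (hf : ∀ r < n, ‖f r‖ ≤ 1) (hd : ∀ r < n, ‖f r - g r‖ ≤ δ) :
    ‖pprod n f - pprod n g‖ ≤ (1 + δ) ^ n - 1 := by
  induction n with
  | zero => simp [pprod_zero]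
  | succ n ih =>
    have hfn := hf n (by omega)
    have hdn := hd n (by omega)
    have hgn : ‖g n‖ ≤ 1 + δ := by
      linarith [norm_le_norm_add_norm_sub' (g n) (f n), norm_sub_rev (f n) (g n)]
    have hp : ‖pprod n f‖ ≤ 1 := by
      simpa using norm_pprod_le n f h1 le_rfl fun r hr => hf r (by omega)
    have hi := ih (fun r hr => hf r (by omega)) (fun r hr => hd r (by omega))
    rw [pprod_succ, pprod_succ, show pprod n f * f n - pprod n g * g n =
      pprod n f * (f n - g n) + (pprod n f - pprod n g) * g n by noncomm_ring, pow_succ]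
    refine (norm_add_le _ _).trans ((add_le_add ((norm_mul_le _ _).trans
      (mul_le_mul hp hdn (norm_nonneg _) zero_le_one)) ((norm_mul_le _ _).trans
      (mul_le_mul hi hgn (norm_nonneg _) (le_trans (norm_nonneg _) hi)))).trans ?_)
    nlinarith [one_le_pow₀ (n := n) (show 1 ≤ 1 + δ by linarith [(norm_nonneg (f n - g n)).trans hdn])]

theorem commute_pprod (n : ℕ) (f : ℕ → B) {x : B} (h : ∀ r < n, Commute x (f r)) :
    Commute x (pprod n f) := by
  induction n with
  | zero => simp [pprod_zero]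
  | succ n ih =>
    rw [pprod_succ]
    exact (ih fun r hr => h r (by omega)).mul_right (h n (by omega))

theorem pprod_mul (n : ℕ) (f g : ℕ → B) (h : ∀ r s, r < n → s < n → r ≠ s → Commute (f r) (g s)) :
    pprod n f * pprod n g = pprod n fun r => f r * g r := by
  induction n with
  | zero => simp [pprod_zero]
  | succ n ih =>
    have hc : Commute (f n) (pprod n g) :=
      commute_pprod n g fun s hs => h n s (by omega) (by omega) (by omega)
    rw [pprod_succ, pprod_succ, pprod_succ, ← ih fun r s hr hs => h r s (by omega) (by omega)]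
    rw [mul_assoc, ← mul_assoc (f n), hc.eq, mul_assoc, ← mul_assoc, ← mul_assoc]

theorem fieldU_eq {ι : Type*} (P : ℕ → ι → B) (n : ℕ) (a : ι) :
    fieldU P n a = pprod n fun r =>
      zf (Real.cos (√(n : ℝ))⁻¹) (Real.sin (√(n : ℝ))⁻¹) (P r a) := rfl

/-- The product of the fields of two pools of symmetries, up to `O(n s³)`. -/
theorem norm_zprod_sub_le {c s : ℝ} (hcs : c * c + s * s = 1) (n : ℕ) (P Q : ℕ → B)
    (h1 : ‖(1 : B)‖ ≤ 1)
    (hP : ∀ r < n, IsSelfAdjoint (P r) ∧ P r * P r = 1)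
    (hQ : ∀ r < n, IsSelfAdjoint (Q r) ∧ Q r * Q r = 1)
    (hc : ∀ r t, r < n → t < n → r ≠ t → Commute (P r) (P t) ∧ Commute (P r) (Q t) ∧
      Commute (Q r) (Q t)) :
    ‖pprod n (fun r => zf c s (P r)) * pprod n (fun r => zf c s (Q r)) -
      pprod n (fun r => 1 + ef s (P r) (Q r)) * pprod n (fun r => af c s (P r) (Q r))‖ ≤
      (1 + s * s * (2 * (s * s) + 2 * |c * s|)) ^ n - 1 := by
  have cz : ∀ x y : B, Commute x y → ∀ a b : ℝ, Commute (zf a b x) y := fun x y hxy a b =>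
    ((Commute.one_left y).smul_left _).add_left (hxy.smul_left _)
  have cpair : ∀ r t, r < n → t < n → r ≠ t → ∀ x : B, (x = P t ∨ x = Q t) →
      Commute (P r) x ∧ Commute (Q r) x := by
    rintro r t hr ht hne x (rfl | rfl)
    · exact ⟨(hc r t hr ht hne).1, (hc t r ht hr hne.symm).2.1.symm⟩
    · exact ⟨(hc r t hr ht hne).2.1, (hc r t hr ht hne).2.2⟩
  have ce : ∀ r t, r < n → t < n → r ≠ t →
      Commute (1 + ef s (P r) (Q r)) (af c s (P t) (Q t)) := by
    intro r t hr ht hne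
    obtain ⟨a1, a2⟩ := cpair r t hr ht hne (P t) (Or.inl rfl)
    obtain ⟨b1, b2⟩ := cpair r t hr ht hne (Q t) (Or.inr rfl)
    have hx : ∀ x : B, Commute (P r) x → Commute (Q r) x → Commute (1 + ef s (P r) (Q r)) x :=
      fun x u v => (Commute.one_left x).add_left
        (((u.mul_left v).sub_left (v.mul_left u)).smul_left _)
    have hxP := hx _ a1 a2
    have hxQ := hx _ b1 b2
    exact (((Commute.one_right _).smul_right _).sub_right
      (((hxP.mul_right hxQ).add_right (hxQ.mul_right hxP)).smul_right _)).add_right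
      ((hxP.add_right hxQ).smul_right _)
  rw [pprod_mul n _ _ (fun r t hr ht hne => ((cz _ _
    ((hc r t hr ht hne).2.1) c s).symm |> fun h => (cz _ _ h c s).symm)),
    pprod_mul n _ _ ce]
  refine norm_pprod_sub_le n _ _ h1 (δ := s * s * (2 * (s * s) + 2 * |c * s|)) (fun r hr => ?_) (fun r hr => ?_)
  · rcases subsingleton_or_nontrivial B with hB | hB
    · simp [Subsingleton.elim (zf c s (P r) * zf c s (Q r)) 0]
    · exact (CStarRing.norm_of_mem_unitary (mul_mem (zf_unitary hcs (hP r hr).1 (hP r hr).2)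
        (zf_unitary hcs (hQ r hr).1 (hQ r hr).2))).le
  · rw [zf_mul, show af c s (P r) (Q r) + ef s (P r) (Q r) -
      (1 + ef s (P r) (Q r)) * af c s (P r) (Q r) =
      -(ef s (P r) (Q r) * (af c s (P r) (Q r) - 1)) by noncomm_ring, norm_neg]
    have nP := norm_symm_le (hP r hr).1 (hP r hr).2
    have nQ := norm_symm_le (hQ r hr).1 (hQ r hr).2
    exact (norm_mul_le _ _).trans (mul_le_mul (norm_ef s nP nQ) (norm_af_sub_one hcs nP nQ h1)
      (norm_nonneg _) (mul_self_nonneg s))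

/-- The commutator is anticommuted by both symmetries. -/
theorem cf_anti {P Q : B} (hP : P * P = 1) (hQ : Q * Q = 1) :
    P * cf P Q = -(cf P Q * P) ∧ Q * cf P Q = -(cf P Q * Q) := by
  constructor <;> rw [cf, mul_smul_comm, smul_mul_assoc, ← smul_neg]
  · rw [mul_sub, sub_mul, neg_sub, ← mul_assoc, hP, mul_assoc Q P P, hP, one_mul, mul_one,
      mul_assoc P Q P]
  · rw [mul_sub, sub_mul, neg_sub, mul_assoc P Q Q, hQ, ← mul_assoc Q Q P, hQ, one_mul, mul_one,
      mul_assoc Q P Q]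

theorem cf_sq {P Q : B} (hP : P * P = 1) (hQ : Q * Q = 1) :
    cf P Q * cf P Q = (4 : ℂ) • (1 : B) - (P * Q + Q * P) * (P * Q + Q * P) := by
  have a : P * Q * (Q * P) = 1 := by rw [mul_assoc, ← mul_assoc Q, hQ, one_mul, hP]
  have b : Q * P * (P * Q) = 1 := by rw [mul_assoc, ← mul_assoc P, hP, one_mul, hQ]
  simp only [cf, smul_mul_smul_comm, Complex.I_mul_I, add_mul, mul_add, sub_mul, mul_sub, a, b]
  module

theorem cf_sa {P Q : B} (hP : IsSelfAdjoint P) (hQ : IsSelfAdjoint Q) : IsSelfAdjoint (cf P Q) := by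
  simp [IsSelfAdjoint, cf, star_smul, star_sub, star_mul, hP.star_eq, hQ.star_eq, neg_smul,
    ← smul_neg]

theorem commute_kernel {P Q : B} (hP : P * P = 1) (hQ : Q * Q = 1) :
    Commute (P * Q + Q * P) P ∧ Commute (P * Q + Q * P) Q := by
  constructor <;> simp only [Commute, SemiconjBy, add_mul, mul_add, ← mul_assoc, hP, hQ, one_mul]
  · rw [mul_assoc Q P P, hP, mul_one]; abel
  · rw [mul_assoc P Q Q, hQ, mul_one]; abel

end

end Vale.Agent.P095.Elem.Field
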