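import Vale.Agent.P095.Elem.Defs
import Vale.Agent.P095.Gamma.Trace

/-!
# P095, amenable groups: fields with a pair law

`FieldLaw` is the interface between the pool limit (Field) and the scalar machine: bounded
self-adjoint elements `y i a` of a commutative algebra, one index `i` for each pool, which are
centred and have covariance `K i a b` in every context made from the other pools.

`fieldU P n a` is the product over a pool of `n` symmetries and `fieldY P n a` its normalised sine;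
`fieldR P n a b` is the empirical correlation and `fieldG` the covariance function `sinh x / sinh 1`.
-/

namespace Vale.Agent.P095.Elem

open VAgent.P095.Gamma (IsTr)
open scoped ComplexOrder CStarAlgebra

noncomputable section

/-- Centred fields with pairwise covariance `K`, in a commutative algebra with a positive unital
functional. -/
structure FieldLaw {C : Type*} [CommCStarAlgebra C] {β : Type*} (τ : C →ₗ[ℂ] ℂ) (M : ℝ)
    (y : ℕ → β → C) (K : ℕ → β → β → C) (alg : Set ℕ → StarSubalgebra ℂ C) : Prop where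
  tr : IsTr τ
  mono : Monotone alg
  y_mem : ∀ (J : Set ℕ) (i : ℕ) (a : β), i ∈ J → y i a ∈ alg J
  K_mem : ∀ (J : Set ℕ) (i : ℕ) (a b : β), i ∈ J → K i a b ∈ alg J
  y_sa : ∀ i a, IsSelfAdjoint (y i a)
  K_sa : ∀ i a b, IsSelfAdjoint (K i a b)
  y_norm : ∀ i a, ‖y i a‖ ≤ M
  K_diag : ∀ i a, K i a a = 1
  K_symm : ∀ i a b, K i a b = K i b a
  K_norm : ∀ i a b, ‖K i a b‖ ≤ 1
  K_triangle : ∀ (χ : WeakDual.characterSpace ℂ C) (i : ℕ) (a b c : β) (σ ρ : ℝ),
    |σ| = 1 → |ρ| = 1 → 1 - σ * ρ * (χ (K i a c)).re ≤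
      2 * ((1 - σ * (χ (K i a b)).re) + (1 - ρ * (χ (K i b c)).re))
  mean : ∀ (J : Set ℕ) (i : ℕ), i ∉ J → ∀ u ∈ alg J, ∀ a, τ (y i a * u) = 0
  pair : ∀ (J : Set ℕ) (i : ℕ), i ∉ J → ∀ u ∈ alg J, ∀ a b,
    τ (y i a * y i b * u) = τ (K i a b * u)

variable {B : Type*} [CStarAlgebra B] {ι : Type*}

/-- Symmetries with flips; different copies commute. -/
structure SymPool (P u : ℕ → ι → B) : Prop where
  P_sa : ∀ r a, IsSelfAdjoint (P r a)
  u_sa : ∀ r a, IsSelfAdjoint (u r a)
  P_sq : ∀ r a, P r a * P r a = 1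
  u_sq : ∀ r a, u r a * u r a = 1
  anti : ∀ r a, P r a * u r a = -(u r a * P r a)
  comm : ∀ r s, r ≠ s → ∀ a b, Commute (P r a) (P s b) ∧ Commute (P r a) (u s b) ∧
    Commute (u r a) (u s b)

/-- The unitary `∏_{r < n} (cos n^{-1/2} + i sin n^{-1/2} P r a)`. -/
def fieldU (P : ℕ → ι → B) (n : ℕ) (a : ι) : B :=
  ((List.range n).map fun r => (Real.cos (√(n : ℝ))⁻¹ : ℂ) • (1 : B) +
    (Complex.I * (Real.sin (√(n : ℝ))⁻¹ : ℂ)) • P r a).prod

/-- `e⁻¹ sinh 1`, the limit variance of the sine. -/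
def fieldVar : ℝ := Real.exp (-1) * Real.sinh 1

/-- The normalised sine of the field. -/
def fieldY (P : ℕ → ι → B) (n : ℕ) (a : ι) : B :=
  ((√fieldVar)⁻¹ : ℂ) • ((-Complex.I / 2) • (fieldU P n a - star (fieldU P n a)))

/-- The empirical correlation. -/
def fieldR (P : ℕ → ι → B) (n : ℕ) (a b : ι) : B :=
  (2 * (n : ℝ))⁻¹ • ∑ r ∈ Finset.range n, (P r a * P r b + P r b * P r a)

/-- The covariance function. -/
def fieldG (x : ℝ) : ℝ := Real.sinh x / Real.sinh 1

/-- The covariance of the fields. -/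
def fieldK (P : ℕ → ι → B) (n : ℕ) (a b : ι) : B := cfc fieldG (fieldR P n a b)

end

end Vale.Agent.P095.Elem
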