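import Vale.Agent.P095.Elem.FieldTwo

/-!
# P095, amenable groups: a pool of pairs of symmetries

For a pool of commuting pairs the commutator part of the product of the two field unitaries is
null, and the real part of the rest has, in every context, the average of the product of the
even parts, which converges in norm to `exp (-1 - R)`.
-/

namespace Vale.Agent.P095.Elem.Field

open scoped ComplexOrder CStarAlgebra

noncomputable section

variable {B : Type*} [CStarAlgebra B] (D : DimState B)

/-- The four symmetries of index `r`. -/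
def fam (P Q u v : ℕ → B) (r : ℕ) : Set B := {P r, Q r, u r, v r}

/-- Pairs `(P r, Q r)` with flips `(u r, v r)`; different indices commute. -/
structure PairPool (P Q u v : ℕ → B) : Prop where
  sym : ∀ r, ∀ a ∈ fam P Q u v r, IsSelfAdjoint a ∧ a * a = 1
  antiP : ∀ r, P r * u r = -(u r * P r)
  antiQ : ∀ r, Q r * v r = -(v r * Q r)
  comm : ∀ r t, r ≠ t → ∀ a ∈ fam P Q u v r, ∀ b ∈ fam P Q u v t, Commute a b

variable {P Q u v : ℕ → B}

theorem PairPool.P_sym (h : PairPool P Q u v) (r : ℕ) : IsSelfAdjoint (P r) ∧ P r * P r = 1 :=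
  h.sym r _ (by simp [fam])

theorem PairPool.Q_sym (h : PairPool P Q u v) (r : ℕ) : IsSelfAdjoint (Q r) ∧ Q r * Q r = 1 :=
  h.sym r _ (by simp [fam])

theorem PairPool.comm_PQ (h : PairPool P Q u v) {r t : ℕ} (hne : r ≠ t) {a b : B}
    (ha : a = P r ∨ a = Q r) (hb : b = P t ∨ b = Q t) : Commute a b :=
  h.comm r t hne a (by rcases ha with rfl | rfl <;> simp [fam]) b
    (by rcases hb with rfl | rfl <;> simp [fam])

/-- `c² - s² (PQ + QP)/2`. -/
def wf (c s : ℝ) (P Q : B) : B :=
  ((c * c : ℝ) : ℂ) • (1 : B) - ((s * s / 2 : ℝ) : ℂ) • (P * Q + Q * P)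

/-- `c s (P + Q)`. -/
def vf (c s : ℝ) (P Q : B) : B := ((c * s : ℝ) : ℂ) • (P + Q)

theorem af_eq (c s : ℝ) (P Q : B) : af c s P Q = wf c s P Q + Complex.I • vf c s P Q := by
  rw [af, wf, vf, smul_smul]

theorem sa_kernel {P Q : B} (hP : IsSelfAdjoint P) (hQ : IsSelfAdjoint Q) :
    IsSelfAdjoint (P * Q + Q * P) := by
  simp [IsSelfAdjoint, star_mul, hP.star_eq, hQ.star_eq, add_comm]

theorem wf_sa (c s : ℝ) {P Q : B} (hP : IsSelfAdjoint P) (hQ : IsSelfAdjoint Q) :
    IsSelfAdjoint (wf c s P Q) := by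
  simp only [IsSelfAdjoint, wf, star_sub, star_smul, star_one, (sa_kernel hP hQ).star_eq]
  simp

theorem vf_sa (c s : ℝ) {P Q : B} (hP : IsSelfAdjoint P) (hQ : IsSelfAdjoint Q) :
    IsSelfAdjoint (vf c s P Q) := by
  simp [IsSelfAdjoint, vf, star_smul, Complex.conj_ofReal, hP.star_eq, hQ.star_eq]

theorem commute_wf {c s : ℝ} {P Q x : B} (hP : Commute x P) (hQ : Commute x Q) :
    Commute x (wf c s P Q) :=
  ((Commute.one_right x).smul_right _).sub_right
    (((hP.mul_right hQ).add_right (hQ.mul_right hP)).smul_right _)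

theorem commute_vf {c s : ℝ} {P Q x : B} (hP : Commute x P) (hQ : Commute x Q) :
    Commute x (vf c s P Q) := (hP.add_right hQ).smul_right _

theorem wf_vf (c s : ℝ) {P Q : B} (hP : P * P = 1) (hQ : Q * Q = 1) :
    Commute (wf c s P Q) (vf c s P Q) :=
  ((Commute.one_left _).smul_left _).sub_left
    ((((commute_kernel hP hQ).1.add_right (commute_kernel hP hQ).2).smul_right _).smul_left _)

/-- Real and imaginary part of the product of the `af`. -/
def reim (c s : ℝ) (P Q : ℕ → B) : ℕ → B × B
  | 0 => (1, 0)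
  | n + 1 => ((reim c s P Q n).1 * wf c s (P n) (Q n) - (reim c s P Q n).2 * vf c s (P n) (Q n),
      (reim c s P Q n).2 * wf c s (P n) (Q n) + (reim c s P Q n).1 * vf c s (P n) (Q n))

theorem pprod_af (c s : ℝ) (P Q : ℕ → B) (n : ℕ) :
    pprod n (fun r => af c s (P r) (Q r)) =
      (reim c s P Q n).1 + Complex.I • (reim c s P Q n).2 := by
  induction n with
  | zero => simp [reim, pprod_zero]
  | succ n ih =>
    rw [pprod_succ, ih, af_eq, reim]
    simp only [add_mul, mul_add, smul_mul_assoc, mul_smul_comm]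
    match_scalars <;> simp

theorem commute_reim (c s : ℝ) {x : B} (n : ℕ) (P Q : ℕ → B)
    (h : ∀ r < n, Commute x (P r) ∧ Commute x (Q r)) :
    Commute x (reim c s P Q n).1 ∧ Commute x (reim c s P Q n).2 := by
  induction n with
  | zero => simp [reim]
  | succ n ih =>
    obtain ⟨i1, i2⟩ := ih fun r hr => h r (by omega)
    obtain ⟨hp, hq⟩ := h n (by omega)
    exact ⟨(i1.mul_right (commute_wf hp hq)).sub_right (i2.mul_right (commute_vf hp hq)),
      (i2.mul_right (commute_wf hp hq)).add_right (i1.mul_right (commute_vf hp hq))⟩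

theorem reim_sa (c s : ℝ) (h : PairPool P Q u v) (n : ℕ) :
    IsSelfAdjoint (reim c s P Q n).1 ∧ IsSelfAdjoint (reim c s P Q n).2 ∧
      Commute (reim c s P Q n).1 (reim c s P Q n).2 := by
  induction n with
  | zero => simp [reim, IsSelfAdjoint]
  | succ n ih =>
    obtain ⟨a, b, ab⟩ := ih
    have hp := commute_reim c s n P Q (x := P n) fun r hr =>
      ⟨h.comm_PQ (by omega) (.inl rfl) (.inl rfl), h.comm_PQ (by omega) (.inl rfl) (.inr rfl)⟩
    have hq := commute_reim c s n P Q (x := Q n) fun r hr =>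
      ⟨h.comm_PQ (by omega) (.inr rfl) (.inl rfl), h.comm_PQ (by omega) (.inr rfl) (.inr rfl)⟩
    have w1 := (commute_wf (c := c) (s := s) hp.1.symm hq.1.symm)
    have w2 := (commute_wf (c := c) (s := s) hp.2.symm hq.2.symm)
    have v1 := (commute_vf (c := c) (s := s) hp.1.symm hq.1.symm)
    have v2 := (commute_vf (c := c) (s := s) hp.2.symm hq.2.symm)
    have sw := wf_sa c s (h.P_sym n).1 (h.Q_sym n).1
    have sv := vf_sa c s (h.P_sym n).1 (h.Q_sym n).1
    have wv := wf_vf c s (h.P_sym n).2 (h.Q_sym n).2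
    refine ⟨(isSelfAdjoint_mul a sw w1).sub (isSelfAdjoint_mul b sv v2),
      (isSelfAdjoint_mul b sw w2).add (isSelfAdjoint_mul a sv v1), ?_⟩
    exact ((((ab.mul_right w1).mul_left (w2.symm.mul_right (Commute.refl _))).add_right
      (((Commute.refl _).mul_right v1).mul_left (w1.symm.mul_right wv))).sub_left
      ((((Commute.refl _).mul_right w2).mul_left (v2.symm.mul_right wv.symm)).add_right
      ((ab.symm.mul_right v2).mul_left (v1.symm.mul_right (Commute.refl _)))))

/-- An element commuting with the pool up to `n`. -/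
def Ctx (P Q u v : ℕ → B) (n : ℕ) (x : B) : Prop :=
  IsSelfAdjoint x ∧ ∀ r < n, ∀ a ∈ fam P Q u v r, Commute x a

/-- **The even part.** -/
theorem tau_re (c s : ℝ) (h : PairPool P Q u v) (n : ℕ) :
    ∀ {x : B}, Ctx P Q u v n x →
      tau D (x * (reim c s P Q n).1) =
        tau D (x * pprod n (fun r => wf c s (P r) (Q r))) := by
  induction n with
  | zero => intro x _; simp [reim, pprod_zero]
  | succ n ih =>
    intro x hx
    obtain ⟨hxs, hxc⟩ := hx
    obtain ⟨a, b, ab⟩ := reim_sa c s h n
    set re := (reim c s P Q n).1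
    set im := (reim c s P Q n).2
    set w := wf c s (P n) (Q n) with hw
    have hfam : ∀ y ∈ fam P Q u v n, ∀ r < n, Commute y (P r) ∧ Commute y (Q r) := fun y hy r hr =>
      ⟨h.comm n r (by omega) y hy _ (by simp [fam]), h.comm n r (by omega) y hy _ (by simp [fam])⟩
    have hre : ∀ y ∈ fam P Q u v n, Commute y re ∧ Commute y im := fun y hy =>
      commute_reim c s n P Q (hfam y hy)
    have mP : P n ∈ fam P Q u v n := by simp [fam]
    have mQ : Q n ∈ fam P Q u v n := by simp [fam]
    have hxP := hxc n (by omega) _ mP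
    have hxQ := hxc n (by omega) _ mQ
    have hxr := commute_reim c s n P Q (x := x) fun r hr =>
      ⟨hxc r (by omega) _ (by simp [fam]), hxc r (by omega) _ (by simp [fam])⟩
    have hxw : Commute x w := commute_wf hxP hxQ
    set x' := x * im with hx'
    have hx's : IsSelfAdjoint x' := isSelfAdjoint_mul hxs b hxr.2
    have flip : ∀ p f : B, f ∈ fam P Q u v n → p ∈ fam P Q u v n → p * f = -(f * p) →
        tau D (x' * p) = 0 := by
      intro p f hf hp hanti
      have hpc : Commute x' p := (hxc n (by omega) _ hp).mul_left (hre p hp).2.symm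
      refine tau_flip D (h.sym n f hf).1 (h.sym n f hf).2
        (isSelfAdjoint_mul hx's (h.sym n p hp).1 hpc) ?_
      have hfc : Commute x' f := (hxc n (by omega) _ hf).mul_left (hre f hf).2.symm
      rw [← mul_assoc, ← hfc.eq, mul_assoc, show f * p = -(p * f) by rw [hanti, neg_neg],
        mul_neg, ← mul_assoc]
    have hS : tau D (x' * (P n + Q n)) = 0 := tau_sum_zero D hx's
      ((hxP).mul_left (hre _ mP).2.symm) ((hxQ).mul_left (hre _ mQ).2.symm)
      (h.P_sym n).1 (h.Q_sym n).1 (h.P_sym n).2 (h.Q_sym n).2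
      (flip _ (u n) (by simp [fam]) mP (h.antiP n)) (flip _ (v n) (by simp [fam]) mQ (h.antiQ n))
    have hnext : Ctx P Q u v n (x * w) :=
      ⟨isSelfAdjoint_mul hxs (wf_sa c s (h.P_sym n).1 (h.Q_sym n).1) hxw,
        fun r hr y hy => (hxc r (by omega) y hy).mul_left (commute_wf
          (h.comm r n (by omega) y hy _ mP) (h.comm r n (by omega) y hy _ mQ)).symm⟩
    have w1 : Commute re w := commute_wf (hre _ mP).1.symm (hre _ mQ).1.symm
    have v1 : Commute re (vf c s (P n) (Q n)) := commute_vf (hre _ mP).1.symm (hre _ mQ).1.symm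
    have w2 : Commute im w := commute_wf (hre _ mP).2.symm (hre _ mQ).2.symm
    have v2 : Commute im (vf c s (P n) (Q n)) := commute_vf (hre _ mP).2.symm (hre _ mQ).2.symm
    have s1 : IsSelfAdjoint (x * (re * w)) := isSelfAdjoint_mul hxs
      (isSelfAdjoint_mul a (wf_sa c s (h.P_sym n).1 (h.Q_sym n).1) w1) (hxr.1.mul_right hxw)
    have hxv : Commute x (vf c s (P n) (Q n)) := commute_vf hxP hxQ
    have s2 : IsSelfAdjoint (x * (im * vf c s (P n) (Q n))) := isSelfAdjoint_mul hxs
      (isSelfAdjoint_mul b (vf_sa c s (h.P_sym n).1 (h.Q_sym n).1) v2) (hxr.2.mul_right hxv)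
    have hc : Commute (x * (re * w)) (x * (im * vf c s (P n) (Q n))) :=
      ((Commute.refl x).mul_right (hxr.2.mul_right hxv)).mul_left
        ((hxr.1.symm.mul_right (ab.mul_right v1)).mul_left
          (hxw.symm.mul_right (w2.symm.mul_right (wf_vf c s (h.P_sym n).2 (h.Q_sym n).2))))
    have zero : tau D (x * (im * vf c s (P n) (Q n))) = 0 := by
      rw [vf, mul_smul_comm, mul_smul_comm, ← mul_assoc, Complex.coe_smul,
        tau_smul D (isSelfAdjoint_mul hx's ((h.P_sym n).1.add (h.Q_sym n).1)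
          ((hxP.add_right hxQ).mul_left ((hre _ mP).2.symm.add_right (hre _ mQ).2.symm))),
        hS, mul_zero]
    rw [reim, mul_sub, tau_sub D s1 s2 hc, zero, sub_zero, pprod_succ]
    rw [w1.eq, ← mul_assoc, ih hnext]
    congr 1
    rw [mul_assoc]
    congr 1
    exact (commute_pprod n _ fun r hr =>
      (commute_wf (c := c) (s := s) (commute_wf (c := c) (s := s) (hfam _ mP r hr).1
        (hfam _ mP r hr).2).symm (commute_wf (c := c) (s := s) (hfam _ mQ r hr).1
        (hfam _ mQ r hr).2).symm).symm).eq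

end

end Vale.Agent.P095.Elem.Field
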