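import Mathlib
import Vale.Agent.P095.Elem.FieldDefs

/-!
# P095, amenable groups: the covariance function keeps positive semidefiniteness
-/

namespace Vale.Agent.P095.Elem.Field

open Matrix
open scoped Matrix

noncomputable section

theorem quad_nonneg {ι : Type*} [Fintype ι] {A : Matrix ι ι ℝ} (h : A.PosSemidef) (c : ι → ℝ) :
    0 ≤ ∑ a, ∑ b, c a * c b * A a b := by
  refine (h.dotProduct_mulVec_nonneg c).trans (le_of_eq ?_)
  simp only [dotProduct, mulVec, Finset.mul_sum, Pi.star_apply, star_trivial]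
  exact Finset.sum_congr rfl fun a _ => Finset.sum_congr rfl fun b _ => by ring

theorem posSemidef_pow {ι : Type*} [Fintype ι] {A : Matrix ι ι ℝ} (h : A.PosSemidef) (k : ℕ) :
    (Matrix.of fun a b => A a b ^ (k + 1)).PosSemidef := by
  induction k with
  | zero =>
    rwa [show (Matrix.of fun a b => A a b ^ (0 + 1)) = A by ext a b; simp]
  | succ k ih =>
    rw [show (Matrix.of fun a b => A a b ^ (k + 1 + 1)) =
      (Matrix.of fun a b => A a b ^ (k + 1)) ⊙ A by ext a b; simp [pow_succ]]
    have key := Matrix.PosSemidef.hadamard (𝕜 := ℝ) ih h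
    exact key

/-- `sinh x / sinh 1` applied entrywise to a positive semidefinite matrix. -/
theorem fieldG_psd {ι : Type*} (s : Finset ι) (r : ι → ι → ℝ)
    (hsymm : ∀ a ∈ s, ∀ b ∈ s, r a b = r b a)
    (hpos : ∀ c : ι → ℝ, 0 ≤ ∑ a ∈ s, ∑ b ∈ s, c a * c b * r a b) (c : ι → ℝ) :
    0 ≤ ∑ a ∈ s, ∑ b ∈ s, c a * c b * fieldG (r a b) := by
  classical
  let A : Matrix s s ℝ := Matrix.of fun a b => r a b
  have hA : A.PosSemidef := by
    refine PosSemidef.of_dotProduct_mulVec_nonneg ?_ fun x => ?_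
    · ext a b; simpa [A] using hsymm b b.2 a a.2
    · have := hpos fun i => if h : i ∈ s then x ⟨i, h⟩ else 0
      refine this.trans (le_of_eq ?_)
      simp only [dotProduct, mulVec, Finset.mul_sum, Pi.star_apply, star_trivial, A, of_apply]
      rw [← Finset.sum_coe_sort s]
      refine Finset.sum_congr rfl fun a _ => ?_
      rw [← Finset.sum_coe_sort s]
      refine Finset.sum_congr rfl fun b _ => ?_
      rw [dif_pos a.2, dif_pos b.2]
      ring
  have hterm : ∀ k : ℕ, 0 ≤ ∑ a : s, ∑ b : s, c a * c b * r a b ^ (2 * k + 1) := fun k => by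
    simpa [A] using quad_nonneg (posSemidef_pow hA (2 * k)) fun a => c a
  have hsum : HasSum (fun k : ℕ => ∑ a : s, ∑ b : s,
      c a * c b * (r a b ^ (2 * k + 1) / ((2 * k + 1).factorial : ℝ)))
      (∑ a : s, ∑ b : s, c a * c b * Real.sinh (r a b)) :=
    hasSum_sum fun a _ => hasSum_sum fun b _ => (Real.hasSum_sinh (r a b)).mul_left _
  have hnn : 0 ≤ ∑ a : s, ∑ b : s, c a * c b * Real.sinh (r a b) := by
    refine hsum.nonneg fun k => ?_
    have := mul_nonneg (hterm k) (inv_nonneg.2 (Nat.cast_nonneg ((2 * k + 1).factorial)))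
    simpa [Finset.sum_mul, div_eq_mul_inv, mul_assoc] using this
  rw [← Finset.sum_coe_sort s]
  simp only [← Finset.sum_coe_sort s, fieldG, ← mul_div_assoc, ← Finset.sum_div]
  exact div_nonneg hnn (Real.sinh_nonneg_iff.2 zero_le_one)

end

end Vale.Agent.P095.Elem.Field
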