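import Vale.Agent.P095.Elem.Field
import Vale.Agent.P095.Elem.FieldPsd

/-!
# P095, amenable groups: the pair law of the fields

The functional of a dimension state is linear on the algebra of the fields. The fields are centred
by their flips, and, at a state which is a limit of states, their covariance is `fieldG R`.
-/

namespace Vale.Agent.P095.Elem.Field

open Filter BoundedContinuousFunction
open VAgent.P095.Gamma (IsTr)
open scoped ComplexOrder CStarAlgebra BoundedContinuousFunction ComplexStarModule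

noncomputable section

variable {B : Type*} [CStarAlgebra B] {ι : Type*} {ω : Ultrafilter ℕ}

theorem abs_tau_re_sub_le {P Q u v : ℕ → B} (D : DimState B) (h : PairPool P Q u v) {n : ℕ}
    (hn0 : 2 ≤ n) {x : B} (hx : Ctx P Q u v n x) :
    |tau D (x * (reim (cn n) (sn n) P Q n).1) -
      tau D (x * cfc (fun t : ℝ => Real.exp (-1 - t)) (pairR P Q n))| ≤
      ‖x‖ * (Real.exp (5 / n) - 1) := by
  rw [tau_re D (cn n) (sn n) h n hx]
  set W := pprod n fun r => wf (cn n) (sn n) (P r) (Q r) with hW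
  have hcP : ∀ r < n, Commute x (P r) ∧ Commute x (Q r) := fun r hr =>
    ⟨hx.2 r hr _ (by simp [fam]), hx.2 r hr _ (by simp [fam])⟩
  have hxW : Commute x W :=
    commute_pprod n _ fun r hr => commute_wf (hcP r hr).1 (hcP r hr).2
  have hxR : Commute x (pairR P Q n) := (Commute.sum_right _ _ _ fun r hr =>
    have hr' := hcP r (Finset.mem_range.1 hr)
    (hr'.1.mul_right hr'.2).add_right (hr'.2.mul_right hr'.1)).smul_right _
  have hWsa : IsSelfAdjoint W := by
    rw [IsSelfAdjoint, hW, star_pprod n _ fun r t _ _ hne =>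
      commute_wf (commute_wf (h.comm_PQ hne.symm (.inl rfl) (.inl rfl))
        (h.comm_PQ hne.symm (.inl rfl) (.inr rfl))).symm
        (commute_wf (h.comm_PQ hne.symm (.inr rfl) (.inl rfl))
        (h.comm_PQ hne.symm (.inr rfl) (.inr rfl))).symm]
    congr 1; funext r
    exact (wf_sa _ _ (h.P_sym r).1 (h.Q_sym r).1).star_eq
  refine (abs_tau_sub_le D (isSelfAdjoint_mul hx.1 hWsa hxW)
    (isSelfAdjoint_mul hx.1 IsSelfAdjoint.cfc (commute_functions hxR _))).trans ?_
  rw [← mul_sub]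
  exact (norm_mul_le _ _).trans
    (mul_le_mul_of_nonneg_left (norm_wprod_sub_exp h hn0 norm_one_le) (norm_nonneg _))

theorem reim_eq {P Q u v : ℕ → B} (h : PairPool P Q u v) (c s : ℝ) (n : ℕ) :
    (1 / 2 : ℂ) • (pprod n (fun r => af c s (P r) (Q r)) +
      star (pprod n fun r => af c s (P r) (Q r))) = (reim c s P Q n).1 := by
  obtain ⟨a, b, -⟩ := reim_sa c s h n
  rw [pprod_af, star_add, star_smul, a.star_eq, b.star_eq, Complex.star_def, Complex.conj_I]
  module

namespace Setup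

variable (S : Setup B ι ω)

/-- Elements with a lift commuting with all pools outside `J`. -/
def alg (J : Set ℕ) : StarSubalgebra ℂ S.C where
  carrier := {c | ∃ f : ℕ →ᵇ B, (DQ.mk f : DQ B ω) = c ∧
    ∀ n i r a, i ∉ J → Commute (f n) (S.pP i r a) ∧ Commute (f n) (S.pu i r a)}
  mul_mem' := by
    rintro c d ⟨f, hf, hf'⟩ ⟨g, hg, hg'⟩
    refine ⟨f * g, by rw [map_mul, hf, hg]; rfl, fun n i r a hi => ?_⟩
    obtain ⟨f1, f2⟩ := hf' n i r a hi
    obtain ⟨g1, g2⟩ := hg' n i r a hi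
    exact ⟨f1.mul_left g1, f2.mul_left g2⟩
  add_mem' := by
    rintro c d ⟨f, hf, hf'⟩ ⟨g, hg, hg'⟩
    refine ⟨f + g, by rw [map_add, hf, hg]; rfl, fun n i r a hi => ?_⟩
    obtain ⟨f1, f2⟩ := hf' n i r a hi
    obtain ⟨g1, g2⟩ := hg' n i r a hi
    exact ⟨f1.add_left g1, f2.add_left g2⟩
  algebraMap_mem' z := by
    refine ⟨algebraMap ℂ (ℕ →ᵇ B) z, ?_, fun n i r a _ => ⟨?_, ?_⟩⟩
    · rw [AlgHomClass.commutes]; rfl
    · exact Algebra.commute_algebraMap_left z _
    · exact Algebra.commute_algebraMap_left z _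
  star_mem' := by
    rintro c ⟨f, hf, hf'⟩
    refine ⟨star f, by rw [map_star, hf]; rfl, fun n i r a hi => ?_⟩
    obtain ⟨f1, f2⟩ := hf' n i r a hi
    rw [BoundedContinuousFunction.star_apply]
    exact ⟨by simpa [(S.P_sym i r a).1.star_eq] using f1.star_star,
      by simpa [(S.pool.u_sa (Nat.pair i r) a).star_eq, pu] using f2.star_star⟩

theorem mem_alg {J : Set ℕ} {c : S.C} (f : ℕ →ᵇ B) (hf : (DQ.mk f : DQ B ω) = c)
    (h : ∀ n i r a, i ∉ J → Commute (f n) (S.pP i r a) ∧ Commute (f n) (S.pu i r a)) :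
    c ∈ S.alg J := ⟨f, hf, h⟩

theorem alg_mono : Monotone S.alg := fun _ _ hJ _ ⟨f, hf, h⟩ =>
  ⟨f, hf, fun n i r a hi => h n i r a fun hi' => hi (hJ hi')⟩

theorem inc_mem (e : S.extra) (J : Set ℕ) : S.inc e ∈ S.alg J := by
  obtain ⟨f, hf, h⟩ := S.extra_lift e.1 e.2
  exact ⟨f, hf, fun n i r a _ => h n _ a⟩

theorem U_mem {J : Set ℕ} {i : ℕ} (hi : i ∈ J) (a : ι) : S.U i a ∈ S.alg J := by
  refine ⟨S.useq i a, rfl, fun n j r b hj => ?_⟩
  have hne : i ≠ j := fun e => hj (e ▸ hi)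
  rw [S.useq_apply]
  exact ⟨(commute_pprod n _ fun t _ => ((Commute.one_right _).smul_right _).add_right
      ((S.comm_P (Or.inl hne.symm) b a).smul_right _)).symm,
    (commute_pprod n _ fun t _ => ((Commute.one_right _).smul_right _).add_right
      (((S.pool.comm _ _ (pair_ne (Or.inl hne)) a b).2.1.symm).smul_right _)).symm⟩

theorem y_mem {J : Set ℕ} {i : ℕ} (hi : i ∈ J) (a : ι) : S.y i a ∈ S.alg J :=
  SMulMemClass.smul_mem _ (SMulMemClass.smul_mem _
    (sub_mem (S.U_mem hi a) (star_mem (S.U_mem hi a))))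

theorem rseq_commute {J : Set ℕ} {i j : ℕ} (hi : i ∈ J) (hj : j ∉ J) (a b : ι) (n r : ℕ) (c : ι) :
    Commute (S.rseq i a b n) (S.pP j r c) ∧ Commute (S.rseq i a b n) (S.pu j r c) := by
  have hne : i ≠ j := fun e => hj (e ▸ hi)
  have cu : ∀ t d, Commute (S.pP i t d) (S.pu j r c) := fun t d =>
    (S.pool.comm _ _ (pair_ne (Or.inl hne)) d c).2.1
  rw [S.rseq_apply]
  exact ⟨(Commute.sum_left _ _ _ fun t _ => S.kernel_comm (Or.inl hne) a b c).smul_left _,
    (Commute.sum_left _ _ _ fun t _ => ((cu t a).mul_left (cu t b)).add_left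
      ((cu t b).mul_left (cu t a))).smul_left _⟩

theorem K_mem {J : Set ℕ} {i : ℕ} (hi : i ∈ J) (a b : ι) : S.K i a b ∈ S.alg J := by
  refine ⟨cfc fieldG (S.rseq i a b), (S.coe_K i a b).symm, fun n j r c hj => ?_⟩
  rw [DQ.apply_cfc (S.rseq_sa i a b) continuous_fieldG]
  obtain ⟨h1, h2⟩ := S.rseq_commute hi hj a b n r c
  exact ⟨h1.cfc_real _, h2.cfc_real _⟩

theorem exists_lift_sa {J : Set ℕ} {c : S.C} (hc : c ∈ S.alg J) (hsa : IsSelfAdjoint c) :
    ∃ f : ℕ →ᵇ B, (DQ.mk f : DQ B ω) = c ∧ (∀ n, IsSelfAdjoint (f n)) ∧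
      ∀ n i r a, i ∉ J → Commute (f n) (S.pP i r a) ∧ Commute (f n) (S.pu i r a) := by
  obtain ⟨f, hf, h⟩ := hc
  have hs : star (c : DQ B ω) = c := congrArg Subtype.val hsa.star_eq
  refine ⟨(1 / 2 : ℂ) • (f + star f), ?_, fun n => ?_, fun n i r a hi => ?_⟩
  · rw [map_smul, map_add, map_star, hf, hs, ← two_smul ℂ, smul_smul]
    norm_num
  · show star ((1 / 2 : ℂ) • (f n + star (f n))) = (1 / 2 : ℂ) • (f n + star (f n))
    rw [star_smul, star_add, star_star, add_comm]
    norm_num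
  · obtain ⟨f1, f2⟩ := h n i r a hi
    show Commute ((1 / 2 : ℂ) • (f n + star (f n))) _ ∧
      Commute ((1 / 2 : ℂ) • (f n + star (f n))) _
    exact ⟨(f1.add_left (by simpa [(S.P_sym i r a).1.star_eq] using f1.star_star)).smul_left _,
      (f2.add_left
        (by simpa [(S.pool.u_sa (Nat.pair i r) a).star_eq, pu] using f2.star_star)).smul_left _⟩

theorem coe_sa {c : S.C} (hc : IsSelfAdjoint c) : IsSelfAdjoint (c : DQ B ω) :=
  congrArg Subtype.val hc.star_eq

theorem commute_coe (c d : S.C) : Commute (c : DQ B ω) d :=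
  congrArg Subtype.val (mul_comm c d)

/-- The real valued functional on the self-adjoint elements. -/
def tauR (D : DimState (DQ B ω)) (c : S.C) : ℝ := tau D (c : DQ B ω)

theorem tauR_add (D : DimState (DQ B ω)) {c d : S.C} (hc : IsSelfAdjoint c)
    (hd : IsSelfAdjoint d) : S.tauR D (c + d) = S.tauR D c + S.tauR D d :=
  tau_add D (S.coe_sa hc) (S.coe_sa hd) (S.commute_coe c d)

theorem tauR_smul (D : DimState (DQ B ω)) {c : S.C} (hc : IsSelfAdjoint c) (r : ℝ) :
    S.tauR D (r • c) = r * S.tauR D c :=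
  tau_smul D (S.coe_sa hc) r

/-- The functional of a dimension state on the algebra of the fields. -/
def tau (D : DimState (DQ B ω)) : S.C →ₗ[ℂ] ℂ where
  toFun c := (S.tauR D (ℜ c : S.C) : ℂ) + Complex.I * (S.tauR D (ℑ c : S.C) : ℂ)
  map_add' c d := by
    rw [map_add, map_add, AddSubgroup.coe_add, AddSubgroup.coe_add,
      S.tauR_add D (ℜ c).2 (ℜ d).2, S.tauR_add D (ℑ c).2 (ℑ d).2]
    push_cast; ring
  map_smul' z c := by
    have h1 : ((ℜ (z • c)) : S.C) = z.re • (ℜ c : S.C) + (-z.im) • (ℑ c : S.C) := by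
      rw [realPart_smul, AddSubgroupClass.coe_sub, selfAdjoint.val_smul, selfAdjoint.val_smul, neg_smul,
        sub_eq_add_neg]
    have h2 : ((ℑ (z • c)) : S.C) = z.re • (ℑ c : S.C) + z.im • (ℜ c : S.C) := by
      rw [imaginaryPart_smul, AddSubgroup.coe_add, selfAdjoint.val_smul, selfAdjoint.val_smul]
    rw [h1, h2, S.tauR_add D ((IsSelfAdjoint.all _).smul (ℜ c).2) ((IsSelfAdjoint.all _).smul (ℑ c).2),
      S.tauR_add D ((IsSelfAdjoint.all _).smul (ℑ c).2) ((IsSelfAdjoint.all _).smul (ℜ c).2),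
      S.tauR_smul D (ℜ c).2, S.tauR_smul D (ℑ c).2, S.tauR_smul D (ℜ c).2, S.tauR_smul D (ℑ c).2,
      RingHom.id_apply, smul_eq_mul]
    push_cast
    nth_rw 5 [← Complex.re_add_im z]
    linear_combination (-(z.im : ℂ) * (S.tauR D (ℑ c : S.C) : ℂ)) * Complex.I_sq

theorem tau_sa (D : DimState (DQ B ω)) {c : S.C} (hc : IsSelfAdjoint c) :
    S.tau D c = (Elem.tau D (c : DQ B ω) : ℂ) := by
  show (S.tauR D (ℜ c : S.C) : ℂ) + Complex.I * (S.tauR D (ℑ c : S.C) : ℂ) = _
  rw [hc.coe_realPart, hc.imaginaryPart]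
  simp [tauR, Elem.tau_zero]

theorem isTr (D : DimState (DQ B ω)) : IsTr (S.tau D) where
  nonneg a := by
    rw [S.tau_sa D (IsSelfAdjoint.star_mul_self a), Complex.zero_le_real]
    exact tau_nonneg D ⟨(a : DQ B ω), rfl⟩
  one := by rw [S.tau_sa D (IsSelfAdjoint.one S.C)]; exact_mod_cast Elem.tau_one D
  comm a b := by rw [mul_comm]

theorem y_sa (i : ℕ) (a : ι) : IsSelfAdjoint (S.y i a) := by
  simp only [IsSelfAdjoint, y, star_smul, star_sub, star_star, star_div₀, star_neg, star_inv₀,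
    Complex.star_def, Complex.conj_ofReal, Complex.conj_I, map_ofNat]
  module

theorem norm_y_le (i : ℕ) (a : ι) : ‖S.y i a‖ ≤ (√fieldVar)⁻¹ := by
  have hU : ‖(DQ.mk (S.useq i a) : DQ B ω)‖ ≤ 1 := by
    refine DQ.norm_mk_le zero_le_one (Eventually.of_forall fun n => ?_)
    rw [S.useq_apply]
    exact norm_zprod_le (cn_sn n) n fun r _ => S.P_sym i r a
  have hU' : ‖S.U i a‖ ≤ 1 := hU
  rw [y, norm_smul, norm_smul, norm_div, norm_neg, Complex.norm_I, norm_inv, Complex.norm_real,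
    Real.norm_eq_abs, abs_of_nonneg (Real.sqrt_nonneg _), Complex.norm_ofNat]
  have h2 : ‖S.U i a - star (S.U i a)‖ ≤ 2 := (norm_sub_le _ _).trans (by
    rw [norm_star]; linarith)
  exact mul_le_of_le_one_right (inv_nonneg.2 (Real.sqrt_nonneg _)) (by linarith)

theorem R_symm (i : ℕ) (a b : ι) : S.R i a b = S.R i b a := by
  refine Subtype.ext (congrArg DQ.mk ?_)
  ext n
  rw [S.rseq_apply, S.rseq_apply, pairR, pairR]
  simp only [add_comm]

theorem R_diag (i : ℕ) (a : ι) : S.R i a a = 1 := by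
  refine Subtype.ext ?_
  show (DQ.mk (S.rseq i a a) : DQ B ω) = 1
  rw [← map_one DQ.mk]
  refine DQ.mk_eq_of_eventually (((eventually_gt_atTop 0).filter_mono S.hω).mono fun n hn' => ?_)
  rw [S.rseq_apply, pairR]
  simp only [(S.P_sym i _ a).2, Finset.sum_const, Finset.card_range, ← two_smul ℝ (1 : B),
    ← Nat.cast_smul_eq_nsmul ℝ, smul_smul]
  rw [show (2 * (n : ℝ))⁻¹ * ((n : ℝ) * 2) = 1 by
    have : (0 : ℝ) < n := by exact_mod_cast hn'
    field_simp, one_smul]
  rfl

theorem norm_R_le (i : ℕ) (a b : ι) : ‖S.R i a b‖ ≤ 1 :=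
  DQ.norm_mk_le zero_le_one (Eventually.of_forall fun n => S.norm_fieldR_le i a b n)

theorem abs_fieldG_le {t : ℝ} (ht : |t| ≤ 1) : |fieldG t| ≤ 1 := by
  have h1 : 0 < Real.sinh 1 := Real.sinh_pos_iff.2 one_pos
  rw [fieldG, abs_div, abs_of_pos h1, div_le_one h1, Real.abs_sinh]
  exact Real.sinh_le_sinh.2 ht

theorem K_norm (i : ℕ) (a b : ι) : ‖S.K i a b‖ ≤ 1 :=
  norm_cfc_le zero_le_one fun _ ht =>
    abs_fieldG_le (spectrum_bound (S.norm_R_le i a b) norm_one_le ht)

theorem K_symm (i : ℕ) (a b : ι) : S.K i a b = S.K i b a := by rw [K, K, R_symm]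

theorem K_diag (i : ℕ) (a : ι) : S.K i a a = 1 := by
  rw [K, R_diag, ← map_one (algebraMap ℝ S.C), cfc_algebraMap, map_one]
  have h1 : fieldG 1 = 1 := div_self (Real.sinh_pos_iff.2 one_pos).ne'
  rw [h1, map_one]

theorem char_K (χ : WeakDual.characterSpace ℂ S.C) (i : ℕ) (a b : ι) :
    (χ (S.K i a b)).re = fieldG (χ (S.R i a b)).re := by
  have hsa : IsSelfAdjoint (χ (S.R i a b)) := (S.R_sa' i a b).map χ
  have h := StarAlgHomClass.map_cfc χ fieldG (S.R i a b) continuous_fieldG.continuousOn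
    (map_continuous χ) (S.R_sa' i a b) hsa
  rw [K, h]
  conv_lhs => rw [← Complex.conj_eq_iff_re.1 hsa.star_eq]
  rw [show ((χ (S.R i a b)).re : ℂ) = algebraMap ℝ ℂ (χ (S.R i a b)).re from rfl, cfc_algebraMap]
  rfl

theorem char_psd (χ : WeakDual.characterSpace ℂ S.C) (i : ℕ) {κ : Type*} [Fintype κ] (v : κ → ι)
    (c : κ → ℝ) : 0 ≤ ∑ p, ∑ q, c p * c q * (χ (S.R i (v p) (v q))).re := by
  set T : S.C := ∑ p, ∑ q, (c p * c q) • S.R i (v p) (v q) with hT
  set f : ℕ →ᵇ B := ∑ p, ∑ q, (c p * c q) • S.rseq i (v p) (v q) with hf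
  have hTf : (DQ.mk f : DQ B ω) = (T : DQ B ω) := by
    have : (T : DQ B ω) = S.C.subtype T := rfl
    rw [this, hf, hT]
    simp only [map_sum, ← Complex.coe_smul, map_smul]
    rfl
  have hpos : ∀ n, ∃ g : B, f n = star g * g := fun n => by
    set g : ℕ → B := fun r => ∑ p, c p • S.pP i r (v p) with hg
    let _ : PartialOrder B := CStarAlgebra.spectralOrder B
    have : StarOrderedRing B := CStarAlgebra.spectralOrderedRing B
    have hgg : f n = (n : ℝ)⁻¹ • ∑ r ∈ Finset.range n, star (g r) * g r := by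
      have hstar : ∀ r, star (g r) = g r := fun r => by
        simp [hg, star_sum, star_smul, (S.P_sym i r _).1.star_eq]
      have sym : ∀ r, (g r * g r) =
          (1 / 2 : ℝ) • ∑ p, ∑ q, (c p * c q) •
            (S.pP i r (v p) * S.pP i r (v q) + S.pP i r (v q) * S.pP i r (v p)) := fun r => by
        have e : g r * g r = ∑ p, ∑ q, (c p * c q) • (S.pP i r (v p) * S.pP i r (v q)) := by
          simp only [hg, Finset.sum_mul, Finset.mul_sum, smul_mul_smul_comm]
          rw [Finset.sum_comm]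
        have e' : g r * g r = ∑ p, ∑ q, (c p * c q) • (S.pP i r (v q) * S.pP i r (v p)) := by
          rw [e, Finset.sum_comm]
          exact Finset.sum_congr rfl fun x _ => Finset.sum_congr rfl fun y _ => by rw [mul_comm (c y)]
        simp only [smul_add, Finset.sum_add_distrib, ← e, ← e', ← add_smul]
        norm_num
      simp only [hf, BoundedContinuousFunction.coe_sum, Finset.sum_apply,
        BoundedContinuousFunction.coe_smul, S.rseq_apply, pairR, hstar, sym, Finset.smul_sum,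
        smul_smul]
      conv_rhs => rw [Finset.sum_comm]
      refine Finset.sum_congr rfl fun p _ => ?_
      conv_rhs => rw [Finset.sum_comm]
      refine Finset.sum_congr rfl fun q _ => Finset.sum_congr rfl fun r _ => ?_
      congr 1
      rw [mul_inv]; ring
    obtain ⟨d, hd⟩ : IsPos (f n) := by
      rw [Spec.isPos_iff_le', hgg]
      exact smul_nonneg (by positivity) (Finset.sum_nonneg fun r _ => star_mul_self_nonneg _)
    exact ⟨d, hd⟩
  let _ : PartialOrder (DQ B ω) := CStarAlgebra.spectralOrder _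
  have : StarOrderedRing (DQ B ω) := CStarAlgebra.spectralOrderedRing _
  let _ : PartialOrder B := CStarAlgebra.spectralOrder B
  have : StarOrderedRing B := CStarAlgebra.spectralOrderedRing B
  have hnn : 0 ≤ (T : DQ B ω) := by
    have hfsa : IsSelfAdjoint f := DQ.isSelfAdjoint_seq fun n => by
      obtain ⟨g, hg⟩ := hpos n; rw [hg]; exact IsSelfAdjoint.star_mul_self g
    set s := cfc (fun t : ℝ => √t) f
    have hs : f = star s * s := by
      rw [(IsSelfAdjoint.cfc (f := fun t : ℝ => √t) (a := f)).star_eq]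
      ext n
      obtain ⟨g, hg⟩ := hpos n
      rw [BoundedContinuousFunction.mul_apply, DQ.apply_cfc hfsa Real.continuous_sqrt,
        ← cfc_mul _ _ _ Real.continuous_sqrt.continuousOn Real.continuous_sqrt.continuousOn]
      conv_lhs => rw [← cfc_id' ℝ (f n) (hfsa.map (DQ.eval n))]
      refine cfc_congr fun t ht => (Real.mul_self_sqrt ?_).symm
      rw [hg] at ht
      exact spectrum_nonneg_of_nonneg (star_mul_self_nonneg g) ht
    rw [← hTf, hs, map_mul, map_star]
    exact star_mul_self_nonneg _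
  have hTsa : IsSelfAdjoint T := Subtype.ext (IsSelfAdjoint.of_nonneg hnn).star_eq
  set r : S.C := cfc (fun t : ℝ => √t) T with hr
  have hrr : r * r = T := by
    refine Subtype.ext ?_
    have e : (r : DQ B ω) = cfc (fun t : ℝ => √t) (T : DQ B ω) :=
      StarAlgHomClass.map_cfc S.C.subtype _ T Real.continuous_sqrt.continuousOn
        continuous_subtype_val hTsa (IsSelfAdjoint.of_nonneg hnn)
    show (r : DQ B ω) * r = T
    rw [e, ← cfc_mul _ _ _ Real.continuous_sqrt.continuousOn Real.continuous_sqrt.continuousOn]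
    conv_rhs => rw [← cfc_id' ℝ (T : DQ B ω) (IsSelfAdjoint.of_nonneg hnn)]
    exact cfc_congr fun t ht => Real.mul_self_sqrt (spectrum_nonneg_of_nonneg hnn ht)
  have him : (χ r).im = 0 :=
    Complex.conj_eq_iff_im.1 ((IsSelfAdjoint.cfc (f := fun t : ℝ => √t) (a := T)).map χ).star_eq
  have key : (χ T).re = ∑ p, ∑ q, c p * c q * (χ (S.R i (v p) (v q))).re := by
    simp only [hT, map_sum, ← Complex.coe_smul, map_smul, smul_eq_mul, Complex.re_sum,
      Complex.re_ofReal_mul]
  rw [← key, ← hrr, map_mul, Complex.mul_re, him]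
  nlinarith [mul_self_nonneg (χ r).re]

theorem K_triangle (χ : WeakDual.characterSpace ℂ S.C) (i : ℕ) (a b c : ι) (σ ρ : ℝ)
    (hσ : |σ| = 1) (hρ : |ρ| = 1) :
    1 - σ * ρ * (χ (S.K i a c)).re ≤
      2 * ((1 - σ * (χ (S.K i a b)).re) + (1 - ρ * (χ (S.K i b c)).re)) := by
  set v : Fin 3 → ι := ![a, b, c]
  have h := fieldG_psd (ι := Fin 3) Finset.univ (fun p q => (χ (S.R i (v p) (v q))).re)
    (fun p _ q _ => by rw [R_symm]) (fun d => S.char_psd χ i v d) ![1, -2 * σ, σ * ρ]
  simp only [← S.char_K χ] at h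
  simp only [Fin.sum_univ_three, v, Matrix.cons_val_zero, Matrix.cons_val_one,
    Matrix.cons_val, K_diag, S.K_symm i b a, S.K_symm i c a, S.K_symm i c b, map_one,
    Complex.one_re, Matrix.head_cons, Matrix.tail_cons] at h
  have s2 : σ * σ = 1 := by rw [← abs_mul_abs_self, hσ, mul_one]
  have r2 : ρ * ρ = 1 := by rw [← abs_mul_abs_self, hρ, mul_one]
  have e1 : σ * ρ * (σ * ρ) = 1 := by linear_combination σ * σ * r2 + s2
  have e2 : -2 * σ * (σ * ρ) = -2 * ρ := by linear_combination (-2 * ρ) * s2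
  have e3 : σ * ρ * (-2 * σ) = -2 * ρ := by linear_combination (-2 * ρ) * s2
  have e4 : -2 * σ * (-2 * σ) = 4 := by linear_combination 4 * s2
  rw [e1, e2, e3, e4] at h
  linarith

/-- The product of the flips of a pool. -/
def flipSeq (i : ℕ) (a : ι) : ℕ →ᵇ B :=
  ofNormedAddCommGroupDiscrete (fun n => pprod n fun r => S.pu i r a) 1 fun n => by
    simpa using norm_pprod_le n (fun r => S.pu i r a) norm_one_le le_rfl fun r _ =>
      norm_symm_le (S.pool.u_sa (Nat.pair i r) a) (S.pool.u_sq (Nat.pair i r) a)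

/-- The flip of a pool. -/
def flip (i : ℕ) (a : ι) : DQ B ω := DQ.mk (S.flipSeq i a)

theorem u_comm (i : ℕ) {r t : ℕ} (h : r ≠ t) (a : ι) :
    Commute (S.pu i r a) (S.pu i t a) := (S.pool.comm _ _ (pair_ne (Or.inr h)) a a).2.2

theorem flip_sa (i : ℕ) (a : ι) : IsSelfAdjoint (S.flip i a) := by
  refine (DQ.isSelfAdjoint_seq fun n => ?_ : IsSelfAdjoint (S.flipSeq i a)).map _
  show star (pprod n fun r => S.pu i r a) = pprod n fun r => S.pu i r a
  rw [star_pprod n _ fun r t _ _ hne => S.u_comm i hne a]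
  congr 1; funext r; exact (S.pool.u_sa _ _).star_eq

theorem flip_sq (i : ℕ) (a : ι) : S.flip i a * S.flip i a = 1 := by
  rw [flip, ← map_mul, ← map_one DQ.mk]
  congr 1; ext n
  show (pprod n fun r => S.pu i r a) * (pprod n fun r => S.pu i r a) = 1
  rw [pprod_mul n _ _ fun r t _ _ hne => S.u_comm i hne a]
  induction n with
  | zero => rfl
  | succ n ih => rw [pprod_succ, ih, one_mul]; exact S.pool.u_sq _ _

/-- The flip sends the field unitary to its adjoint. -/
theorem flip_U (i : ℕ) {a b : ι} (hab : ∀ r, S.u r b = S.u r a) :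
    S.flip i a * DQ.mk (S.useq i b) = star (DQ.mk (S.useq i b) : DQ B ω) * S.flip i a := by
  rw [flip, ← map_star, ← map_mul, ← map_mul]
  congr 1; ext n
  show (pprod n fun r => S.pu i r a) * S.useq i b n = star (S.useq i b n) * pprod n fun r => S.pu i r a
  have cu : ∀ r t, r ≠ t → Commute (S.pu i r a) (S.pP i t b) := fun r t hne =>
    ((S.pool.comm _ _ (pair_ne (Or.inr hne.symm)) b a).2.1).symm
  rw [S.useq_apply, star_zprod _ _ n (fun r => (S.P_sym i r b).1)
      (fun r t hne => S.comm_P (Or.inr hne) b b),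
    pprod_mul n (fun r => S.pu i r a) (fun r => zf (cn n) (sn n) (S.pP i r b)) fun r t _ _ hne =>
      ((Commute.one_right _).smul_right _).add_right ((cu r t hne).smul_right _),
    pprod_mul n (fun r => zf (cn n) (sn n) (-S.pP i r b)) (fun r => S.pu i r a) fun r t _ _ hne =>
      ((Commute.one_left _).smul_left _).add_left ((cu t r hne.symm).symm.neg_left.smul_left _)]
  congr 1; funext r
  have hanti : S.pP i r b * S.pu i r a = -(S.pu i r a * S.pP i r b) := by
    have := S.pool.anti (Nat.pair i r) b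
    rw [hab] at this
    exact this
  simp only [zf, mul_add, add_mul, mul_smul_comm, smul_mul_assoc, mul_one, one_mul, neg_mul, hanti,
    neg_neg]

/-- The flip anticommutes with the fields of its pool. -/
theorem flip_y (i : ℕ) {a b : ι} (hab : ∀ r, S.u r b = S.u r a) :
    S.flip i a * (S.y i b : DQ B ω) = -((S.y i b : DQ B ω) * S.flip i a) := by
  have h1 := S.flip_U i hab
  have h2 : S.flip i a * star (DQ.mk (S.useq i b) : DQ B ω) = DQ.mk (S.useq i b) * S.flip i a := by
    have h := congrArg (fun z => S.flip i a * z * S.flip i a) h1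
    simp only [mul_assoc, S.flip_sq, mul_one] at h
    rw [← mul_assoc, S.flip_sq, one_mul] at h
    exact h.symm
  rw [S.coe_y, yseq]
  simp only [map_smul, map_sub, map_star, mul_smul_comm, smul_mul_assoc, mul_sub, sub_mul, h1, h2]
  module

theorem flip_commute_of_mem {i : ℕ} {J : Set ℕ} (hi : i ∉ J) {c : S.C} (hc : c ∈ S.alg J) (a : ι) :
    Commute (S.flip i a) (c : DQ B ω) := by
  obtain ⟨f, hf, h⟩ := hc
  rw [← hf]
  exact DQ.commute_mk (Eventually.of_forall fun n =>
    (commute_pprod n (fun r => S.pu i r a) fun r _ => (h n i r a hi).2).symm)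

theorem mean (D : DimState (DQ B ω)) (J : Set ℕ) (i : ℕ) (hi : i ∉ J) (u : S.C)
    (hu : u ∈ S.alg J) (a : ι) : S.tau D (S.y i a * u) = 0 := by
  have sa : ∀ w ∈ S.alg J, IsSelfAdjoint w → S.tau D (S.y i a * w) = 0 := by
    intro w hw hws
    have hz : IsSelfAdjoint (S.y i a * w) :=
      isSelfAdjoint_mul (S.y_sa i a) hws (Commute.all _ _)
    rw [S.tau_sa D hz, Complex.ofReal_eq_zero]
    refine tau_flip D (S.flip_sa i a) (S.flip_sq i a) (S.coe_sa hz) ?_
    show S.flip i a * ((S.y i a : DQ B ω) * w) = -((S.y i a : DQ B ω) * w * S.flip i a)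
    rw [← mul_assoc, S.flip_y i fun r => rfl, neg_mul, mul_assoc,
      (S.flip_commute_of_mem hi hw a).eq, ← mul_assoc]
  have hre : (ℜ u : S.C) ∈ S.alg J := by
    rw [realPart_apply_coe]
    rw [← Complex.coe_smul]
    exact SMulMemClass.smul_mem _ (add_mem hu (star_mem hu))
  have him : (ℑ u : S.C) ∈ S.alg J := by
    rw [imaginaryPart_apply_coe, ← Complex.coe_smul]
    exact SMulMemClass.smul_mem _ (SMulMemClass.smul_mem _ (sub_mem hu (star_mem hu)))
  rw [← realPart_add_I_smul_imaginaryPart u, mul_add, mul_smul_comm, map_add, map_smul,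
    sa _ hre (ℜ u).2, sa _ him (ℑ u).2, smul_zero, add_zero]

theorem tau_pair_exp (hω : (ω : Filter ℕ) ≤ atTop) (D' : DimState (DQ B ω)) (D : ℕ → DimState B)
    (hlim : ∀ f : ℕ →ᵇ B, (∀ n, IsSelfAdjoint (f n)) →
      Tendsto (fun n => Elem.tau (D n) (f n)) (ω : Filter ℕ) (nhds (Elem.tau D' (DQ.mk f))))
    {P Q u v : ℕ → B} (h : PairPool P Q u v) (A k x : ℕ →ᵇ B)
    (hA : ∀ n, A n = pprod n fun r => af (cn n) (sn n) (P r) (Q r))
    (hk : ∀ n, k n = cfc (fun t : ℝ => Real.exp (-1 - t)) (pairR P Q n))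
    (hx : ∀ n, Ctx P Q u v n (x n)) :
    Elem.tau D' (DQ.mk x * ((1 / 2 : ℂ) • (DQ.mk A + star (DQ.mk A)))) =
      Elem.tau D' (DQ.mk x * DQ.mk k) := by
  rw [← map_star, ← map_add, ← map_smul, ← map_mul, ← map_mul]
  set F := x * ((1 / 2 : ℂ) • (A + star A)) with hF
  have eF : ∀ n, F n = x n * (reim (cn n) (sn n) P Q n).1 := fun n => by
    show x n * ((1 / 2 : ℂ) • (A n + star (A n))) = _
    rw [hA, reim_eq h]
  have hcP : ∀ n, ∀ r < n, Commute (x n) (P r) ∧ Commute (x n) (Q r) := fun n r hr =>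
    ⟨(hx n).2 r hr _ (by simp [fam]), (hx n).2 r hr _ (by simp [fam])⟩
  have hFsa : ∀ n, IsSelfAdjoint (F n) := fun n => by
    rw [eF]
    exact isSelfAdjoint_mul (hx n).1 (reim_sa _ _ h n).1 (commute_reim _ _ n P Q (hcP n)).1
  have hksa : ∀ n, IsSelfAdjoint ((x * k) n) := fun n => by
    show IsSelfAdjoint (x n * k n)
    rw [hk]
    refine isSelfAdjoint_mul (hx n).1 IsSelfAdjoint.cfc (commute_functions ?_ _)
    exact (Commute.sum_right _ _ _ fun r hr =>
      have hr' := hcP n r (Finset.mem_range.1 hr)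
      (hr'.1.mul_right hr'.2).add_right (hr'.2.mul_right hr'.1)).smul_right _
  refine tendsto_nhds_unique (hlim F hFsa) ?_
  have hδ : Tendsto (fun n : ℕ => ‖x‖ * (Real.exp (5 / n) - 1)) atTop (nhds 0) := by
    simpa using Tendsto.const_mul ‖x‖ (((Real.continuous_exp.tendsto _).comp
      (tendsto_const_div_atTop_nhds_zero_nat (5 : ℝ))).sub_const 1)
  have hd : Tendsto (fun n => Elem.tau (D n) (F n) - Elem.tau (D n) ((x * k) n))
      (ω : Filter ℕ) (nhds 0) := by
    refine squeeze_zero_norm' ?_ (hδ.mono_left hω)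
    filter_upwards [hω (eventually_ge_atTop 2)] with n hn'
    rw [Real.norm_eq_abs, eF, BoundedContinuousFunction.mul_apply, hk]
    exact (abs_tau_re_sub_le (D n) h hn' (hx n)).trans
      (mul_le_mul_of_nonneg_right (x.norm_coe_le_norm n)
        (sub_nonneg.2 (Real.one_le_exp (by positivity))))
  have := hd.add (hlim (x * k) hksa)
  simpa using this

theorem fieldG_eq (t : ℝ) : fieldG t =
    (2 * fieldVar)⁻¹ * (Real.exp (-1 + t) - Real.exp (-1 - t)) := by
  rw [fieldG, fieldVar, Real.exp_add, sub_eq_add_neg (-1 : ℝ) t, Real.exp_add, Real.sinh_eq t]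
  field_simp

theorem pair_sa (D' : DimState (DQ B ω)) (D : ℕ → DimState B)
    (hlim : ∀ f : ℕ →ᵇ B, (∀ n, IsSelfAdjoint (f n)) →
      Tendsto (fun n => Elem.tau (D n) (f n)) (ω : Filter ℕ) (nhds (Elem.tau D' (DQ.mk f))))
    (J : Set ℕ) (i : ℕ) (hi : i ∉ J) (w : S.C) (hw : w ∈ S.alg J) (hws : IsSelfAdjoint w)
    (a b : ι) : S.tau D' (S.y i a * S.y i b * w) = S.tau D' (S.K i a b * w) := by
  obtain ⟨x, hx, hxsa, hxc⟩ := S.exists_lift_sa hw hws
  have hctx : ∀ n, Ctx (fun r => S.pP i r a) (fun r => S.pP i r b) (fun r => S.pu i r a)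
      (fun r => S.pu i r b) n (x n) := fun n => ⟨hxsa n, fun r _ z hz => by
    rcases hz with rfl | rfl | rfl | rfl
    exacts [(hxc n i r a hi).1, (hxc n i r b hi).1, (hxc n i r a hi).2, (hxc n i r b hi).2]⟩
  have hctx' : ∀ n, Ctx (fun r => S.pP i r a) (fun r => -S.pP i r b) (fun r => S.pu i r a)
      (fun r => S.pu i r b) n (x n) := fun n => ⟨hxsa n, fun r _ z hz => by
    rcases hz with rfl | rfl | rfl | rfl
    exacts [(hxc n i r a hi).1, (hxc n i r b hi).1.neg_right, (hxc n i r a hi).2,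
      (hxc n i r b hi).2]⟩
  set g : ℝ → ℝ := fun t => Real.exp (-1 - t) with hg
  set g' : ℝ → ℝ := fun t => Real.exp (-1 + t) with hg'
  have hgc : Continuous g := Real.continuous_exp.comp (continuous_const.sub continuous_id)
  have hgc' : Continuous g' := Real.continuous_exp.comp (continuous_const.add continuous_id)
  set p : S.C := (1 / 2 : ℂ) • (S.U i a * S.U i b + star (S.U i a * S.U i b)) with hp
  set m : S.C := (1 / 2 : ℂ) • (S.U i a * star (S.U i b) + star (S.U i a * star (S.U i b))) with hm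
  have hhalf : ∀ z : S.C, IsSelfAdjoint ((1 / 2 : ℂ) • (z + star z)) := fun z => by
    rw [IsSelfAdjoint, star_smul, star_add, star_star, add_comm]; norm_num
  have eU : (S.U i a : DQ B ω) * (S.U i b : DQ B ω) = DQ.mk (S.aseq i a b) := by
    rw [← S.U_mul, map_mul]; rfl
  have eU' : (S.U i a : DQ B ω) * star (S.U i b : DQ B ω) = DQ.mk (S.aseq' i a b) := by
    rw [← S.U_mul_star, map_mul, map_star]; rfl
  have h1 : Elem.tau D' ((w * p : S.C) : DQ B ω) =
      Elem.tau D' ((w * cfc g (S.R i a b) : S.C) : DQ B ω) := by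
    have := tau_pair_exp S.hω D' D hlim (S.pairPool i a b) (S.aseq i a b)
      (cfc g (S.rseq i a b)) x (fun n => rfl) (fun n => by
        rw [DQ.apply_cfc (S.rseq_sa i a b) hgc, S.rseq_apply]) hctx
    show Elem.tau D' ((w : DQ B ω) * ((1 / 2 : ℂ) • ((S.U i a : DQ B ω) * (S.U i b : DQ B ω) +
      star ((S.U i a : DQ B ω) * (S.U i b : DQ B ω))))) = Elem.tau D' ((w : DQ B ω) * _)
    rw [S.coe_cfc_R hgc, eU, ← hx]
    exact this
  have h2 : Elem.tau D' ((w * m : S.C) : DQ B ω) =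
      Elem.tau D' ((w * cfc g' (S.R i a b) : S.C) : DQ B ω) := by
    have := tau_pair_exp S.hω D' D hlim (S.pairPool_neg i a b) (S.aseq' i a b)
      (cfc g' (S.rseq i a b)) x (fun n => rfl) (fun n => by
        rw [DQ.apply_cfc (S.rseq_sa i a b) hgc', S.rseq_apply]
        have e : pairR (fun r => S.pP i r a) (fun r => -S.pP i r b) n =
            -pairR (fun r => S.pP i r a) (fun r => S.pP i r b) n := by
          simp only [pairR, mul_neg, neg_mul, ← neg_add, Finset.sum_neg_distrib, smul_neg]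
        rw [e, ← cfc_comp_neg _ _ (by fun_prop) (pairR_sa (S.pairPool i a b) n)]
        simp only [g', sub_neg_eq_add]) hctx'
    show Elem.tau D' ((w : DQ B ω) * ((1 / 2 : ℂ) • ((S.U i a : DQ B ω) * star (S.U i b : DQ B ω) +
      star ((S.U i a : DQ B ω) * star (S.U i b : DQ B ω))))) = Elem.tau D' ((w : DQ B ω) * _)
    rw [S.coe_cfc_R hgc', eU', ← hx]
    exact this
  have hv : fieldVar ≠ 0 :=
    (mul_pos (Real.exp_pos _) (Real.sinh_pos_iff.2 one_pos)).ne'
  have hy : S.y i a * S.y i b = ((2 * fieldVar)⁻¹ : ℝ) • (m - p) := by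
    have hv2 : ((√fieldVar : ℝ) : ℂ) * ((√fieldVar : ℝ) : ℂ) = (fieldVar : ℂ) := by
      rw [← Complex.ofReal_mul, Real.mul_self_sqrt
        (show 0 ≤ fieldVar from (mul_pos (Real.exp_pos _) (Real.sinh_pos_iff.2 one_pos)).le)]
    have hI : (((√fieldVar : ℝ) : ℂ))⁻¹ * (-Complex.I / 2) *
        ((((√fieldVar : ℝ) : ℂ))⁻¹ * (-Complex.I / 2)) = -((4 * (fieldVar : ℂ))⁻¹) := by
      rw [mul_inv (4 : ℂ) (fieldVar : ℂ), ← hv2, mul_inv]
      linear_combination ((((√fieldVar : ℝ) : ℂ))⁻¹ * (((√fieldVar : ℝ) : ℂ))⁻¹ / 4) * Complex.I_sq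
    rw [y, y, smul_smul, smul_smul, smul_mul_smul_comm, hI, hp, hm, ← Complex.coe_smul, star_mul',
      star_mul', star_star]
    simp only [mul_sub, sub_mul, smul_sub, smul_add]
    push_cast
    match_scalars <;> field_simp <;> norm_num
  have hK : S.K i a b = ((2 * fieldVar)⁻¹ : ℝ) • (cfc g' (S.R i a b) - cfc g (S.R i a b)) := by
    rw [← cfc_sub g' g _ hgc'.continuousOn hgc.continuousOn,
      ← cfc_smul _ (fun t => g' t - g t) _ (hgc'.sub hgc).continuousOn, K]
    exact cfc_congr fun t _ => by rw [fieldG_eq]; rfl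
  have swap : ∀ z : S.C, z * w = w * z := fun z => mul_comm _ _
  rw [swap, swap, hy, hK, mul_smul_comm, mul_smul_comm, mul_sub, mul_sub, ← Complex.coe_smul,
    ← Complex.coe_smul, map_smul, map_smul, map_sub, map_sub,
    S.tau_sa D' (isSelfAdjoint_mul hws (hhalf _) (Commute.all _ _)),
    S.tau_sa D' (isSelfAdjoint_mul hws (hhalf _) (Commute.all _ _)),
    S.tau_sa D' (isSelfAdjoint_mul hws IsSelfAdjoint.cfc (Commute.all _ _)),
    S.tau_sa D' (isSelfAdjoint_mul hws IsSelfAdjoint.cfc (Commute.all _ _)), h1, h2]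

/-- The field law at a state where the functional is the limit of functionals. -/
theorem fieldLaw_of_lim (D' : DimState (DQ B ω)) (D : ℕ → DimState B)
    (hlim : ∀ f : ℕ →ᵇ B, (∀ n, IsSelfAdjoint (f n)) →
      Tendsto (fun n => Elem.tau (D n) (f n)) (ω : Filter ℕ) (nhds (Elem.tau D' (DQ.mk f)))) :
    FieldLaw (S.tau D') (√fieldVar)⁻¹ S.y S.K S.alg where
  tr := S.isTr D'
  mono := S.alg_mono
  y_mem _ _ a hi := S.y_mem hi a
  K_mem _ _ a b hi := S.K_mem hi a b
  y_sa := S.y_sa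
  K_sa _ _ _ := IsSelfAdjoint.cfc
  y_norm := S.norm_y_le
  K_diag := S.K_diag
  K_symm := S.K_symm
  K_norm := S.K_norm
  K_triangle := S.K_triangle
  mean J i hi u hu a := S.mean D' J i hi u hu a
  pair J i hi u hu a b := by
    have hre : (ℜ u : S.C) ∈ S.alg J := by
      rw [realPart_apply_coe, ← Complex.coe_smul]
      exact SMulMemClass.smul_mem _ (add_mem hu (star_mem hu))
    have him : (ℑ u : S.C) ∈ S.alg J := by
      rw [imaginaryPart_apply_coe, ← Complex.coe_smul]
      exact SMulMemClass.smul_mem _ (SMulMemClass.smul_mem _ (sub_mem hu (star_mem hu)))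
    rw [← realPart_add_I_smul_imaginaryPart u]
    simp only [mul_add, mul_smul_comm, map_add, map_smul]
    rw [S.pair_sa D' D hlim J i hi _ hre (ℜ u).2 a b, S.pair_sa D' D hlim J i hi _ him (ℑ u).2 a b]

/-- An automorphism permuting the symmetries permutes the fields and their covariances. -/
theorem equivariant {G : Type*} [Group G] (β : G →* (B ≃⋆ₐ[ℂ] B)) (g : G) (σ : ι → ι)
    (h : ∀ r a, β g (S.P r a) = S.P r (σ a)) (i : ℕ) (a b : ι) :
    DQ.act β g (S.y i a : DQ B ω) = (S.y i (σ a) : DQ B ω) ∧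
      DQ.act β g (S.K i a b : DQ B ω) = (S.K i (σ a) (σ b) : DQ B ω) := by
  set φ : B →⋆ₐ[ℂ] B := (β g : B →⋆ₐ[ℂ] B) with hφ
  have hP : ∀ r c, φ (S.pP i r c) = S.pP i r (σ c) := fun r c => h _ c
  have hU : ∀ n c, φ (S.useq i c n) = S.useq i (σ c) n := fun n c => by
    rw [S.useq_apply, S.useq_apply]
    have : ∀ k : ℕ, ∀ c' s' : ℝ, φ (pprod k fun r => zf c' s' (S.pP i r c)) =
          pprod k fun r => zf c' s' (S.pP i r (σ c)) := by
        intro k c' s'
        induction k with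
        | zero => exact map_one φ
        | succ k ih' => rw [pprod_succ, pprod_succ, map_mul, ih']; simp only [zf, map_add, map_smul, map_one, hP]
    exact this _ _ _
  have hR : ∀ n, φ (S.rseq i a b n) = S.rseq i (σ a) (σ b) n := fun n => by
    rw [S.rseq_apply, S.rseq_apply, pairR, pairR, ← Complex.coe_smul, ← Complex.coe_smul, map_smul,
      map_sum]
    simp [hP]
  refine ⟨?_, ?_⟩
  · rw [S.coe_y, S.coe_y, DQ.act_mk]
    congr 1; ext n
    show φ (S.yseq i a n) = S.yseq i (σ a) n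
    simp only [yseq, BoundedContinuousFunction.coe_smul, BoundedContinuousFunction.coe_sub,
      BoundedContinuousFunction.star_apply, Pi.sub_apply, map_smul, map_sub, map_star, hU]
  · rw [S.coe_K, S.coe_K, DQ.act_mk]
    congr 1; ext n
    show φ (cfc fieldG (S.rseq i a b) n) = cfc fieldG (S.rseq i (σ a) (σ b)) n
    rw [DQ.apply_cfc (S.rseq_sa i a b) continuous_fieldG,
      DQ.apply_cfc (S.rseq_sa i (σ a) (σ b)) continuous_fieldG, ← hR]
    exact StarAlgHomClass.map_cfc φ fieldG _ continuous_fieldG.continuousOn (map_continuous φ)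
      ((S.rseq_sa i a b).map (DQ.eval n)) (((S.rseq_sa i a b).map (DQ.eval n)).map φ)

end Setup

end

end Vale.Agent.P095.Elem.Field
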