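import Vale.Agent.P095.Elem.QuotState

/-!
# P095, amenable groups: the functional of a limit state is the limit of the functionals
-/

namespace Vale.Agent.P095.Elem.DQ

open Filter Topology BoundedContinuousFunction
open scoped CStarAlgebra BoundedContinuousFunction

noncomputable section

universe u

attribute [local instance] CStarAlgebra.spectralOrder CStarAlgebra.spectralOrderedRing

section riemann

variable {B : Type u} [CStarAlgebra B] (D : DimState B) {x : B}

/-- The slice of `x` between `a` and `a + h`. -/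
def slice (a h : ℝ) (x : B) : B := cfc (fun r : ℝ => min (max (r - a) 0) h) x

theorem tau_cut_sub (hx : IsSelfAdjoint x) {a h : ℝ} (hh : 0 ≤ h) :
    tau D (cut a x) = tau D (slice a h x) + tau D (cut (a + h) x) := by
  rw [← tau_add D (x := slice a h x) (y := cut (a + h) x) IsSelfAdjoint.cfc IsSelfAdjoint.cfc
    (cfc_commute_cfc _ _ _), slice, cut, cut,
    ← cfc_add (a := x) (fun r : ℝ => min (max (r - a) 0) h) (fun r : ℝ => max (r - (a + h)) 0)]
  congr 1
  refine cfc_congr fun r _ => ?_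
  cases max_cases (r - a) 0 <;> cases max_cases (r - (a + h)) 0 <;>
    cases min_cases (max (r - a) 0) h <;> linarith

theorem tau_slice_le (hx : IsSelfAdjoint x) {a h : ℝ} (hh : 0 ≤ h) :
    tau D (slice a h x) ≤ h * D (cut a x) := by
  refine le_of_forall_pos_le_add fun t ht => ?_
  have hp : IsPos (slice a h x) :=
    isPos_iff_nonneg.2 (cfc_nonneg fun r _ => le_min (le_max_right _ _) hh)
  have h1 := tau_le_add_mul_val_cut D hp ht.le
  have h2 : ‖slice a h x‖ ≤ h := norm_cfc_le hh fun r _ => by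
    rw [Real.norm_of_nonneg (le_min (le_max_right _ _) hh)]; exact min_le_right _ _
  have h3 : D (cut t (slice a h x)) ≤ D (cut a x) :=
    (val_cut_mono' D IsSelfAdjoint.cfc (cfc_mono fun r _ => min_le_left _ _) t).trans
      (val_cut_le D (cut_nonneg a x) ht.le)
  nlinarith [mul_le_mul h2 h3 (val_nonneg D (cut_nonneg _ _)) hh]

theorem le_tau_slice (hx : IsSelfAdjoint x) {a h : ℝ} (hh : 0 < h) :
    h * D (cut (a + h) x) ≤ tau D (slice a h x) := by
  refine le_of_forall_pos_le_add fun e he => ?_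
  have hp : IsPos (slice a h x) :=
    isPos_iff_nonneg.2 (cfc_nonneg fun r _ => le_min (le_max_right _ _) hh.le)
  set t : ℝ := max (h - e) (h / 2) with ht'
  have ht : 0 < t := lt_max_of_lt_right (by positivity)
  have hth : t < h := max_lt (by linarith) (by linarith)
  have h1 := mul_val_cut_le_tau D hp ht.le
  have hd : D (cut (a + h) x) ≤ D (cut t (slice a h x)) := by
    rw [slice, cut, cut, ← cfc_comp' (fun r : ℝ => max (r - t) 0)
      (fun r : ℝ => min (max (r - a) 0) h) x]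
    set C : ℝ := max 0 (‖x‖ - (a + h)) / (h - t) with hC
    have hC0 : 0 ≤ C := div_nonneg (le_max_left _ _) (sub_nonneg.2 hth.le)
    refine (val_le_of_le D (cfc_nonneg fun r _ => le_max_right _ _) (y := C •
      cfc (fun r : ℝ => max (min (max (r - a) 0) h - t) 0) x) ?_).trans
      (val_smul_le D (cfc_nonneg fun r _ => le_max_right _ _) hC0)
    rw [← cfc_smul C _ x (by fun_prop)]
    refine cfc_mono (fun r hr => ?_)
    have hr' : r ≤ ‖x‖ := (le_algebraMap_iff_spectrum_le hx).1 hx.le_algebraMap_norm_self r hr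
    rcases le_or_gt r (a + h) with hra | hra
    · rw [max_eq_right (by linarith)]
      exact mul_nonneg hC0 (le_max_right _ _)
    · rw [max_eq_left (by linarith), smul_eq_mul, max_eq_left (by linarith : 0 ≤ r - a),
        min_eq_right (by linarith), max_eq_left (by linarith), hC,
        div_mul_cancel₀ _ (sub_pos.2 hth).ne']
      exact le_max_of_le_right (by linarith)
  have h4 : h - e ≤ t := le_max_left _ _
  nlinarith [val_cut_le_one D (a + h) x, val_nonneg D (cut_nonneg (a + h) x),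
    mul_le_mul_of_nonneg_left hd ht.le]

theorem cut_eq_zero (hx : IsSelfAdjoint x) {t : ℝ} (h : ‖x‖ ≤ t) : cut t x = 0 := by
  rw [cut, cfc_congr (g := fun _ => (0 : ℝ)) fun r hr => ?_, cfc_const_zero]
  have := (le_algebraMap_iff_spectrum_le hx).1 hx.le_algebraMap_norm_self r hr
  exact max_eq_right (by linarith)

/-- Riemann sums for `tau` on a positive element. -/
theorem tau_riemann (hx : IsPos x) {h : ℝ} (hh : 0 < h) {K : ℕ} (hK : ‖x‖ ≤ K * h) :
    h * ∑ k ∈ Finset.range K, D (cut (((k + 1 : ℕ) : ℝ) * h) x) ≤ tau D x ∧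
      tau D x ≤ h * ∑ k ∈ Finset.range K, D (cut ((k : ℝ) * h) x) := by
  have hsa := sa_of_isPos hx
  have h0 : cut 0 x = x := (ppart_of_isPos hx).1
  have e : tau D x = ∑ k ∈ Finset.range K, tau D (slice ((k : ℝ) * h) h x) := by
    have hs : ∀ k : ℕ, tau D (slice ((k : ℝ) * h) h x) =
        tau D (cut ((k : ℝ) * h) x) - tau D (cut (((k + 1 : ℕ) : ℝ) * h) x) := fun k => by
      rw [tau_cut_sub D hsa hh.le (a := (k : ℝ) * h),
        show ((k : ℝ) * h + h) = ((k + 1 : ℕ) : ℝ) * h by push_cast; ring, add_sub_cancel_right]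
    rw [Finset.sum_congr rfl fun k _ => hs k,
      Finset.sum_range_sub' fun k : ℕ => tau D (cut ((k : ℝ) * h) x)]
    simp only [Nat.cast_zero, zero_mul, h0, cut_eq_zero hsa hK, tau_zero, sub_zero]
  rw [e, Finset.mul_sum, Finset.mul_sum]
  refine ⟨Finset.sum_le_sum fun k _ => ?_, Finset.sum_le_sum fun k _ => tau_slice_le D hsa hh.le⟩
  rw [show ((k + 1 : ℕ) : ℝ) * h = (k : ℝ) * h + h by push_cast; ring]
  exact le_tau_slice D hsa hh

theorem sum_shift_two (f : ℕ → ℝ) (K : ℕ) :
    ∑ k ∈ Finset.range K, f k + f K + f (K + 1) =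
      f 0 + f 1 + ∑ k ∈ Finset.range K, f (k + 2) := by
  induction K with
  | zero => simp
  | succ n ih => rw [Finset.sum_range_succ, Finset.sum_range_succ]; linarith

end riemann

variable {N : Type u} [CStarAlgebra N] {ω : Ultrafilter ℕ}

theorem eventually_cut_le_limState (D : ℕ → DimState N) {f : ℕ →ᵇ N} (hf : ∀ n, IsPos (f n))
    {s t θ : ℝ} (hst : s < t) (hθ : 0 < θ) :
    ∀ᶠ n in (ω : Filter ℕ), D n (cut t (f n)) ≤ limState D (cut s (mk f : DQ N ω)) + θ := by
  obtain ⟨g, hg, hgx⟩ := mk_cut (ω := ω) (fun n => sa_of_isPos (hf n)) s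
  filter_upwards [eventually_lt_limState (ω := ω) D (f := g)
    (fun n => by rw [hg]; exact isPos_cut _ _) (sub_pos.2 hst) hθ] with n hn
  rw [hg, cut_cut (sa_of_isPos (hf n)) (sub_nonneg.2 hst.le), add_sub_cancel, hgx] at hn
  exact hn.le

theorem eventually_limState_le_cut (D : ℕ → DimState N) {f : ℕ →ᵇ N} (hf : ∀ n, IsPos (f n))
    {t θ : ℝ} (hθ : 0 < θ) :
    ∀ᶠ n in (ω : Filter ℕ), limState D (cut t (mk f : DQ N ω)) - θ ≤ D n (cut t (f n)) := by
  rcases lt_or_ge (limState D (cut t (mk f : DQ N ω)) - θ) 0 with hc | hc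
  · exact Eventually.of_forall fun n => hc.le.trans (val_nonneg _ (cut_nonneg _ _))
  rcases ω.em fun n => limState D (cut t (mk f : DQ N ω)) - θ ≤ D n (cut t (f n)) with h | h
  · exact h
  · obtain ⟨g, hg, hgx⟩ := mk_cut (ω := ω) (fun n => sa_of_isPos (hf n)) t
    have := limState_le (ω := ω) D (f := g) (fun n => by rw [hg]; exact isPos_cut _ _) hc
      fun s hs => h.mono fun n hn => by
        rw [hg]
        exact (val_cut_le _ (cut_nonneg _ _) hs.le).trans (not_le.1 hn).le
    rw [hgx] at this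
    linarith

theorem tau_limState_pos (D : ℕ → DimState N) {f : ℕ →ᵇ N} (hf : ∀ n, IsPos (f n)) :
    Tendsto (fun n => tau (D n) (f n)) (ω : Filter ℕ)
      (𝓝 (tau (limState D) (mk f : DQ N ω))) := by
  rw [Metric.tendsto_nhds]
  intro ε hε
  obtain ⟨M, hM, hfM⟩ : ∃ M : ℝ, 0 < M ∧ ‖f‖ ≤ M := ⟨‖f‖ + 1, by positivity, by linarith⟩
  obtain ⟨K, hK⟩ := exists_nat_gt (6 * M / ε)
  have hKpos : (0 : ℝ) < K := (by positivity : (0 : ℝ) < 6 * M / ε).trans hK
  obtain ⟨h, hh, hKh, h2h⟩ : ∃ h : ℝ, 0 < h ∧ (K : ℝ) * h = M ∧ 6 * h < ε :=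
    ⟨M / K, by positivity, by field_simp, by
      rw [div_lt_iff₀ hε] at hK
      rw [mul_div_assoc', div_lt_iff₀ hKpos]
      linarith⟩
  obtain ⟨θ, hθ, hθε⟩ : ∃ θ : ℝ, 0 < θ ∧ M * θ ≤ ε / 3 :=
    ⟨ε / (3 * M), by positivity, le_of_eq (by field_simp)⟩
  obtain ⟨hl, hu⟩ := tau_riemann (limState D) (isPos_mk (ω := ω) hf) hh (K := K)
    (((norm_mkAlg_le f).trans hfM).trans hKh.ge)
  filter_upwards [(eventually_all_finset (Finset.range K)).2 fun k _ =>
      eventually_cut_le_limState (ω := ω) D hf (s := ((k + 1 : ℕ) : ℝ) * h)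
        (t := ((k + 2 : ℕ) : ℝ) * h) (by push_cast; linarith) hθ,
    (eventually_all_finset (Finset.range K)).2 fun k _ =>
      eventually_limState_le_cut (ω := ω) D hf (t := ((k + 1 : ℕ) : ℝ) * h) hθ] with n h1 h2
  obtain ⟨hln, hun⟩ := tau_riemann (D n) (hf n) hh (K := K)
    (((f.norm_coe_le_norm n).trans hfM).trans hKh.ge)
  have e0 : ∀ (E : DimState N) (y : N) (k : ℕ), 0 ≤ E (cut ((k : ℝ) * h) y) ∧
      E (cut ((k : ℝ) * h) y) ≤ 1 := fun E y k =>
    ⟨val_nonneg E (cut_nonneg _ _), val_cut_le_one E _ _⟩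
  have s2 := sum_shift_two (fun k : ℕ => D n (cut ((k : ℝ) * h) (f n))) K
  have s1 : ∑ k ∈ Finset.range K, limState D (cut ((k : ℝ) * h) (mk f : DQ N ω)) ≤
      1 + ∑ k ∈ Finset.range K, limState D (cut (((k + 1 : ℕ) : ℝ) * h) (mk f : DQ N ω)) := by
    have a := Finset.sum_range_succ (fun k : ℕ => limState D (cut ((k : ℝ) * h) (mk f : DQ N ω))) K
    have b := Finset.sum_range_succ' (fun k : ℕ => limState D (cut ((k : ℝ) * h) (mk f : DQ N ω))) K
    have c := val_cut_le_one (limState D) (((0 : ℕ) : ℝ) * h) (mk f : DQ N ω)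
    have d := val_nonneg (limState D) (cut_nonneg ((K : ℝ) * h) (mk f : DQ N ω))
    linarith
  have a1 : ∑ k ∈ Finset.range K, D n (cut (((k + 2 : ℕ) : ℝ) * h) (f n)) ≤
      ∑ k ∈ Finset.range K, limState D (cut (((k + 1 : ℕ) : ℝ) * h) (mk f : DQ N ω)) + K * θ := by
    refine (Finset.sum_le_sum h1).trans_eq ?_
    rw [Finset.sum_add_distrib, Finset.sum_const, Finset.card_range, nsmul_eq_mul]
  have a2 : ∑ k ∈ Finset.range K, limState D (cut (((k + 1 : ℕ) : ℝ) * h) (mk f : DQ N ω)) ≤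
      ∑ k ∈ Finset.range K, D n (cut (((k + 1 : ℕ) : ℝ) * h) (f n)) + K * θ := by
    have := Finset.sum_le_sum h2
    rw [Finset.sum_sub_distrib, Finset.sum_const, Finset.card_range, nsmul_eq_mul] at this
    linarith
  have b1 : ∑ k ∈ Finset.range K, D n (cut ((k : ℝ) * h) (f n)) ≤
      2 + ∑ k ∈ Finset.range K, D n (cut (((k + 2 : ℕ) : ℝ) * h) (f n)) := by
    linarith [(e0 (D n) (f n) K).1, (e0 (D n) (f n) (K + 1)).1, (e0 (D n) (f n) 0).2,
      (e0 (D n) (f n) 1).2]
  have hKθ : h * ((K : ℝ) * θ) = M * θ := by rw [← hKh]; ring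
  rw [Real.dist_eq, abs_lt]
  constructor <;>
    nlinarith [mul_le_mul_of_nonneg_left (b1.trans (add_le_add le_rfl a1)) hh.le,
      mul_le_mul_of_nonneg_left (s1.trans (add_le_add le_rfl a2)) hh.le]

/-- The functional of a limit state is the limit of the functionals. -/
theorem tau_limState (D : ℕ → DimState N) {f : ℕ →ᵇ N} (hf : ∀ n, IsSelfAdjoint (f n)) :
    Tendsto (fun n => tau (D n) (f n)) (ω : Filter ℕ)
      (𝓝 (tau (limState D) (mk f : DQ N ω))) := by
  obtain ⟨g, hg, hgx⟩ := mk_cut (ω := ω) hf 0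
  obtain ⟨g', hg', hgx'⟩ := mk_cut (ω := ω) (f := -f)
    (fun n => by rw [BoundedContinuousFunction.neg_apply]; exact (hf n).neg) 0
  have hp : ∀ n, IsPos (g n) := fun n => by rw [hg]; exact isPos_cut _ _
  have hp' : ∀ n, IsPos (g' n) := fun n => by rw [hg']; exact isPos_cut _ _
  rw [map_neg] at hgx'
  have key := (tau_limState_pos (ω := ω) D hp).sub (tau_limState_pos (ω := ω) D hp')
  have e1 : tau (limState D) (mk f : DQ N ω) =
      tau (limState D) (mk g : DQ N ω) - tau (limState D) (mk g' : DQ N ω) := by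
    rw [tau_eq_tauP _ (isPos_mk hp), tau_eq_tauP _ (isPos_mk hp'), hgx, hgx']
    rfl
  rw [e1]
  refine key.congr fun n => ?_
  rw [tau_eq_tauP _ (hp n), tau_eq_tauP _ (hp' n), hg, hg', BoundedContinuousFunction.neg_apply]
  rfl

end

end Vale.Agent.P095.Elem.DQ
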