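import Vale.Agent.P095.Elem.FieldLaw
import Vale.Agent.P095.Elem.QuotTau

/-!
# P095, amenable groups: the field law at limit states
-/

namespace Vale.Agent.P095.Elem.Field.Setup

noncomputable section

variable {B : Type*} [CStarAlgebra B] {ι : Type*} {ω : Ultrafilter ℕ} (S : Setup B ι ω)

/-- At a limit of dimension states the fields are centred and have covariance `fieldG R`. -/
theorem fieldLaw (D : ℕ → DimState B) :
    FieldLaw (S.tau (DQ.limState D)) (√fieldVar)⁻¹ S.y S.K S.alg :=
  S.fieldLaw_of_lim (DQ.limState D) D fun _ hf => DQ.tau_limState D hf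

end

end Vale.Agent.P095.Elem.Field.Setup
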