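import Vale.Agent.P095.Elem.Measure

/-!
# P095, amenable groups: the functional of a dimension state

`tau D a = ∫ D (cut t a) dt` for positive `a`, extended to self-adjoint elements. It is linear on
commuting elements, invariant under `z^* z ↦ z z^*`, monotone and Lipschitz for the norm.
-/

namespace Vale.Agent.P095.Elem

open scoped CStarAlgebra
open MeasureTheory Set VAgent.P101

noncomputable section

namespace Spec

section Integral

variable {B : Type*} [CStarAlgebra B] {Ω : Type*} [TopologicalSpace Ω] [CompactSpace Ω]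
  [T2Space Ω] [MeasurableSpace Ω] [BorelSpace Ω] (D : DimState B) (Φ : C(Ω, ℂ) →⋆ₐ[ℂ] B)

lemma integrable_cts (f : C(Ω, ℝ)) : Integrable f (specMeasure D Φ) :=
  f.continuous.integrable_of_hasCompactSupport (HasCompactSupport.of_compactSpace _)

lemma val_cut_fval (f : C(Ω, ℝ)) (t : ℝ) :
    D (cut t (fval Φ f)) = (specMeasure D Φ).real {ω | t < f ω} := by
  rw [cut_fval, ← real_specMeasure_coz D Φ (ContinuousMap.le_def.mpr fun ω => le_max_right _ _)]
  refine congr_arg (specMeasure D Φ).real ?_
  ext ω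
  simp

end Integral

end Spec

open Spec

variable {B : Type*} [CStarAlgebra B] (D : DimState B)

/-- The integral of the cuts. -/
def tauP (a : B) : ℝ := ∫ t in Ioi (0 : ℝ), D (cut t a)

/-- The functional of a dimension state on self-adjoint elements. -/
def tau (x : B) : ℝ := tauP D (ppart x) - tauP D (ppart (-x))

section Integral

variable {Ω : Type*} [TopologicalSpace Ω] [CompactSpace Ω] [T2Space Ω] [MeasurableSpace Ω]
  [BorelSpace Ω] (Φ : C(Ω, ℂ) →⋆ₐ[ℂ] B)

lemma tauP_fval {f : C(Ω, ℝ)} (hf : 0 ≤ f) :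
    tauP D (fval Φ f) = ∫ ω, f ω ∂(specMeasure D Φ) := by
  rw [(integrable_cts D Φ f).integral_eq_integral_meas_lt
    (Filter.Eventually.of_forall fun ω => ContinuousMap.le_def.mp hf ω), tauP]
  exact setIntegral_congr_fun measurableSet_Ioi fun t _ => val_cut_fval D Φ f t

/-- On a commutative subalgebra `tau` is the integral. -/
theorem tau_fval (f : C(Ω, ℝ)) : tau D (fval Φ f) = ∫ ω, f ω ∂(specMeasure D Φ) := by
  have e : -fval Φ f = fval Φ (-f) := by
    rw [eq_comm, eq_neg_iff_add_eq_zero, ← fval_add, neg_add_cancel, fval_zero]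
  rw [tau, e, ppart_fval, ppart_fval,
    tauP_fval D Φ (ContinuousMap.le_def.mpr fun ω => le_max_right _ _),
    tauP_fval D Φ (ContinuousMap.le_def.mpr fun ω => le_max_right _ _),
    ← integral_sub (integrable_cts D Φ _) (integrable_cts D Φ _)]
  refine integral_congr_ae (Filter.Eventually.of_forall fun ω => ?_)
  show max (f ω) 0 - max (-f ω) 0 = f ω
  cases max_cases (f ω) 0 <;> cases max_cases (-f ω) 0 <;> linarith

lemma mul_val_cut_fval_le {f : C(Ω, ℝ)} (hf : 0 ≤ f) {t : ℝ} (ht : 0 ≤ t) :
    t * D (cut t (fval Φ f)) ≤ tau D (fval Φ f) := by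
  rw [tau_fval, val_cut_fval]
  refine le_trans (mul_le_mul_of_nonneg_left (measureReal_mono (s₂ := {ω | t ≤ f ω})
    (fun ω hω => ?_) (measure_ne_top _ _)) ht) ?_
  · exact le_of_lt (show t < f ω from hω)
  exact mul_meas_ge_le_integral_of_nonneg
    (Filter.Eventually.of_forall fun ω => ContinuousMap.le_def.mp hf ω) (integrable_cts D _ _) t

lemma cut_fval_eq_zero {f : C(Ω, ℝ)} {t : ℝ} (h : ∀ ω, f ω ≤ t) : cut t (fval Φ f) = 0 := by
  rw [cut_fval, ← fval_zero Φ]
  congr 1
  ext ω
  simp [h ω]

end Integral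

section Rep

variable {x y : B}

lemma commSA_singleton (hx : IsSelfAdjoint x) : CommSA ({x} : Set B) :=
  ⟨fun a ha => by rw [ha]; exact hx, fun a ha b hb => by rw [ha, hb]⟩

lemma commSA_pair (hx : IsSelfAdjoint x) (hy : IsSelfAdjoint y) (h : Commute x y) :
    CommSA ({x, y} : Set B) := by
  refine ⟨?_, ?_⟩
  · rintro a (rfl | rfl) <;> assumption
  · rintro a (rfl | rfl) b (rfl | rfl)
    exacts [Commute.refl _, h, h.symm, Commute.refl _]

lemma Spec.sa_of_isPos (hx : IsPos x) : IsSelfAdjoint x := by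
  obtain ⟨c, rfl⟩ := hx
  exact IsSelfAdjoint.star_mul_self c

lemma Spec.isPos_iff_le' [PartialOrder B] [StarOrderedRing B] : IsPos x ↔ 0 ≤ x :=
  CStarAlgebra.nonneg_iff_eq_star_mul_self.symm

/-- `tau` is additive on commuting self-adjoint elements. -/
theorem tau_add (hx : IsSelfAdjoint x) (hy : IsSelfAdjoint y) (h : Commute x y) :
    tau D (x + y) = tau D x + tau D y := by
  have hc := commSA_pair hx hy h
  let : MeasurableSpace (WeakDual.characterSpace ℂ (Abel _ hc)) := borel _
  have : BorelSpace (WeakDual.characterSpace ℂ (Abel _ hc)) := ⟨rfl⟩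
  have key : ∀ f g, tau D (fval (jointHom hc) f + fval (jointHom hc) g) =
      tau D (fval (jointHom hc) f) + tau D (fval (jointHom hc) g) := fun f g => by
    rw [← fval_add, tau_fval, tau_fval, tau_fval]
    exact integral_add (integrable_cts D _ _) (integrable_cts D _ _)
  have h1 := jointHom_coord hc (x := x) (Or.inl rfl)
  have h2 := jointHom_coord hc (x := y) (Or.inr rfl)
  have h3 := key (coord hc (x := x) (Or.inl rfl)) (coord hc (x := y) (Or.inr rfl))
  rwa [h1, h2] at h3

theorem tau_smul (hx : IsSelfAdjoint x) (r : ℝ) : tau D (r • x) = r * tau D x := by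
  have hc := commSA_singleton hx
  let : MeasurableSpace (WeakDual.characterSpace ℂ (Abel _ hc)) := borel _
  have : BorelSpace (WeakDual.characterSpace ℂ (Abel _ hc)) := ⟨rfl⟩
  have e : ∀ f, fval (jointHom hc) (r • f) = r • fval (jointHom hc) f := fun f => by
    rw [fval, fval, show toC (r • f) = (r : ℂ) • toC f by ext ω; simp, map_smul, Complex.coe_smul]
  rw [← jointHom_coord hc (x := x) rfl, ← e, tau_fval, tau_fval]
  exact integral_const_mul r _

theorem tau_neg (hx : IsSelfAdjoint x) : tau D (-x) = -tau D x := by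
  simpa using tau_smul D hx (-1)

theorem tau_sub (hx : IsSelfAdjoint x) (hy : IsSelfAdjoint y) (h : Commute x y) :
    tau D (x - y) = tau D x - tau D y := by
  rw [sub_eq_add_neg, tau_add D hx hy.neg h.neg_right, tau_neg D hy, sub_eq_add_neg]

theorem tau_one : tau D (1 : B) = 1 := by
  have hc := commSA_singleton (IsSelfAdjoint.one B)
  let : MeasurableSpace (WeakDual.characterSpace ℂ (Abel _ hc)) := borel _
  have : BorelSpace (WeakDual.characterSpace ℂ (Abel _ hc)) := ⟨rfl⟩
  rw [← fval_one (jointHom hc), tau_fval]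
  simp

theorem tau_zero : tau D (0 : B) = 0 := by
  simpa using tau_smul D (IsSelfAdjoint.one B) (0 : ℝ)

theorem tau_add_algebraMap (hx : IsSelfAdjoint x) (c : ℝ) :
    tau D (x + algebraMap ℝ B c) = tau D x + c := by
  rw [Algebra.algebraMap_eq_smul_one,
    tau_add D hx ((IsSelfAdjoint.all c).smul (IsSelfAdjoint.one B))
      ((Commute.one_right x).smul_right c), tau_smul D (IsSelfAdjoint.one B), tau_one, mul_one]

theorem ppart_of_isPos (hx : IsPos x) : ppart x = x ∧ ppart (-x) = 0 := by
  let := CStarAlgebra.spectralOrder B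
  have := CStarAlgebra.spectralOrderedRing B
  have hsa := (Spec.sa_of_isPos hx)
  have h0 : ∀ t ∈ spectrum ℝ x, (0 : ℝ) ≤ t :=
    fun t ht => spectrum_nonneg_of_nonneg (isPos_iff_le'.mp hx) ht
  refine ⟨?_, ?_⟩
  · conv_rhs => rw [← cfc_id ℝ x]
    exact cfc_congr fun t ht => by simp [h0 t ht]
  · rw [ppart, cut, ← cfc_comp_neg (fun t : ℝ => max (t - 0) 0) x,
      cfc_congr (g := fun _ => (0 : ℝ)) fun t ht => by simp [h0 t ht], cfc_const_zero]

theorem tauP_zero : tauP D (0 : B) = 0 := by
  refine setIntegral_eq_zero_of_forall_eq_zero fun t ht => ?_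
  rw [cut, cfc_apply_zero, max_eq_right (by linarith [mem_Ioi.mp ht]), map_zero, val_zero]

theorem tau_eq_tauP (hx : IsPos x) : tau D x = tauP D x := by
  rw [tau, (ppart_of_isPos hx).1, (ppart_of_isPos hx).2, tauP_zero, sub_zero]

theorem Spec.cut_isPos (t : ℝ) (x : B) : IsPos (cut t x) := by
  let := CStarAlgebra.spectralOrder B
  have := CStarAlgebra.spectralOrderedRing B
  exact isPos_iff_le'.mpr (cfc_nonneg fun s _ => le_max_right _ _)

theorem val_le_one (hx : IsPos x) : D x ≤ 1 := by
  have hc := commSA_singleton (Spec.sa_of_isPos hx)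
  let : MeasurableSpace (WeakDual.characterSpace ℂ (Abel _ hc)) := borel _
  have : BorelSpace (WeakDual.characterSpace ℂ (Abel _ hc)) := ⟨rfl⟩
  let f := coord hc (x := x) rfl
  have h := jointHom_coord hc (x := x) rfl
  have e := val_cut_fval D (jointHom hc) f 0
  rw [h] at e
  have hp : cut 0 x = x := (ppart_of_isPos hx).1
  rw [hp] at e
  rw [e]
  exact measureReal_le_one

/-- The distribution function of a positive element is integrable. -/
theorem integrableOn_cut (hx : IsSelfAdjoint x) :
    IntegrableOn (fun t => D (cut t x)) (Ioi (0 : ℝ)) := by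
  have hc := commSA_singleton hx
  let : MeasurableSpace (WeakDual.characterSpace ℂ (Abel _ hc)) := borel _
  have : BorelSpace (WeakDual.characterSpace ℂ (Abel _ hc)) := ⟨rfl⟩
  let f := coord hc (x := x) rfl
  have e : (fun t => D (cut t x)) = fun t => (specMeasure D (jointHom hc)).real {ω | t < f ω} := by
    funext t
    rw [← val_cut_fval, show fval (jointHom hc) f = x from jointHom_coord hc rfl]
  rw [e]
  have hanti : Antitone fun t => (specMeasure D (jointHom hc)).real {ω | t < f ω} :=
    fun s t hst => measureReal_mono fun ω hω => lt_of_le_of_lt hst hω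
  have hI : Integrable ((Icc (0 : ℝ) ‖f‖).indicator fun _ => (1 : ℝ))
      (volume.restrict (Ioi (0 : ℝ))) :=
    ((integrable_indicator_iff measurableSet_Icc).mpr
      (integrableOn_const (hs := measure_Icc_lt_top.ne))).integrableOn
  refine hI.mono' hanti.measurable.aestronglyMeasurable ?_
  filter_upwards [ae_restrict_mem measurableSet_Ioi] with t ht
  rw [Real.norm_of_nonneg measureReal_nonneg]
  by_cases h : t ≤ ‖f‖
  · rw [indicator_of_mem (show t ∈ Icc 0 ‖f‖ from ⟨le_of_lt ht, h⟩)]
    exact measureReal_le_one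
  · have hz : {ω | t < f ω} = ∅ := Set.eq_empty_iff_forall_notMem.mpr fun ω hω =>
      h (le_of_lt (lt_of_lt_of_le hω ((le_abs_self _).trans (f.norm_coe_le_norm ω))))
    rw [hz, measureReal_empty]
    exact indicator_nonneg (fun _ _ => zero_le_one) t

theorem tau_nonneg (hx : IsPos x) : 0 ≤ tau D x := by
  rw [tau_eq_tauP D hx]
  exact integral_nonneg fun t => val_nonneg D (cut_isPos t x)

end Rep

section Trace

/-- Continuous functional calculus intertwines `z^* z` and `z z^*`. -/
theorem mul_cfc_star_mul_self (z : B) {g : ℝ → ℝ} (hg : Continuous g) :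
    z * cfc g (star z * z) = cfc g (z * star z) * z := by
  set a := star z * z
  set b := z * star z
  have ha : IsSelfAdjoint a := IsSelfAdjoint.star_mul_self z
  have hb : IsSelfAdjoint b := IsSelfAdjoint.mul_star_self z
  have hpoly : ∀ p : Polynomial ℝ, z * Polynomial.aeval a p = Polynomial.aeval b p * z := by
    intro p
    induction p using Polynomial.induction_on' with
    | add p q hp hq => rw [map_add, map_add, mul_add, add_mul, hp, hq]
    | monomial n c =>
      have hs : SemiconjBy z (a ^ n) (b ^ n) :=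
        SemiconjBy.pow_right (show SemiconjBy z a b from (mul_assoc z (star z) z).symm) n
      rw [Polynomial.aeval_monomial, Polynomial.aeval_monomial, ← mul_assoc,
        ← (Algebra.commutes c z), mul_assoc, hs.eq, mul_assoc]
  obtain ⟨R, hR⟩ := ((spectrum.isCompact (𝕜 := ℝ) a).union
    (spectrum.isCompact (𝕜 := ℝ) b)).isBounded.subset_closedBall 0
  refine eq_of_sub_eq_zero (norm_le_zero_iff.mp (le_of_forall_pos_le_add fun ε hε => ?_))
  set δ := ε / (2 * ‖z‖ + 1) with hδ
  have hδ0 : 0 < δ := by positivity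
  obtain ⟨p, hp⟩ := exists_polynomial_near_of_continuousOn (-R) R g hg.continuousOn δ hδ0
  have hbd : ∀ c : B, IsSelfAdjoint c → spectrum ℝ c ⊆ Metric.closedBall 0 R →
      ‖cfc g c - Polynomial.aeval c p‖ ≤ δ := by
    intro c hc hsp
    rw [← cfc_polynomial p c, ← cfc_sub g _ c hg.continuousOn p.continuous.continuousOn]
    refine norm_cfc_le hδ0.le fun t ht => ?_
    have h1 : t ∈ Icc (-R) R := by
      have := hsp ht
      rw [Metric.mem_closedBall, dist_zero_right, Real.norm_eq_abs, abs_le] at this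
      exact this
    rw [Real.norm_eq_abs, abs_sub_comm]
    exact (hp t h1).le
  have h1 := hbd a ha (subset_union_left.trans hR)
  have h2 := hbd b hb (subset_union_right.trans hR)
  rw [zero_add, show z * cfc g a - cfc g b * z =
    z * (cfc g a - Polynomial.aeval a p) - (cfc g b - Polynomial.aeval b p) * z by
      rw [mul_sub, sub_mul, hpoly]; abel]
  refine (norm_sub_le _ _).trans ((add_le_add (norm_mul_le _ _) (norm_mul_le _ _)).trans ?_)
  have h3 : δ * (2 * ‖z‖ + 1) = ε := div_mul_cancel₀ _ (by positivity)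
  nlinarith [norm_nonneg z, mul_le_mul_of_nonneg_left h1 (norm_nonneg z),
    mul_le_mul_of_nonneg_right h2 (norm_nonneg z)]

/-- Subequivalence by one element. -/
theorem val_le_of_approx {x y : B} (hx : IsPos x) (hy : IsPos y)
    (h : ∀ ε : ℝ, 0 < ε → ∃ v : B, ‖star v * y * v - x‖ ≤ ε) : D x ≤ D y := by
  have := D.mono (m := 1) (n := 1) (fun _ => x) (fun _ => y) (fun _ => hx) (fun _ => hy)
    fun ε hε => by
      obtain ⟨v, hv⟩ := h ε hε
      exact ⟨fun _ _ => v, fun i j => by
        rw [Subsingleton.elim i j, if_pos rfl, Fin.sum_univ_one]; exact hv⟩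
  simpa using this

theorem val_cut_star_mul_self_le (z : B) {t : ℝ} (ht : 0 < t) :
    D (cut t (star z * z)) ≤ D (cut t (z * star z)) := by
  let k : ℝ → ℝ := fun s => max (s - t) 0 / max s t
  have hk : Continuous k := ((continuous_id.sub continuous_const).max continuous_const).div
    (continuous_id.max continuous_const) fun s => (lt_max_of_lt_right ht).ne'
  have hs : ∀ s : ℝ, s * k s = max (s - t) 0 := fun s => by
    rcases le_or_gt t s with h | h
    · simp only [k]; rw [max_eq_left h, mul_div_cancel₀ _ (ht.trans_le h).ne']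
    · simp only [k]; rw [max_eq_right (sub_nonpos.mpr h.le)]; simp
  have e1 : star z * cfc k (z * star z) * z = cut t (star z * z) := by
    rw [mul_assoc, ← mul_cfc_star_mul_self z hk, ← mul_assoc, cut]
    conv_lhs => arg 1; rw [← cfc_id' ℝ (star z * z) (ha := IsSelfAdjoint.star_mul_self z)]
    rw [← cfc_mul (fun s : ℝ => s) k _ continuousOn_id hk.continuousOn]
    exact cfc_congr fun s _ => hs s
  let := CStarAlgebra.spectralOrder B
  have := CStarAlgebra.spectralOrderedRing B
  have hkp : IsPos (cfc k (z * star z)) := isPos_iff_le'.mpr (cfc_nonneg fun s _ =>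
    div_nonneg (le_max_right _ _) (ht.le.trans (le_max_right _ _)))
  have hsa : IsSelfAdjoint (z * star z) := IsSelfAdjoint.mul_star_self z
  refine (val_le_of_approx D (cut_isPos _ _) hkp fun ε hε =>
    ⟨z, by rw [e1, sub_self, norm_zero]; exact hε.le⟩).trans ?_
  let l : ℝ → ℝ := fun s => Real.sqrt (1 / max s t)
  have hl : Continuous l := (continuous_const.div (continuous_id.max continuous_const)
    fun s => (lt_max_of_lt_right ht).ne').sqrt
  refine val_le_of_approx D hkp (cut_isPos _ _) fun ε hε => ⟨cfc l (z * star z), ?_⟩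
  rw [(IsSelfAdjoint.cfc (f := l) (a := z * star z)).star_eq, cut,
    ← cfc_mul l _ _ hl.continuousOn (by fun_prop),
    ← cfc_mul (fun s => l s * max (s - t) 0) l _ (by fun_prop) hl.continuousOn]
  rw [cfc_congr (g := k) fun s _ => ?_, sub_self, norm_zero]
  · exact hε.le
  · simp only [l, k]
    rw [mul_right_comm, Real.mul_self_sqrt (div_nonneg zero_le_one
      (ht.le.trans (le_max_right _ _))), div_mul_eq_mul_div, one_mul]

theorem val_cut_star_mul_self (z : B) {t : ℝ} (ht : 0 < t) :
    D (cut t (star z * z)) = D (cut t (z * star z)) :=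
  le_antisymm (val_cut_star_mul_self_le D z ht)
    (by simpa using val_cut_star_mul_self_le D (star z) ht)

/-- The trace property. -/
theorem tau_star_mul_self (z : B) : tau D (star z * z) = tau D (z * star z) := by
  rw [tau_eq_tauP D ⟨z, rfl⟩, tau_eq_tauP D ⟨star z, by rw [star_star]⟩]
  exact setIntegral_congr_fun measurableSet_Ioi fun t ht => val_cut_star_mul_self D z ht

end Trace

section Order

variable {x y : B}

/-- A smaller positive element is Cuntz below. -/
theorem val_le_of_sub (hx : IsPos x) (hy : IsPos y) (h : IsPos (y - x)) : D x ≤ D y := by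
  let := CStarAlgebra.spectralOrder B
  have := CStarAlgebra.spectralOrderedRing B
  refine val_le_of_approx D hx hy fun ε hε => ?_
  have hy0 : ∀ s ∈ spectrum ℝ y, (0 : ℝ) ≤ s :=
    fun s hs => spectrum_nonneg_of_nonneg (isPos_iff_le'.mp hy) hs
  have hys := (Spec.sa_of_isPos hy)
  set r : ℝ → ℝ := fun s => Real.sqrt (1 / (max s 0 + ε)) with hr
  have hrc : Continuous r := (continuous_const.div ((continuous_id.max continuous_const).add
    continuous_const) fun s => (add_pos_of_nonneg_of_pos (le_max_right _ _) hε).ne').sqrt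
  set w := cfc r y
  have hw : IsSelfAdjoint w := IsSelfAdjoint.cfc
  set x2 := CFC.sqrt x
  have hx2 : IsSelfAdjoint x2 := IsSelfAdjoint.of_nonneg (CFC.sqrt_nonneg x)
  have hxx : x2 * x2 = x := CFC.sqrt_mul_sqrt_self x (isPos_iff_le'.mp hx)
  refine ⟨w * x2, ?_⟩
  rw [star_mul, hw.star_eq, hx2.star_eq]
  have hyid : w * y * w = cfc (fun s => r s * s * r s) y := by
    conv_lhs => arg 1; arg 2; rw [← cfc_id' ℝ y]
    rw [← cfc_mul r (fun s : ℝ => s) y hrc.continuousOn continuousOn_id,
      ← cfc_mul (fun s => r s * s) r y (by fun_prop) hrc.continuousOn]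
  have hrr : ∀ s ∈ spectrum ℝ y, r s * r s = 1 / (s + ε) ∧ 0 < s + ε := fun s hs => by
    refine ⟨?_, add_pos_of_nonneg_of_pos (hy0 s hs) hε⟩
    simp only [hr]
    rw [max_eq_left (hy0 s hs),
      Real.mul_self_sqrt (div_nonneg zero_le_one (add_nonneg (hy0 s hs) hε.le))]
  have hww : 1 - w * y * w = ε • (w * w) := by
    rw [hyid, ← cfc_const_one ℝ y, ← cfc_sub (fun _ : ℝ => (1 : ℝ)) (fun s => r s * s * r s) y continuousOn_const (by fun_prop),
      ← cfc_mul r r y hrc.continuousOn hrc.continuousOn,
      ← cfc_smul ε (fun s => r s * r s) y (hrc.mul hrc).continuousOn]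
    refine cfc_congr fun s hs => ?_
    obtain ⟨e, hp⟩ := hrr s hs
    simp only [smul_eq_mul]
    rw [mul_right_comm, e]
    field_simp
    ring
  have key : x2 * w * y * (w * x2) - x = -(ε • (star (w * x2) * (w * x2))) := by
    rw [star_mul, hw.star_eq, hx2.star_eq]
    calc x2 * w * y * (w * x2) - x = -(x2 * (1 - w * y * w) * x2) := by
          rw [mul_sub, sub_mul, mul_one, hxx, neg_sub]; simp only [mul_assoc]
      _ = _ := by rw [hww, mul_smul_comm, smul_mul_assoc]; simp only [mul_assoc]
  rw [key, norm_neg, norm_smul, Real.norm_of_nonneg hε.le, CStarRing.norm_star_mul_self,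
    ← CStarRing.norm_self_mul_star, star_mul, hw.star_eq, hx2.star_eq]
  refine mul_le_of_le_one_right hε.le ?_
  have e : w * x2 * (x2 * w) = w * x * w := by rw [← hxx]; simp only [mul_assoc]
  rw [e]
  have hle : w * x * w ≤ w * y * w := by
    have hxy : x ≤ y := sub_nonneg.mp (isPos_iff_le'.mp h)
    simpa [hw.star_eq] using star_left_conjugate_le_conjugate hxy w
  have h0 : 0 ≤ w * x * w := by
    simpa [hw.star_eq] using star_left_conjugate_nonneg (isPos_iff_le'.mp hx) w
  refine (CStarAlgebra.norm_le_norm_of_nonneg_of_le h0 hle).trans ?_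
  rw [hyid]
  refine norm_cfc_le zero_le_one fun s hs => ?_
  obtain ⟨e, hp⟩ := hrr s hs
  rw [Real.norm_eq_abs, mul_right_comm, e, div_mul_eq_mul_div, one_mul,
    abs_of_nonneg (div_nonneg (hy0 s hs) hp.le), div_le_one hp]
  linarith

theorem val_cut_mono (hx : IsSelfAdjoint x) (hy : IsSelfAdjoint y) (h : IsPos (y - x)) (t : ℝ) :
    D (cut t x) ≤ D (cut t y) := by
  let := CStarAlgebra.spectralOrder B
  have := CStarAlgebra.spectralOrderedRing B
  refine le_of_forall_pos_le_add fun e he => ?_
  obtain ⟨δ, hδ, hl⟩ := D.lsc _ (cut_isPos t x) e he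
  have hcc : cut δ (cut t x) = cut (t + δ) x := by
    rw [cut, cut, ← cfc_comp' (fun s : ℝ => max (s - δ) 0) (fun s : ℝ => max (s - t) 0) x
      (by fun_prop) (by fun_prop), cut]
    refine cfc_congr fun s _ => ?_
    cases max_cases (s - t) 0 <;> cases max_cases (s - (t + δ)) 0 <;>
      cases max_cases (max (s - t) 0 - δ) 0 <;> linarith
  rw [hcc] at hl
  suffices hh : D (cut (t + δ) x) ≤ D (cut t y) by linarith
  let l : ℝ → ℝ := fun s => Real.sqrt (max (s - (t + δ)) 0 / max (s - t) δ)
  have hlc : Continuous l := (((continuous_id.sub continuous_const).max continuous_const).div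
    ((continuous_id.sub continuous_const).max continuous_const)
    fun s => (lt_max_of_lt_right hδ).ne').sqrt
  have hl2 : ∀ s, l s * (s - t) * l s = max (s - (t + δ)) 0 := fun s => by
    have h0 : 0 ≤ max (s - (t + δ)) 0 / max (s - t) δ :=
      div_nonneg (le_max_right _ _) (hδ.le.trans (le_max_right _ _))
    simp only [l]
    rw [mul_right_comm, Real.mul_self_sqrt h0]
    rcases le_or_gt δ (s - t) with hs | hs
    · rw [max_eq_left hs, div_mul_cancel₀ _ (hδ.trans_le hs).ne']
    · rw [max_eq_right (a := s - (t + δ)) (by linarith), zero_div, zero_mul]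
  set w := cfc l x
  have hw : IsSelfAdjoint w := IsSelfAdjoint.cfc
  have hsub : ∀ c : B, IsSelfAdjoint c → cfc (fun s : ℝ => s - t) c = c - algebraMap ℝ B t :=
    fun c hc => by rw [cfc_sub .., cfc_id' ℝ c, cfc_const t c]
  have e1 : star w * (x - algebraMap ℝ B t) * w = cut (t + δ) x := by
    rw [hw.star_eq, ← hsub x hx, ← cfc_mul l _ x hlc.continuousOn (by fun_prop),
      ← cfc_mul (fun s => l s * (s - t)) l x (by fun_prop) hlc.continuousOn]
    exact cfc_congr fun s _ => hl2 s
  have h1 : star w * (x - algebraMap ℝ B t) * w ≤ star w * cut t y * w := by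
    refine star_left_conjugate_le_conjugate ?_ w
    refine (sub_le_sub_right (sub_nonneg.mp (isPos_iff_le'.mp h)) _).trans ?_
    rw [← hsub y hy, cut]
    exact cfc_mono fun s _ => le_max_left _ _
  have hyw : IsPos (star w * cut t y * w) :=
    isPos_iff_le'.mpr (star_left_conjugate_nonneg (isPos_iff_le'.mp (cut_isPos t y)) w)
  refine (val_le_of_sub D (cut_isPos _ _) hyw ?_).trans
    (val_le_of_approx D hyw (cut_isPos t y) fun ε hε =>
      ⟨w, by rw [sub_self, norm_zero]; exact hε.le⟩)
  rw [← e1]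
  exact isPos_iff_le'.mpr (sub_nonneg.mpr h1)

/-- `tau` is monotone. -/
theorem tau_mono (hx : IsSelfAdjoint x) (hy : IsSelfAdjoint y) (h : IsPos (y - x)) :
    tau D x ≤ tau D y := by
  let := CStarAlgebra.spectralOrder B
  have := CStarAlgebra.spectralOrderedRing B
  set c := ‖x‖
  have hx1 : IsPos (x + algebraMap ℝ B c) := by
    refine isPos_iff_le'.mpr ?_
    have := hx.neg_algebraMap_norm_le_self
    exact neg_le_iff_add_nonneg.mp this
  have hy1 : IsPos (y + algebraMap ℝ B c) := by
    refine isPos_iff_le'.mpr ((isPos_iff_le'.mp hx1).trans ?_)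
    exact add_le_add_left (sub_nonneg.mp (isPos_iff_le'.mp h)) _
  rw [← add_le_add_iff_right c, ← tau_add_algebraMap D hx, ← tau_add_algebraMap D hy,
    tau_eq_tauP D hx1, tau_eq_tauP D hy1]
  refine setIntegral_mono_on (integrableOn_cut D (Spec.sa_of_isPos hx1))
    (integrableOn_cut D (Spec.sa_of_isPos hy1)) measurableSet_Ioi fun t _ => ?_
  exact val_cut_mono D (Spec.sa_of_isPos hx1) (Spec.sa_of_isPos hy1) (by rwa [add_sub_add_right_eq_sub]) t

/-- `tau` is Lipschitz for the norm. -/
theorem abs_tau_sub_le (hx : IsSelfAdjoint x) (hy : IsSelfAdjoint y) :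
    |tau D x - tau D y| ≤ ‖x - y‖ := by
  let := CStarAlgebra.spectralOrder B
  have := CStarAlgebra.spectralOrderedRing B
  have key : ∀ a b : B, IsSelfAdjoint a → IsSelfAdjoint b → tau D a - tau D b ≤ ‖a - b‖ := by
    intro a b ha hb
    rw [sub_le_iff_le_add', ← tau_add_algebraMap D hb]
    refine tau_mono D ha (hb.add (IsSelfAdjoint.algebraMap _ (IsSelfAdjoint.all _))) ?_
    refine isPos_iff_le'.mpr ?_
    have := (ha.sub hb).le_algebraMap_norm_self
    rw [show b + algebraMap ℝ B ‖a - b‖ - a = algebraMap ℝ B ‖a - b‖ - (a - b) by abel]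
    exact sub_nonneg.mpr this
  rw [abs_sub_le_iff]
  exact ⟨key x y hx hy, norm_sub_rev x y ▸ key y x hy hx⟩

theorem abs_tau_le (hx : IsSelfAdjoint x) : |tau D x| ≤ ‖x‖ := by
  simpa [tau_zero] using abs_tau_sub_le D hx (IsSelfAdjoint.zero B)

/-- Markov. -/
theorem mul_val_cut_le_tau (hx : IsPos x) {t : ℝ} (ht : 0 ≤ t) : t * D (cut t x) ≤ tau D x := by
  have hc := commSA_singleton (Spec.sa_of_isPos hx)
  let : MeasurableSpace (WeakDual.characterSpace ℂ (Abel _ hc)) := borel _
  have : BorelSpace (WeakDual.characterSpace ℂ (Abel _ hc)) := ⟨rfl⟩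
  have hxf := jointHom_coord hc (x := x) rfl
  set f := coord hc (x := x) rfl
  have hg : fval (jointHom hc) ⟨fun ω => max (f ω) 0, f.continuous.max continuous_const⟩ = x := by
    rw [← ppart_fval, hxf]
    exact (ppart_of_isPos hx).1
  have := mul_val_cut_fval_le D (jointHom hc) (ContinuousMap.le_def.mpr fun ω => le_max_right _ _ :
    (0 : C(_, ℝ)) ≤ ⟨fun ω => max (f ω) 0, f.continuous.max continuous_const⟩) ht
  rwa [hg] at this

theorem tau_le_add_mul_val_cut (hx : IsPos x) {t : ℝ} (ht : 0 ≤ t) :
    tau D x ≤ t + ‖x‖ * D (cut t x) := by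
  let := CStarAlgebra.spectralOrder B
  have := CStarAlgebra.spectralOrderedRing B
  have hsa := (Spec.sa_of_isPos hx)
  have h0 : ∀ s ∈ spectrum ℝ x, (0 : ℝ) ≤ s :=
    fun s hs => spectrum_nonneg_of_nonneg (isPos_iff_le'.mp hx) hs
  have hle : IsPos (cut t x + algebraMap ℝ B t - x) := by
    refine isPos_iff_le'.mpr ?_
    rw [cut, ← cfc_const t x, ← cfc_add x (fun s : ℝ => max (s - t) 0) (fun _ => t) (by fun_prop) continuousOn_const]
    conv_rhs => arg 2; rw [← cfc_id' ℝ x]
    rw [← cfc_sub (fun s : ℝ => max (s - t) 0 + t) (fun s => s) x (by fun_prop) continuousOn_id]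
    exact cfc_nonneg fun s _ => by cases max_cases (s - t) 0 <;> linarith
  have hcs : IsSelfAdjoint (cut t x) := IsSelfAdjoint.cfc
  have h1 := tau_mono D hsa (hcs.add (IsSelfAdjoint.algebraMap _ (IsSelfAdjoint.all t))) hle
  rw [tau_add_algebraMap D hcs, tau_eq_tauP D (cut_isPos t x)] at h1
  have hc0 : cut 0 (cut t x) = cut t x := (ppart_of_isPos (cut_isPos t x)).1
  suffices h2 : tauP D (cut t x) ≤ ‖x‖ * D (cut t x) by linarith
  have hc := commSA_singleton hsa
  let : MeasurableSpace (WeakDual.characterSpace ℂ (Abel _ hc)) := borel _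
  have : BorelSpace (WeakDual.characterSpace ℂ (Abel _ hc)) := ⟨rfl⟩
  have hxf := jointHom_coord hc (x := x) rfl
  set f := coord hc (x := x) rfl
  have hfx : ∀ ω, f ω ≤ ‖x‖ := fun ω => by
    refine (Complex.re_le_norm _).trans ?_
    have := (gelfandTransform_isometry (Abel _ hc)).norm_map_of_map_zero (map_zero _)
      (⟨x, mem_abel hc rfl⟩ : Abel _ hc)
    refine le_trans ?_ this.le
    exact (WeakDual.gelfandTransform ℂ (Abel _ hc) ⟨x, mem_abel hc rfl⟩).norm_coe_le_norm ω
  rw [← hxf, val_cut_fval, cut_fval, tauP_fval D (jointHom hc)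
    (ContinuousMap.le_def.mpr fun ω => le_max_right _ _)]
  rw [hxf, ← smul_eq_mul, smul_eq_mul, mul_comm]
  have hb : ∀ ω, max (f ω - t) 0 ≤ {ω | t < f ω}.indicator (fun _ => ‖x‖) ω := fun ω => by
    by_cases h : t < f ω
    · rw [indicator_of_mem (show ω ∈ {ω | t < f ω} from h)]
      exact max_le (by linarith [hfx ω]) (norm_nonneg x)
    · rw [indicator_of_notMem (show ω ∉ {ω | t < f ω} from h), max_eq_right (by linarith)]
  have hm : MeasurableSet {ω | t < f ω} :=
    (isOpen_lt continuous_const f.continuous).measurableSet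
  refine (integral_mono (integrable_cts D (jointHom hc) _)
    ((integrable_const _).indicator hm) hb).trans ?_
  rw [integral_indicator_const _ hm, smul_eq_mul]

end Order

end

end Vale.Agent.P095.Elem
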