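import Vale.Agent.P095.Elem.FieldAlg
import Vale.Agent.P095.Elem.Tau

/-!
# P095, amenable groups: two symmetries

If two symmetries `P`, `Q` are centred for a dimension state in a context `x`, then so is `P + Q`.
This needs no linearity of the state on the algebra generated by `P` and `Q`: the part where the
commutator does not vanish is flipped by it, and on the rest `Q = ± P` in norm.
-/

namespace Vale.Agent.P095.Elem.Field

open scoped ComplexOrder CStarAlgebra

noncomputable section

variable {B : Type*} [CStarAlgebra B] (D : DimState B)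

theorem commute_csqrt {a z : B} (h : Commute a z) : Commute (cfc (fun t : ℝ => √t) a) z :=
  Commute.cfc_real h _

/-- `τ(c a c) = τ(c² a)` when `c²` commutes with `a`. -/
theorem tau_sandwich {c a : B} (hc : IsSelfAdjoint c) (ha : IsSelfAdjoint a)
    (h : Commute (c * c) a) : tau D (c * a * c) = tau D (c * c * a) := by
  have hcc : IsSelfAdjoint (c * c) := (hc.commute_iff hc).1 (Commute.refl c)
  set k : ℝ := ‖a‖ with hk
  let _ : PartialOrder B := CStarAlgebra.spectralOrder B
  have : StarOrderedRing B := CStarAlgebra.spectralOrderedRing B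
  have hp : 0 ≤ a + algebraMap ℝ B k := by
    have := IsSelfAdjoint.neg_algebraMap_norm_le_self ha
    rw [neg_le_iff_add_nonneg] at this
    exact this
  set w := cfc (fun t : ℝ => √t) (a + algebraMap ℝ B k)
  have hw : IsSelfAdjoint w := IsSelfAdjoint.cfc
  have hww : w * w = a + algebraMap ℝ B k := by
    rw [← cfc_mul _ _ _ (Real.continuous_sqrt.continuousOn) (Real.continuous_sqrt.continuousOn)]
    conv_rhs => rw [← cfc_id' ℝ (a + algebraMap ℝ B k) (IsSelfAdjoint.of_nonneg hp)]
    exact cfc_congr fun t ht => Real.mul_self_sqrt (spectrum_nonneg_of_nonneg hp ht)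
  have hcw : Commute (c * c) w :=
    (commute_csqrt ((h.add_right (Algebra.commute_algebraMap_right k _)).symm)).symm
  have key := tau_star_mul_self D (w * c)
  rw [star_mul, hw.star_eq, hc.star_eq, mul_assoc c w, ← mul_assoc w w c, hww, mul_assoc w c,
    ← mul_assoc c c w, hcw.eq, ← mul_assoc w w, hww] at key
  rw [add_mul, add_mul, mul_add, ← mul_assoc c (algebraMap ℝ B k) c, ← Algebra.commutes k c, ← mul_assoc c a c,
    mul_assoc (algebraMap ℝ B k) c c] at key
  have h1 : Commute (c * a * c) (algebraMap ℝ B k * (c * c)) := by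
    refine (Algebra.commute_algebraMap_right k _).mul_right ?_
    show c * a * c * (c * c) = c * c * (c * a * c)
    calc c * a * c * (c * c) = c * (a * (c * c)) * c := by noncomm_ring
      _ = c * (c * c * a) * c := by rw [h.eq]
      _ = c * c * (c * a * c) := by noncomm_ring
  have h2 : Commute (a * (c * c)) (algebraMap ℝ B k * (c * c)) :=
    (Algebra.commute_algebraMap_right k _).mul_right (h.symm.mul_left (Commute.refl (c * c)))
  have s1 : IsSelfAdjoint (c * a * c) := by
    have := ha.conjugate c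
    rwa [hc.star_eq] at this
  have s2 : IsSelfAdjoint (algebraMap ℝ B k * (c * c)) :=
    ((IsSelfAdjoint.algebraMap B (IsSelfAdjoint.all k)).commute_iff hcc).1
      (Algebra.commute_algebraMap_left k _)
  have s3 : IsSelfAdjoint (a * (c * c)) := (ha.commute_iff hcc).1 h.symm
  rw [tau_add D s1 s2 h1, tau_add D s3 s2 h2] at key
  rw [h.eq]
  linarith

/-- An element anticommuting with `c` is centred after multiplication by `c²`. -/
theorem tau_anti_mul_sq {c z : B} (hc : IsSelfAdjoint c) (hz : IsSelfAdjoint z)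
    (h : c * z = -(z * c)) : tau D (z * (c * c)) = 0 := by
  have hcz : Commute (c * c) z := by
    show c * c * z = z * (c * c)
    rw [mul_assoc, h, mul_neg, ← mul_assoc, h, neg_mul, neg_neg, mul_assoc]
  have h1 := tau_sandwich D hc hz hcz
  rw [h, neg_mul, mul_assoc, hcz.eq,
    tau_neg D ((hz.commute_iff ((hc.commute_iff hc).1 (Commute.refl c))).1 hcz.symm)] at h1
  linarith

/-- A flipped element is centred. -/
theorem tau_flip {u z : B} (hu : IsSelfAdjoint u) (hu2 : u * u = 1) (hz : IsSelfAdjoint z)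
    (h : u * z = -(z * u)) : tau D z = 0 := by
  simpa [hu2] using tau_anti_mul_sq D hu hz h

theorem isSelfAdjoint_mul {a b : B} (ha : IsSelfAdjoint a) (hb : IsSelfAdjoint b)
    (h : Commute a b) : IsSelfAdjoint (a * b) := (ha.commute_iff hb).1 h

theorem norm_resolvent_cut {S : B} (hS : IsSelfAdjoint S) {δ : ℝ} (hδ : 0 < δ) :
    ‖S * (1 - cfc (fun t : ℝ => (|t| + δ)⁻¹) (S * S) * (S * S))‖ ≤ √δ := by
  have hsq : cfc (fun t : ℝ => t * t) S = S * S := by
    rw [cfc_mul _ _ S, cfc_id' ℝ S]
  have hg : Continuous fun t : ℝ => (|t| + δ)⁻¹ :=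
    (continuous_abs.add continuous_const).inv₀ fun t => (add_pos_of_nonneg_of_pos (abs_nonneg t) hδ).ne'
  have hG : cfc (fun t : ℝ => (|t * t| + δ)⁻¹) S = cfc (fun t : ℝ => (|t| + δ)⁻¹) (S * S) := by
    rw [← hsq]
    exact cfc_comp' (fun t : ℝ => (|t| + δ)⁻¹) (fun t => t * t) S hg.continuousOn
      (by fun_prop)
  have hc : Continuous fun t : ℝ => (|t * t| + δ)⁻¹ := hg.comp (continuous_id.mul continuous_id)
  have e : S * (1 - cfc (fun t : ℝ => (|t| + δ)⁻¹) (S * S) * (S * S)) =
      cfc (fun t : ℝ => t * (1 - (|t * t| + δ)⁻¹ * (t * t))) S := by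
    have h1 : ContinuousOn (fun t : ℝ => 1 - (|t * t| + δ)⁻¹ * (t * t)) (spectrum ℝ S) :=
      (continuous_const.sub (hc.mul (continuous_id.mul continuous_id))).continuousOn
    have h2 : ContinuousOn (fun t : ℝ => (|t * t| + δ)⁻¹ * (t * t)) (spectrum ℝ S) :=
      (hc.mul (continuous_id.mul continuous_id)).continuousOn
    rw [cfc_mul (fun t : ℝ => t) _ S continuousOn_id h1, cfc_id' ℝ S,
      cfc_sub (fun _ : ℝ => (1 : ℝ)) (fun t : ℝ => (|t * t| + δ)⁻¹ * (t * t)) S continuousOn_const
        h2, cfc_const_one ℝ S, cfc_mul _ (fun t : ℝ => t * t) S hc.continuousOn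
        (continuous_id.mul continuous_id).continuousOn, hsq, hG]
  rw [e]
  refine norm_cfc_le (Real.sqrt_nonneg _) fun t _ => ?_
  have hp : 0 < |t * t| + δ := by positivity
  have hb : 1 - (|t * t| + δ)⁻¹ * (t * t) = δ / (|t * t| + δ) := by
    rw [abs_of_nonneg (mul_self_nonneg t)]
    field_simp
    ring
  rw [hb, Real.norm_eq_abs, abs_mul, abs_of_nonneg (div_nonneg hδ.le hp.le), mul_div_assoc',
    div_le_iff₀ hp, abs_of_nonneg (mul_self_nonneg t)]
  have hq := Real.mul_self_sqrt hδ.le
  nlinarith [sq_nonneg (|t| - √δ), mul_nonneg (Real.sqrt_nonneg δ) (abs_nonneg t),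
    abs_mul_abs_self t, Real.sqrt_nonneg δ]

theorem cf_sq' {P Q : B} (hP2 : P * P = 1) (hQ2 : Q * Q = 1) :
    cf P Q * cf P Q = (P + Q) * (P + Q) * ((P - Q) * (P - Q)) := by
  rw [cf_sq hP2 hQ2]
  have e1 : (P + Q) * (P + Q) = (2 : ℂ) • (1 : B) + (P * Q + Q * P) := by
    simp only [add_mul, mul_add, hP2, hQ2]; module
  have e2 : (P - Q) * (P - Q) = (2 : ℂ) • (1 : B) - (P * Q + Q * P) := by
    simp only [sub_mul, mul_sub, hP2, hQ2]; module
  rw [e1, e2]
  simp only [add_mul, mul_sub, smul_mul_assoc, one_mul, mul_smul_comm, mul_one]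
  module

/-- `P + Q` times a function of `K = PQ + QP` which vanishes at `2` is centred: this is the part
flipped by the commutator, up to norm approximation. -/
theorem tau_sum_low {x P Q : B} (hx : IsSelfAdjoint x) (hxP : Commute x P) (hxQ : Commute x Q)
    (hP : IsSelfAdjoint P) (hQ : IsSelfAdjoint Q) (hP2 : P * P = 1) (hQ2 : Q * Q = 1) :
    tau D (x * ((P + Q) * ((P - Q) * (P - Q)))) = 0 := by
  set S := P + Q with hS
  set A := S * S with hA
  set A' := (P - Q) * (P - Q) with hA'
  set C := cf P Q with hC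
  have hSsa : IsSelfAdjoint S := hP.add hQ
  have hCsa : IsSelfAdjoint C := cf_sa hP hQ
  have hAA : A + A' = (4 : ℂ) • (1 : B) := by
    simp only [hA, hA', hS, add_mul, mul_add, sub_mul, mul_sub, hP2, hQ2]
    module
  have hCC : C * C = A * A' := by
    rw [cf_sq hP2 hQ2]
    have e1 : A = (2 : ℂ) • (1 : B) + (P * Q + Q * P) := by
      simp only [hA, hS, add_mul, mul_add, hP2, hQ2]; module
    have e2 : A' = (2 : ℂ) • (1 : B) - (P * Q + Q * P) := by
      simp only [hA', sub_mul, mul_sub, hP2, hQ2]; module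
    rw [e1, e2]
    simp only [add_mul, mul_sub, smul_mul_assoc, one_mul, mul_smul_comm, mul_one]
    module
  have hCS : C * S = -(S * C) := by
    rw [hS, mul_add, add_mul, (cf_anti hP2 hQ2).1, (cf_anti hP2 hQ2).2]
    abel
  have hxC : Commute x C := ((hxP.mul_right hxQ).sub_right (hxQ.mul_right hxP)).smul_right _
  have hxS : Commute x S := hxP.add_right hxQ
  have hA'eq : A' = (4 : ℂ) • (1 : B) - A := eq_sub_of_add_eq' hAA
  have hSA : Commute S A := (Commute.refl S).mul_right (Commute.refl S)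
  have hSA' : Commute S A' := by
    rw [hA'eq]; exact ((Commute.one_right S).smul_right _).sub_right hSA
  have hA'sa : IsSelfAdjoint A' :=
    ((hP.sub hQ).commute_iff (hP.sub hQ)).1 (Commute.refl _)
  have hAsa : IsSelfAdjoint A := isSelfAdjoint_mul hSsa hSsa (Commute.refl S)
  have hCA : Commute C A := by
    show C * (S * S) = S * S * C
    rw [← mul_assoc, hCS, neg_mul, mul_assoc, hCS, mul_neg, neg_neg, mul_assoc]
  -- approximate `A'` by `g(A) A A'`
  refine eq_of_forall_dist_le fun ε hε => ?_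
  set δ : ℝ := ε ^ 2 / (64 * (‖x‖ + 1) ^ 2) with hδ
  have hδ0 : 0 < δ := by positivity
  set g : ℝ → ℝ := fun t => (|t| + δ)⁻¹ with hg
  have hgc : Continuous g :=
    (continuous_abs.add continuous_const).inv₀ fun t => (add_pos_of_nonneg_of_pos (abs_nonneg t) hδ0).ne'
  set G := cfc g A
  have hGsa : IsSelfAdjoint G := IsSelfAdjoint.cfc
  have hGA : ∀ {w : B}, Commute A w → Commute G w := fun hw => Commute.cfc_real hw _
  have hxA : Commute x A := hxS.mul_right hxS
  set z := x * (S * G) with hzdef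
  have hSG : Commute S G := (hGA hSA.symm).symm
  have hxG : Commute x G := (hGA hxA.symm).symm
  have hz : IsSelfAdjoint z :=
    isSelfAdjoint_mul hx (isSelfAdjoint_mul hSsa hGsa hSG) (hxS.mul_right hxG)
  have hanti : C * z = -(z * C) := by
    rw [hzdef, ← mul_assoc, ← mul_assoc, ← hxC.eq, mul_assoc x C S, hCS, mul_neg, neg_mul,
      mul_assoc x, mul_assoc S C G, (hGA hCA.symm).symm.eq]
    simp only [mul_assoc]
  have h0 := tau_anti_mul_sq D hCsa hz hanti
  rw [hCC] at h0
  have hclose : ‖S * A' - S * G * (A * A')‖ ≤ 8 * √δ := by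
    have e : S * A' - S * G * (A * A') = (S * (1 - G * A)) * A' := by noncomm_ring
    rw [e]
    have n1 : ‖A'‖ ≤ 4 := by
      refine (norm_mul_le _ _).trans ?_
      have : ‖P - Q‖ ≤ 2 := (norm_sub_le _ _).trans (by
        linarith [norm_symm_le hP hP2, norm_symm_le hQ hQ2])
      nlinarith [norm_nonneg (P - Q)]
    have n2 : ‖S * (1 - G * A)‖ ≤ 2 * √δ :=
      (norm_resolvent_cut hSsa hδ0).trans (by linarith [Real.sqrt_nonneg δ])
    calc _ ≤ ‖S * (1 - G * A)‖ * ‖A'‖ := norm_mul_le _ _
      _ ≤ 2 * √δ * 4 := mul_le_mul n2 n1 (norm_nonneg _) (by positivity)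
      _ = _ := by ring
  have hs1 : IsSelfAdjoint (x * (S * A')) := isSelfAdjoint_mul hx (isSelfAdjoint_mul hSsa hA'sa hSA')
    (hxS.mul_right ((hxP.sub_right hxQ).mul_right (hxP.sub_right hxQ)))
  have hs2 : IsSelfAdjoint (z * (A * A')) := by
    rw [← hCC]
    refine isSelfAdjoint_mul hz (isSelfAdjoint_mul hCsa hCsa (Commute.refl C)) ?_
    show z * (C * C) = C * C * z
    rw [mul_assoc C C z, hanti, mul_neg, ← mul_assoc C z C, hanti, neg_mul, neg_neg]
    exact (mul_assoc z C C).symm
  have := abs_tau_sub_le D hs1 hs2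
  rw [h0, sub_zero] at this
  rw [Real.dist_eq, sub_zero]
  refine this.trans ?_
  calc ‖x * (S * A') - z * (A * A')‖ = ‖x * (S * A' - S * G * (A * A'))‖ := by
        rw [hzdef]; congr 1; noncomm_ring
    _ ≤ ‖x‖ * (8 * √δ) := (norm_mul_le _ _).trans (mul_le_mul_of_nonneg_left hclose (norm_nonneg _))
    _ ≤ ε := by
        rw [hδ, Real.sqrt_div (sq_nonneg ε), Real.sqrt_sq hε.le,
          show (64 : ℝ) * (‖x‖ + 1) ^ 2 = (8 * (‖x‖ + 1)) ^ 2 by ring,
          Real.sqrt_sq (by positivity), mul_div_assoc', mul_div_assoc', div_le_iff₀ (by positivity)]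
        nlinarith [norm_nonneg x]

theorem commute_functions {y A : B} (h : Commute y A) (g : ℝ → ℝ) : Commute y (cfc g A) :=
  (Commute.cfc_real h.symm g).symm

/-- On the middle part everything anticommuting with the commutator is centred, so the averages
of `P` and `Q` over the part at `K = 2` agree. -/
theorem tau_part_eq {x P Q : B} (hx : IsSelfAdjoint x) (hxP : Commute x P) (hxQ : Commute x Q)
    (hP : IsSelfAdjoint P) (hQ : IsSelfAdjoint Q) (hP2 : P * P = 1) (hQ2 : Q * Q = 1) :
    tau D (x * (P * ((P + Q) * (P + Q)))) = tau D (x * (Q * ((P + Q) * (P + Q)))) ∧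
      tau D (x * ((P + Q) * ((P + Q) * (P + Q)))) =
        2 * tau D (x * (P * ((P + Q) * (P + Q)))) := by
  set S := P + Q with hS
  set D' := P - Q with hD'
  set A := S * S with hA
  set A' := D' * D' with hA'
  have hSsa : IsSelfAdjoint S := hP.add hQ
  have hD'sa : IsSelfAdjoint D' := hP.sub hQ
  have hAsa : IsSelfAdjoint A := isSelfAdjoint_mul hSsa hSsa (Commute.refl S)
  have hA'sa : IsSelfAdjoint A' := isSelfAdjoint_mul hD'sa hD'sa (Commute.refl D')
  have hxS : Commute x S := hxP.add_right hxQ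
  have hxD : Commute x D' := hxP.sub_right hxQ
  have hK := commute_kernel hP2 hQ2
  have hA1 : A = (2 : ℂ) • (1 : B) + (P * Q + Q * P) := by
    simp only [hA, hS, add_mul, mul_add, hP2, hQ2]; module
  have hA2 : A' = (2 : ℂ) • (1 : B) - (P * Q + Q * P) := by
    simp only [hA', hD', sub_mul, mul_sub, hP2, hQ2]; module
  have cA : ∀ y : B, Commute y (P * Q + Q * P) → Commute y A ∧ Commute y A' := fun y hy =>
    ⟨hA1 ▸ (((Commute.one_right y).smul_right _).add_right hy),
      hA2 ▸ (((Commute.one_right y).smul_right _).sub_right hy)⟩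
  have hPA := cA P hK.1.symm
  have hQA := cA Q hK.2.symm
  have hSA := cA S (hK.1.symm.add_left hK.2.symm)
  have hDA := cA D' (hK.1.symm.sub_left hK.2.symm)
  have hxA := cA x ((hxP.mul_right hxQ).add_right (hxQ.mul_right hxP))
  have hAA : Commute A A' := (hSA.2.mul_left hSA.2)
  set C := cf P Q with hC
  have hCsa : IsSelfAdjoint C := cf_sa hP hQ
  have hCP := (cf_anti hP2 hQ2).1
  have hCQ := (cf_anti hP2 hQ2).2
  have hCA' : Commute C A' := by
    show C * (D' * D') = D' * D' * C
    have hCD : C * D' = -(D' * C) := by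
      rw [hD', mul_sub, sub_mul, hCP, hCQ]; abel
    rw [← mul_assoc, hCD, neg_mul, mul_assoc, hCD, mul_neg, neg_neg, mul_assoc]
  have hxC : Commute x C := ((hxP.mul_right hxQ).sub_right (hxQ.mul_right hxP)).smul_right _
  have step : ∀ δ : ℝ, 0 < δ →
      |tau D (x * (P * A)) - tau D (x * (Q * A))| ≤ 16 * ‖x‖ * √δ ∧
      |tau D (x * (S * A)) - 2 * tau D (x * (P * A))| ≤ 16 * ‖x‖ * √δ := by
    intro δ hδ
    set G := cfc (fun t : ℝ => (|t| + δ)⁻¹) A' with hG
    have hGsa : IsSelfAdjoint G := IsSelfAdjoint.cfc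
    have hxG : Commute x G := commute_functions hxA.2 _
    have hAG : Commute A G := commute_functions hAA _
    have hA'G : Commute A' G := commute_functions (Commute.refl _) _
    have hCG : Commute C G := commute_functions hCA' _
    set e := A * (1 - G * A') with he
    have hesa : IsSelfAdjoint e := isSelfAdjoint_mul hAsa
      ((IsSelfAdjoint.one B).sub (isSelfAdjoint_mul hGsa hA'sa hA'G.symm))
      ((Commute.one_right A).sub_right (hAG.mul_right hAA))
    -- removing the middle part changes no average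
    have key : ∀ w : B, IsSelfAdjoint w → Commute x w → Commute w A → Commute w A' →
        C * w = -(w * C) → tau D (x * (w * A)) = tau D (x * (w * e)) := by
      intro w hw hxw hwA hwA' hCw
      have hwG : Commute w G := commute_functions hwA' _
      have hwe : Commute w e := hwA.mul_right ((Commute.one_right w).sub_right (hwG.mul_right hwA'))
      set z := x * (w * G) with hz'
      have hz : IsSelfAdjoint z :=
        isSelfAdjoint_mul hx (isSelfAdjoint_mul hw hGsa hwG) (hxw.mul_right hxG)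
      have hanti : C * z = -(z * C) := by
        rw [hz', ← mul_assoc, ← mul_assoc, ← hxC.eq, mul_assoc x C w, hCw, mul_neg, neg_mul,
          mul_assoc x, mul_assoc w C G, hCG.eq]
        simp only [mul_assoc]
      have h0 := tau_anti_mul_sq D hCsa hz hanti
      rw [cf_sq' hP2 hQ2] at h0
      have hsplit : x * (w * A) = x * (w * e) + z * (A * A') := by
        rw [he, hz', show A * (1 - G * A') = A - A * G * A' by noncomm_ring, hAG.eq]
        noncomm_ring
      have hxe : Commute x e := hxA.1.mul_right ((Commute.one_right x).sub_right (hxG.mul_right hxA.2))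
      have hze : Commute x z := (Commute.refl x).mul_right (hxw.mul_right hxG)
      have hwz : Commute w z := hxw.symm.mul_right ((Commute.refl w).mul_right hwG)
      have heA : Commute e A := (Commute.refl A).mul_left ((Commute.one_left A).sub_left (hAG.symm.mul_left hAA.symm))
      have heA' : Commute e A' := hAA.mul_left ((Commute.one_left A').sub_left (hA'G.symm.mul_left (Commute.refl A')))
      have heG : Commute e G := hAG.mul_left ((Commute.one_left G).sub_left ((Commute.refl G).mul_left hA'G))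
      have hez : Commute e z := hxe.symm.mul_right (hwe.symm.mul_right heG)
      have hzA : Commute z A := hxA.1.mul_left (hwA.mul_left hAG.symm)
      have hzA' : Commute z A' := hxA.2.mul_left (hwA'.mul_left hA'G.symm)
      rw [hsplit, tau_add D (isSelfAdjoint_mul hx (isSelfAdjoint_mul hw hesa hwe)
        (hxw.mul_right hxe)) (isSelfAdjoint_mul hz (isSelfAdjoint_mul hAsa hA'sa hAA)
        (hzA.mul_right hzA')), h0, add_zero]
      exact ((hze.mul_left (hwz.mul_left hez)).mul_right
        ((hxA.1.mul_right hxA.2).mul_left ((hwA.mul_right hwA').mul_left (heA.mul_right heA'))))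
    have n0 : ‖A‖ ≤ 4 := by
      refine (norm_mul_le _ _).trans ?_
      have : ‖S‖ ≤ 2 := (norm_add_le _ _).trans (by
        linarith [norm_symm_le hP hP2, norm_symm_le hQ hQ2])
      nlinarith [norm_nonneg S]
    have hde : ‖D' * e‖ ≤ 8 * √δ := by
      rw [he, ← mul_assoc, hDA.1.eq, mul_assoc]
      refine (norm_mul_le _ _).trans ((mul_le_mul n0 (norm_resolvent_cut hD'sa hδ) (norm_nonneg _)
        (by norm_num)).trans ?_)
      nlinarith [Real.sqrt_nonneg δ]
    have hPe : Commute P e := hPA.1.mul_right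
      ((Commute.one_right P).sub_right ((commute_functions hPA.2 _).mul_right hPA.2))
    have hQe : Commute Q e := hQA.1.mul_right
      ((Commute.one_right Q).sub_right ((commute_functions hQA.2 _).mul_right hQA.2))
    have hxe : Commute x e := hxA.1.mul_right ((Commute.one_right x).sub_right (hxG.mul_right hxA.2))
    have sPe : IsSelfAdjoint (x * (P * e)) :=
      isSelfAdjoint_mul hx (isSelfAdjoint_mul hP hesa hPe) (hxP.mul_right hxe)
    have sQe : IsSelfAdjoint (x * (Q * e)) :=
      isSelfAdjoint_mul hx (isSelfAdjoint_mul hQ hesa hQe) (hxQ.mul_right hxe)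
    have sSe : IsSelfAdjoint (x * (S * e)) :=
      isSelfAdjoint_mul hx (isSelfAdjoint_mul hSsa hesa (hPe.add_left hQe)) (hxS.mul_right hxe)
    have eP := key P hP hxP hPA.1 hPA.2 (by rw [hCP, neg_neg])
    have eQ := key Q hQ hxQ hQA.1 hQA.2 (by rw [hCQ, neg_neg])
    have eS := key S hSsa hxS hSA.1 hSA.2 (by rw [hS, mul_add, add_mul, hCP, hCQ]; abel)
    have hn : ‖x‖ * ‖D' * e‖ ≤ 16 * ‖x‖ * √δ := by
      nlinarith [mul_le_mul_of_nonneg_left hde (norm_nonneg x), norm_nonneg x, Real.sqrt_nonneg δ]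
    refine ⟨?_, ?_⟩
    · rw [eP, eQ]
      refine (abs_tau_sub_le D sPe sQe).trans ?_
      rw [show x * (P * e) - x * (Q * e) = x * (D' * e) by rw [hD']; noncomm_ring]
      exact (norm_mul_le _ _).trans hn
    · rw [eS, eP, ← tau_smul D sPe 2]
      refine (abs_tau_sub_le D sSe ((IsSelfAdjoint.all (2 : ℝ)).smul sPe)).trans ?_
      rw [show x * (S * e) - (2 : ℝ) • (x * (P * e)) = -(x * (D' * e)) by
        rw [two_smul, hS, hD']; noncomm_ring, norm_neg]
      exact (norm_mul_le _ _).trans hn
  have small : ∀ a : ℝ, (∀ δ : ℝ, 0 < δ → |a| ≤ 16 * ‖x‖ * √δ) → a = 0 := by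
    intro a ha
    refine eq_of_forall_dist_le fun ε hε => ?_
    rw [Real.dist_eq, sub_zero]
    refine (ha ((ε / (16 * ‖x‖ + 1)) ^ 2) (by positivity)).trans ?_
    rw [Real.sqrt_sq (by positivity), mul_div_assoc', div_le_iff₀ (by positivity)]
    nlinarith
  exact ⟨sub_eq_zero.1 (small _ fun δ hδ => (step δ hδ).1),
    sub_eq_zero.1 (small _ fun δ hδ => (step δ hδ).2)⟩

/-- **Two symmetries.** If `P` and `Q` are centred in the context `x`, so is their sum. -/
theorem tau_sum_zero {x P Q : B} (hx : IsSelfAdjoint x) (hxP : Commute x P) (hxQ : Commute x Q)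
    (hP : IsSelfAdjoint P) (hQ : IsSelfAdjoint Q) (hP2 : P * P = 1) (hQ2 : Q * Q = 1)
    (hxP0 : tau D (x * P) = 0) (hxQ0 : tau D (x * Q) = 0) :
    tau D (x * (P + Q)) = 0 := by
  have hxK : Commute x (P * Q + Q * P) := (hxP.mul_right hxQ).add_right (hxQ.mul_right hxP)
  have hK := commute_kernel hP2 hQ2
  set A := (P + Q) * (P + Q) with hA
  set A' := (P - Q) * (P - Q) with hA'
  have hA1 : A = (2 : ℂ) • (1 : B) + (P * Q + Q * P) := by
    simp only [hA, add_mul, mul_add, hP2, hQ2]; module
  have hA2 : A' = (2 : ℂ) • (1 : B) - (P * Q + Q * P) := by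
    simp only [hA', sub_mul, mul_sub, hP2, hQ2]; module
  have cA : ∀ y : B, Commute y (P * Q + Q * P) → Commute y A ∧ Commute y A' := fun y hy =>
    ⟨hA1 ▸ (((Commute.one_right y).smul_right _).add_right hy),
      hA2 ▸ (((Commute.one_right y).smul_right _).sub_right hy)⟩
  have hAsa : IsSelfAdjoint A := isSelfAdjoint_mul (hP.add hQ) (hP.add hQ) (Commute.refl _)
  have hA'sa : IsSelfAdjoint A' := isSelfAdjoint_mul (hP.sub hQ) (hP.sub hQ) (Commute.refl _)
  have hxA := cA x hxK
  have split : ∀ y : B, IsSelfAdjoint y → Commute x y → Commute y (P * Q + Q * P) →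
      tau D (x * (y * A)) + tau D (x * (y * A')) = 4 * tau D (x * y) := by
    intro y hy hxy hyK
    obtain ⟨hyA, hyA'⟩ := cA y hyK
    have hAA : Commute A A' := (cA A ((cA _ (Commute.refl _)).1.symm)).2
    have s1 := isSelfAdjoint_mul hx (isSelfAdjoint_mul hy hAsa hyA) (hxy.mul_right hxA.1)
    have s2 := isSelfAdjoint_mul hx (isSelfAdjoint_mul hy hA'sa hyA') (hxy.mul_right hxA.2)
    have hc : Commute (x * (y * A)) (x * (y * A')) :=
      ((Commute.refl x).mul_right (hxy.mul_right hxA.2)).mul_left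
        ((hxy.symm.mul_right ((Commute.refl y).mul_right hyA')).mul_left
          (hxA.1.symm.mul_right (hyA.symm.mul_right hAA)))
    rw [← tau_add D s1 s2 hc, ← tau_smul D (isSelfAdjoint_mul hx hy hxy)]
    congr 1
    rw [hA1, hA2, show (4 : ℝ) • (x * y) = (4 : ℂ) • (x * y) by
      rw [← Complex.coe_smul]; norm_num]
    simp only [mul_add, mul_sub, mul_smul_comm, mul_one]
    module
  obtain ⟨e1, e2⟩ := tau_part_eq D hx hxP hxQ hP hQ hP2 hQ2
  obtain ⟨e3, -⟩ := tau_part_eq D hx hxP hxQ.neg_right hP hQ.neg hP2 (by rw [neg_mul_neg, hQ2])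
  rw [← sub_eq_add_neg, ← hA'] at e3
  rw [← hA] at e1 e2
  have e4 : tau D (x * (-Q * A')) = -tau D (x * (Q * A')) := by
    rw [neg_mul, mul_neg, tau_neg D (isSelfAdjoint_mul hx (isSelfAdjoint_mul hQ hA'sa
      (cA Q hK.2.symm).2) (hxQ.mul_right hxA.2))]
  rw [e4] at e3
  have sP := split P hP hxP hK.1.symm
  have sQ := split Q hQ hxQ hK.2.symm
  have sS := split (P + Q) (hP.add hQ) (hxP.add_right hxQ) (hK.1.symm.add_left hK.2.symm)
  rw [hxP0] at sP
  rw [hxQ0] at sQ
  rw [show tau D (x * ((P + Q) * A')) = 0 from tau_sum_low D hx hxP hxQ hP hQ hP2 hQ2] at sS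
  linarith

end

end Vale.Agent.P095.Elem.Field
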