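import Vale.Agent.P095.Elem.HalfBump
import Vale.Agent.P095.Elem.OrbTools
import Vale.Agent.P101.Coord

/-!
# P095, amenable groups: translated bumps in an orbit algebra

A family `z s g` of small positive contractions, equivariant in `g`, such that for each sign `s`
one full element sees all `z s g`, `g ∈ E`, as one and all `z (!s) g` as zero.
-/

namespace Vale.Agent.P095.Elem

open scoped CStarAlgebra
open VAgent.P101

noncomputable section

namespace Half

variable {F : Type*} [CStarAlgebra F] {G : Type*} [Group G] {β : G →* (F ≃⋆ₐ[ℂ] F)}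

/-- A full square zero block with plateau, from the absence of characters. -/
theorem exists_fullBlock [Nontrivial F] (hd : Dyn β) :
    ∃ (x g g' : F) (n : ℕ) (r : Fin n → F), Block x g g' ∧
      ∑ l, star (r l) * (g * g) * r l = 1 := by
  classical
  let := CStarAlgebra.spectralOrder F
  have := CStarAlgebra.spectralOrderedRing F
  have hF := hasCopies_of_dyn hd
  obtain ⟨w₀, g₀, hg₀, hfull₀⟩ := exists_commFull hd.nochar
  obtain ⟨H, hH, hHfull⟩ := exists_nonscalar hF g₀ hg₀ hfull₀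
  obtain ⟨a, b, -, -, hab, hfa, hfb⟩ := exists_pair hF H hH hHfull
  obtain ⟨X, hX, hXfull⟩ := exists_squareZero hF H a b hH hHfull hab hfa hfb
  exact exists_block hX hXfull

/-- A product of images of full elements under commuting copies is full. -/
theorem fullSet_copies {B C : Type*} [CStarAlgebra B] [CStarAlgebra C] {n m : ℕ}
    (φ : Fin n → (C →⋆ₐ[ℂ] B)) (hc : ∀ i j, i ≠ j → ∀ u v, Commute (φ i u) (φ j v))
    (w : Fin n → C) (p q : Fin n → Fin m → C) (h : ∀ i, ∑ l, p i l * w i * q i l = 1) :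
    FullSet ({oprod fun i => φ i (w i)} : Set B) :=
  fullSet_oprod (κ := Fin m) (fun i l => φ i (p i l)) (fun i l => φ i (q i l))
    (fun i _ => φ i (w i)) _
    (fun i => by simp only [← map_mul, ← map_sum, h i, map_one])
    (fun i j hij _ _ => hc i j (ne_of_lt hij) _ _)
    (fun _ => TwoSidedIdeal.subset_span rfl)

/-- Translated bumps with two full regions. -/
theorem exists_bumps (hd : Dyn β) (E : Finset G) {θ : ℝ} (hθ : 0 < θ) :
    ∃ (T : Finset F) (z : Bool → G → OrbAlg β T),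
      (∀ s g h, β h (z s g : F) = z s (h * g)) ∧
      (∀ s g, IsPos (z s g) ∧ IsPos (1 - z s g) ∧
        ∀ D : DimState (OrbAlg β T), D (z s g) ≤ θ) ∧
      ∀ s, ∃ c : OrbAlg β T, FullSet ({c} : Set (OrbAlg β T)) ∧
        ∀ g ∈ E, z s g * c = c ∧ z (!s) g * c = 0 := by
  classical
  rcases subsingleton_or_nontrivial F with hF | hF
  · refine ⟨∅, fun _ _ => 0, fun _ _ _ => Subsingleton.elim _ _, fun s g => ⟨⟨0, by simp⟩,
      ⟨1, by simp⟩, fun D => ?_⟩, fun s => ⟨0, ?_, fun g _ => ⟨by simp, by simp⟩⟩⟩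
    · rw [Spec.val_zero]; exact hθ.le
    · show (1 : OrbAlg β ∅) ∈ TwoSidedIdeal.span _
      rw [Subsingleton.elim (1 : OrbAlg β ∅) 0]
      exact zero_mem _
  obtain ⟨x, g₁, g', m, r, hb, hr⟩ := exists_fullBlock hd
  set T₀ : Finset F := insert x (insert g₁ (Finset.univ.image r))
  let x₀ : OrbAlg β T₀ := ⟨x, mem_orbAlg (by simp [T₀])⟩
  let a₀ : OrbAlg β T₀ := ⟨g₁, mem_orbAlg (by simp [T₀])⟩
  let r₀ : Fin m → OrbAlg β T₀ := fun l => ⟨r l, mem_orbAlg (by simp [T₀])⟩
  have hsq : x₀ * x₀ = 0 := Subtype.ext hb.sq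
  have hdn : ‖diagSum x₀‖ ≤ 1 := hb.norm_le
  have hfix : star x₀ * x₀ * a₀ = a₀ := Subtype.ext hb.fix_g
  have hkill : star x₀ * x₀ * (x₀ * a₀) = 0 := by
    rw [show star x₀ * x₀ * (x₀ * a₀) = star x₀ * (x₀ * x₀) * a₀ by simp only [mul_assoc], hsq,
      mul_zero, zero_mul]
  have hwit : ∑ l, star (r₀ l) * a₀ * a₀ * r₀ l = 1 := by
    apply Subtype.ext
    simp only [AddSubmonoidClass.coe_finsetSum, MulMemClass.coe_mul, StarMemClass.coe_star,
      OneMemClass.coe_one, r₀, a₀]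
    exact (Finset.sum_congr rfl fun l _ => by simp only [mul_assoc]).trans hr
  have hwit' : ∑ l, star (r₀ l) * star (x₀ * a₀) * (x₀ * a₀) * r₀ l = 1 := by
    refine (Finset.sum_congr rfl fun l _ => ?_).trans hwit
    have e : star (x₀ * a₀) * (x₀ * a₀) = a₀ * a₀ := Subtype.ext hb.xg_xg
    rw [mul_assoc (star (r₀ l)) (star (x₀ * a₀)), e]
    simp only [mul_assoc]
  -- the sizes
  obtain ⟨N, e₀⟩ : ∃ N, Nonempty (E ≃ Fin N) := ⟨E.card, ⟨E.equivFin⟩⟩
  obtain ⟨eE⟩ := e₀
  obtain ⟨k, hk⟩ := exists_pow_lt_of_lt_one (show (0 : ℝ) < θ / (N + 1) by positivity)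
    (show (1 : ℝ) / 2 < 1 by norm_num)
  set M := k + N + 1 with hM
  have hsmall : (N : ℝ) * (1 / 2) ^ M ≤ θ := by
    have h1 : ((1 : ℝ) / 2) ^ M ≤ (1 / 2) ^ k :=
      pow_le_pow_of_le_one (by norm_num) (by norm_num) (by omega)
    have h2 := (lt_div_iff₀ (by positivity : (0 : ℝ) < N + 1)).mp hk
    nlinarith [show (0 : ℝ) < (1 / 2) ^ k by positivity, show (0 : ℝ) ≤ N by positivity]
  -- the copies
  let I := Bool × Fin N × Fin M
  let eI := Fintype.equivFin I
  obtain ⟨φ, hφe, -, hφc⟩ := exists_orbCopies hd T₀ ∅ (Fintype.card I)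
  set T : Finset F := Finset.univ.biUnion fun i => T₀.attach.image fun t => φ i ⟨t.1, mem_orbAlg t.2⟩
  have hT : ∀ i t (ht : t ∈ T₀), φ i ⟨t, mem_orbAlg ht⟩ ∈ OrbAlg β T := fun i t ht =>
    mem_orbAlg (Finset.mem_biUnion.2 ⟨i, Finset.mem_univ _,
      Finset.mem_image.2 ⟨⟨t, ht⟩, Finset.mem_attach _ _, rfl⟩⟩)
  let ψ : Fin (Fintype.card I) → (OrbAlg β T₀ →⋆ₐ[ℂ] OrbAlg β T) :=
    fun i => orbLift T (φ i) (hφe i) (hT i)
  have hψc : ∀ i j, i ≠ j → ∀ u v, Commute (ψ i u) (ψ j v) := fun i j hij u v =>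
    Subtype.ext (hφc i j hij u v).eq
  have hψeq : ∀ i g h u, β h (ψ i (orbShift β T₀ g u) : F) = ψ i (orbShift β T₀ (h * g) u) := by
    intro i g h u
    simp only [ψ, coe_orbLift]
    rw [← (hφe i).shift h]
    congr 1
    exact Subtype.ext (act_act h g _)
  let blk : Bool → G → Fin N → Fin M → OrbAlg β T :=
    fun s g b c => ψ (eI (s, b, c)) (orbShift β T₀ g x₀)
  have hblk : ∀ s g, BumpBlocks (blk s g) := fun s g =>
    { sq := fun b c => by simp only [blk, ← map_mul, hsq, map_zero]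
      norm_le := fun b c => by
        have e : diagSum (blk s g b c) =
            ((ψ (eI (s, b, c))).comp (orbShift β T₀ g)) (diagSum x₀) := by
          simp only [blk, diagSum, map_add, map_mul, map_star, StarAlgHom.comp_apply]
        rw [e]
        exact (NonUnitalStarAlgHom.norm_apply_le _ _).trans hdn
      comm := fun b c b' c' hne => by
        have hij : eI (s, b, c) ≠ eI (s, b', c') := fun e =>
          hne (Prod.ext_iff.mp (eI.injective e)).2
        refine ⟨hψc _ _ hij _ _, ?_⟩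
        simp only [blk, ← map_star]
        exact hψc _ _ hij _ _ }
  refine ⟨T, fun s g => bump (blk s g), ?_, fun s g => ?_, fun s => ?_⟩
  · intro s g h
    have e1 := map_bump (((β h : F →⋆ₐ[ℂ] F)).comp (OrbAlg β T).subtype) (blk s g)
    have e2 := map_bump (OrbAlg β T).subtype (blk s (h * g))
    simp only [StarAlgHom.comp_apply, StarSubalgebra.subtype_apply] at e1 e2
    refine (e1.trans ?_).trans e2.symm
    congr 1
    funext b c
    exact hψeq _ g h x₀
  · obtain ⟨h1, h2, h3⟩ := (hblk s g).props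
    exact ⟨h1, h2, fun D => (h3 D).trans hsmall⟩
  -- the full element of sign `s`
  let gE : Fin N → G := fun b => (eE.symm b : G)
  let w : Bool × Fin N × Fin M → OrbAlg β T₀ := fun σ =>
    if σ.1 = s then orbShift β T₀ (gE σ.2.1) a₀
    else if h : (σ.2.2 : ℕ) < N then orbShift β T₀ (gE ⟨σ.2.2, h⟩) (x₀ * a₀)
    else a₀
  let f : Fin (Fintype.card I) → OrbAlg β T := fun i => ψ i (w (eI.symm i))
  have hfc : ∀ i j, i ≠ j → Commute (f i) (f j) := fun i j hij => hψc i j hij _ _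
  refine ⟨oprod f, ?_, fun g hg => ?_⟩
  · refine fullSet_copies ψ hψc (fun i => w (eI.symm i))
      (fun i l => if (eI.symm i).1 = s then orbShift β T₀ (gE (eI.symm i).2.1) (star (r₀ l) * a₀)
        else if h : ((eI.symm i).2.2 : ℕ) < N then
          orbShift β T₀ (gE ⟨(eI.symm i).2.2, h⟩) (star (r₀ l) * star (x₀ * a₀))
        else star (r₀ l) * a₀)
      (fun i l => if (eI.symm i).1 = s then orbShift β T₀ (gE (eI.symm i).2.1) (r₀ l)
        else if h : ((eI.symm i).2.2 : ℕ) < N then orbShift β T₀ (gE ⟨(eI.symm i).2.2, h⟩) (r₀ l)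
        else r₀ l) fun i => ?_
    simp only [w]
    split_ifs
    · simp only [← map_mul, ← map_sum, hwit, map_one]
    · simp only [← map_mul, ← map_sum, hwit', map_one]
    · exact hwit
  obtain ⟨b₁, rfl⟩ : ∃ b, gE b = g := ⟨eE ⟨g, hg⟩, by simp [gE]⟩
  constructor
  · refine (hblk s (gE b₁)).fix b₁ fun c => ?_
    refine ((mul_oprod_of_mul f hfc (eI (s, b₁, c)) _).1 ?_)
    simp only [f, blk, w, Equiv.symm_apply_apply, if_true, ← map_star, ← map_mul, hfix]
  · refine (hblk (!s) (gE b₁)).kill fun b => ⟨⟨b₁, by omega⟩, ?_⟩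
    refine ((mul_oprod_of_mul f hfc (eI (!s, b, ⟨b₁, by omega⟩)) _).2 ?_)
    have hs : (!s) ≠ s := by cases s <;> simp
    simp only [f, blk, w, Equiv.symm_apply_apply, if_neg hs, dif_pos b₁.2, ← map_star, ← map_mul,
      Fin.eta, hkill, map_zero]

end Half

end

end Vale.Agent.P095.Elem
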