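import Vale.Agent.P095.Elem.HalfDefs
import Vale.Agent.P095.Elem.HalfPlateau
import Vale.Agent.P095.Elem.Certify
import Vale.Agent.P095.Elem.Bridge

/-!
# P095, amenable groups: halving

From nearly halving elements which are almost fixed in the dimension states: almost invariant
signs which halve every state and have full cuts on both sides.
-/

namespace Vale.Agent.P095.Elem

open scoped CStarAlgebra
open VAgent.P101

noncomputable section

namespace Half

/-- The clip to `[-1, 1]`. -/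
def clip (u : ℝ) : ℝ := max (-1) (min u 1)

theorem continuous_clip : Continuous clip := by unfold clip; fun_prop

theorem clip_neg (u : ℝ) : clip (-u) = -clip u := by
  unfold clip
  cases max_cases (-1 : ℝ) (min (-u) 1) <;> cases max_cases (-1 : ℝ) (min u 1) <;>
    cases min_cases (-u) 1 <;> cases min_cases u 1 <;> linarith

theorem abs_clip_le (u : ℝ) : |clip u| ≤ 1 :=
  abs_le.2 ⟨le_max_left _ _, max_le (by norm_num) (min_le_right _ _)⟩

section General

variable {B : Type*} [CStarAlgebra B]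

theorem exists_poly_lipschitz (p : Polynomial ℝ) {R : ℝ} (hR : 0 ≤ R) :
    ∃ L : ℝ, 0 ≤ L ∧ ∀ a b : B, ‖a‖ ≤ R → ‖b‖ ≤ R →
      ‖Polynomial.aeval a p - Polynomial.aeval b p‖ ≤ L * ‖a - b‖ := by
  induction p using Polynomial.induction_on' with
  | add p q hp hq =>
    obtain ⟨L, hL, hp⟩ := hp
    obtain ⟨M, hM, hq⟩ := hq
    refine ⟨L + M, add_nonneg hL hM, fun a b ha hb => ?_⟩
    rw [map_add, map_add, add_sub_add_comm, add_mul]
    exact (norm_add_le _ _).trans (add_le_add (hp a b ha hb) (hq a b ha hb))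
  | monomial n c =>
    suffices h : ∃ L : ℝ, 0 ≤ L ∧ ∀ a b : B, ‖a‖ ≤ R → ‖b‖ ≤ R →
        ‖a ^ n - b ^ n‖ ≤ L * ‖a - b‖ ∧ ‖a ^ n‖ ≤ max ‖(1 : B)‖ 1 * R ^ n by
      obtain ⟨L, hL, h⟩ := h
      refine ⟨|c| * L, mul_nonneg (abs_nonneg c) hL, fun a b ha hb => ?_⟩
      rw [Polynomial.aeval_monomial, Polynomial.aeval_monomial, ← mul_sub, mul_assoc |c|,
        ← Algebra.smul_def, norm_smul, Real.norm_eq_abs]
      exact mul_le_mul_of_nonneg_left (h a b ha hb).1 (abs_nonneg c)
    induction n with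
    | zero => exact ⟨0, le_rfl, fun a b _ _ => ⟨by simp, by simp⟩⟩
    | succ n ih =>
      obtain ⟨L, hL, h⟩ := ih
      refine ⟨L * R + max ‖(1 : B)‖ 1 * R ^ n, by positivity, fun a b ha hb => ?_⟩
      obtain ⟨h1, h2⟩ := h a b ha hb
      have hb2 := (h b b hb hb).2
      refine ⟨?_, ?_⟩
      · rw [pow_succ, pow_succ,
          show a ^ n * a - b ^ n * b = (a ^ n - b ^ n) * a + b ^ n * (a - b) by noncomm_ring,
          add_mul]
        refine (norm_add_le _ _).trans (add_le_add ((norm_mul_le _ _).trans ?_)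
          ((norm_mul_le _ _).trans (mul_le_mul_of_nonneg_right hb2 (norm_nonneg _))))
        rw [mul_right_comm]
        exact mul_le_mul h1 ha (norm_nonneg _) (mul_nonneg hL (norm_nonneg _))
      · rw [pow_succ, pow_succ, ← mul_assoc]
        exact (norm_mul_le _ _).trans (mul_le_mul h2 ha (norm_nonneg _) (by positivity))

theorem abs_le_norm_of_mem_spectrum {a : B} (ha : IsSelfAdjoint a) {t : ℝ}
    (ht : t ∈ spectrum ℝ a) : |t| ≤ ‖a‖ := by
  let := CStarAlgebra.spectralOrder B
  have := CStarAlgebra.spectralOrderedRing B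
  refine abs_le.2 ⟨(algebraMap_le_iff_le_spectrum (r := -‖a‖) ha).1 ?_ t ht,
    (le_algebraMap_iff_spectrum_le ha).1 ha.le_algebraMap_norm_self t ht⟩
  rw [map_neg]
  exact ha.neg_algebraMap_norm_le_self

/-- Uniform continuity of a function in the functional calculus, on a ball. -/
theorem exists_modulus {f : ℝ → ℝ} (hf : Continuous f) {R : ℝ} (hR : 0 ≤ R) {η : ℝ} (hη : 0 < η) :
    ∃ η' : ℝ, 0 < η' ∧ ∀ a b : B, IsSelfAdjoint a → IsSelfAdjoint b → ‖a‖ ≤ R → ‖b‖ ≤ R →
      ‖a - b‖ ≤ η' → ‖cfc f a - cfc f b‖ ≤ η := by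
  obtain ⟨p, hp⟩ := exists_polynomial_near_of_continuousOn (-R) R f hf.continuousOn (η / 3)
    (by positivity)
  obtain ⟨L, hL, hlip⟩ := exists_poly_lipschitz (B := B) p hR
  refine ⟨η / (3 * (L + 1)), by positivity, fun a b ha hb ha' hb' hab => ?_⟩
  have hnear : ∀ c : B, IsSelfAdjoint c → ‖c‖ ≤ R →
      ‖cfc f c - Polynomial.aeval c p‖ ≤ η / 3 := by
    intro c hc hcR
    rw [← cfc_polynomial p c hc, ← cfc_sub f p.eval c hf.continuousOn]
    refine norm_cfc_le (by positivity) fun r hr => ?_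
    rw [Real.norm_eq_abs, abs_sub_comm]
    exact (hp r (abs_le.1 ((abs_le_norm_of_mem_spectrum hc hr).trans hcR))).le
  rw [show cfc f a - cfc f b = (cfc f a - Polynomial.aeval a p) +
    (Polynomial.aeval a p - Polynomial.aeval b p) - (cfc f b - Polynomial.aeval b p) by abel]
  refine (norm_sub_le _ _).trans ((add_le_add ((norm_add_le _ _).trans (add_le_add (hnear a ha ha')
    ((hlip a b ha' hb').trans (mul_le_mul_of_nonneg_left hab hL)))) (hnear b hb hb')).trans ?_)
  have : L * (η / (3 * (L + 1))) ≤ η / 3 := by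
    rw [mul_div_assoc', div_le_div_iff₀ (by positivity) three_pos]
    nlinarith
  linarith

theorem val_smul_pos_le (D : DimState B) {e : B} (he : IsPos e) {r : ℝ} (hr : 0 ≤ r) :
    IsPos (r • e) ∧ D (r • e) ≤ D e := by
  let := CStarAlgebra.spectralOrder B
  have := CStarAlgebra.spectralOrderedRing B
  exact ⟨Spec.isPos_iff_le'.mpr (smul_nonneg hr (Spec.isPos_iff_le'.mp he)),
    DQ.val_smul_le D (Spec.isPos_iff_le'.mp he) hr⟩

theorem fullSet_hom {C : Type*} [CStarAlgebra C] (φ : C →⋆ₐ[ℂ] B) {x : C}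
    (h : FullSet ({x} : Set C)) : FullSet ({φ x} : Set B) := by
  obtain ⟨n, a, b, e, he, hsum⟩ := h.exists_sum
  refine fullSet_of_sum (fun i => φ (a i)) (fun i => φ (b i)) (fun i => φ (e i))
    (fun i => ?_) ?_
  · rw [Set.mem_singleton_iff.mp (he i)]
    exact TwoSidedIdeal.subset_span rfl
  · simp only [← map_mul, ← map_sum, hsum, map_one]

theorem fullSet_star_mul_self {c : B} (h : FullSet ({c} : Set B)) :
    FullSet ({star c * c} : Set B) := by
  refine h.approx fun x hx ε hε => ?_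
  rw [Set.mem_singleton_iff.mp hx]
  set a := star c * c with ha'
  let := CStarAlgebra.spectralOrder B
  have := CStarAlgebra.spectralOrderedRing B
  have ha0 : 0 ≤ a := star_mul_self_nonneg c
  set δ := ε ^ 2 with hδ
  have hδ0 : 0 < δ := by positivity
  let g : ℝ → ℝ := fun u => (max u 0 + δ)⁻¹
  have hg : Continuous g := Continuous.inv₀ (by fun_prop) fun u => by positivity
  refine ⟨c * cfc g a * a, TwoSidedIdeal.mul_mem_left _ _ _ (TwoSidedIdeal.subset_span rfl), ?_⟩
  set k : ℝ → ℝ := fun u => 1 - g u * u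
  have hk : Continuous k := continuous_const.sub (hg.mul continuous_id)
  have e : c - c * cfc g a * a = c * cfc k a := by
    rw [cfc_sub (fun _ : ℝ => (1 : ℝ)) (fun u => g u * u) a continuousOn_const
        (hg.mul continuous_id).continuousOn, cfc_const_one ℝ a,
      cfc_mul g (fun u : ℝ => u) a hg.continuousOn continuousOn_id, cfc_id' ℝ a]
    noncomm_ring
  rw [e, ← abs_of_pos hε, ← Real.sqrt_sq_eq_abs]
  refine Real.le_sqrt_of_sq_le ?_
  rw [sq, ← CStarRing.norm_star_mul_self, star_mul, (IsSelfAdjoint.cfc (f := k) (a := a)).star_eq,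
    show cfc k a * star c * (c * cfc k a) = cfc k a * a * cfc k a by
      simp only [ha', mul_assoc]]
  conv_lhs => enter [1, 1, 2]; rw [← cfc_id' ℝ a]
  rw [← cfc_mul k (fun u : ℝ => u) a hk.continuousOn continuousOn_id,
    ← cfc_mul (fun u => k u * u) k a (hk.mul continuous_id).continuousOn hk.continuousOn]
  refine norm_cfc_le hδ0.le fun u hu => ?_
  have hu0 : 0 ≤ u := spectrum_nonneg_of_nonneg ha0 hu
  have hk' : k u = δ / (u + δ) := by
    simp only [k, g, max_eq_left hu0]
    field_simp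
    ring
  rw [hk', Real.norm_of_nonneg (by positivity)]
  have h1 : 0 < u + δ := by linarith
  rw [div_mul_eq_mul_div, div_mul_div_comm, div_le_iff₀ (by positivity)]
  nlinarith [mul_nonneg hδ0.le hu0, mul_nonneg hδ0.le (sq_nonneg u),
    mul_nonneg (mul_nonneg hδ0.le hδ0.le) hu0, pow_pos hδ0 3]

/-- The high cut of a clipped perturbation by `3 Φ - 3 Ψ` is full where `Φ` is one and `Ψ` zero. -/
theorem full_cut_clip {y Φ Ψ c : B} (hy : IsSelfAdjoint y) (hyn : ‖y‖ ≤ 1) (hΦ : IsSelfAdjoint Φ)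
    (hΨ : IsSelfAdjoint Ψ) (h1 : Φ * c = c) (h0 : Ψ * c = 0) (hfull : FullSet ({c} : Set B)) :
    FullSet ({cut (1 / 2) (cfc clip (y + (3 : ℝ) • Φ - (3 : ℝ) • Ψ))} : Set B) := by
  let := CStarAlgebra.spectralOrder B
  have := CStarAlgebra.spectralOrderedRing B
  set z := y + (3 : ℝ) • Φ - (3 : ℝ) • Ψ with hz
  have hzs : IsSelfAdjoint z :=
    (hy.add ((IsSelfAdjoint.all _).smul hΦ)).sub ((IsSelfAdjoint.all _).smul hΨ)
  refine (fullSet_star_mul_self hfull).approx fun x hx ε hε => ?_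
  rw [Set.mem_singleton_iff.mp hx]
  set a := star c * c
  set w := cut (1 / 2) (cfc clip z)
  let k : ℝ → ℝ := fun u => max 1 (2 * u - 1)
  have hk : Continuous k := by fun_prop
  have hw' : cut (1 / 2) z = cfc k z * w := by
    simp only [w, cut]
    rw [← cfc_comp' (fun u : ℝ => max (u - 1 / 2) 0) clip z (by fun_prop)
        continuous_clip.continuousOn,
      ← cfc_mul k (fun u => max (clip u - 1 / 2) 0) z hk.continuousOn
        ((continuous_clip.sub continuous_const).max continuous_const).continuousOn]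
    refine cfc_congr fun u _ => ?_
    simp only [k, clip]
    rcases le_total 1 u with hu | hu
    · rw [min_eq_right hu, max_eq_right (by norm_num : (-1 : ℝ) ≤ 1),
        max_eq_left (by linarith : (0 : ℝ) ≤ u - 1 / 2), max_eq_right (by linarith : 1 ≤ 2 * u - 1),
        max_eq_left (by norm_num : (0 : ℝ) ≤ 1 - 1 / 2)]
      ring
    · rw [min_eq_left hu, max_eq_left (by linarith : 2 * u - 1 ≤ 1), one_mul]
      rcases le_total (-1) u with hu' | hu'
      · rw [max_eq_right hu']
      · rw [max_eq_left hu', max_eq_right (by linarith), max_eq_right (by linarith)]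
  have hyge : -(1 : B) ≤ y := by
    refine le_trans ?_ hy.neg_algebraMap_norm_le_self
    rw [neg_le_neg_iff, ← map_one (algebraMap ℝ B)]
    exact algebraMap_mono B hyn
  have ha0 : 0 ≤ a := star_mul_self_nonneg c
  have hz1 : z - algebraMap ℝ B (1 / 2) ≤ cut (1 / 2) z := by
    rw [show z - algebraMap ℝ B (1 / 2) = cfc (fun u : ℝ => u - 1 / 2) z by
      rw [cfc_sub .., cfc_id' ℝ z, cfc_const _ z], cut]
    exact cfc_mono fun u _ => le_max_left _ _
  have hle : (3 / 2 : ℝ) • a ≤ star c * cut (1 / 2) z * c := by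
    refine le_trans ?_ (star_left_conjugate_le_conjugate hz1 c)
    have e : star c * (z - algebraMap ℝ B (1 / 2)) * c =
        star c * (y + 1) * c + (3 / 2 : ℝ) • a := by
      rw [hz, Algebra.algebraMap_eq_smul_one]
      simp only [mul_add, mul_sub, add_mul, sub_mul, mul_smul_comm, smul_mul_assoc, mul_one,
        mul_assoc (star c) Φ c, h1, mul_assoc (star c) Ψ c, h0, mul_zero, smul_zero, sub_zero]
      rw [show star c * c = a from rfl]
      module
    rw [e]
    exact le_add_of_nonneg_left (star_left_conjugate_nonneg (by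
      rw [← sub_neg_eq_add]; exact sub_nonneg.mpr hyge) c)
  obtain ⟨v, hv⟩ := DQ.exists_conj_near_of_le (smul_nonneg (by norm_num) ha0) hle
    (show 0 < (3 / 2 : ℝ) * ε by positivity)
  refine ⟨algebraMap ℝ B (2 / 3) * (star v * star c * cfc k z * w * (c * v)),
    TwoSidedIdeal.mul_mem_left _ _ _ (TwoSidedIdeal.mul_mem_right _ _ _
      (TwoSidedIdeal.mul_mem_left _ _ _ (TwoSidedIdeal.subset_span rfl))), ?_⟩
  rw [← Algebra.smul_def, norm_sub_rev]
  have e2 : star v * star c * cfc k z * w * (c * v) = star v * (star c * cut (1 / 2) z * c) * v := by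
    rw [hw']; simp only [mul_assoc]
  rw [e2]
  have e3 : (2 / 3 : ℝ) • (star v * (star c * cut (1 / 2) z * c) * v) - a =
      (2 / 3 : ℝ) • (star v * (star c * cut (1 / 2) z * c) * v - (3 / 2 : ℝ) • a) := by
    rw [smul_sub, smul_smul]; norm_num
  rw [e3, norm_smul, Real.norm_of_nonneg (by norm_num : (0 : ℝ) ≤ 2 / 3)]
  linarith [hv]

/-- Clipping keeps the cuts below one, up to the small perturbation. -/
theorem val_cut_clip_ge (D : DimState B) {y Φ Ψ : B} (hy : IsSelfAdjoint y) (hΦ : IsPos Φ)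
    (hΨ : IsPos Ψ) {s t : ℝ} (hts : t < s) (ht1 : t < 1) :
    D (cut s y) ≤ D (cut t (cfc clip (y + Φ - Ψ))) + D Ψ := by
  set z := y + Φ - Ψ
  have hzs : IsSelfAdjoint z := (hy.add (Spec.sa_of_isPos hΦ)).sub (Spec.sa_of_isPos hΨ)
  refine (val_cut_le_shift D hy hzs hΨ (r := 0) (t := t) ?_ (by linarith)).trans (add_le_add ?_ le_rfl)
  · rw [map_zero, add_zero, show z + Ψ - y = Φ by simp only [z]; abel]
    exact hΦ
  · have e : cut t (cfc clip z) = cfc (fun u => max (clip u - t) 0) z := by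
      rw [cut, ← cfc_comp' (fun u : ℝ => max (u - t) 0) clip z (by fun_prop)
        continuous_clip.continuousOn]
    rw [e]
    refine val_cfc_le D hzs (by fun_prop)
      ((continuous_clip.sub continuous_const).max continuous_const) (fun _ => le_max_right _ _)
      (fun _ => le_max_right _ _) fun u _ hu => lt_max_of_lt_left ?_
    have : t < u := by
      rcases lt_max_iff.mp hu with h | h
      · linarith
      · exact absurd h (lt_irrefl _)
    simp only [clip, sub_pos]
    exact lt_max_of_lt_right (lt_min this ht1)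

end General

variable {F : Type*} [CStarAlgebra F] {G : Type*} [Group G]

/-- The means over a Følner set of an equivariant bounded family are almost fixed. -/
theorem norm_act_mean_sub_le (β : G →* (F ≃⋆ₐ[ℂ] F)) (z : G → F) (hn : ∀ g, ‖z g‖ ≤ 1)
    (heq : ∀ g h, β h (z g) = z (h * g)) {E : Finset G} (hE : E.Nonempty) {δ : ℝ} (h : G)
    (hh : ({x | x ∈ E ∧ h * x ∉ E}.ncard : ℝ) ≤ δ * E.card) :
    ‖β h ((E.card : ℝ)⁻¹ • ∑ g ∈ E, z g) - (E.card : ℝ)⁻¹ • ∑ g ∈ E, z g‖ ≤ 2 * δ := by
  classical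
  have hc : (0 : ℝ) < E.card := by exact_mod_cast hE.card_pos
  set E' := E.image (h * ·)
  have hinj : Function.Injective (h * · : G → G) := mul_right_injective h
  have e1 : β h ((E.card : ℝ)⁻¹ • ∑ g ∈ E, z g) = (E.card : ℝ)⁻¹ • ∑ g ∈ E', z g := by
    rw [← Complex.coe_smul, map_smul, map_sum, Complex.coe_smul,
      Finset.sum_image fun a _ b _ hab => hinj hab]
    exact congrArg _ (Finset.sum_congr rfl fun g _ => heq g h)
  have hcard : ((E' \ E).card : ℝ) ≤ δ * E.card ∧ ((E \ E').card : ℝ) ≤ δ * E.card := by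
    have e : ({x | x ∈ E ∧ h * x ∉ E} : Set G) = ↑(E.filter fun x => h * x ∉ E) := by
      ext x; simp
    rw [e, Set.ncard_coe_finset] at hh
    have e2 : E' \ E = (E.filter fun x => h * x ∉ E).image (h * ·) := by
      ext x
      simp only [E', Finset.mem_sdiff, Finset.mem_image, Finset.mem_filter]
      constructor
      · rintro ⟨⟨a, ha, rfl⟩, hx⟩; exact ⟨a, ⟨ha, hx⟩, rfl⟩
      · rintro ⟨a, ⟨ha, hx⟩, rfl⟩; exact ⟨⟨a, ha, rfl⟩, hx⟩
    have e3 : (E' \ E).card = (E \ E').card := by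
      have h1 := Finset.card_sdiff_add_card E' E
      have h2 := Finset.card_sdiff_add_card E E'
      have h3 : E'.card = E.card := Finset.card_image_of_injective _ hinj
      rw [Finset.union_comm E E'] at h2
      omega
    rw [← e3, and_self, e2, Finset.card_image_of_injective _ hinj]
    exact hh
  rw [e1, ← smul_sub, ← Finset.sum_sdiff_sub_sum_sdiff, norm_smul,
    Real.norm_of_nonneg (inv_nonneg.2 hc.le), inv_mul_le_iff₀ hc]
  refine (norm_sub_le _ _).trans (le_trans (add_le_add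
    ((norm_sum_le _ _).trans (Finset.sum_le_sum fun g _ => hn g))
    ((norm_sum_le _ _).trans (Finset.sum_le_sum fun g _ => hn g))) ?_)
  simp only [Finset.sum_const, nsmul_eq_mul, mul_one]
  linarith [hcard.1, hcard.2]

theorem norm_le_one_of_isPos {x : F} (h : IsPos x) (h' : IsPos (1 - x)) : ‖x‖ ≤ 1 := by
  let := CStarAlgebra.spectralOrder F
  have := CStarAlgebra.spectralOrderedRing F
  exact (CStarAlgebra.norm_le_one_iff_of_nonneg _ (Spec.isPos_iff_le'.mp h)).mpr
    (sub_nonneg.mp (Spec.isPos_iff_le'.mp h'))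

variable {β : G →* (F ≃⋆ₐ[ℂ] F)}

/-- The bridge from almost fixed in the states to almost fixed in norm. -/
def BridgeProp (β : G →* (F ≃⋆ₐ[ℂ] F)) : Prop :=
  ∀ (K : Finset G) (η : ℝ), 0 < η → ∃ W : Finset G, ∀ θ, 0 < θ → ∃ δ, 0 < δ ∧ ∀ x : F, ‖x‖ ≤ 1 →
    (∀ g ∈ W, ∀ D : DimState F, D (cut δ (star (β g x - x) * (β g x - x))) ≤ δ) →
    ∃ e : F, IsPosC e ∧ AlmostFixed β K η e ∧ AlmostFixed β K η ((1 - e) * x * (1 - e)) ∧
      (∀ D : DimState F, D (cut θ e) ≤ θ) ∧
      ∀ D : DimState F, D (cut θ (star (x - (1 - e) * x * (1 - e)) *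
        (x - (1 - e) * x * (1 - e)))) ≤ θ

/-- Almost invariant signs with full cuts, from nearly halving elements. -/
theorem halfStatement_of (hd : Dyn β) (hF : Folner G) (hBr : BridgeProp β)
    (hA : AlmostHalfStatement β) : HalfStatement β := by
  classical
  intro K η θ hη hθ
  obtain ⟨η0, hη0, hmod⟩ := exists_modulus (B := F) continuous_clip (by norm_num : (0 : ℝ) ≤ 7) hη
  obtain ⟨E, hE, hEF⟩ := hF K (η0 / 24) (by positivity)
  have hc : (0 : ℝ) < E.card := by exact_mod_cast hE.card_pos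
  set ρ := min (θ / 8) (1 / 16) with hρ
  have hρ0 : 0 < ρ := by positivity
  have hρ1 : ρ ≤ θ / 8 := min_le_left _ _
  have hρ2 : ρ ≤ 1 / 16 := min_le_right _ _
  obtain ⟨T₀, z, hzeq, hz, hzc⟩ := exists_bumps hd E (θ := θ / 8 / E.card) (by positivity)
  obtain ⟨W, hW⟩ := hBr K (η0 / 2) (by positivity)
  obtain ⟨δb, hδb, hWb⟩ := hW ((ρ / 5) ^ 2) (by positivity)
  obtain ⟨x, hx⟩ := hA W (min δb (ρ / 5)) (by positivity)
  obtain ⟨e, he, -, hfix, -, hsmall⟩ := hWb x hx.contr fun g hg D =>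
    (val_cut_anti D (IsSelfAdjoint.star_mul_self _) (min_le_left _ _)).trans
      ((hx.move g hg D).trans (min_le_left _ _))
  set x' := (1 - e) * x * (1 - e) with hx'
  have hes : IsSelfAdjoint (1 - e) := (IsSelfAdjoint.one F).sub (Spec.sa_of_isPos he.1)
  have hx's : IsSelfAdjoint x' := by
    have := hx.sa.conjugate (1 - e)
    rwa [hes.star_eq] at this
  have hx'n : ‖x'‖ ≤ 1 := by
    rcases subsingleton_or_nontrivial F with h | h
    · rw [Subsingleton.elim x' 0, norm_zero]; exact zero_le_one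
    let := CStarAlgebra.spectralOrder F
    have := CStarAlgebra.spectralOrderedRing F
    have h0 : 0 ≤ e := Spec.isPos_iff_le'.mp he.1
    have h1 : ‖1 - e‖ ≤ 1 := (CStarAlgebra.norm_le_one_iff_of_nonneg _ (sub_nonneg.mpr
      ((CStarAlgebra.norm_le_one_iff_of_nonneg _ h0).mp he.2))).mpr (sub_le_self _ h0)
    exact norm_mul₃_le.trans (mul_le_one₀ (mul_le_one₀ h1 (norm_nonneg _) hx.contr)
      (norm_nonneg _) h1)
  have hsq : √((ρ / 5) ^ 2) = ρ / 5 := Real.sqrt_sq (by positivity)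
  have hδ := min_le_right δb (ρ / 5)
  have hF1 : ∀ D : DimState F, 1 / 2 - ρ / 2 ≤ D (cut (1 - ρ / 2) x') := fun D => by
    have h := val_cut_le_of_diff D hx.sa hx's (θ := (ρ / 5) ^ 2) (by positivity)
      (s := 1 - min δb (ρ / 5)) (t := 1 - ρ / 2) (by rw [hsq]; linarith)
    nlinarith [hx.pos_ge D, hsmall D]
  have hF2 : ∀ D : DimState F, 1 / 2 - ρ / 2 ≤ D (cut (1 - ρ / 2) (-x')) := fun D => by
    have h := val_cut_le_of_diff D hx.sa.neg hx's.neg (θ := (ρ / 5) ^ 2) (by positivity)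
      (s := 1 - min δb (ρ / 5)) (t := 1 - ρ / 2) (by rw [hsq]; linarith)
    have e2 : star (-x - -x') * (-x - -x') = star (x - x') * (x - x') := by
      rw [show -x - -x' = -(x - x') by abel, star_neg, neg_mul_neg]
    rw [e2] at h
    nlinarith [hx.neg_ge D, hsmall D]
  obtain ⟨W1, hxW, hW1⟩ := exists_cert_ge (β := β) hx's (t := 1 - ρ / 2) (c := 1 / 2 - ρ)
    le_rfl (by linarith) hF1
  obtain ⟨W2, -, hW2⟩ := exists_cert_ge (β := β) hx's.neg (t := 1 - ρ / 2) (c := 1 / 2 - ρ)
    le_rfl (by linarith) hF2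
  set T := T₀ ∪ W1 ∪ W2 with hT
  have hT0 : T₀ ⊆ T := fun a ha => Finset.mem_union_left _ (Finset.mem_union_left _ ha)
  have hT1 : W1 ⊆ T := fun a ha => Finset.mem_union_left _ (Finset.mem_union_right _ ha)
  have hT2 : W2 ⊆ T := fun a ha => Finset.mem_union_right _ ha
  let := CStarAlgebra.spectralOrder (OrbAlg β T)
  have := CStarAlgebra.spectralOrderedRing (OrbAlg β T)
  let y : OrbAlg β T := ⟨x', mem_orbAlg (hT1 hxW)⟩
  have hys : IsSelfAdjoint y := Subtype.ext hx's.star_eq
  let ι := orbInclusion β hT0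
  let u : Bool → G → OrbAlg β T := fun s g => ι (z s g)
  let Φ : Bool → OrbAlg β T := fun s => (E.card : ℝ)⁻¹ • ∑ g ∈ E, u s g
  have hu : ∀ s g, IsPos (u s g) ∧ IsPos (1 - u s g) ∧
      ∀ D : DimState (OrbAlg β T), D (u s g) ≤ θ / 8 / E.card := fun s g =>
    ⟨DQ.map_isPos ι (hz s g).1, by
      rw [show 1 - u s g = ι (1 - z s g) by rw [map_sub, map_one]]
      exact DQ.map_isPos ι (hz s g).2.1, fun D => (hz s g).2.2 (DQ.comap D ι)⟩
  have hΦp : ∀ s, IsPos (Φ s) := fun s => Spec.isPos_iff_le'.mpr (smul_nonneg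
    (inv_nonneg.2 hc.le) (Finset.sum_nonneg fun g _ => Spec.isPos_iff_le'.mp (hu s g).1))
  have hΦ3 : ∀ s, IsPos ((3 : ℝ) • Φ s) := fun s =>
    Spec.isPos_iff_le'.mpr (smul_nonneg (by norm_num) (Spec.isPos_iff_le'.mp (hΦp s)))
  have hΦD : ∀ s (D : DimState (OrbAlg β T)), D ((3 : ℝ) • Φ s) ≤ θ / 8 := by
    intro s D
    have hsum : IsPos (∑ g ∈ E, u s g) := Spec.isPos_iff_le'.mpr
      (Finset.sum_nonneg fun g _ => Spec.isPos_iff_le'.mp (hu s g).1)
    refine ((val_smul_pos_le D (hΦp s) (by norm_num)).2.trans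
      (val_smul_pos_le D hsum (inv_nonneg.2 hc.le)).2).trans ?_
    have key : ∀ E' : Finset G, D (∑ g ∈ E', u s g) ≤ E'.card * (θ / 8 / E.card) := by
      intro E'
      induction E' using Finset.induction_on with
      | empty => simp [Spec.val_zero]
      | insert g E' hg ih =>
        rw [Finset.sum_insert hg, Finset.card_insert_of_notMem hg]
        refine (DQ.val_add_le D (Spec.isPos_iff_le'.mp (hu s g).1)
          (Finset.sum_nonneg fun k _ => Spec.isPos_iff_le'.mp (hu s k).1)).trans ?_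
        push_cast
        linarith [(hu s g).2.2 D]
    refine (key E).trans (le_of_eq ?_)
    field_simp
  set Z := y + (3 : ℝ) • Φ true - (3 : ℝ) • Φ false with hZ
  have hZs : IsSelfAdjoint Z :=
    (hys.add (Spec.sa_of_isPos (hΦ3 true))).sub (Spec.sa_of_isPos (hΦ3 false))
  set S := cfc clip Z with hS
  have hSs : IsSelfAdjoint S := IsSelfAdjoint.cfc
  have hnegS : -S = cfc clip (-y + (3 : ℝ) • Φ false - (3 : ℝ) • Φ true) := by
    rw [show -y + (3 : ℝ) • Φ false - (3 : ℝ) • Φ true = -Z by rw [hZ]; abel, hS,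
      ← cfc_comp_neg clip Z continuous_clip.continuousOn hZs, ← cfc_neg]
    exact cfc_congr fun v _ => (clip_neg v).symm
  have hlow : ∀ D : DimState (OrbAlg β T),
      1 / 2 - θ / 4 ≤ D (cut (1 - ρ) S) ∧ 1 / 2 - θ / 4 ≤ D (cut (1 - ρ) (-S)) := by
    intro D
    constructor
    · have h := val_cut_clip_ge D hys (hΦ3 true) (hΦ3 false) (s := 1 - ρ / 2) (t := 1 - ρ)
        (by linarith) (by linarith)
      linarith [hW1 T hT1 y rfl D, hΦD false D]
    · have h := val_cut_clip_ge D hys.neg (hΦ3 false) (hΦ3 true) (s := 1 - ρ / 2) (t := 1 - ρ)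
        (by linarith) (by linarith)
      rw [← hnegS] at h
      linarith [hW2 T hT2 (-y) rfl D, hΦD true D]
  have hdef : ∀ D : DimState (OrbAlg β T), D (cut θ (1 - S * S)) ≤ θ := fun D => by
    have h := val_defect_le D hSs (θ := θ) (t := 1 - ρ) (by linarith) (by nlinarith)
    linarith [hlow D]
  have hone : ∀ (D : DimState (OrbAlg β T)) (v : OrbAlg β T), IsSelfAdjoint v →
      D (cut (1 - ρ) v) ≤ D (ppart v) :=
    fun D v hv => val_cut_anti D hv (by linarith)
  have hsum1 : ∀ D : DimState (OrbAlg β T), D (ppart S) + D (ppart (-S)) ≤ 1 :=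
    fun D => val_cut_add_le_one D hSs le_rfl le_rfl
  have hFn : ∀ s (g : G), ‖(z s g : F)‖ ≤ 1 := fun s g =>
    norm_le_one_of_isPos (DQ.map_isPos (OrbAlg β T₀).subtype (hz s g).1)
      (DQ.map_isPos (OrbAlg β T₀).subtype (hz s g).2.1)
  refine ⟨T, S, ⟨hSs, norm_cfc_le zero_le_one fun v _ => abs_clip_le v, ?_, fun D => ?_,
    fun D => ?_, hdef, ?_, ?_⟩⟩
  · -- almost fixed
    intro g hg
    let Ψ : Bool → F := fun s => (E.card : ℝ)⁻¹ • ∑ k ∈ E, (z s k : F)
    have hΨ : ∀ s, (Φ s : F) = Ψ s := fun s => by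
      show (OrbAlg β T).subtype ((E.card : ℝ)⁻¹ • ∑ k ∈ E, u s k) = _
      rw [← Complex.coe_smul, map_smul, map_sum, Complex.coe_smul]
      exact congrArg _ (Finset.sum_congr rfl fun k _ => coe_orbInclusion hT0 (z s k))
    have hΨn : ∀ s, ‖Ψ s‖ ≤ 1 := fun s => by
      refine (norm_smul_le _ _).trans ?_
      rw [Real.norm_of_nonneg (inv_nonneg.2 hc.le), inv_mul_le_iff₀ hc]
      exact (norm_sum_le _ _).trans ((Finset.sum_le_sum fun k _ => hFn s k).trans (by simp))
    have hcoe : ∀ (r : ℝ) (v : OrbAlg β T), ((r • v : OrbAlg β T) : F) = r • (v : F) :=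
      fun _ _ => rfl
    have hSF : (S : F) = cfc clip (x' + (3 : ℝ) • Ψ true - (3 : ℝ) • Ψ false) := by
      rw [hS, coe_cfc Z hZs clip continuous_clip]
      simp only [hZ, AddSubgroupClass.coe_sub, AddMemClass.coe_add, hcoe, hΨ, y]
    set P := x' + (3 : ℝ) • Ψ true - (3 : ℝ) • Ψ false with hP
    have hPs : IsSelfAdjoint P := by
      have := hZs.map (OrbAlg β T).subtype
      simpa only [hZ, StarSubalgebra.subtype_apply, AddSubgroupClass.coe_sub, AddMemClass.coe_add,
        hcoe, hΨ, y] using this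
    have hPn : ‖P‖ ≤ 7 := by
      refine (norm_sub_le _ _).trans ((add_le_add ((norm_add_le _ _).trans
        (add_le_add hx'n (norm_smul_le _ _))) (norm_smul_le _ _)).trans ?_)
      rw [Real.norm_of_nonneg (by norm_num : (0 : ℝ) ≤ 3)]
      linarith [hΨn true, hΨn false]
    rw [hSF]
    have e1 : β g (cfc clip P) = cfc clip (β g P) :=
      StarAlgHomClass.map_cfc (β g : F →⋆ₐ[ℂ] F) clip P continuous_clip.continuousOn
        (map_continuous _) hPs (hPs.map _)
    rw [e1]
    refine hmod _ _ (hPs.map (β g : F →⋆ₐ[ℂ] F)) hPs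
      ((NonUnitalStarAlgHom.norm_apply_le (β g : F →⋆ₐ[ℂ] F) P).trans hPn) hPn ?_
    have hs : ∀ s, ‖β g ((3 : ℝ) • Ψ s) - (3 : ℝ) • Ψ s‖ ≤ η0 / 4 := fun s => by
      rw [← Complex.coe_smul, map_smul, ← smul_sub, norm_smul, Complex.norm_real,
        Real.norm_of_nonneg (by norm_num : (0 : ℝ) ≤ 3)]
      refine (mul_le_mul_of_nonneg_left (norm_act_mean_sub_le β (fun k => (z s k : F))
        (hFn s) (fun k h => hzeq s k h) hE g (hEF g hg)) (by norm_num)).trans (le_of_eq ?_)
      ring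
    rw [hP, map_sub, map_add, show β g x' + β g ((3 : ℝ) • Ψ true) - β g ((3 : ℝ) • Ψ false) -
        (x' + (3 : ℝ) • Ψ true - (3 : ℝ) • Ψ false) = (β g x' - x') +
        (β g ((3 : ℝ) • Ψ true) - (3 : ℝ) • Ψ true) -
        (β g ((3 : ℝ) • Ψ false) - (3 : ℝ) • Ψ false) by abel]
    refine (norm_sub_le _ _).trans ((add_le_add ((norm_add_le _ _).trans
      (add_le_add (hfix g hg) (hs true))) (hs false)).trans ?_)
    linarith
  · rw [abs_le]
    constructor <;> linarith [hlow D, hsum1 D, hone D S hSs, hone D (-S) hSs.neg]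
  · rw [abs_le]
    constructor <;> linarith [hlow D, hsum1 D, hone D S hSs, hone D (-S) hSs.neg]
  · -- full cuts
    obtain ⟨c, hc', hcE⟩ := hzc true
    refine full_cut_clip hys hx'n (Spec.sa_of_isPos (hΦp true)) (Spec.sa_of_isPos (hΦp false))
      (c := ι c) ?_ ?_ (fullSet_hom ι hc')
    · simp only [Φ, u, smul_mul_assoc, Finset.sum_mul, ← map_mul]
      rw [Finset.sum_congr rfl fun k hk => congrArg ι (hcE k hk).1, Finset.sum_const,
        ← Nat.cast_smul_eq_nsmul ℝ, smul_smul, inv_mul_cancel₀ hc.ne', one_smul]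
    · simp only [Φ, u, smul_mul_assoc, Finset.sum_mul, ← map_mul]
      rw [Finset.sum_eq_zero fun k hk => by rw [show z false k * c = 0 from (hcE k hk).2, map_zero],
        smul_zero]
  · obtain ⟨c, hc', hcE⟩ := hzc false
    show FullSet _
    rw [hnegS]
    refine full_cut_clip hys.neg (by rw [norm_neg]; exact hx'n) (Spec.sa_of_isPos (hΦp false))
      (Spec.sa_of_isPos (hΦp true)) (c := ι c) ?_ ?_ (fullSet_hom ι hc')
    · simp only [Φ, u, smul_mul_assoc, Finset.sum_mul, ← map_mul]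
      rw [Finset.sum_congr rfl fun k hk => congrArg ι (hcE k hk).1, Finset.sum_const,
        ← Nat.cast_smul_eq_nsmul ℝ, smul_smul, inv_mul_cancel₀ hc.ne', one_smul]
    · simp only [Φ, u, smul_mul_assoc, Finset.sum_mul, ← map_mul]
      rw [Finset.sum_eq_zero fun k hk => by rw [show z true k * c = 0 from (hcE k hk).2, map_zero],
        smul_zero]

/-- Almost invariant signs with full cuts, from nearly halving elements. -/
theorem halfStatement_of_almost (hd : Dyn β) (hF : Folner G) (hA : AlmostHalfStatement β) :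
    HalfStatement β :=
  halfStatement_of hd hF (fun K _ hη => Elem.exists_almostFixed β K hη) hA

end Half

end

end Vale.Agent.P095.Elem
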