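import Vale.Agent.P095.Elem.Calc
import Vale.Agent.P095.Elem.Copies
import Vale.Agent.P095.Elem.Half
import Vale.Agent.P101.Pair

/-!
# P095, amenable groups: a symmetry anticommuting with a sign

The positive side of a sign, minus the pattern of `m` commuting copies, is strictly smaller than
the negative side at every dimension state. Comparison moves it into the negative side by an
element `t` of square zero, and `u = t + star t` anticommutes exactly with the clipped sign.
-/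

namespace Vale.Agent.P095.Elem.Flip

open VAgent.P101 Vale.Agent.P101
open scoped CStarAlgebra

noncomputable section

/-! ### Functions -/

/-- The clipped identity. -/
def clip4 (s : ℝ) : ℝ := max (-1) (min 1 (4 * s))

theorem continuous_clip4 : Continuous clip4 := by unfold clip4; fun_prop

theorem clip4_neg (s : ℝ) : clip4 (-s) = -clip4 s := by
  unfold clip4
  rcases le_total (4 * s) 1 with h | h <;> rcases le_total (-1) (4 * s) with h' | h' <;>
    simp [min_def, max_def] <;> split_ifs <;> linarith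

theorem abs_clip4_le (s : ℝ) : |clip4 s| ≤ 1 :=
  abs_le.2 ⟨le_max_left _ _, max_le (by norm_num) (min_le_left _ _)⟩

theorem clip4_of_ge {s : ℝ} (h : 1 / 4 ≤ s) : clip4 s = 1 := by
  rw [clip4, min_eq_left (by linarith), max_eq_right (by norm_num)]

/-- The side of a sign. -/
def rp (s : ℝ) : ℝ := ramp (3 / 10) (1 / 10) s

/-- The middle of the side of a sign. -/
def rq (s : ℝ) : ℝ := ramp (1 / 2) (1 / 10) s

/-- Off the high part of the pattern. -/
def gDown (s : ℝ) : ℝ := 1 - ramp (1 / 2) (1 / 4) s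

/-- The high part of the pattern. -/
def gUp (s : ℝ) : ℝ := ramp (3 / 4) (1 / 4) s

/-- The low part of the pattern. -/
def gLow (s : ℝ) : ℝ := max (1 / 2 - s) 0

theorem ramp_mem (a e s : ℝ) : 0 ≤ ramp a e s ∧ ramp a e s ≤ 1 :=
  ⟨le_max_left _ _, max_le zero_le_one (min_le_left _ _)⟩

theorem ramp_pos {a e s : ℝ} (he : 0 < e) (h : a < s) : 0 < ramp a e s :=
  lt_max_of_lt_right (lt_min one_pos (div_pos (by linarith) he))

theorem rp_mul_rq (s : ℝ) : rp s * rq s = rq s := by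
  rcases le_total s (1 / 2) with h | h
  · rw [rq, ramp_of_le (by norm_num) h, mul_zero]
  · rw [rp, ramp_of_ge (by norm_num) (by linarith), one_mul]

theorem rp_mul_clip4 (s : ℝ) : rp s * clip4 s = rp s := by
  rcases le_total s (3 / 10) with h | h
  · rw [rp, ramp_of_le (by norm_num) h, zero_mul]
  · rw [clip4_of_ge (by linarith), mul_one]

theorem clip4_mul_sqrt_rp (s : ℝ) : clip4 s * Real.sqrt (rp s) = Real.sqrt (rp s) := by
  rcases le_total s (3 / 10) with h | h
  · rw [rp, ramp_of_le (by norm_num) h, Real.sqrt_zero, mul_zero]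
  · rw [clip4_of_ge (by linarith), one_mul]

theorem gDown_mul_gLow (s : ℝ) : gDown s * gLow s = gLow s := by
  rcases le_total s (1 / 2) with h | h
  · rw [gDown, ramp_of_le (by norm_num) h, sub_zero, one_mul]
  · rw [gLow, max_eq_right (by linarith), mul_zero]

section Alg

variable {B : Type*} [CStarAlgebra B]

/-- Cutting a pair of commuting positive elements along the second one. -/
theorem pair_bounds (D : DimState B) {X Y : B} (hX : IsPos X) (hY : IsPos Y) (h : Commute X Y) :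
    D (X * cfc gDown Y) + D (X * cfc gUp Y) ≤ D X ∧
      D X ≤ D (X * cfc gLow Y) + D (X * Y) := by
  have hc := commSA_ctx_pair hX.isSelfAdjoint hY.isSelfAdjoint h
  set Φ := Spec.jointHom hc
  set x := Spec.coord hc (x := X) (by simp)
  set y := Spec.coord hc (x := Y) (by simp)
  have eX : Spec.fval Φ x = X := Spec.jointHom_coord hc _
  have eY : Spec.fval Φ y = Y := Spec.jointHom_coord hc _
  have hcD : Continuous gDown := continuous_const.sub (continuous_ramp _ _)
  have hcU : Continuous gUp := continuous_ramp _ _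
  have hcL : Continuous gLow := by unfold gLow; fun_prop
  have hx : ∀ ω, 0 ≤ x ω := fun ω => Spec.coord_nonneg hc _ hX ω
  have hy : ∀ ω, 0 ≤ y ω := fun ω => Spec.coord_nonneg hc _ hY ω
  set fD := Spec.fn hc (x := Y) (by simp) gDown hcD with hfD
  set fU := Spec.fn hc (x := Y) (by simp) gUp hcU with hfU
  set fL := Spec.fn hc (x := Y) (by simp) gLow hcL with hfL
  have hD0 : ∀ ω, 0 ≤ fD ω := fun ω => sub_nonneg.2 (ramp_mem _ _ _).2
  have hU0 : ∀ ω, 0 ≤ fU ω := fun ω => (ramp_mem _ _ _).1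
  have hL0 : ∀ ω, 0 ≤ fL ω := fun ω => le_max_right _ _
  have p1 : 0 ≤ x * fD := ContinuousMap.le_def.mpr fun ω => mul_nonneg (hx ω) (hD0 ω)
  have p2 : 0 ≤ x * fU := ContinuousMap.le_def.mpr fun ω => mul_nonneg (hx ω) (hU0 ω)
  have p3 : 0 ≤ x * fL := ContinuousMap.le_def.mpr fun ω => mul_nonneg (hx ω) (hL0 ω)
  have p4 : 0 ≤ x * y := ContinuousMap.le_def.mpr fun ω => mul_nonneg (hx ω) (hy ω)
  have px : 0 ≤ x := ContinuousMap.le_def.mpr hx
  have e1 : Spec.fval Φ (x * fD) = X * cfc gDown Y := by rw [Spec.fval_mul, eX, Spec.fval_fn]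
  have e2 : Spec.fval Φ (x * fU) = X * cfc gUp Y := by rw [Spec.fval_mul, eX, Spec.fval_fn]
  have e3 : Spec.fval Φ (x * fL) = X * cfc gLow Y := by rw [Spec.fval_mul, eX, Spec.fval_fn]
  have e4 : Spec.fval Φ (x * y) = X * Y := by rw [Spec.fval_mul, eX, eY]
  suffices hkey : D (Spec.fval Φ (x * fD)) + D (Spec.fval Φ (x * fU)) ≤ D (Spec.fval Φ x) ∧
      D (Spec.fval Φ x) ≤ D (Spec.fval Φ (x * fL)) + D (Spec.fval Φ (x * y)) by
    rwa [e1, e2, e3, e4, eX] at hkey
  constructor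
  · refine (Spec.val_le_add D Φ p1 p2 fun ω hω => ?_).trans
      (Spec.val_mono D Φ (add_nonneg p1 p2) px fun ω hω => ?_)
    · show x ω * gUp (y ω) = 0
      rcases le_total (y ω) (3 / 4) with h' | h'
      · rw [gUp, ramp_of_le (by norm_num) h', mul_zero]
      · exfalso
        change 0 < x ω * gDown (y ω) at hω
        rw [gDown, ramp_of_ge (by norm_num) (by linarith), sub_self, mul_zero] at hω
        exact lt_irrefl _ hω
    · rcases (hx ω).lt_or_eq with h' | h'
      · exact h'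
      · change 0 < x ω * fD ω + x ω * fU ω at hω
        rw [← h', zero_mul, zero_mul, add_zero] at hω
        exact absurd hω (lt_irrefl _)
  · refine (Spec.val_mono D Φ px (add_nonneg p3 p4) fun ω hω => ?_).trans
      (Spec.val_add_le D Φ p3 p4)
    show 0 < x ω * gLow (y ω) + x ω * y ω
    rw [← mul_add]
    refine mul_pos hω ?_
    rcases (hy ω).lt_or_eq with h' | h'
    · exact lt_add_of_le_of_pos (le_max_right _ _) h'
    · rw [← h', gLow]; norm_num

variable {A : Type*} [CStarAlgebra A]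

/-- The pattern of commuting copies and its interior, in every context. -/
theorem exists_pattern {p q : A} (hp : IsPos p) (hq : IsPos q) (hpq : p * q = q) {r R : ℝ}
    (hr : 0 ≤ r) (hR : 0 ≤ R) (hb : ∀ D : DimState A, r ≤ D q ∧ D p ≤ R) :
    ∀ (k : ℕ) (ψ : Fin k → (A →⋆ₐ[ℂ] B)),
      (∀ i j, i ≠ j → ∀ a b, Commute (ψ i a) (ψ j b)) →
      ∃ P Q : B, IsPos P ∧ IsPos Q ∧ P * Q = Q ∧
        (∀ z, (∀ i a, Commute z (ψ i a)) → Commute z P ∧ Commute z Q) ∧
        ∀ (D : DimState B) (x : B), IsPos x → (∀ i a, Commute x (ψ i a)) →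
          r ^ k * D x ≤ D (x * Q) ∧ D (x * P) ≤ R ^ k * D x := by
  intro k
  induction k with
  | zero => exact fun ψ _ => ⟨1, 1, ⟨1, by simp⟩, ⟨1, by simp⟩, one_mul 1,
      fun z _ => ⟨Commute.one_right z, Commute.one_right z⟩, fun D x _ _ => by simp⟩
  | succ k ih =>
    intro ψ hc
    obtain ⟨P, Q, hP, hQ, hPQ, hcomm, hval⟩ := ih (fun i => ψ i.succ)
      fun i j hij => hc _ _ fun e => hij (Fin.succ_injective _ e)
    have h0 : ∀ a, Commute (ψ 0 a) P ∧ Commute (ψ 0 a) Q := fun a =>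
      hcomm _ fun (i : Fin k) b => hc 0 i.succ (Fin.succ_ne_zero i).symm a b
    refine ⟨ψ 0 p * P, ψ 0 q * Q, (hp.map _).mul hP (h0 p).1, (hq.map _).mul hQ (h0 q).2,
      ?_, fun z hz => ?_, fun D x hx hxc => ?_⟩
    · rw [(h0 q).1.symm.mul_mul_mul_comm, ← map_mul, hpq, hPQ]
    · exact ⟨(hz 0 p).mul_right (hcomm z fun (i : Fin k) a => hz i.succ a).1,
        (hz 0 q).mul_right (hcomm z fun (i : Fin k) a => hz i.succ a).2⟩
    · have hnext : ∀ a, IsPos a → IsPos (x * ψ 0 a) ∧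
          ∀ (i : Fin k) b, Commute (x * ψ 0 a) (ψ i.succ b) := fun a ha =>
        ⟨hx.mul (ha.map _) (hxc 0 a), fun i b =>
          (hxc i.succ b).mul_left (hc 0 i.succ (Fin.succ_ne_zero i).symm a b)⟩
      rw [← mul_assoc, ← mul_assoc]
      constructor
      · refine le_trans ?_ (hval D _ (hnext q hq).1 (hnext q hq).2).1
        rw [pow_succ, mul_assoc]
        exact mul_le_mul_of_nonneg_left (le_ctx D (ψ 0) hx (hxc 0) hq fun D' => (hb D').1)
          (pow_nonneg hr k)
      · refine (hval D _ (hnext p hp).1 (hnext p hp).2).2.trans ?_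
        rw [pow_succ, mul_assoc]
        exact mul_le_mul_of_nonneg_left (ctx_le D (ψ 0) hx (hxc 0) hp fun D' => (hb D').2)
          (pow_nonneg hR k)

/-- The side minus the pattern: strictly small, with a large high part. -/
theorem exists_side {p q : A} (hp : IsPos p) (hq : IsPos q) (hpn : ‖p‖ ≤ 1) (hpq : p * q = q)
    {r R : ℝ} (hr : 0 ≤ r) (hR : 0 ≤ R) (hb : ∀ D : DimState A, r ≤ D q ∧ D p ≤ R) {k : ℕ}
    (ψ : Fin (k + 1) → (A →⋆ₐ[ℂ] B)) (hc : ∀ i j, i ≠ j → ∀ a b, Commute (ψ i a) (ψ j b)) :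
    ∃ z : B, IsPosC z ∧ (∀ c, c * p = p → p * c = p → z * ψ 0 c = z) ∧
      (∀ D : DimState B, D z ≤ D (ψ 0 p) - r ^ k * D (ψ 0 p)) ∧
      ∀ (D : DimState B) (a : ℝ), 0 ≤ a → a < 1 →
        D (ψ 0 q) - R ^ k * D (ψ 0 q) ≤ D (cut a z) := by
  obtain ⟨P, Q, hP, hQ, hPQ, hcomm, hval⟩ := exists_pattern hp hq hpq hr hR hb k
    (fun i => ψ i.succ) fun i j hij => hc _ _ fun e => hij (Fin.succ_injective _ e)
  have h0i : ∀ a (i : Fin k) b, Commute (ψ 0 a) (ψ i.succ b) := fun a i b =>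
    hc 0 i.succ (Fin.succ_ne_zero i).symm a b
  have h0 : ∀ a, Commute (ψ 0 a) P ∧ Commute (ψ 0 a) Q := fun a => hcomm _ (h0i a)
  have hg : ∀ (f : ℝ → ℝ) a, Commute (ψ 0 a) (cfc f P) := fun f a =>
    ((h0 a).1.symm.cfc_real f).symm
  have hcD : Continuous gDown := continuous_const.sub (continuous_ramp _ _)
  have hcL : Continuous gLow := by unfold gLow; fun_prop
  have hD0 : ∀ t, 0 ≤ gDown t := fun t => sub_nonneg.2 (ramp_mem _ _ _).2
  have hp' : IsPos (ψ 0 p) := hp.map _
  have hq' : IsPos (ψ 0 q) := hq.map _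
  set z := ψ 0 p * cfc gDown P with hz
  have hzp : IsPos z := hp'.mul (Elem.isPos_cfc hD0 P) (hg _ p)
  have hzn : ‖z‖ ≤ 1 := (norm_mul_le _ _).trans (mul_le_one₀
    ((NonUnitalStarAlgHom.norm_apply_le _ p).trans hpn) (norm_nonneg _)
    (norm_cfc_le zero_le_one fun t _ => by
      rw [Real.norm_eq_abs, abs_of_nonneg (hD0 t)]
      exact sub_le_self _ (ramp_mem _ _ _).1))
  refine ⟨z, ⟨hzp, hzn⟩, fun c h1 h2 => ?_, fun D => ?_, fun D a ha0 ha1 => ?_⟩
  · rw [hz, mul_assoc, ← (hg _ c).eq, ← mul_assoc, ← map_mul, h2]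
  · have hup : cfc gUp P * Q = Q := Calc.fix_of hP.isSelfAdjoint (continuous_ramp _ _)
      (ramp_of_ge (by norm_num) (by norm_num)) hPQ
    have hQP : Commute P Q := by
      have := congrArg star hPQ
      rw [star_mul, hQ.isSelfAdjoint.star_eq, hP.isSelfAdjoint.star_eq] at this
      exact hPQ.trans this.symm
    have hw : IsPos (ψ 0 p * cfc gUp P) :=
      hp'.mul (Elem.isPos_cfc (fun t => (ramp_mem _ _ _).1) P) (hg _ p)
    have h1 := (hval D _ hp' (h0i p)).1
    have h2 : D (ψ 0 p * Q) ≤ D (ψ 0 p * cfc gUp P) := by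
      conv_lhs => rw [← hup, ← mul_assoc]
      exact val_mul_le D hw hQ ((h0 p).2.mul_left (hQP.cfc_real _))
    linarith [(pair_bounds D hp' hP (h0 p).1).1]
  · have h1 := (hval D _ hq' (h0i q)).2
    have hb' := (pair_bounds D hq' hP (h0 q).1).2
    have hy : IsPos (ψ 0 q * cfc gLow P) :=
      hq'.mul (Elem.isPos_cfc (fun t => le_max_right _ _) P) (hg _ q)
    set y := ψ 0 q * cfc gLow P
    have hzy : z * y = y := by
      rw [hz, (hg _ q).symm.mul_mul_mul_comm, ← map_mul, hpq,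
        Calc.cfc_mul_fun P hcD hcL gDown_mul_gLow]
    have hh : Continuous (ramp a (1 - a)) := continuous_ramp _ _
    have hhy : cfc (ramp a (1 - a)) z * y = y := Calc.fix_of hzp.isSelfAdjoint hh
      (ramp_of_ge (by linarith) (by linarith)) hzy
    have hhp : IsPos (cfc (ramp a (1 - a)) z) := Elem.isPos_cfc (fun t => (ramp_mem _ _ _).1) z
    have h2 : D y ≤ D (cfc (ramp a (1 - a)) z) := by
      have hyh : y * cfc (ramp a (1 - a)) z = y := by
        have := congrArg star hhy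
        rwa [star_mul, hy.isSelfAdjoint.star_eq, hhp.isSelfAdjoint.star_eq] at this
      conv_lhs => rw [← hhy]
      exact val_mul_le D hhp hy (hhy.trans hyh.symm)
    have h3 : D (cfc (ramp a (1 - a)) z) ≤ D (cut a z) :=
      Half.val_cfc_le D hzp.isSelfAdjoint hh (by fun_prop) (fun t => (ramp_mem _ _ _).1)
        (fun t => le_max_right _ _) fun t _ ht => by
          refine lt_max_of_lt_left (sub_pos.2 (lt_of_not_ge fun hta => ?_))
          rw [ramp_of_le (by linarith) hta] at ht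
          exact lt_irrefl _ ht
    linarith

/-- A side of a sign loses at most the defect. -/
theorem side_bounds (D : DimState B) {S : B} (hS : IsSelfAdjoint S) {a θ : ℝ} (ha : 0 ≤ a)
    (h : θ < 1 - a * a) :
    D (cfc (ramp a (1 / 10)) S) ≤ D (ppart S) ∧
      D (ppart S) ≤ D (cfc (ramp a (1 / 10)) S) + D (cut θ (1 - S * S)) := by
  have hr : Continuous (ramp a (1 / 10)) := continuous_ramp _ _
  have e1 : cut θ (1 - S * S) = cfc (fun u : ℝ => max (1 - u * u - θ) 0) S := by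
    rw [cut, show 1 - S * S = cfc (fun u : ℝ => 1 - u * u) S by
        rw [cfc_sub .., cfc_const_one ℝ S, cfc_mul .., cfc_id' ℝ S],
      ← cfc_comp' (fun u : ℝ => max (u - θ) 0) (fun u : ℝ => 1 - u * u) S]
  refine ⟨Half.val_cfc_le D hS hr (by fun_prop) (fun t => (ramp_mem _ _ _).1)
    (fun t => le_max_right _ _) fun t _ ht => ?_, ?_⟩
  · refine lt_max_of_lt_left (lt_of_not_ge fun h' => ?_)
    rw [ramp_of_le (by norm_num) (by linarith)] at ht
    exact lt_irrefl _ ht
  · rw [e1, ppart, cut]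
    refine le_trans (Half.val_cfc_le D hS (f := fun u : ℝ => max (u - 0) 0)
      (g := fun u : ℝ => ramp a (1 / 10) u + max (1 - u * u - θ) 0) (by fun_prop) (by fun_prop)
      (fun t => le_max_right _ _)
      (fun t => add_nonneg (ramp_mem _ _ _).1 (le_max_right _ _)) fun t _ ht => ?_) ?_
    · rcases le_or_gt t a with h' | h'
      · have h0 : 0 < t := by
          by_contra hle
          rw [max_eq_right (by linarith)] at ht
          exact lt_irrefl _ ht
        have : t * t ≤ a * a := mul_self_le_mul_self h0.le h'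
        exact add_pos_of_nonneg_of_pos (ramp_mem _ _ _).1 (lt_max_of_lt_left (by linarith))
      · exact add_pos_of_pos_of_nonneg (ramp_pos (by norm_num) h') (le_max_right _ _)
    · rw [cfc_add S (ramp a (1 / 10)) (fun u : ℝ => max (1 - u * u - θ) 0)]
      refine Half.val_sum_two D (Elem.isPos_cfc (fun t => (ramp_mem _ _ _).1) S)
        (Elem.isPos_cfc (fun t => le_max_right _ _) S) ?_
      rw [← cfc_add S (ramp a (1 / 10)) (fun u : ℝ => max (1 - u * u - θ) 0)]
      exact Elem.isPos_cfc (fun t => add_nonneg (ramp_mem _ _ _).1 (le_max_right _ _)) S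

/-- The negative of the clipped element. -/
theorem neg_clip {S : B} (hS : IsSelfAdjoint S) : -cfc clip4 S = cfc clip4 (-S) := by
  rw [← cfc_comp_neg clip4 S continuous_clip4.continuousOn hS, ← cfc_neg]
  exact cfc_congr fun v _ => (clip4_neg v).symm

theorem val_ppart_clip (D : DimState B) {S : B} (hS : IsSelfAdjoint S) :
    D (ppart (cfc clip4 S)) = D (ppart S) := by
  rw [ppart, ppart, cut, cut, ← cfc_comp' (fun u : ℝ => max (u - 0) 0) clip4 S (by fun_prop)
    continuous_clip4.continuousOn hS]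
  refine Half.val_cfc_congr D hS ((by fun_prop : Continuous fun u : ℝ => max (u - 0) 0).comp
    continuous_clip4) (by fun_prop) (fun t => le_max_right _ _) (fun t => le_max_right _ _)
    fun t _ => ?_
  show 0 < max (clip4 t - 0) 0 ↔ 0 < max (t - 0) 0
  simp only [sub_zero, lt_max_iff, lt_irrefl, or_false, clip4, lt_min_iff]
  constructor
  · rintro (h | ⟨-, h⟩) <;> linarith
  · exact fun h => Or.inr ⟨one_pos, by linarith⟩

theorem fullSet_cut_clip {S : B} (hS : IsSelfAdjoint S)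
    (h : FullSet ({cut (1 / 2) S} : Set B)) :
    FullSet ({cut (1 / 2) (cfc clip4 S)} : Set B) := by
  refine h.trans fun x hx => ?_
  rw [Set.mem_singleton_iff] at hx
  subst hx
  have e : cut (1 / 2) (cfc clip4 S) * cfc (fun u : ℝ => 2 * max (u - 1 / 2) 0) S =
      cut (1 / 2) S := by
    rw [cut, cut, ← cfc_comp' (fun u : ℝ => max (u - 1 / 2) 0) clip4 S (by fun_prop)
      continuous_clip4.continuousOn hS]
    refine Calc.cfc_mul_fun S ((by fun_prop : Continuous fun u : ℝ => max (u - 1 / 2) 0).comp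
      continuous_clip4) (by fun_prop) fun t => ?_
    rcases le_total t (1 / 2) with h' | h'
    · rw [max_eq_right (a := t - 1 / 2) (by linarith)]; simp
    · rw [clip4_of_ge (by linarith), max_eq_left (a := (1 : ℝ) - 1 / 2) (by norm_num)]
      ring
  rw [← e]
  exact TwoSidedIdeal.mul_mem_right _ _ _ (TwoSidedIdeal.subset_span rfl)

theorem fullSet_rp {S : B} (h : FullSet ({cut (1 / 2) S} : Set B)) :
    FullSet ({cfc rp S} : Set B) := by
  refine h.trans fun x hx => ?_
  rw [Set.mem_singleton_iff] at hx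
  subst hx
  have e : cfc rp S * cut (1 / 2) S = cut (1 / 2) S := by
    rw [cut]
    refine Calc.cfc_mul_fun S (continuous_ramp _ _) (by fun_prop) fun t => ?_
    rcases le_total t (1 / 2) with h' | h'
    · rw [max_eq_right (a := t - 1 / 2) (by linarith), mul_zero]
    · rw [rp, ramp_of_ge (by norm_num) (by linarith), one_mul]
  rw [← e]
  exact TwoSidedIdeal.mul_mem_right _ _ _ (TwoSidedIdeal.subset_span rfl)

/-- The defect of the clipped sign. -/
theorem val_defect_clip (D : DimState B) {S : B} (hS : IsSelfAdjoint S) {θ₀ θ : ℝ} (h0 : 0 ≤ θ)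
    (h : θ₀ < 15 / 16) :
    D (cut θ (1 - cfc clip4 S * cfc clip4 S)) ≤ D (cut θ₀ (1 - S * S)) := by
  have e : ∀ f : ℝ → ℝ, Continuous f → ∀ c : ℝ, cut c (1 - cfc f S * cfc f S) =
      cfc (fun u => max (1 - f u * f u - c) 0) S := fun f hf c => by
    rw [cut, show 1 - cfc f S * cfc f S = cfc (fun u : ℝ => 1 - f u * f u) S by
        rw [cfc_sub (fun _ : ℝ => (1 : ℝ)) (fun u => f u * f u) S (by fun_prop) (by fun_prop),
          cfc_const_one ℝ S, cfc_mul f f S hf.continuousOn hf.continuousOn],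
      ← cfc_comp' (fun u : ℝ => max (u - c) 0) (fun u : ℝ => 1 - f u * f u) S]
  have e2 := e (fun u => u) continuous_id θ₀
  rw [cfc_id' ℝ S] at e2
  rw [e _ continuous_clip4, e2]
  refine Half.val_cfc_le D hS
    (((continuous_const.sub (continuous_clip4.mul continuous_clip4)).sub continuous_const).max
      continuous_const) (by fun_prop) (fun t => le_max_right _ _) (fun t => le_max_right _ _)
    fun t _ ht => lt_max_of_lt_left ?_
  have hlt : |t| < 1 / 4 := by
    by_contra hge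
    rw [not_lt, le_abs] at hge
    have h1 : clip4 t * clip4 t = 1 := by
      rcases hge with h' | h'
      · rw [clip4_of_ge h', mul_one]
      · rw [← neg_neg t, clip4_neg, clip4_of_ge h']; norm_num
    rw [h1, max_eq_right (by linarith)] at ht
    exact lt_irrefl _ ht
  nlinarith [abs_nonneg t, abs_mul_abs_self t]

/-- An element moving the clipped sign to its negative gives an anticommuting element. -/
theorem flip_of_move {S t : B} (hS : IsSelfAdjoint S) (h1 : t * S = t) (h2 : S * t = -t)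
    (hn : ‖t‖ ≤ 1) :
    IsSelfAdjoint (t + star t) ∧ ‖t + star t‖ ≤ 1 ∧ S * (t + star t) = -((t + star t) * S) ∧
    ∀ (D : DimState B) (θ b : ℝ), 0 ≤ b → 1 - b ≤ θ →
      D (cut θ (1 - (t + star t) * (t + star t))) ≤ 1 - 2 * D (cut b (star t * t)) := by
  have h1' : S * star t = star t := by
    have := congrArg star h1
    rwa [star_mul, hS.star_eq] at this
  have h2' : star t * S = -star t := by
    have := congrArg star h2
    rwa [star_mul, hS.star_eq, star_neg] at this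
  have htt : t * t = 0 := by
    have h3 : t * t = -(t * t) := by
      conv_lhs => arg 1; rw [← h1]
      rw [mul_assoc, h2, mul_neg]
    have h4 : (2 : ℂ) • (t * t) = 0 := by rw [two_smul]; exact eq_neg_iff_add_eq_zero.1 h3
    exact (smul_eq_zero.1 h4).resolve_left two_ne_zero
  have htt' : star t * star t = 0 := by rw [← star_mul, htt, star_zero]
  have husa : IsSelfAdjoint (t + star t) := by
    rw [IsSelfAdjoint, star_add, star_star, add_comm]
  set A₁ := star t * t with hA₁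
  set A₂ := t * star t with hA₂
  have hsq : (t + star t) * (t + star t) = A₁ + A₂ := by
    rw [add_mul, mul_add, mul_add, htt, htt', zero_add, add_zero, add_comm]
  have hA1 : IsSelfAdjoint A₁ := IsSelfAdjoint.star_mul_self t
  have hA2 : IsSelfAdjoint A₂ := IsSelfAdjoint.mul_star_self t
  have horth : A₁ * A₂ = 0 := by
    rw [hA₁, hA₂, mul_assoc, ← mul_assoc t t, htt, zero_mul, mul_zero]
  refine ⟨husa, ?_, ?_, fun D θ b hb hbθ => ?_⟩
  · rcases subsingleton_or_nontrivial B with hB | hB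
    · rw [Subsingleton.elim (t + star t) 0, norm_zero]; exact zero_le_one
    let cl : ℝ → ℝ := fun u => max (-1) (min 1 u)
    have hcl : Continuous cl := by fun_prop
    have hfix : ∀ x : B, IsSelfAdjoint x → ‖x‖ ≤ 1 → cfc cl x = x := fun x hx hxn => by
      conv_rhs => rw [← cfc_id ℝ x hx]
      refine cfc_congr fun u hu => ?_
      have h' : |u| ≤ 1 := (Real.norm_eq_abs u ▸ spectrum.norm_le_norm_of_mem hu).trans hxn
      obtain ⟨ha, hb'⟩ := abs_le.1 h'
      show max (-1) (min 1 u) = u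
      rw [min_eq_right hb', max_eq_right ha]
    have hn1 : ‖A₁‖ ≤ 1 := by
      rw [hA₁, CStarRing.norm_star_mul_self]; exact mul_le_one₀ hn (norm_nonneg _) hn
    have hn2 : ‖A₂‖ ≤ 1 := by
      rw [hA₂, CStarRing.norm_self_mul_star]; exact mul_le_one₀ hn (norm_nonneg _) hn
    have e := Calc.cfc_orth_add hA1 hA2 horth hcl (by simp [cl])
    rw [hfix A₁ hA1 hn1, hfix A₂ hA2 hn2] at e
    have h' : ‖(t + star t) * (t + star t)‖ ≤ 1 := by
      rw [hsq, ← e]
      exact norm_cfc_le zero_le_one fun u _ => by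
        rw [Real.norm_eq_abs]
        exact abs_le.2 ⟨le_max_left _ _, max_le (by norm_num) (min_le_left _ _)⟩
    have h'' := CStarRing.norm_star_mul_self (x := t + star t)
    rw [husa.star_eq] at h''
    nlinarith [norm_nonneg (t + star t)]
  · rw [mul_add, add_mul, h2, h1', h1, h2']; abel
  · rw [hsq]
    have hk : Continuous fun u : ℝ => max (u - b) 0 := by fun_prop
    have e := Calc.cfc_orth_add hA1 hA2 horth hk (by rw [max_eq_right]; linarith)
    have eo : cut b A₁ * cut b A₂ = 0 := by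
      have h1 : cfc (fun u : ℝ => max (u - b) 0) A₁ * A₂ = 0 :=
        Calc.kill_zero hA1 hk (by rw [max_eq_right]; linarith) horth
      exact Calc.kill_zero' hA2 hk (by rw [max_eq_right]; linarith) h1
    have h3 : D (cut b A₁) + D (cut b A₂) ≤ D (cut b (A₁ + A₂)) := by
      simp only [cut]
      rw [e]
      exact Half.val_add_orth D (Spec.cut_isPos b A₁) (Spec.cut_isPos b A₂) eo
    have h4 : D (cut b A₂) = D (cut b A₁) := by
      rcases hb.lt_or_eq with hb' | hb'
      · exact (val_cut_star_mul_self D t hb').symm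
      · subst hb'
        have z : ∀ x : B, IsPos x → cut 0 x = x := fun x hx => (ppart_of_isPos hx).1
        rw [z A₁ ⟨t, rfl⟩, z A₂ ⟨star t, by rw [star_star]⟩]
        exact (Half.val_star_mul_self D t).symm
    have hW : IsSelfAdjoint (A₁ + A₂) := hA1.add hA2
    have e5 : cut θ (1 - (A₁ + A₂)) = cfc (fun u : ℝ => max (1 - u - θ) 0) (A₁ + A₂) := by
      rw [cut, show 1 - (A₁ + A₂) = cfc (fun u : ℝ => 1 - u) (A₁ + A₂) by
          rw [cfc_sub .., cfc_const_one ℝ (A₁ + A₂), cfc_id' ℝ (A₁ + A₂)],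
        ← cfc_comp' (fun u : ℝ => max (u - θ) 0) (fun u : ℝ => 1 - u) (A₁ + A₂)]
    have h5 := Half.val_cfc_add_le_one D hW (f := fun u : ℝ => max (1 - u - θ) 0)
      (g := fun u : ℝ => max (u - b) 0) (by fun_prop) hk (fun u => le_max_right _ _)
      (fun u => le_max_right _ _) fun u _ hu => by
        refine max_eq_right ?_
        by_contra hle
        rw [max_eq_right (by linarith)] at hu
        exact lt_irrefl _ hu
    rw [← e5] at h5
    change D (cut θ (1 - (A₁ + A₂))) + D (cut b (A₁ + A₂)) ≤ 1 at h5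
    linarith

end Alg

section Main

variable {F : Type*} [CStarAlgebra F] {G : Type*} [Group G] {β : G →* (F ≃⋆ₐ[ℂ] F)}

/-- The scaled comparison element moves the clipped sign to its negative. -/
theorem exists_move {B : Type*} [CStarAlgebra B] {Z S y : B} (hZ : IsPosC Z)
    (hyy : star y * y = cut (1 / 4) Z) (hZS : Z * S = Z) (hSy : S * y = -y) :
    ∃ t : B, ‖t‖ ≤ 1 ∧ t * S = t ∧ S * t = -t ∧
      ∀ (D : DimState B) (b : ℝ), D (cut (3 / 4 * b + 1 / 4) Z) ≤ D (cut b (star t * t)) := by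
  have hzs := hZ.1.isSelfAdjoint
  set c := Real.sqrt (4 / 3) with hc
  have hcc : c * c = 4 / 3 := Real.mul_self_sqrt (by norm_num)
  set t := c • y with ht
  have hk : Continuous fun u : ℝ => 4 / 3 * max (u - 1 / 4) 0 := by fun_prop
  have htt : star t * t = cfc (fun u : ℝ => 4 / 3 * max (u - 1 / 4) 0) Z := by
    rw [ht, star_smul, star_trivial, smul_mul_smul_comm, hcc, hyy, cut,
      ← cfc_smul (4 / 3 : ℝ) (fun u : ℝ => max (u - 1 / 4) 0) Z (by fun_prop)]
    exact cfc_congr fun u _ => smul_eq_mul _ _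
  refine ⟨t, ?_, ?_, ?_, fun D b => ?_⟩
  · rcases subsingleton_or_nontrivial B with hB | hB
    · rw [Subsingleton.elim t 0, norm_zero]; exact zero_le_one
    have h' : ‖t‖ * ‖t‖ ≤ 1 := by
      rw [← CStarRing.norm_star_mul_self, htt]
      refine norm_cfc_le zero_le_one fun u hu => ?_
      have h1 : ‖u‖ ≤ 1 := (spectrum.norm_le_norm_of_mem hu).trans hZ.2
      rw [Real.norm_eq_abs] at h1 ⊢
      have h3 : max (u - 1 / 4) 0 ≤ 3 / 4 := max_le (by linarith [le_abs_self u]) (by norm_num)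
      show |4 / 3 * max (u - 1 / 4) 0| ≤ 1
      rw [abs_of_nonneg (mul_nonneg (by norm_num) (le_max_right _ _))]
      linarith
    nlinarith [norm_nonneg t]
  · have hkill : star t * t * (1 - S) = 0 := by
      rw [htt]
      refine Calc.kill_zero hzs hk (by norm_num) ?_
      rw [mul_sub, mul_one, hZS, sub_self]
    have h3 : t * (1 - S) = 0 := by
      rw [← CStarRing.star_mul_self_eq_zero_iff, star_mul, mul_assoc, ← mul_assoc (star t) t,
        hkill, mul_zero]
    rw [mul_sub, mul_one, sub_eq_zero] at h3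
    exact h3.symm
  · rw [ht, mul_smul_comm, hSy, smul_neg]
  · rw [htt, cut, cut, ← cfc_comp' (fun u : ℝ => max (u - b) 0)
      (fun u : ℝ => 4 / 3 * max (u - 1 / 4) 0) Z]
    refine Half.val_cfc_le D hzs (by fun_prop) (by fun_prop) (fun u => le_max_right _ _)
      (fun u => le_max_right _ _) fun u _ hu => lt_max_of_lt_left ?_
    have h' : 3 / 4 * b + 1 / 4 < u := by
      by_contra hle
      rw [max_eq_right (by linarith)] at hu
      exact lt_irrefl _ hu
    have : u - 1 / 4 ≤ max (u - 1 / 4) 0 := le_max_left _ _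
    show 0 < 4 / 3 * max (u - 1 / 4) 0 - b
    linarith

/-- An equivariant image of a clipped sign is a sign. -/
theorem sign_clip {K : Finset G} {η η₀ θ θ₀ : ℝ} {T₀ T : Finset F} {S₀ : OrbAlg β T₀}
    (hS₀ : Sign β T₀ K η₀ θ₀ S₀) (hθ : θ₀ ≤ θ) (h00 : 0 ≤ θ₀) (h15 : θ₀ < 15 / 16)
    (hmod : ∀ a c : F, IsSelfAdjoint a → IsSelfAdjoint c → ‖a‖ ≤ 1 → ‖c‖ ≤ 1 → ‖a - c‖ ≤ η₀ →
      ‖cfc clip4 a - cfc clip4 c‖ ≤ η)
    (Ψ : OrbAlg β T₀ →⋆ₐ[ℂ] OrbAlg β T)
    (hΨ : ∀ g x, β g (Ψ x : F) = (Ψ (act β T₀ g x) : F)) :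
    Sign β T K η θ (Ψ (cfc clip4 S₀)) := by
  have hs := hS₀.sa
  set S₁ := cfc clip4 S₀ with hS₁
  have hS1 : IsSelfAdjoint S₁ := cfc_predicate _ _
  refine ⟨hS1.map Ψ, (NonUnitalStarAlgHom.norm_apply_le Ψ _).trans
      (norm_cfc_le zero_le_one fun u _ => abs_clip4_le u), ?_, fun D => ?_, fun D => ?_,
      fun D => ?_, ?_, ?_⟩
  · intro g hg
    rw [hΨ g S₁]
    have e : ‖(Ψ (act β T₀ g S₁) : F) - (Ψ S₁ : F)‖ ≤ ‖act β T₀ g S₁ - S₁‖ := by
      rw [← AddSubgroupClass.coe_sub, ← map_sub]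
      exact NonUnitalStarAlgHom.norm_apply_le Ψ _
    refine e.trans ?_
    show ‖((act β T₀ g S₁ - S₁ : OrbAlg β T₀) : F)‖ ≤ η
    rw [AddSubgroupClass.coe_sub, coe_act, hS₁, coe_cfc S₀ hs _ continuous_clip4,
      show β g (cfc clip4 (S₀ : F)) = cfc clip4 (β g (S₀ : F)) from
        map_cfc' (β g : F →⋆ₐ[ℂ] F) continuous_clip4 (hs.map (OrbAlg β T₀).subtype)]
    exact hmod (β g (S₀ : F)) (S₀ : F) ((hs.map
      (OrbAlg β T₀).subtype).map (β g : F →⋆ₐ[ℂ] F)) (hs.map (OrbAlg β T₀).subtype)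
      ((NonUnitalStarAlgHom.norm_apply_le ((β g : F →⋆ₐ[ℂ] F)) _).trans hS₀.contr) hS₀.contr
      (hS₀.inv g hg)
  · rw [ppart, ← map_cut Ψ hS1]
    have h2 := hS₀.half_pos (D.comap Ψ)
    rw [← val_ppart_clip (D.comap Ψ) hs] at h2
    exact h2.trans hθ
  · rw [← map_neg, ppart, ← map_cut Ψ hS1.neg, hS₁, neg_clip hs]
    have h2 := hS₀.half_neg (D.comap Ψ)
    rw [← val_ppart_clip (D.comap Ψ) hs.neg] at h2
    exact h2.trans hθ
  · rw [← map_mul, ← map_one Ψ, ← map_sub, ← map_cut Ψ ((IsSelfAdjoint.one _).sub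
      ((hS1.commute_iff hS1).1 (Commute.refl _)))]
    exact ((val_defect_clip (D.comap Ψ) hs (h00.trans hθ) h15).trans
      (hS₀.defect (D.comap Ψ))).trans hθ
  · rw [FullIn, ← map_cut Ψ hS1]
    exact fullSet_map _ (fullSet_cut_clip hs hS₀.full_pos)
  · rw [FullIn, ← map_neg, ← map_cut Ψ hS1.neg, hS₁, neg_clip hs]
    exact fullSet_map _ (fullSet_cut_clip hs.neg hS₀.full_neg)

/-- A move of the positive side into the negative side gives the flip. -/
theorem assemble {K : Finset G} {η η₀ θ θ₀ b : ℝ} {T₀ T₁ : Finset F} {S₀ : OrbAlg β T₀}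
    (hS₀ : Sign β T₀ K η₀ θ₀ S₀) (hθ : θ₀ ≤ θ) (h00 : 0 ≤ θ₀) (h15 : θ₀ < 15 / 16)
    (hmod : ∀ a c : F, IsSelfAdjoint a → IsSelfAdjoint c → ‖a‖ ≤ 1 → ‖c‖ ≤ 1 → ‖a - c‖ ≤ η₀ →
      ‖cfc clip4 a - cfc clip4 c‖ ≤ η)
    (ψ : OrbAlg β T₀ →⋆ₐ[ℂ] OrbAlg β T₁)
    (hψ : ∀ g x, β g (ψ x : F) = (ψ (act β T₀ g x) : F))
    {z : OrbAlg β T₁} (hz : IsPosC z) (hzS : z * ψ (cfc clip4 S₀) = z) {v : F}
    (hv : star v * (ψ (cfc rp (-S₀)) : F) * v = cut (1 / 4) (z : F))
    (hb : 0 ≤ b) (hb1 : 1 - b ≤ θ)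
    (hhigh : ∀ D : DimState (OrbAlg β T₁), 1 - θ ≤ 2 * D (cut (3 / 4 * b + 1 / 4) z)) :
    ∃ (T : Finset F) (S u : OrbAlg β T), Sign β T K η θ S ∧
      IsSelfAdjoint u ∧ ‖u‖ ≤ 1 ∧ S * u = -(u * S) ∧
      ∀ D : DimState (OrbAlg β T), D (cut θ (1 - u * u)) ≤ θ := by
  classical
  have hTsub : T₁ ⊆ T₁ ∪ {v} := Finset.subset_union_left
  have hvm : v ∈ OrbAlg β (T₁ ∪ {v}) :=
    mem_orbAlg (Finset.mem_union_right _ (Finset.mem_singleton_self v))
  have hι : ∀ x, ((orbIncl β hTsub x : OrbAlg β (T₁ ∪ {v})) : F) = x := coe_orbIncl hTsub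
  generalize orbIncl β hTsub = ι at hι
  have hsqsq : cfc (fun s => Real.sqrt (rp s)) (-S₀) * cfc (fun s => Real.sqrt (rp s)) (-S₀) =
      cfc rp (-S₀) :=
    Calc.sqrt_mul (-S₀) (continuous_ramp _ _) fun t => (ramp_mem _ _ _).1
  have hSq : -cfc clip4 S₀ * cfc (fun s => Real.sqrt (rp s)) (-S₀) =
      cfc (fun s => Real.sqrt (rp s)) (-S₀) := by
    rw [neg_clip hS₀.sa]
    exact Calc.cfc_mul_fun (-S₀) continuous_clip4 (continuous_ramp _ _).sqrt clip4_mul_sqrt_rp
  have hsqsa : IsSelfAdjoint (cfc (fun s => Real.sqrt (rp s)) (-S₀)) := cfc_predicate _ _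
  generalize cfc (fun s => Real.sqrt (rp s)) (-S₀) = sq at hsqsq hSq hsqsa
  set y : OrbAlg β (T₁ ∪ {v}) := ι (ψ sq) * ⟨v, hvm⟩ with hy
  have hyy : star y * y = cut (1 / 4) (ι z) := by
    refine Subtype.ext ?_
    rw [Half.coe_cut (hz.1.map ι).isSelfAdjoint, hι, MulMemClass.coe_mul, StarMemClass.coe_star, hy,
      MulMemClass.coe_mul, hι, star_mul, ← hv, ← hsqsq, map_mul, MulMemClass.coe_mul]
    have hs2 : star (ψ sq : F) = (ψ sq : F) := congrArg Subtype.val (hsqsa.map ψ).star_eq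
    rw [hs2]
    simp only [mul_assoc]
  obtain ⟨t, htn, htS, hSt, hbnd⟩ := exists_move (Z := ι z)
    (S := ι (ψ (cfc clip4 S₀))) ⟨hz.1.map ι, (NonUnitalStarAlgHom.norm_apply_le ι z).trans hz.2⟩
    hyy (by rw [← map_mul, hzS])
    (by rw [hy, ← mul_assoc, ← map_mul, ← map_mul,
          show cfc clip4 S₀ * sq = -sq from neg_eq_iff_eq_neg.1 ((neg_mul _ _).symm.trans hSq),
          map_neg, map_neg, neg_mul])
  obtain ⟨husa, hun, hanti, hudef⟩ :=
    flip_of_move (((cfc_predicate _ _ : IsSelfAdjoint (cfc clip4 S₀)).map ψ).map ι) htS hSt htn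
  refine ⟨_, _, t + star t, sign_clip hS₀ hθ h00 h15 hmod (ι.comp ψ) (fun g x => ?_),
    husa, hun, hanti, fun D => ?_⟩
  · show β g (ι (ψ x) : F) = (ι (ψ (act β T₀ g x)) : F)
    rw [hι, hι, hψ]
  · refine (hudef D θ b hb hb1).trans ?_
    have h1 := hhigh (D.comap ι)
    rw [DimState.comap_apply, map_cut ι hz.1.isSelfAdjoint] at h1
    linarith [hbnd D b]

/-- A sign with an anticommuting symmetry, from signs and comparison. -/
theorem flipStatement (hd : Dyn β) (hcmp : CompareStatement F) (hh : HalfStatement β) :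
    FlipStatement β := by
  classical
  intro K η θ hη hθ
  set θ' := min θ (1 / 2) with hθ'
  have hθ0 : 0 < θ' := lt_min hθ (by norm_num)
  obtain ⟨m, hm⟩ := exists_pow_lt_of_lt_one (show (0 : ℝ) < θ' / 4 by positivity)
    (show (3 / 4 : ℝ) < 1 by norm_num)
  set θ₀ := min (θ' / 8) ((1 / 4) ^ (m + 1) / 4) with hθ₀
  have h00 : 0 < θ₀ := by positivity
  have h01 : θ₀ ≤ θ' / 8 := min_le_left _ _
  have h02 : θ₀ ≤ (1 / 4) ^ (m + 1) / 4 := min_le_right _ _
  have hθh : θ' ≤ 1 / 2 := min_le_right _ _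
  have hθl : θ' ≤ θ := min_le_left _ _
  obtain ⟨η₀, hη₀, hmod⟩ :=
    Half.exists_modulus (B := F) continuous_clip4 (zero_le_one' ℝ) hη
  obtain ⟨T₀, S₀, hS₀⟩ := hh K η₀ θ₀ hη₀ h00
  have hs := hS₀.sa
  set p := cfc rp S₀ with hp
  set q := cfc rq S₀ with hq
  set e₀ := cfc rp (-S₀) with he₀
  set S₁ := cfc clip4 S₀ with hS₁
  have hS1 : IsSelfAdjoint S₁ := cfc_predicate _ _
  have hpp : IsPos p := Elem.isPos_cfc (fun t => (ramp_mem _ _ _).1) _
  have hqq : IsPos q := Elem.isPos_cfc (fun t => (ramp_mem _ _ _).1) _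
  have hrn : ∀ x : OrbAlg β T₀, ‖cfc rp x‖ ≤ 1 := fun x =>
    norm_cfc_le zero_le_one fun t _ => by
      rw [Real.norm_eq_abs, rp, abs_of_nonneg (ramp_mem _ _ _).1]; exact (ramp_mem _ _ _).2
  have hbound : ∀ D : DimState (OrbAlg β T₀), 1 / 2 - 2 * θ₀ ≤ D q ∧ D q ≤ D p ∧
      D p ≤ 1 / 2 + θ₀ ∧ 1 / 2 - 2 * θ₀ ≤ D e₀ := by
    intro D
    have hdef := hS₀.defect D
    have a1 := side_bounds D hs (a := 1 / 2) (θ := θ₀) (by norm_num) (by linarith)
    have a2 := side_bounds D hs (a := 3 / 10) (θ := θ₀) (by norm_num) (by linarith)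
    have a3 := side_bounds D hs.neg (a := 3 / 10) (θ := θ₀) (by norm_num) (by linarith)
    rw [neg_mul_neg] at a3
    have hP := abs_le.1 (hS₀.half_pos D)
    have hN := abs_le.1 (hS₀.half_neg D)
    refine ⟨?_, ?_, ?_, ?_⟩
    · change 1 / 2 - 2 * θ₀ ≤ D (cfc (ramp (1 / 2) (1 / 10)) S₀)
      linarith
    · exact Half.val_cfc_le D hs (continuous_ramp _ _) (continuous_ramp _ _)
        (fun t => (ramp_mem _ _ _).1) (fun t => (ramp_mem _ _ _).1) fun t _ ht =>
          ramp_pos (by norm_num) (by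
            by_contra hle
            rw [rq, ramp_of_le (by norm_num) (by linarith)] at ht
            exact lt_irrefl _ ht)
    · change D (cfc (ramp (3 / 10) (1 / 10)) S₀) ≤ _
      linarith
    · change 1 / 2 - 2 * θ₀ ≤ D (cfc (ramp (3 / 10) (1 / 10)) (-S₀))
      linarith
  -- the copies
  obtain ⟨φ, hφe, -, hφc⟩ := hd.exists_copies T₀ ∅ (m + 1)
  set T₁ : Finset F := Finset.univ.biUnion fun i : Fin (m + 1) =>
    T₀.attach.image fun t => φ i ⟨t.1, mem_orbAlg t.2⟩ with hT₁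
  have hrange : ∀ i x, φ i x ∈ OrbAlg β T₁ := fun i => (hφe i).range_le fun t ht =>
    mem_orbAlg (Finset.mem_biUnion.2 ⟨i, Finset.mem_univ _,
      Finset.mem_image.2 ⟨⟨t, ht⟩, Finset.mem_attach _ _, rfl⟩⟩)
  let ψ : Fin (m + 1) → (OrbAlg β T₀ →⋆ₐ[ℂ] OrbAlg β T₁) := fun i =>
    (φ i).codRestrict _ (hrange i)
  obtain ⟨z, hz, hzS, hzlt, hzhigh⟩ := exists_side hpp hqq (hrn S₀)
    (Calc.cfc_mul_fun S₀ (continuous_ramp _ _) (continuous_ramp _ _) rp_mul_rq)
    (r := 1 / 4) (R := 3 / 4) (by norm_num) (by norm_num)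
    (fun D => ⟨by linarith [(hbound D).1], by linarith [(hbound D).2.2.1]⟩) ψ
    fun i j hij a b => Subtype.ext (hφc i j hij a b)
  have hzS1 : z * ψ 0 S₁ = z :=
    hzS S₁ (by rw [hp, hS₁, (cfc_commute_cfc clip4 rp S₀).eq]
               exact Calc.cfc_mul_fun S₀ (continuous_ramp _ _) continuous_clip4 rp_mul_clip4)
      (Calc.cfc_mul_fun S₀ (continuous_ramp _ _) continuous_clip4 rp_mul_clip4)
  -- comparison
  let inc₁ := (OrbAlg β T₁).subtype
  have hzF : IsPosC (inc₁ z) := ⟨hz.1.map inc₁, hz.2⟩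
  have heF : IsPosC (φ 0 e₀) :=
    ⟨(Elem.isPos_cfc (fun t => (ramp_mem _ _ _).1) (-S₀)).map _,
      (NonUnitalStarAlgHom.norm_apply_le _ _).trans (hrn _)⟩
  have hfull : FullSet ({φ 0 e₀} : Set F) := fullSet_map _ (fullSet_rp hS₀.full_neg)
  have hlt : ∀ D : DimState F, D (inc₁ z) < D (φ 0 e₀) := by
    intro D
    have h1 := hzlt (D.comap inc₁)
    have hb := hbound ((D.comap inc₁).comap (ψ 0))
    simp only [DimState.comap_apply] at h1 hb
    change _ ∧ _ ∧ _ ∧ 1 / 2 - 2 * θ₀ ≤ D (φ 0 e₀) at hb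
    have h3 : (1 / 4 : ℝ) ^ m * (1 / 4) ≤ (1 / 4 : ℝ) ^ m * D (inc₁ (ψ 0 p)) :=
      mul_le_mul_of_nonneg_left (by linarith) (by positivity)
    rw [← pow_succ] at h3
    linarith
  obtain ⟨v, hv⟩ := hcmp (inc₁ z) (φ 0 e₀) hzF heF hfull hlt (1 / 4) (by norm_num)
  refine assemble (b := 1 - θ') hS₀ (by linarith) h00.le (by linarith) hmod (ψ 0)
    (fun g x => (hφe 0 g x).symm) hz hzS1 hv (by linarith) (by linarith) fun D => ?_
  have h1 := hzhigh D (3 / 4 * (1 - θ') + 1 / 4) (by linarith) (by linarith)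
  have hb := (hbound (D.comap (ψ 0))).1
  simp only [DimState.comap_apply] at hb
  have h2 : (3 / 4 : ℝ) ^ m * D (ψ 0 q) ≤ (3 / 4 : ℝ) ^ m :=
    mul_le_of_le_one_right (by positivity) (val_le_one D (hqq.map (ψ 0)))
  linarith

end Main

end

end Vale.Agent.P095.Elem.Flip
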