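import Vale.Agent.P095.Gamma.Martingale
import Vale.Agent.P095.Gamma.Trace

/-!
# P095, amenable groups: the martingale `h ↦ h + η v (1 - h²)` in a commutative algebra

Only three facts about the increments are used: they are centred, have square at least `1/2` and at
most `3/2`, and two sequences of increments differ by `e`, all in the contexts of the past.
-/

namespace Vale.Agent.P095.Elem.Machine

open VAgent.P095.Gamma

noncomputable section

variable {C : Type*} [CommCStarAlgebra C]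

/-- The martingale with increments `v`. -/
def martSeq (η : ℝ) (v : ℕ → C) : ℕ → C
  | 0 => 0
  | k + 1 => martSeq η v k + η • (v k) * (1 - martSeq η v k * martSeq η v k)

/-- What is used about the increments. -/
structure Increments (τ : C →ₗ[ℂ] ℂ) (A : ℕ → StarSubalgebra ℂ C) (η δ : ℝ) (v : ℕ → C) :
    Prop where
  mem : ∀ k, v k ∈ A (k + 1)
  sa : ∀ k, IsSelfAdjoint (v k)
  small : ∀ k, ‖η • v k‖ ≤ 1 / 2
  mean : ∀ k, ∀ u ∈ A k, τ (v k * u) = 0
  sq_ge : ∀ k, ∀ u ∈ A k, IsSelfAdjoint u →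
    1 / 2 * (τ (u * u)).re - δ * ‖u‖ ^ 2 ≤ (τ (v k * v k * (u * u))).re
  sq_le : ∀ k, ∀ u ∈ A k, IsSelfAdjoint u →
    (τ (v k * v k * (u * u))).re ≤ 3 / 2 * (τ (u * u)).re + δ * ‖u‖ ^ 2

variable {τ : C →ₗ[ℂ] ℂ} {A : ℕ → StarSubalgebra ℂ C} {η δ e : ℝ} {v w : ℕ → C}

theorem martSeq_spec (hA : Monotone A) (hv : Increments τ A η δ v) :
    ∀ k, martSeq η v k ∈ A k ∧ IsSelfAdjoint (martSeq η v k) ∧ ‖martSeq η v k‖ ≤ 1 ∧
      ‖1 - martSeq η v k * martSeq η v k‖ ≤ 1
  | 0 => by
    refine ⟨zero_mem _, .zero C, by simp [martSeq], ?_⟩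
    have := (norm_step_le (IsSelfAdjoint.zero C) (IsSelfAdjoint.zero C) (Commute.zero_right _)
      (by simp) (by simp)).2
    simpa [martSeq] using this
  | k + 1 => by
    obtain ⟨hm, hs, hn, -⟩ := martSeq_spec hA hv k
    have hm' : martSeq η v k ∈ A (k + 1) := hA (Nat.le_succ k) hm
    have hηs : IsSelfAdjoint (η • v k) := (IsSelfAdjoint.all η).smul (hv.sa k)
    have hs' : IsSelfAdjoint (martSeq η v (k + 1)) :=
      hs.add ((hηs.commute_iff ((IsSelfAdjoint.one C).sub
        ((hs.commute_iff hs).1 (Commute.refl _)))).1 (Commute.all _ _))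
    have hn' := (norm_step_le hs hηs (Commute.all _ _) hn (hv.small k)).1
    refine ⟨add_mem hm' (mul_mem ?_ (sub_mem (one_mem _) (mul_mem hm' hm'))), hs', hn', ?_⟩
    · rw [← Complex.coe_smul]
      exact SMulMemClass.smul_mem _ (hv.mem k)
    · exact (norm_step_le hs' (IsSelfAdjoint.zero C) (Commute.zero_right _) hn'
        (by simp)).2

theorem tau_martSeq (hA : Monotone A) (hv : Increments τ A η δ v) :
    ∀ k, ∀ u ∈ A 0, τ (martSeq η v k * u) = 0
  | 0, u, _ => by simp [martSeq]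
  | k + 1, u, hu => by
    obtain ⟨hm, -⟩ := martSeq_spec hA hv k
    rw [martSeq, add_mul, map_add, tau_martSeq hA hv k u hu, zero_add, smul_mul_assoc,
      smul_mul_assoc, LinearMap.map_smul_of_tower, mul_assoc,
      hv.mean k _ (mul_mem (sub_mem (one_mem _) (mul_mem hm hm)) (hA (Nat.zero_le k) hu)),
      smul_zero]

theorem defect_nonneg (hτ : IsTr τ) (hA : Monotone A) (hv : Increments τ A η δ v) (k : ℕ) :
    0 ≤ (τ (1 - martSeq η v k * martSeq η v k)).re ∧
      (τ (1 - martSeq η v k * martSeq η v k)).re ≤ 1 := by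
  obtain ⟨-, hs, hn, hn'⟩ := martSeq_spec hA hv k
  constructor
  · rw [map_sub, Complex.sub_re, hτ.one, Complex.one_re, sub_nonneg, ← hτ.sa_sq hs]
    exact pow_le_one₀ (l2_nonneg _ _) ((hτ.l2_le_norm _).trans hn)
  · exact (Complex.re_le_norm _).trans ((hτ.norm_le _).trans hn')

/-- After `k` steps with `k η² ε² ≥ 16` the defect is at most `ε`. -/
theorem martSeq_defect_le (hτ : IsTr τ) (hA : Monotone A) (hv : Increments τ A η δ v)
    {ε : ℝ} (hε : 0 < ε) (hη1 : η ^ 2 ≤ 1) (hδ0 : 0 ≤ δ) (hδ : δ ≤ ε ^ 2 / 16) (k : ℕ)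
    (hk : 16 ≤ k * η ^ 2 * ε ^ 2) :
    (τ (1 - martSeq η v k * martSeq η v k)).re ≤ ε := by
  rcases le_or_gt 1 ε with hε1 | hε1
  · exact (defect_nonneg hτ hA hv k).2.trans hε1
  have key : ∀ j, (τ (1 - martSeq η v j * martSeq η v j)).re ≤
      max ε (1 - j * (η ^ 2 * ε ^ 2 / 16)) := by
    intro j
    induction j with
    | zero => exact le_max_of_le_right (by simpa using (defect_nonneg hτ hA hv 0).2)
    | succ j ih =>
      obtain ⟨hm, hs, hn, hn'⟩ := martSeq_spec hA hv j
      obtain ⟨h0, -⟩ := defect_nonneg hτ hA hv j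
      set h := martSeq η v j with hdef
      set u := 1 - h * h with hu
      have hum : u ∈ A j := sub_mem (one_mem _) (mul_mem hm hm)
      have hus : IsSelfAdjoint u :=
        (IsSelfAdjoint.one C).sub ((hs.commute_iff hs).1 (Commute.refl h))
      have e : 1 - martSeq η v (j + 1) * martSeq η v (j + 1) =
          u - (2 * η) • (v j * (h * u)) - (η * η) • (v j * v j * (u * u)) := by
        simp only [martSeq, ← hdef, ← hu, Algebra.smul_def, map_mul, map_add, two_mul, add_mul]
        rw [hu]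
        ring
      have e2 : (τ (1 - martSeq η v (j + 1) * martSeq η v (j + 1))).re =
          (τ u).re - η ^ 2 * (τ (v j * v j * (u * u))).re := by
        rw [e, map_sub, map_sub, LinearMap.map_smul_of_tower, LinearMap.map_smul_of_tower,
          hv.mean j _ (mul_mem hm hum), smul_zero, sub_zero, Complex.sub_re, Complex.real_smul,
          Complex.re_ofReal_mul]
        ring
      have hge := hv.sq_ge j u hum hus
      have hq : (τ u).re ^ 2 ≤ (τ (u * u)).re := hτ.re_sq_le hus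
      have hu1 : ‖u‖ ^ 2 ≤ 1 := pow_le_one₀ (norm_nonneg _) hn'
      have hd : δ * ‖u‖ ^ 2 ≤ δ := mul_le_of_le_one_right hδ0 hu1
      have step : (τ (1 - martSeq η v (j + 1) * martSeq η v (j + 1))).re ≤
          (τ u).re - η ^ 2 * (1 / 2 * (τ u).re ^ 2 - δ) := by
        rw [e2]
        have := mul_le_mul_of_nonneg_left
          (show 1 / 2 * (τ u).re ^ 2 - δ ≤ (τ (v j * v j * (u * u))).re by linarith) (sq_nonneg η)
        linarith
      rcases lt_or_ge (τ u).re (ε / 2) with hlt | hle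
      · refine le_max_of_le_left (step.trans ?_)
        have h1 := mul_le_mul_of_nonneg_right hη1 hδ0
        nlinarith [sq_nonneg ((τ u).re), sq_nonneg η]
      · have h2 : (ε / 2) ^ 2 ≤ (τ u).re ^ 2 := pow_le_pow_left₀ (by linarith) hle 2
        have h3 := mul_le_mul_of_nonneg_left
          (show ε ^ 2 / 16 ≤ 1 / 2 * (τ u).re ^ 2 - δ by linarith) (sq_nonneg η)
        refine step.trans ?_
        rcases le_max_iff.1 ih with hi | hi
        · exact le_max_of_le_left (by nlinarith [sq_nonneg η, sq_nonneg ε, sq_nonneg (η * ε)])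
        · exact le_max_of_le_right (by push_cast; linarith)
  refine (key k).trans (max_le le_rfl ?_)
  linarith

theorem martSeq_dist_step (hτ : IsTr τ) (hA : Monotone A) (hv : Increments τ A η δ v)
    (hw : Increments τ A η δ w) (hδ : 0 ≤ δ)
    (hd : ∀ k, ∀ u ∈ A k, IsSelfAdjoint u → ‖u‖ ≤ 1 →
      (τ ((v k - w k) * (v k - w k) * (u * u))).re ≤ e) (k : ℕ) :
    l2 τ (martSeq η v (k + 1) - martSeq η w (k + 1)) ^ 2 ≤
      (1 + 12 * η ^ 2) * l2 τ (martSeq η v k - martSeq η w k) ^ 2 +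
        η ^ 2 * (2 * e + 8 * δ) := by
  obtain ⟨hm, hs, hn, hn'⟩ := martSeq_spec hA hv k
  obtain ⟨gm, gs, gn, gn'⟩ := martSeq_spec hA hw k
  set h := martSeq η v k with hdef
  set g := martSeq η w k with gdef
  set a := 1 - h * h with adef
  set b := 1 - g * g with bdef
  have ha : a ∈ A k := sub_mem (one_mem _) (mul_mem hm hm)
  have hb : b ∈ A k := sub_mem (one_mem _) (mul_mem gm gm)
  have has : IsSelfAdjoint a :=
    (IsSelfAdjoint.one C).sub ((hs.commute_iff hs).1 (Commute.refl h))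
  have hbs : IsSelfAdjoint b :=
    (IsSelfAdjoint.one C).sub ((gs.commute_iff gs).1 (Commute.refl g))
  set x := h - g
  have hx : x ∈ A k := sub_mem hm gm
  have hxs : IsSelfAdjoint x := hs.sub gs
  set z := v k * a - w k * b with zdef
  have hzs : IsSelfAdjoint z := (((hv.sa k).commute_iff has).1 (Commute.all _ _)).sub
    (((hw.sa k).commute_iff hbs).1 (Commute.all _ _))
  have e1 : martSeq η v (k + 1) - martSeq η w (k + 1) = x + η • z := by
    simp only [martSeq, ← hdef, ← gdef, ← adef, ← bdef, zdef, x, smul_sub, smul_mul_assoc]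
    abel
  have cross : τ (z * x) = 0 := by
    rw [zdef, sub_mul, mul_assoc, mul_assoc, map_sub, hv.mean k _ (mul_mem ha hx),
      hw.mean k _ (mul_mem hb hx), sub_zero]
  have e2 : l2 τ (x + η • z) ^ 2 = l2 τ x ^ 2 + η ^ 2 * l2 τ z ^ 2 := by
    rw [hτ.sa_sq (hxs.add ((IsSelfAdjoint.all η).smul hzs)), hτ.sa_sq hxs, hτ.sa_sq hzs]
    simp only [add_mul, mul_add, smul_mul_assoc, mul_smul_comm, map_add,
      ← Complex.coe_smul, map_smul, mul_comm x z, cross, Complex.add_re, smul_eq_mul, mul_zero,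
      add_zero, zero_add, Complex.mul_re, Complex.ofReal_re, Complex.ofReal_im,
      zero_mul, sub_zero]
    ring
  set c := g * g - h * h with cdef
  have hc : c ∈ A k := sub_mem (mul_mem gm gm) (mul_mem hm hm)
  have hcs : IsSelfAdjoint c :=
    ((gs.commute_iff gs).1 (Commute.refl g)).sub ((hs.commute_iff hs).1 (Commute.refl h))
  have hz : z = (v k - w k) * a + w k * c := by
    simp only [zdef, adef, bdef, cdef]; ring
  have k1 : l2 τ ((v k - w k) * a) ^ 2 ≤ e := by
    rw [hτ.sa_sq ((((hv.sa k).sub (hw.sa k)).commute_iff has).1 (Commute.all _ _)),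
      show (v k - w k) * a * ((v k - w k) * a) = (v k - w k) * (v k - w k) * (a * a) by ring]
    exact hd k a ha has hn'
  have k2 : l2 τ (w k * c) ^ 2 ≤ 6 * l2 τ x ^ 2 + 4 * δ := by
    rw [hτ.sa_sq (((hw.sa k).commute_iff hcs).1 (Commute.all _ _)),
      show w k * c * (w k * c) = w k * w k * (c * c) by ring]
    refine (hw.sq_le k c hc hcs).trans ?_
    rw [← hτ.sa_sq hcs]
    have hgh : ‖g + h‖ ≤ 2 := (norm_add_le _ _).trans (by linarith)
    have h1 : l2 τ c ≤ 2 * l2 τ x := by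
      rw [show c = (g + h) * -x by simp only [cdef, x]; ring]
      refine (hτ.l2_mul_le _ _).trans ?_
      rw [hτ.l2_neg]
      exact mul_le_mul_of_nonneg_right hgh (l2_nonneg _ _)
    have h2 : ‖c‖ ≤ 2 := by
      rw [show c = a - b by simp only [cdef, adef, bdef]; ring]
      exact (norm_sub_le _ _).trans (by linarith)
    have h3 := mul_le_mul_of_nonneg_left (pow_le_pow_left₀ (norm_nonneg c) h2 2) hδ
    have h4 := pow_le_pow_left₀ (l2_nonneg τ c) h1 2
    linarith
  have k3 : l2 τ z ^ 2 ≤ 2 * e + 12 * l2 τ x ^ 2 + 8 * δ := by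
    rw [hz]
    nlinarith [hτ.l2_add_le ((v k - w k) * a) (w k * c),
      l2_nonneg τ ((v k - w k) * a + w k * c),
      sq_nonneg (l2 τ ((v k - w k) * a) - l2 τ (w k * c))]
  rw [e1, e2]
  nlinarith [mul_le_mul_of_nonneg_left k3 (sq_nonneg η)]

/-- Nearby increments give nearby martingales. -/
theorem martSeq_dist_le (hτ : IsTr τ) (hA : Monotone A) (hv : Increments τ A η δ v)
    (hw : Increments τ A η δ w) (hδ : 0 ≤ δ) (he : 0 ≤ e)
    (hd : ∀ k, ∀ u ∈ A k, IsSelfAdjoint u → ‖u‖ ≤ 1 →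
      (τ ((v k - w k) * (v k - w k) * (u * u))).re ≤ e) (k : ℕ) :
    (τ ((martSeq η v k - martSeq η w k) * (martSeq η v k - martSeq η w k))).re ≤
      (2 * e + 8 * δ) * (k * η ^ 2) * Real.exp (12 * (k * η ^ 2)) := by
  rw [← hτ.sa_sq ((martSeq_spec hA hv k).2.1.sub (martSeq_spec hA hw k).2.1)]
  induction k with
  | zero => simp [martSeq, hτ.l2_zero]
  | succ k ih =>
    refine (martSeq_dist_step hτ hA hv hw hδ hd k).trans ?_
    have h1 : 1 + 12 * η ^ 2 ≤ Real.exp (12 * η ^ 2) := by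
      linarith [Real.add_one_le_exp (12 * η ^ 2)]
    have h2 : (1 : ℝ) ≤ Real.exp (12 * ((k + 1 : ℕ) * η ^ 2)) := Real.one_le_exp (by positivity)
    have h3 : Real.exp (12 * η ^ 2) * Real.exp (12 * (k * η ^ 2)) =
        Real.exp (12 * ((k + 1 : ℕ) * η ^ 2)) := by
      rw [← Real.exp_add]; push_cast; ring_nf
    have h4 := mul_le_mul h1 ih (sq_nonneg _) (Real.exp_pos _).le
    rw [show Real.exp (12 * η ^ 2) * ((2 * e + 8 * δ) * (k * η ^ 2) *
      Real.exp (12 * (k * η ^ 2))) = (2 * e + 8 * δ) * (k * η ^ 2) *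
      (Real.exp (12 * η ^ 2) * Real.exp (12 * (k * η ^ 2))) by ring, h3] at h4
    have h5 := mul_le_mul_of_nonneg_left h2
      (show 0 ≤ η ^ 2 * (2 * e + 8 * δ) by positivity)
    push_cast at h4 h5 ⊢
    linarith

end

end Vale.Agent.P095.Elem.Machine
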