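import Mathlib
import Vale.Agent.P095.Gamma.Trace

/-!
# P095, amenable groups: commuting fields and the martingale built from them

`y i a` is the field of pool `i` at `a` and `K i a b` its covariance (see `FieldLaw`). A vector
`fvec` is computed
from a set of pools; when `m = 1` its terms carry tags `e`, each selecting one pool.
-/

namespace Vale.Agent.P095.Elem.Machine

open VAgent.P095.Gamma

noncomputable section

variable {C : Type*} [CommCStarAlgebra C] {B : Type*}

/-- The pools of step `k`. -/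
def pool (n k : ℕ) : Finset ℕ := Finset.Ico (k * n) ((k + 1) * n)

/-- The tags of the steps: projections which are uniform in the contexts `low k`, which hold
all the fields and the tags of the earlier steps. For `m = 0` take `e = 1` and `low = ⊤`. -/
structure Tags (τ : C →ₗ[ℂ] ℂ) (y : ℕ → B → C) (K : ℕ → B → B → C)
    (alg : Set ℕ → StarSubalgebra ℂ C) (low : ℕ → StarSubalgebra ℂ C) (n m : ℕ)
    (e : ℕ → Finset ℕ → C) : Prop where
  low_mono : Monotone low
  y_low : ∀ k i a, y i a ∈ low k
  K_low : ∀ k i a b, K i a b ∈ low k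
  e_low : ∀ k k', k < k' → ∀ X ∈ (pool n k).powersetCard m, e k X ∈ low k'
  e_alg : ∀ k, ∀ X ∈ (pool n k).powersetCard m, e k X ∈ alg ∅
  sa : ∀ k, ∀ X ∈ (pool n k).powersetCard m, IsSelfAdjoint (e k X)
  mul : ∀ k, ∀ X ∈ (pool n k).powersetCard m, ∀ Y ∈ (pool n k).powersetCard m,
    e k X * e k Y = if X = Y then e k X else 0
  unif : ∀ k, ∀ X ∈ (pool n k).powersetCard m, ∀ u ∈ low k,
    τ (e k X * u) = (((pool n k).powersetCard m).card : ℂ)⁻¹ * τ u

/-- The choices of `p.natDegree` rows of `q` pools in `P`. -/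
def choices (p : Polynomial ℝ) (q : ℕ) (P : Finset ℕ) :
    Finset (Fin p.natDegree → Fin q → ℕ) :=
  Fintype.piFinset fun _ => Fintype.piFinset fun _ => P

/-- The pools named by a choice. -/
def used {D q : ℕ} (f : Fin D → Fin q → ℕ) : Finset ℕ :=
  Finset.univ.biUnion fun i => Finset.univ.image (f i)

/-- The weight computed from the pools named by `f`: it averages to `p` of the degree. -/
def weight (p : Polynomial ℝ) (K : ℕ → B → B → C) (q : ℕ) (F : Finset B) (b : B)
    (f : Fin p.natDegree → Fin q → ℕ) : C :=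
  ∑ k ∈ Finset.range (p.natDegree + 1), p.coeff k •
    ∏ i : Fin p.natDegree,
      if (i : ℕ) < k then (F.card : ℝ)⁻¹ • ∑ z ∈ F, ∏ l, K (f i l) b z else 1

/-- The degree `d` component at `b`, leaving out the marked pools `X`: weights and products use
disjoint pools. -/
def core (p : Polynomial ℝ) (y : ℕ → B → C) (K : ℕ → B → B → C) (q d : ℕ) (P X : Finset ℕ)
    (F : Finset B) (b : B) : C :=
  ((((P.card : ℝ) ^ (p.natDegree * q))⁻¹) * √((d.factorial : ℝ) / (P.card : ℝ) ^ d)) •
    ∑ f ∈ choices p q (P \ X),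
      (∑ S ∈ (P \ (X ∪ used f)).powersetCard d, ∏ i ∈ S, y i b) * weight p K q F b f

/-- The vector attached to `F` by the pools `P` with tags `e`, each marking `m` pools. -/
def fvec (p : Polynomial ℝ) (I m : ℕ) (y : ℕ → B → C) (K : ℕ → B → B → C)
    (e : Finset ℕ → C) (P : Finset ℕ) (F : Finset B) : C :=
  ((√(I : ℝ))⁻¹ * (F.card : ℝ)⁻¹) • ∑ i ∈ Finset.range I, ∑ b ∈ F,
    ∑ X ∈ P.powersetCard m,
      e X * (∏ r ∈ X, y r b) * core p y K (2 ^ (i + 1)) (2 ^ (i + 1) - m) P X F b

/-- The martingale over fresh pools. -/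
def mart (p : Polynomial ℝ) (I m n : ℕ) (η : ℝ) (y : ℕ → B → C) (K : ℕ → B → B → C)
    (e : ℕ → Finset ℕ → C) (F : Finset B) : ℕ → C
  | 0 => 0
  | k + 1 => mart p I m n η y K e F k + η • (fvec p I m y K (e k) (pool n k) F) *
      (1 - mart p I m n η y K e F k * mart p I m n η y K e F k)

end

end Vale.Agent.P095.Elem.Machine
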