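import Vale.Agent.P095.Elem.FieldDefs
import Vale.Agent.P095.Elem.MachineDefs
import Vale.Agent.P095.Gamma.Pool

/-!
# P095, amenable groups: the vector of one step of the martingale

Products of fields over different sets of pools are orthogonal in every context of the other pools.
Hence the vector `fvec` has the pairing `formEl`, whose values at characters are `scaleForm`s of
pool averaged kernels.
-/

namespace Vale.Agent.P095.Elem.Machine

open VAgent.P095.Gamma VAgent.P101

noncomputable section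

variable {C : Type*} [CommCStarAlgebra C] {B : Type*}

theorem norm_le_of_char {z : C} {c : ℝ} (hc : 0 ≤ c)
    (h : ∀ χ : WeakDual.characterSpace ℂ C, ‖χ z‖ ≤ c) : ‖z‖ ≤ c := by
  rw [← (gelfandTransform_isometry C).norm_map_of_map_zero (map_zero _) z]
  exact (ContinuousMap.norm_le _ hc).2 h

theorem norm_char_le (χ : WeakDual.characterSpace ℂ C) (z : C) : ‖χ z‖ ≤ ‖z‖ := by
  rw [← (gelfandTransform_isometry C).norm_map_of_map_zero (map_zero _) z]
  exact ContinuousMap.norm_coe_le_norm (WeakDual.gelfandTransform ℂ C z) χ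

theorem char_rsmul (χ : WeakDual.characterSpace ℂ C) (r : ℝ) (z : C) :
    χ (r • z) = (r : ℂ) * χ z := by
  rw [← Complex.coe_smul, map_smul, smul_eq_mul]

/-- The covariance averaged over the pools `P`. -/
def avgK (K : ℕ → B → B → C) (P : Finset ℕ) (a b : B) : C :=
  (P.card : ℝ)⁻¹ • ∑ i ∈ P, K i a b

/-- The averaged degree raised to the powers of `p`. -/
def wbar (p : Polynomial ℝ) (K : ℕ → B → B → C) (q : ℕ) (P : Finset ℕ) (F : Finset B) (b : B) :
    C :=
  ∑ k ∈ Finset.range (p.natDegree + 1),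
    p.coeff k • ((F.card : ℝ)⁻¹ • ∑ z ∈ F, avgK K P b z ^ q) ^ k

/-- The pairing of the vectors of `F` and `F'`. -/
def formEl (p : Polynomial ℝ) (I : ℕ) (K : ℕ → B → B → C) (P : Finset ℕ) (F F' : Finset B) : C :=
  (I : ℝ)⁻¹ • ∑ i ∈ Finset.range I, ((F.card : ℝ) * F'.card)⁻¹ • ∑ a ∈ F, ∑ b ∈ F',
    wbar p K (2 ^ (i + 1)) P F a * wbar p K (2 ^ (i + 1)) P F' b *
      avgK K P a b ^ 2 ^ (i + 1)

/-- The kernel of the pools `P` at a character. -/
def kerAt (χ : WeakDual.characterSpace ℂ C) (K : ℕ → B → B → C) (P : Finset ℕ) (a b : B) : ℝ :=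
  (P.card : ℝ)⁻¹ * ∑ i ∈ P, (χ (K i a b)).re

/-- The sum of the absolute values of the coefficients. -/
def coefSum (p : Polynomial ℝ) : ℝ := ∑ k ∈ Finset.range (p.natDegree + 1), |p.coeff k|

theorem coefSum_nonneg (p : Polynomial ℝ) : 0 ≤ coefSum p :=
  Finset.sum_nonneg fun _ _ => abs_nonneg _

/-- The component at `b` of the vector of degree `q`. -/
def comp (p : Polynomial ℝ) (m : ℕ) (y : ℕ → B → C) (K : ℕ → B → B → C) (e : Finset ℕ → C)
    (q : ℕ) (P : Finset ℕ) (F : Finset B) (b : B) : C :=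
  ∑ X ∈ P.powersetCard m, e X * (∏ r ∈ X, y r b) * core p y K q (q - m) P X F b

theorem fvec_eq (p : Polynomial ℝ) (I m : ℕ) (y : ℕ → B → C) (K : ℕ → B → B → C)
    (e : Finset ℕ → C) (P : Finset ℕ) (F : Finset B) :
    fvec p I m y K e P F = ((√(I : ℝ))⁻¹ * (F.card : ℝ)⁻¹) •
      ∑ i ∈ Finset.range I, ∑ b ∈ F, comp p m y K e (2 ^ (i + 1)) P F b := rfl

theorem card_choices (p : Polynomial ℝ) (q : ℕ) (P : Finset ℕ) :
    ((choices p q P).card : ℝ) = (P.card : ℝ) ^ (p.natDegree * q) := by
  simp [choices, Fintype.card_piFinset, ← pow_mul, mul_comm]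

theorem mem_used {D q : ℕ} {f : Fin D → Fin q → ℕ} (i : Fin D) (l : Fin q) : f i l ∈ used f :=
  Finset.mem_biUnion.2 ⟨i, Finset.mem_univ _, Finset.mem_image_of_mem _ (Finset.mem_univ _)⟩

theorem card_used_le {D q : ℕ} (f : Fin D → Fin q → ℕ) : (used f).card ≤ D * q := by
  refine Finset.card_biUnion_le.trans ((Finset.sum_le_card_nsmul _ _ q fun i _ => ?_).trans ?_)
  · exact Finset.card_image_le.trans (by simp)
  · simp

theorem used_subset {p : Polynomial ℝ} {q : ℕ} {Q : Finset ℕ}
    {f : Fin p.natDegree → Fin q → ℕ} (hf : f ∈ choices p q Q) : used f ⊆ Q := by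
  intro r hr
  simp only [used, Finset.mem_biUnion, Finset.mem_image, Finset.mem_univ, true_and] at hr
  obtain ⟨i, l, rfl⟩ := hr
  exact Fintype.mem_piFinset.1 (Fintype.mem_piFinset.1 hf i) l

theorem mem_rsmul' {S : StarSubalgebra ℂ C} (r : ℝ) {x : C} (hx : x ∈ S) : r • x ∈ S := by
  rw [← Complex.coe_smul]
  exact SMulMemClass.smul_mem _ hx

variable {τ : C →ₗ[ℂ] ℂ} {M : ℝ} {y : ℕ → B → C} {K : ℕ → B → B → C}
  {alg : Set ℕ → StarSubalgebra ℂ C}

theorem char_K (hy : FieldLaw τ M y K alg) (χ : WeakDual.characterSpace ℂ C) (i : ℕ) (a b : B) :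
    χ (K i a b) = ((χ (K i a b)).re : ℂ) :=
  VAgent.P101.char_re χ (hy.K_sa i a b)

theorem abs_char_K (hy : FieldLaw τ M y K alg) (χ : WeakDual.characterSpace ℂ C) (i : ℕ)
    (a b : B) : |(χ (K i a b)).re| ≤ 1 :=
  (Complex.abs_re_le_norm _).trans ((norm_char_le χ _).trans (hy.K_norm i a b))

theorem char_avgK (hy : FieldLaw τ M y K alg) (χ : WeakDual.characterSpace ℂ C) (P : Finset ℕ)
    (a b : B) : χ (avgK K P a b) = (kerAt χ K P a b : ℂ) := by
  rw [avgK, char_rsmul, map_sum, kerAt, Complex.ofReal_mul, Complex.ofReal_sum]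
  congr 1
  exact Finset.sum_congr rfl fun i _ => char_K hy χ i a b

theorem abs_kerAt_le (hy : FieldLaw τ M y K alg) (χ : WeakDual.characterSpace ℂ C) (P : Finset ℕ)
    (a b : B) : |kerAt χ K P a b| ≤ 1 := by
  rcases P.eq_empty_or_nonempty with rfl | hP
  · simp [kerAt]
  · have hc : (0 : ℝ) < P.card := by exact_mod_cast hP.card_pos
    rw [kerAt, abs_mul, abs_of_pos (inv_pos.2 hc), inv_mul_le_iff₀ hc]
    refine (Finset.abs_sum_le_sum_abs _ _).trans
      ((Finset.sum_le_card_nsmul _ _ 1 fun i _ => abs_char_K hy χ i a b).trans ?_)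
    simp

theorem norm_avgK_le (hy : FieldLaw τ M y K alg) (P : Finset ℕ) (a b : B) :
    ‖avgK K P a b‖ ≤ 1 :=
  norm_le_of_char zero_le_one fun χ => by
    rw [char_avgK hy, Complex.norm_real]
    exact abs_kerAt_le hy χ P a b

theorem goodKernel_kerAt (hy : FieldLaw τ M y K alg) (χ : WeakDual.characterSpace ℂ C)
    (P : Finset ℕ) (hP : P.Nonempty) : GoodKernel (kerAt χ K P) := by
  have hc : (0 : ℝ) < P.card := by exact_mod_cast hP.card_pos
  refine ⟨fun a => ?_, fun a b => ?_, fun a b => abs_kerAt_le hy χ P a b, fun a b c => ?_⟩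
  · simp [kerAt, hy.K_diag, hc.ne']
  · simp only [kerAt, hy.K_symm _ a b]
  · obtain ⟨s, hs, hs'⟩ : ∃ s : ℝ, |s| = 1 ∧ s * kerAt χ K P a b = |kerAt χ K P a b| := by
      rcases abs_choice (kerAt χ K P a b) with e | e
      · exact ⟨1, abs_one, by rw [e, one_mul]⟩
      · exact ⟨-1, by simp, by rw [e, neg_one_mul]⟩
    obtain ⟨t, ht, ht'⟩ : ∃ t : ℝ, |t| = 1 ∧ t * kerAt χ K P b c = |kerAt χ K P b c| := by
      rcases abs_choice (kerAt χ K P b c) with e | e
      · exact ⟨1, abs_one, by rw [e, one_mul]⟩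
      · exact ⟨-1, by simp, by rw [e, neg_one_mul]⟩
    have hsum := Finset.sum_le_sum fun i (_ : i ∈ P) => hy.K_triangle χ i a b c s t hs ht
    simp only [Finset.sum_add_distrib, Finset.sum_sub_distrib, ← Finset.mul_sum, Finset.sum_const,
      nsmul_eq_mul] at hsum
    have hk : ∀ u w, ∑ i ∈ P, (χ (K i u w)).re = (P.card : ℝ) * kerAt χ K P u w := fun u w => by
      rw [kerAt, mul_inv_cancel_left₀ hc.ne']
    simp only [hk] at hsum
    have h3 : 1 - s * t * kerAt χ K P a c ≤
        2 * ((1 - s * kerAt χ K P a b) + (1 - t * kerAt χ K P b c)) := by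
      refine le_of_mul_le_mul_left ?_ hc
      linarith
    have h4 : s * t * kerAt χ K P a c ≤ |kerAt χ K P a c| := by
      refine (le_abs_self _).trans_eq ?_
      rw [abs_mul, abs_mul, hs, ht, one_mul, one_mul]
    linarith

/-- Products of fields over two sets of pools, in a context of other pools. -/
theorem tau_prod_prod (hy : FieldLaw τ M y K alg) (a b : B) (S S' : Finset ℕ) (J : Set ℕ)
    (hS : ∀ r ∈ S ∪ S', r ∉ J) (u : C) (hu : u ∈ alg J) :
    τ ((∏ i ∈ S, y i a) * (∏ i ∈ S', y i b) * u) =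
      if S = S' then τ ((∏ i ∈ S, K i a b) * u) else 0 := by
  classical
  induction S using Finset.induction_on generalizing S' J u with
  | empty =>
    rcases S'.eq_empty_or_nonempty with rfl | ⟨r, hr⟩
    · simp
    · rw [if_neg fun h => by simp [← h] at hr, Finset.prod_empty, one_mul,
        ← Finset.mul_prod_erase _ _ hr, mul_assoc]
      refine hy.mean (J ∪ ↑(S'.erase r)) r ?_ _ (mul_mem (prod_mem fun i hi => ?_) ?_) b
      · simp [hS r (Finset.mem_union_right _ hr)]
      · exact hy.y_mem _ i b (Or.inr hi)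
      · exact hy.mono Set.subset_union_left hu
  | insert r S hrS ih =>
    by_cases hr : r ∈ S'
    · have hiff : (insert r S = S') ↔ S = S'.erase r := by
        constructor
        · rintro rfl
          rw [Finset.erase_insert hrS]
        · rintro rfl
          exact Finset.insert_erase hr
      have hrJ : r ∉ J := hS r (Finset.mem_union_right _ hr)
      have h1 : τ ((∏ i ∈ insert r S, y i a) * (∏ i ∈ S', y i b) * u) =
          τ ((∏ i ∈ S, y i a) * (∏ i ∈ S'.erase r, y i b) * (K r a b * u)) := by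
        rw [Finset.prod_insert hrS, ← Finset.mul_prod_erase _ _ hr]
        have := hy.pair (J ∪ ↑S ∪ ↑(S'.erase r)) r (by simp [hrJ, hrS])
          ((∏ i ∈ S, y i a) * (∏ i ∈ S'.erase r, y i b) * u)
          (mul_mem (mul_mem (prod_mem fun i hi => hy.y_mem _ i a (Or.inl (Or.inr hi)))
            (prod_mem fun i hi => hy.y_mem _ i b (Or.inr hi)))
            (hy.mono (Set.subset_union_left.trans Set.subset_union_left) hu)) a b
        calc _ = τ (y r a * y r b *
              ((∏ i ∈ S, y i a) * (∏ i ∈ S'.erase r, y i b) * u)) := by congr 1; ring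
          _ = _ := this.trans (by congr 1; ring)
      rw [h1, ih (S'.erase r) (insert r J) ?_ _ (mul_mem (hy.K_mem _ r a b (Set.mem_insert r J))
        (hy.mono (Set.subset_insert r J) hu))]
      · simp only [hiff]
        refine if_congr Iff.rfl ?_ rfl
        rw [Finset.prod_insert hrS]
        congr 1
        ring
      · intro i hi
        simp only [Set.mem_insert_iff, not_or]
        rcases Finset.mem_union.1 hi with hi | hi
        · exact ⟨fun h => hrS (by rwa [h] at hi),
            hS i (Finset.mem_union_left _ (Finset.mem_insert_of_mem hi))⟩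
        · exact ⟨Finset.ne_of_mem_erase hi,
            hS i (Finset.mem_union_right _ (Finset.mem_of_mem_erase hi))⟩
    · rw [if_neg (fun h : insert r S = S' => hr (h ▸ Finset.mem_insert_self r S)),
        Finset.prod_insert hrS,
        mul_assoc (y r a), mul_assoc (y r a)]
      refine hy.mean (J ∪ ↑S ∪ ↑S') r ?_ _ ?_ a
      · simp [hrS, hr, hS r (Finset.mem_union_left _ (Finset.mem_insert_self r S))]
      · exact mul_mem (mul_mem (prod_mem fun i hi => hy.y_mem _ i a (Or.inl (Or.inr hi)))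
          (prod_mem fun i hi => hy.y_mem _ i b (Or.inr hi)))
          (hy.mono (Set.subset_union_left.trans Set.subset_union_left) hu)

theorem sa_prod {s : Finset ℕ} {f : ℕ → C} (h : ∀ i ∈ s, IsSelfAdjoint (f i)) :
    IsSelfAdjoint (∏ i ∈ s, f i) := by
  rw [IsSelfAdjoint, show star (∏ i ∈ s, f i) = starRingEnd C (∏ i ∈ s, f i) from rfl, map_prod]
  exact Finset.prod_congr rfl fun i hi => h i hi

theorem sa_sum {ι : Type*} {s : Finset ι} {f : ι → C} (h : ∀ i ∈ s, IsSelfAdjoint (f i)) :
    IsSelfAdjoint (∑ i ∈ s, f i) := by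
  rw [IsSelfAdjoint, star_sum]
  exact Finset.sum_congr rfl h

theorem sa_rsmul (r : ℝ) {x : C} (hx : IsSelfAdjoint x) : IsSelfAdjoint (r • x) :=
  (IsSelfAdjoint.all r).smul hx

/-- The squared 2-norm of a sum of products over different sets is the number of sets. -/
theorem l2_fam (hy : FieldLaw τ M y K alg) (𝒜 : Finset (Finset ℕ)) (a : B) :
    l2 τ (∑ S ∈ 𝒜, ∏ i ∈ S, y i a) ^ 2 = 𝒜.card := by
  classical
  rw [hy.tr.sa_sq (sa_sum fun S _ => sa_prod fun i _ => hy.y_sa i a), Finset.sum_mul_sum]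
  simp only [map_sum, Complex.re_sum]
  have h : ∀ S S' : Finset ℕ, τ ((∏ i ∈ S, y i a) * (∏ i ∈ S', y i a)) =
      if S = S' then 1 else 0 := fun S S' => by
    have := tau_prod_prod hy a a S S' ∅ (fun _ _ => Set.notMem_empty _) 1 (one_mem _)
    simpa [hy.K_diag, hy.tr.one] using this
  simp [h, apply_ite Complex.re]

/-- Sums over the `d`-subsets of `V ⊆ P` are near the powers of the average over `P`. -/
theorem near_pow (t : ℕ → ℝ) (ht : ∀ i, |t i| ≤ 1) {P V : Finset ℕ} (hP : P.Nonempty)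
    (hV : V ⊆ P) (d : ℕ) :
    |(d.factorial : ℝ) / (P.card : ℝ) ^ d * (∑ S ∈ V.powersetCard d, ∏ i ∈ S, t i) -
      ((P.card : ℝ)⁻¹ * ∑ i ∈ P, t i) ^ d| ≤
      ((d : ℝ) ^ 2 + d * (P \ V).card) / P.card := by
  classical
  set t' : ℕ → ℝ := fun i => if i ∈ V then t i else 0 with ht'
  have hb : ∀ i, |t' i| ≤ 1 := fun i => by
    simp only [ht']; split_ifs
    · exact ht i
    · simp
  have hn : (0 : ℝ) < P.card := by exact_mod_cast hP.card_pos
  have h1 : ∑ S ∈ P.powersetCard d, ∏ i ∈ S, t' i = ∑ S ∈ V.powersetCard d, ∏ i ∈ S, t i := by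
    rw [← Finset.sum_subset (Finset.powersetCard_mono hV) fun S hS hS' => ?_]
    · exact Finset.sum_congr rfl fun S hS => Finset.prod_congr rfl fun i hi =>
        if_pos ((Finset.mem_powersetCard.1 hS).1 hi)
    · obtain ⟨i, hi, hiV⟩ := Finset.not_subset.1 fun h => hS'
        (Finset.mem_powersetCard.2 ⟨h, (Finset.mem_powersetCard.1 hS).2⟩)
      exact Finset.prod_eq_zero hi (if_neg hiV)
  have h2 : ∑ i ∈ P, t' i - ∑ i ∈ P, t i = -∑ i ∈ P \ V, t i := by
    rw [← Finset.sum_sdiff hV (f := t), ← Finset.sum_sdiff hV (f := t'),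
      Finset.sum_congr rfl fun i (hi : i ∈ P \ V) => show t' i = 0 from
        if_neg (Finset.mem_sdiff.1 hi).2,
      Finset.sum_congr rfl fun i (hi : i ∈ V) => show t' i = t i from if_pos hi]
    simp
  have h3 : |∑ i ∈ P \ V, t i| ≤ (P \ V).card :=
    (Finset.abs_sum_le_sum_abs _ _).trans
      ((Finset.sum_le_card_nsmul _ _ 1 fun i _ => ht i).trans (by simp))
  have hT : ∀ s : ℕ → ℝ, (∀ i, |s i| ≤ 1) → |(P.card : ℝ)⁻¹ * ∑ i ∈ P, s i| ≤ 1 := by
    intro s hs
    rw [abs_mul, abs_of_pos (inv_pos.2 hn), inv_mul_le_iff₀ hn, mul_one]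
    exact (Finset.abs_sum_le_sum_abs _ _).trans
      ((Finset.sum_le_card_nsmul _ _ 1 fun i _ => hs i).trans (by simp))
  have h4 := esymm_near_pow t' P hP hb d
  rw [h1] at h4
  have h5 : |((P.card : ℝ)⁻¹ * ∑ i ∈ P, t' i) ^ d - ((P.card : ℝ)⁻¹ * ∑ i ∈ P, t i) ^ d| ≤
      d * (P \ V).card / P.card := by
    refine (abs_pow_sub_pow_le ((P.card : ℝ)⁻¹ * ∑ i ∈ P, t' i)
      ((P.card : ℝ)⁻¹ * ∑ i ∈ P, t i) d).trans ?_
    have hmax := pow_le_one₀ (n := d - 1) (le_max_of_le_left (abs_nonneg _))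
      (max_le (hT t' hb) (hT t ht))
    rw [← mul_sub, h2, abs_mul, abs_of_pos (inv_pos.2 hn), abs_neg]
    calc (P.card : ℝ)⁻¹ * |∑ i ∈ P \ V, t i| * d * _
        ≤ (P.card : ℝ)⁻¹ * |∑ i ∈ P \ V, t i| * d * 1 := by gcongr
      _ ≤ (P.card : ℝ)⁻¹ * (P \ V).card * d * 1 := by gcongr
      _ = _ := by ring
  refine (abs_sub_le _ (((P.card : ℝ)⁻¹ * ∑ i ∈ P, t' i) ^ d) _).trans ?_
  rw [add_div]
  linarith

/-- The error in comparing two families of products. -/
def famErr (Q s n : ℕ) : ℝ :=
  2 * √(((Q : ℝ) ^ 2 + Q * s) / n) + ((Q : ℝ) ^ 2 + Q * s) / n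

/-- Two normalised families of products, in a context disjoint from the common pools. -/
theorem tau_fam (hy : FieldLaw τ M y K alg) {P U U' : Finset ℕ} (hP : P.Nonempty) (hU : U ⊆ P)
    (hU' : U' ⊆ P) {d d' Q s : ℕ} (hd : d ≤ Q) (hd' : d' ≤ Q) (hs : (P \ (U ∩ U')).card ≤ s)
    (a b : B) {J : Set ℕ} (hJ : ∀ r ∈ U ∩ U', r ∉ J) {z : C} (hz : z ∈ alg J) :
    |(τ ((√((d.factorial : ℝ) / (P.card : ℝ) ^ d) • ∑ S ∈ U.powersetCard d, ∏ i ∈ S, y i a) *
        (√((d'.factorial : ℝ) / (P.card : ℝ) ^ d') • ∑ S ∈ U'.powersetCard d', ∏ i ∈ S, y i b) *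
        z)).re - if d = d' then (τ (avgK K P a b ^ d * z)).re else 0| ≤
      famErr Q s P.card * ‖z‖ := by
  classical
  have hn : (0 : ℝ) < P.card := by exact_mod_cast hP.card_pos
  set V := U ∩ U' with hV
  have hVP : V ⊆ P := Finset.inter_subset_left.trans hU
  set E : ℝ := ((Q : ℝ) ^ 2 + Q * s) / P.card with hE
  have hE0 : 0 ≤ E := by positivity
  set c : ℕ → ℝ := fun k => √((k.factorial : ℝ) / (P.card : ℝ) ^ k) with hc
  have hc2 : ∀ k, c k * c k = (k.factorial : ℝ) / (P.card : ℝ) ^ k := fun k =>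
    Real.mul_self_sqrt (by positivity)
  have hnear : ∀ k ≤ Q, ∀ t : ℕ → ℝ, (∀ i, |t i| ≤ 1) →
      |c k * c k * (∑ S ∈ V.powersetCard k, ∏ i ∈ S, t i) -
        ((P.card : ℝ)⁻¹ * ∑ i ∈ P, t i) ^ k| ≤ E := by
    intro k hk t ht
    rw [hc2]
    refine (near_pow t ht hP hVP k).trans ?_
    rw [hE]
    gcongr
  -- the norms of one family and of its part outside `V`
  have hfam : ∀ k ≤ Q, ∀ W : Finset ℕ, V ⊆ W → W ⊆ P → ∀ x : B,
      l2 τ (c k • ∑ S ∈ W.powersetCard k, ∏ i ∈ S, y i x) ≤ 1 ∧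
      l2 τ (c k • ∑ S ∈ W.powersetCard k, ∏ i ∈ S, y i x -
        c k • ∑ S ∈ V.powersetCard k, ∏ i ∈ S, y i x) ≤ √E := by
    intro k hk W hVW hWP x
    have hck : 0 ≤ c k := Real.sqrt_nonneg _
    have hle : c k * c k * (W.powersetCard k).card ≤ 1 := by
      rw [hc2, Finset.card_powersetCard]
      refine le_trans ?_ (choose_mul_factorial_le P.card k)
      gcongr
    constructor
    · rw [← pow_le_one_iff_of_nonneg (l2_nonneg _ _) two_ne_zero, hy.tr.l2_rsmul, mul_pow,
        sq_abs, l2_fam hy, pow_two]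
      exact hle
    · refine Real.le_sqrt_of_sq_le ?_
      rw [← smul_sub, ← Finset.sum_sdiff (Finset.powersetCard_mono hVW), add_sub_cancel_right,
        hy.tr.l2_rsmul, mul_pow, sq_abs, l2_fam hy, pow_two,
        Finset.card_sdiff_of_subset (Finset.powersetCard_mono hVW),
        Nat.cast_sub (Finset.card_le_card (Finset.powersetCard_mono hVW)), mul_sub]
      have h1 := abs_le.1 (hnear k hk (fun _ => 1) fun _ => by simp)
      simp only [Finset.prod_const_one, Finset.sum_const, nsmul_eq_mul, mul_one,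
        inv_mul_cancel₀ hn.ne', one_pow] at h1
      linarith
  set A := c d • ∑ S ∈ U.powersetCard d, ∏ i ∈ S, y i a
  set A0 := c d • ∑ S ∈ V.powersetCard d, ∏ i ∈ S, y i a with hA0
  set Bv := c d' • ∑ S ∈ U'.powersetCard d', ∏ i ∈ S, y i b
  set B0 := c d' • ∑ S ∈ V.powersetCard d', ∏ i ∈ S, y i b with hB0
  obtain ⟨-, a2⟩ := hfam d hd U Finset.inter_subset_left hU a
  obtain ⟨a1, -⟩ := hfam d hd V le_rfl hVP a
  obtain ⟨b1, b2⟩ := hfam d' hd' U' Finset.inter_subset_right hU' b
  have hsplit : |(τ (A * Bv * z)).re - (τ (A0 * B0 * z)).re| ≤ 2 * √E * ‖z‖ := by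
    rw [show A * Bv * z = A0 * B0 * z + ((A - A0) * (Bv * z) + A0 * ((Bv - B0) * z)) by ring,
      map_add, map_add, Complex.add_re, Complex.add_re, add_sub_cancel_left]
    refine (abs_add_le _ _).trans ?_
    have e1 : |(τ ((A - A0) * (Bv * z))).re| ≤ √E * (1 * ‖z‖) :=
      (hy.tr.abs_re_mul_le _ _).trans (mul_le_mul a2
        ((hy.tr.l2_mul_le' _ _).trans (mul_le_mul_of_nonneg_right b1 (norm_nonneg _)))
        (l2_nonneg _ _) (Real.sqrt_nonneg _))
    have e2 : |(τ (A0 * ((Bv - B0) * z))).re| ≤ 1 * (√E * ‖z‖) :=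
      (hy.tr.abs_re_mul_le _ _).trans (mul_le_mul a1
        ((hy.tr.l2_mul_le' _ _).trans (mul_le_mul_of_nonneg_right b2 (norm_nonneg _)))
        (l2_nonneg _ _) zero_le_one)
    linarith
  have hmain : τ (A0 * B0 * z) =
      if d = d' then τ (((c d * c d) • ∑ S ∈ V.powersetCard d, ∏ i ∈ S, K i a b) * z) else 0 := by
    rw [hA0, hB0, smul_mul_smul_comm, Finset.sum_mul_sum, smul_mul_assoc, Finset.sum_mul,
      LinearMap.map_smul_of_tower, map_sum]
    have h : ∀ S ∈ V.powersetCard d, ∀ S' ∈ V.powersetCard d',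
        τ ((∏ i ∈ S, y i a) * (∏ i ∈ S', y i b) * z) =
          if S = S' then τ ((∏ i ∈ S, K i a b) * z) else 0 := fun S hS S' hS' =>
      tau_prod_prod hy a b S S' J (fun r hr => hJ r ((Finset.mem_union.1 hr).elim
        (fun h => (Finset.mem_powersetCard.1 hS).1 h)
        (fun h => (Finset.mem_powersetCard.1 hS').1 h))) z hz
    split_ifs with hdd
    · subst hdd
      rw [smul_mul_assoc, Finset.sum_mul, LinearMap.map_smul_of_tower, map_sum]
      congr 1
      refine Finset.sum_congr rfl fun S hS => ?_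
      rw [Finset.sum_mul, map_sum, Finset.sum_congr rfl fun S' hS' => h S hS S' hS']
      simp [hS]
    · refine smul_eq_zero_of_right _ (Finset.sum_eq_zero fun S hS => ?_)
      rw [Finset.sum_mul, map_sum]
      refine Finset.sum_eq_zero fun S' hS' => ?_
      rw [h S hS S' hS', if_neg]
      rintro rfl
      exact hdd ((Finset.mem_powersetCard.1 hS).2.symm.trans (Finset.mem_powersetCard.1 hS').2)
  have hclose : |(τ (A0 * B0 * z)).re -
      if d = d' then (τ (avgK K P a b ^ d * z)).re else 0| ≤ E * ‖z‖ := by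
    rw [hmain]
    split_ifs
    · rw [← Complex.sub_re, ← map_sub, ← sub_mul]
      refine (Complex.abs_re_le_norm _).trans ((hy.tr.norm_le _).trans ((norm_mul_le _ _).trans
        (mul_le_mul_of_nonneg_right (norm_le_of_char hE0 fun χ => ?_) (norm_nonneg _))))
      rw [map_sub, char_rsmul, map_sum, map_pow, char_avgK hy]
      have e : ∀ S : Finset ℕ, χ (∏ i ∈ S, K i a b) =
          ((∏ i ∈ S, (χ (K i a b)).re : ℝ) : ℂ) := fun S => by
        rw [map_prod, Complex.ofReal_prod]
        exact Finset.prod_congr rfl fun i _ => char_K hy χ i a b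
      simp only [e, ← Complex.ofReal_sum, ← Complex.ofReal_mul, ← Complex.ofReal_pow,
        ← Complex.ofReal_sub, Complex.norm_real, Real.norm_eq_abs]
      exact hnear d hd _ fun i => abs_char_K hy χ i a b
    · simp only [Complex.zero_re, sub_self, abs_zero]
      positivity
  refine (abs_sub_le _ (τ (A0 * B0 * z)).re _).trans ((add_le_add hsplit hclose).trans_eq ?_)
  simp only [famErr, hE]
  ring

theorem mem_weight (hy : FieldLaw τ M y K alg) (p : Polynomial ℝ) {q : ℕ} (F : Finset B) (b : B)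
    {J : Set ℕ} {f : Fin p.natDegree → Fin q → ℕ} (hf : ∀ r ∈ used f, r ∈ J) :
    weight p K q F b f ∈ alg J := by
  refine sum_mem fun k _ => mem_rsmul' _ (prod_mem fun i _ => ?_)
  split_ifs
  · exact mem_rsmul' _ (sum_mem fun z _ => prod_mem fun l _ =>
      hy.K_mem _ _ _ _ (hf _ (mem_used i l)))
  · exact one_mem _

theorem sa_weight (hy : FieldLaw τ M y K alg) (p : Polynomial ℝ) {q : ℕ} (F : Finset B) (b : B)
    (f : Fin p.natDegree → Fin q → ℕ) : IsSelfAdjoint (weight p K q F b f) := by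
  refine sa_sum fun k _ => sa_rsmul _ ?_
  rw [IsSelfAdjoint, show ∀ x : C, star x = starRingEnd C x from fun _ => rfl, map_prod]
  refine Finset.prod_congr rfl fun i _ => ?_
  split_ifs
  · refine sa_rsmul _ (sa_sum fun z _ => ?_)
    rw [IsSelfAdjoint, show ∀ x : C, star x = starRingEnd C x from fun _ => rfl, map_prod]
    exact Finset.prod_congr rfl fun l _ => hy.K_sa _ _ _
  · exact map_one _

theorem norm_weight_le (hy : FieldLaw τ M y K alg) (p : Polynomial ℝ) {q : ℕ} (F : Finset B)
    (b : B) (f : Fin p.natDegree → Fin q → ℕ) : ‖weight p K q F b f‖ ≤ coefSum p := by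
  refine norm_le_of_char (coefSum_nonneg p) fun χ => ?_
  rw [weight, map_sum]
  refine (norm_sum_le _ _).trans (Finset.sum_le_sum fun k _ => ?_)
  rw [char_rsmul, norm_mul, Complex.norm_real, Real.norm_eq_abs, map_prod, norm_prod]
  refine mul_le_of_le_one_right (abs_nonneg _)
    (Finset.prod_le_one (fun _ _ => norm_nonneg _) fun i _ => ?_)
  split_ifs
  · rw [char_rsmul, norm_mul, Complex.norm_real, Real.norm_of_nonneg (by positivity), map_sum]
    rcases F.eq_empty_or_nonempty with rfl | hF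
    · simp
    · rw [inv_mul_le_iff₀ (by exact_mod_cast hF.card_pos), mul_one]
      refine (norm_sum_le _ _).trans ((Finset.sum_le_card_nsmul _ _ 1 fun z _ => ?_).trans (by simp))
      rw [map_prod, norm_prod]
      exact Finset.prod_le_one (fun _ _ => norm_nonneg _) fun l _ =>
        (norm_char_le χ _).trans (hy.K_norm _ _ _)
  · simp

theorem norm_wbar_le (hy : FieldLaw τ M y K alg) (p : Polynomial ℝ) (q : ℕ) (P : Finset ℕ)
    (F : Finset B) (b : B) : ‖wbar p K q P F b‖ ≤ coefSum p := by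
  refine norm_le_of_char (coefSum_nonneg p) fun χ => ?_
  rw [wbar, map_sum]
  refine (norm_sum_le _ _).trans (Finset.sum_le_sum fun k _ => ?_)
  rw [char_rsmul, norm_mul, Complex.norm_real, Real.norm_eq_abs, map_pow, norm_pow]
  refine mul_le_of_le_one_right (abs_nonneg _) (pow_le_one₀ (norm_nonneg _) ?_)
  rw [char_rsmul, norm_mul, Complex.norm_real, Real.norm_of_nonneg (by positivity), map_sum]
  rcases F.eq_empty_or_nonempty with rfl | hF
  · simp
  · rw [inv_mul_le_iff₀ (by exact_mod_cast hF.card_pos), mul_one]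
    refine (norm_sum_le _ _).trans ((Finset.sum_le_card_nsmul _ _ 1 fun z _ => ?_).trans (by simp))
    rw [map_pow, norm_pow, char_avgK hy, Complex.norm_real]
    exact pow_le_one₀ (norm_nonneg _) (abs_kerAt_le hy χ P b z)

theorem sum_weight (p : Polynomial ℝ) (q : ℕ) {P : Finset ℕ} (hP : P.Nonempty) (F : Finset B)
    (b : B) :
    ∑ f ∈ choices p q P, weight p K q F b f =
      ((P.card : ℝ) ^ (p.natDegree * q)) • wbar p K q P F b := by
  classical
  have hn : (P.card : ℝ) ≠ 0 := by exact_mod_cast hP.card_pos.ne'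
  have hin : ∀ z : B, ∑ g ∈ Fintype.piFinset (fun _ : Fin q => P), ∏ l, K (g l) b z =
      (P.card : ℝ) ^ q • avgK K P b z ^ q := by
    intro z
    rw [← Finset.prod_univ_sum (fun _ => P) (fun _ r => K r b z), Finset.prod_const, Finset.card_univ, Fintype.card_fin, avgK,
      smul_pow, smul_smul, ← mul_pow, mul_inv_cancel₀ hn, one_pow, one_smul]
  have hrow : ∀ k i : ℕ, ∑ g ∈ Fintype.piFinset (fun _ : Fin q => P),
      (if i < k then (F.card : ℝ)⁻¹ • ∑ z ∈ F, ∏ l, K (g l) b z else (1 : C)) =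
      (P.card : ℝ) ^ q •
        if i < k then (F.card : ℝ)⁻¹ • ∑ z ∈ F, avgK K P b z ^ q else 1 := by
    intro k i
    split_ifs
    · rw [← Finset.smul_sum, Finset.sum_comm]
      simp only [hin, ← Finset.smul_sum, smul_smul, mul_comm]
    · simp [Fintype.card_piFinset, Algebra.smul_def]
  simp only [weight]
  rw [Finset.sum_comm, wbar, Finset.smul_sum]
  refine Finset.sum_congr rfl fun k hk => ?_
  rw [← Finset.smul_sum, smul_comm, choices,
    ← Finset.prod_univ_sum (fun _ : Fin p.natDegree => Fintype.piFinset fun _ : Fin q => P)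
      (fun (i : Fin p.natDegree) (g : Fin q → ℕ) => if (i : ℕ) < k then (F.card : ℝ)⁻¹ • ∑ z ∈ F, ∏ l, K (g l) b z else (1 : C))]
  congr 1
  simp only [hrow]
  rw [Fin.prod_univ_eq_prod_range (fun i => (P.card : ℝ) ^ q •
      if i < k then (F.card : ℝ)⁻¹ • ∑ z ∈ F, avgK K P b z ^ q else (1 : C)),
    Finset.prod_smul, Finset.prod_const, Finset.card_range, ← pow_mul, mul_comm q,
    Finset.prod_ite, Finset.prod_const_one, mul_one, Finset.prod_const]
  congr 2
  have : (Finset.range p.natDegree).filter (fun i => i < k) = Finset.range k := by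
    ext i
    simp only [Finset.mem_filter, Finset.mem_range]
    have := Finset.mem_range.1 hk
    omega
  rw [this, Finset.card_range]

/-- Averaging over the choices outside `X` changes little. -/
theorem weight_avg_near (hy : FieldLaw τ M y K alg) (p : Polynomial ℝ) (q : ℕ) {P X : Finset ℕ}
    (hP : P.Nonempty) (hX : X ⊆ P) (F : Finset B) (b : B) :
    ‖wbar p K q P F b - ((P.card : ℝ) ^ (p.natDegree * q))⁻¹ •
        ∑ f ∈ choices p q (P \ X), weight p K q F b f‖ ≤
      coefSum p * (p.natDegree * q * X.card / P.card) := by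
  classical
  have hn : (0 : ℝ) < P.card := by exact_mod_cast hP.card_pos
  have hsub : choices p q (P \ X) ⊆ choices p q P := fun f hf =>
    Fintype.mem_piFinset.2 fun i => Fintype.mem_piFinset.2 fun l =>
      (Finset.mem_sdiff.1 (Fintype.mem_piFinset.1 (Fintype.mem_piFinset.1 hf i) l)).1
  set N := p.natDegree * q
  have hN : (0 : ℝ) < (P.card : ℝ) ^ N := by positivity
  rw [show wbar p K q P F b = ((P.card : ℝ) ^ N)⁻¹ • ∑ f ∈ choices p q P, weight p K q F b f by
      rw [sum_weight p q hP, inv_smul_smul₀ hN.ne'],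
    ← smul_sub, ← Finset.sum_sdiff hsub, add_sub_cancel_right, norm_smul,
    Real.norm_of_nonneg (by positivity)]
  refine (mul_le_mul_of_nonneg_left ((norm_sum_le _ _).trans (Finset.sum_le_card_nsmul _ _ _
    fun f _ => norm_weight_le hy p F b f)) (by positivity)).trans ?_
  rw [nsmul_eq_mul, Finset.card_sdiff_of_subset hsub, Nat.cast_sub (Finset.card_le_card hsub),
    card_choices, card_choices, Finset.card_sdiff_of_subset hX,
    Nat.cast_sub (Finset.card_le_card hX), ← mul_assoc, mul_sub, inv_mul_cancel₀ hN.ne',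
    inv_mul_eq_div, ← div_pow, mul_comm]
  gcongr
  · exact coefSum_nonneg p
  · have hb := one_add_mul_le_pow (a := -((X.card : ℝ) / P.card)) (by
      have : (X.card : ℝ) / P.card ≤ 1 := by
        rw [div_le_one hn]; exact_mod_cast Finset.card_le_card hX
      linarith) N
    rw [show ((P.card : ℝ) - X.card) / P.card = 1 + -((X.card : ℝ) / P.card) by field_simp; ring]
    have e : ((p.natDegree : ℝ) * q) * X.card / P.card = (N : ℝ) * (X.card / P.card) := by
      simp only [N, Nat.cast_mul]; ring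
    rw [e]
    linarith

theorem mem_core (hy : FieldLaw τ M y K alg) (p : Polynomial ℝ) (q d : ℕ) {P X : Finset ℕ}
    (F : Finset B) (b : B) {J : Set ℕ} (hPJ : ∀ r ∈ P \ X, r ∈ J) :
    core p y K q d P X F b ∈ alg J := by
  refine mem_rsmul' _ (sum_mem fun f hf => mul_mem (sum_mem fun S hS => prod_mem fun i hi => ?_)
    (mem_weight hy p F b fun r hr => hPJ r (used_subset hf hr)))
  refine hy.y_mem _ i b (hPJ i ?_)
  have := (Finset.mem_powersetCard.1 hS).1 hi
  simp only [Finset.mem_sdiff, Finset.mem_union] at this ⊢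
  tauto

section tags

variable {e : Finset ℕ → C} {low : StarSubalgebra ℂ C} {P : Finset ℕ} {m : ℕ}

/-- What one step needs from its tags. -/
structure StepTags (τ : C →ₗ[ℂ] ℂ) (y : ℕ → B → C) (K : ℕ → B → B → C)
    (alg : Set ℕ → StarSubalgebra ℂ C) (low : StarSubalgebra ℂ C) (P : Finset ℕ) (m : ℕ)
    (e : Finset ℕ → C) : Prop where
  y_low : ∀ i a, y i a ∈ low
  K_low : ∀ i a b, K i a b ∈ low
  e_alg : ∀ X ∈ P.powersetCard m, e X ∈ alg ∅
  sa : ∀ X ∈ P.powersetCard m, IsSelfAdjoint (e X)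
  mul : ∀ X ∈ P.powersetCard m, ∀ Y ∈ P.powersetCard m, e X * e Y = if X = Y then e X else 0
  unif : ∀ X ∈ P.powersetCard m, ∀ u ∈ low,
    τ (e X * u) = ((P.powersetCard m).card : ℂ)⁻¹ * τ u

theorem core_mem_low (ht : StepTags τ y K alg low P m e) (p : Polynomial ℝ) (q d : ℕ)
    (X : Finset ℕ) (F : Finset B) (b : B) : core p y K q d P X F b ∈ low := by
  refine mem_rsmul' _ (sum_mem fun f _ => mul_mem (sum_mem fun S _ => prod_mem fun i _ =>
    ht.y_low i b) (sum_mem fun k _ => mem_rsmul' _ (prod_mem fun i _ => ?_)))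
  split_ifs
  · exact mem_rsmul' _ (sum_mem fun z _ => prod_mem fun l _ => ht.K_low _ _ _)
  · exact one_mem _

theorem mean_prodK (hm : m ≤ 1) (a b : B) :
    ((P.powersetCard m).card : ℝ)⁻¹ • ∑ X ∈ P.powersetCard m, ∏ i ∈ X, K i a b =
      avgK K P a b ^ m := by
  interval_cases m
  · simp
  · simp [avgK, Finset.powersetCard_one]

theorem tau_comp_eq_zero (hy : FieldLaw τ M y K alg) (ht : StepTags τ y K alg low P m e)
    (p : Polynomial ℝ) {q : ℕ} (hq : 1 ≤ q) (F : Finset B) (b : B) {u : C} {J : Set ℕ}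
    (hJ : ∀ r ∈ P, r ∉ J) (hu : u ∈ alg J) (hul : u ∈ low) :
    τ (comp p m y K e q P F b * u) = 0 := by
  classical
  rw [comp, Finset.sum_mul, map_sum]
  refine Finset.sum_eq_zero fun X hX => ?_
  have hXP := (Finset.mem_powersetCard.1 hX).1
  rw [mul_assoc (e X), mul_assoc (e X), ht.unif X hX _ (mul_mem (mul_mem
    (prod_mem fun i _ => ht.y_low i b) (core_mem_low ht p q _ X F b)) hul)]
  refine mul_eq_zero_of_right _ ?_
  rcases X.eq_empty_or_nonempty with rfl | hne
  · rw [Finset.prod_empty, one_mul, core, smul_mul_assoc, Finset.sum_mul,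
      LinearMap.map_smul_of_tower, map_sum]
    refine smul_eq_zero_of_right _ (Finset.sum_eq_zero fun f hf => ?_)
    rw [mul_assoc, Finset.sum_mul, map_sum]
    refine Finset.sum_eq_zero fun S hS => ?_
    obtain ⟨hSsub, hScard⟩ := Finset.mem_powersetCard.1 hS
    have h0 := tau_prod_prod hy b b S ∅ (J ∪ ↑(used f)) (fun r hr => ?_)
      (weight p K q F b f * u) (mul_mem (mem_weight hy p F b fun r hr => Or.inr hr)
        (hy.mono Set.subset_union_left hu))
    · rw [Finset.prod_empty, mul_one] at h0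
      rw [h0, if_neg]
      intro h
      have hm : m = 0 := by simpa using (Finset.mem_powersetCard.1 hX).2.symm
      simp [h, hm] at hScard
      omega
    · simp only [Finset.union_empty] at hr
      have := Finset.mem_sdiff.1 (hSsub hr)
      simp only [Finset.empty_union] at this
      simp [hJ r this.1, this.2]
  · have h0 := tau_prod_prod hy b b X ∅ (J ∪ ↑(P \ X)) (fun r hr => ?_)
      (core p y K q (q - m) P X F b * u) (mul_mem (mem_core hy p q _ F b fun r hr => Or.inr hr)
        (hy.mono Set.subset_union_left hu))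
    · rw [Finset.prod_empty, mul_one, ← mul_assoc] at h0
      rw [h0, if_neg hne.ne_empty]
    · simp only [Finset.union_empty] at hr
      simp [hJ r (hXP hr), hr]

/-- The error for one pair of components. -/
def compErr (p : Polynomial ℝ) (Q n : ℕ) : ℝ :=
  coefSum p ^ 2 * (famErr Q (2 * (p.natDegree * Q) + 1) n + 2 * (p.natDegree * Q) / n)

theorem norm_prodK_le (hy : FieldLaw τ M y K alg) (X : Finset ℕ) (a b : B) :
    ‖∏ i ∈ X, K i a b‖ ≤ 1 :=
  norm_le_of_char zero_le_one fun χ => by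
    rw [map_prod, norm_prod]
    exact Finset.prod_le_one (fun _ _ => norm_nonneg _) fun i _ =>
      (norm_char_le χ _).trans (hy.K_norm _ _ _)

/-- The average of the weights with choices avoiding `X`. -/
def wavg (p : Polynomial ℝ) (K : ℕ → B → B → C) (q : ℕ) (P X : Finset ℕ) (F : Finset B) (b : B) :
    C :=
  ((P.card : ℝ) ^ (p.natDegree * q))⁻¹ • ∑ f ∈ choices p q (P \ X), weight p K q F b f

theorem card_choices_sdiff_le (p : Polynomial ℝ) (q : ℕ) (P X : Finset ℕ) :
    ((choices p q (P \ X)).card : ℝ) ≤ (P.card : ℝ) ^ (p.natDegree * q) := by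
  rw [card_choices]
  gcongr
  exact Finset.sdiff_subset

theorem norm_wavg_le (hy : FieldLaw τ M y K alg) (p : Polynomial ℝ) (q : ℕ) {P : Finset ℕ}
    (hP : P.Nonempty) (X : Finset ℕ) (F : Finset B) (b : B) :
    ‖wavg p K q P X F b‖ ≤ coefSum p := by
  have hn : (0 : ℝ) < P.card := by exact_mod_cast hP.card_pos
  rw [wavg, norm_smul, Real.norm_of_nonneg (by positivity), inv_mul_le_iff₀ (by positivity)]
  refine (norm_sum_le _ _).trans ((Finset.sum_le_card_nsmul _ _ (coefSum p) fun g _ =>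
    norm_weight_le hy p F b g).trans ?_)
  rw [nsmul_eq_mul]
  exact mul_le_mul_of_nonneg_right (card_choices_sdiff_le p q P X) (coefSum_nonneg p)

theorem norm_wavg_mul_sub (hy : FieldLaw τ M y K alg) (p : Polynomial ℝ) {q q' Q : ℕ}
    (hq : q ≤ Q) (hq' : q' ≤ Q) {P X : Finset ℕ} (hP : P.Nonempty) (hX : X ⊆ P)
    (hX1 : X.card ≤ 1) (F F' : Finset B) (a b : B) :
    ‖wavg p K q P X F a * wavg p K q' P X F' b - wbar p K q P F a * wbar p K q' P F' b‖ ≤
      coefSum p ^ 2 * (2 * (p.natDegree * Q) / P.card) := by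
  have hW := coefSum_nonneg p
  have key : ∀ r ≤ Q, ∀ (E : Finset B) (c : B),
      ‖wbar p K r P E c - wavg p K r P X E c‖ ≤ coefSum p * (p.natDegree * Q / P.card) := by
    intro r hr E c
    refine (weight_avg_near hy p r hP hX E c).trans (mul_le_mul_of_nonneg_left ?_ hW)
    have h1 : (p.natDegree : ℝ) * r * X.card ≤ p.natDegree * r * 1 := by
      gcongr; exact_mod_cast hX1
    have h2 : (p.natDegree : ℝ) * r ≤ p.natDegree * Q := by gcongr
    exact div_le_div_of_nonneg_right (by linarith) (Nat.cast_nonneg _)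
  rw [show wavg p K q P X F a * wavg p K q' P X F' b - wbar p K q P F a * wbar p K q' P F' b =
    -((wbar p K q P F a - wavg p K q P X F a) * wavg p K q' P X F' b +
      wbar p K q P F a * (wbar p K q' P F' b - wavg p K q' P X F' b)) by ring, norm_neg]
  refine (norm_add_le _ _).trans ((add_le_add
    ((norm_mul_le _ _).trans (mul_le_mul (key q hq F a) (norm_wavg_le hy p q' hP X F' b)
      (norm_nonneg _) (by positivity)))
    ((norm_mul_le _ _).trans (mul_le_mul (norm_wbar_le hy p q P F a) (key q' hq' F' b)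
      (norm_nonneg _) hW))).trans_eq ?_)
  ring

/-- The pairing of two cores with the same marked pools. -/
theorem tau_core_mul (hy : FieldLaw τ M y K alg) (hP : P.Nonempty) (p : Polynomial ℝ)
    {q q' d d' Q : ℕ} (hd : d ≤ Q) (hd' : d' ≤ Q) (hq : q ≤ Q) (hq' : q' ≤ Q) {X : Finset ℕ}
    (hX1 : X.card ≤ 1) (F F' : Finset B) (a b : B) {z : C} {J : Set ℕ}
    (hJ : ∀ r ∈ P \ X, r ∉ J) (hz : z ∈ alg J) :
    |(τ (core p y K q d P X F a * core p y K q' d' P X F' b * z)).re -
      if d = d' then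
        (τ (avgK K P a b ^ d * (wavg p K q P X F a * wavg p K q' P X F' b * z))).re else 0| ≤
      famErr Q (2 * (p.natDegree * Q) + 1) P.card * coefSum p ^ 2 * ‖z‖ := by
  classical
  have hn : (0 : ℝ) < P.card := by exact_mod_cast hP.card_pos
  have hE : 0 ≤ famErr Q (2 * (p.natDegree * Q) + 1) P.card := by unfold famErr; positivity
  set cf := ((P.card : ℝ) ^ (p.natDegree * q))⁻¹ with hcf
  set cg := ((P.card : ℝ) ^ (p.natDegree * q'))⁻¹ with hcg
  let T : (Fin p.natDegree → Fin q → ℕ) → (Fin p.natDegree → Fin q' → ℕ) → ℂ := fun f g =>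
    τ ((√((d.factorial : ℝ) / (P.card : ℝ) ^ d) •
        ∑ S ∈ (P \ (X ∪ used f)).powersetCard d, ∏ i ∈ S, y i a) *
      (√((d'.factorial : ℝ) / (P.card : ℝ) ^ d') •
        ∑ S ∈ (P \ (X ∪ used g)).powersetCard d', ∏ i ∈ S, y i b) *
      (weight p K q F a f * weight p K q' F' b g * z))
  let U : (Fin p.natDegree → Fin q → ℕ) → (Fin p.natDegree → Fin q' → ℕ) → ℝ := fun f g =>
    if d = d' then (τ (avgK K P a b ^ d * (weight p K q F a f * weight p K q' F' b g * z))).re
    else 0
  have hfam : ∀ f ∈ choices p q (P \ X), ∀ g ∈ choices p q' (P \ X),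
      |(T f g).re - U f g| ≤
        famErr Q (2 * (p.natDegree * Q) + 1) P.card * (coefSum p ^ 2 * ‖z‖) := by
    intro f _ g _
    refine (tau_fam hy hP Finset.sdiff_subset Finset.sdiff_subset hd hd' ?_ a b
      (J := J ∪ ↑(used f ∪ used g)) ?_ ?_).trans (mul_le_mul_of_nonneg_left ?_ hE)
    · refine le_trans (Finset.card_le_card (t := X ∪ used f ∪ used g) fun r hr => ?_) ?_
      · simp only [Finset.mem_sdiff, Finset.mem_inter, Finset.mem_union] at hr ⊢
        tauto
      · refine (Finset.card_union_le _ _).trans ?_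
        have h1 := Finset.card_union_le X (used f)
        have h2 := card_used_le f
        have h3 := card_used_le g
        have h4 : p.natDegree * q ≤ p.natDegree * Q := Nat.mul_le_mul_left _ hq
        have h5 : p.natDegree * q' ≤ p.natDegree * Q := Nat.mul_le_mul_left _ hq'
        omega
    · intro r hr
      simp only [Finset.mem_inter, Finset.mem_sdiff, Finset.mem_union] at hr
      simp only [Set.mem_union, Finset.mem_coe, Finset.mem_union, not_or]
      exact ⟨hJ r (Finset.mem_sdiff.2 ⟨hr.1.1, fun h => hr.1.2 (Or.inl h)⟩),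
        fun h => hr.1.2 (Or.inr h), fun h => hr.2.2 (Or.inr h)⟩
    · exact mul_mem (mul_mem
        (mem_weight hy p F a fun r hr => Or.inr (Finset.mem_union_left _ hr))
        (mem_weight hy p F' b fun r hr => Or.inr (Finset.mem_union_right _ hr)))
        (hy.mono Set.subset_union_left hz)
    · refine (norm_mul_le _ _).trans (mul_le_mul_of_nonneg_right ((norm_mul_le _ _).trans ?_)
        (norm_nonneg _))
      rw [pow_two]
      exact mul_le_mul (norm_weight_le hy p F a f) (norm_weight_le hy p F' b g) (norm_nonneg _)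
        (coefSum_nonneg p)
  have hexp : τ (core p y K q d P X F a * core p y K q' d' P X F' b * z) =
      (cf * cg) • ∑ f ∈ choices p q (P \ X), ∑ g ∈ choices p q' (P \ X), T f g := by
    have e : core p y K q d P X F a * core p y K q' d' P X F' b * z =
        (cf * cg) • ∑ f ∈ choices p q (P \ X), ∑ g ∈ choices p q' (P \ X),
          (√((d.factorial : ℝ) / (P.card : ℝ) ^ d) •
              ∑ S ∈ (P \ (X ∪ used f)).powersetCard d, ∏ i ∈ S, y i a) *
            (√((d'.factorial : ℝ) / (P.card : ℝ) ^ d') •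
              ∑ S ∈ (P \ (X ∪ used g)).powersetCard d', ∏ i ∈ S, y i b) *
            (weight p K q F a f * weight p K q' F' b g * z) := by
      rw [core, core, ← hcf, ← hcg, smul_mul_smul_comm, Finset.sum_mul_sum, smul_mul_assoc,
        Finset.sum_mul, show cf * √((d.factorial : ℝ) / (P.card : ℝ) ^ d) *
          (cg * √((d'.factorial : ℝ) / (P.card : ℝ) ^ d')) = cf * cg *
          (√((d.factorial : ℝ) / (P.card : ℝ) ^ d) * √((d'.factorial : ℝ) / (P.card : ℝ) ^ d'))
          by ring, mul_smul, Finset.smul_sum]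
      congr 1
      refine Finset.sum_congr rfl fun f _ => ?_
      rw [Finset.sum_mul, Finset.smul_sum]
      refine Finset.sum_congr rfl fun g _ => ?_
      rw [smul_mul_smul_comm, smul_mul_assoc]
      congr 1
      ring
    rw [e, LinearMap.map_smul_of_tower, map_sum]
    congr 1
    exact Finset.sum_congr rfl fun f _ => map_sum τ _ _
  have hmain : (if d = d' then
      (τ (avgK K P a b ^ d * (wavg p K q P X F a * wavg p K q' P X F' b * z))).re else 0) =
      (cf * cg) * ∑ f ∈ choices p q (P \ X), ∑ g ∈ choices p q' (P \ X), U f g := by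
    simp only [U]
    split_ifs
    · rw [wavg, wavg, ← hcf, ← hcg, smul_mul_smul_comm, smul_mul_assoc, mul_smul_comm,
        LinearMap.map_smul_of_tower, Complex.real_smul, Complex.re_ofReal_mul,
        Finset.sum_mul_sum, Finset.sum_mul, Finset.mul_sum, map_sum, Complex.re_sum]
      congr 1
      refine Finset.sum_congr rfl fun f _ => ?_
      rw [Finset.sum_mul, Finset.mul_sum, map_sum, Complex.re_sum]
    · simp
  rw [hexp, hmain, Complex.real_smul, Complex.re_ofReal_mul, ← mul_sub, Complex.re_sum,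
    ← Finset.sum_sub_distrib, abs_mul, abs_of_nonneg (by positivity)]
  refine (mul_le_mul_of_nonneg_left ((Finset.abs_sum_le_sum_abs _ _).trans
    (Finset.sum_le_card_nsmul _ _ ((P.card : ℝ) ^ (p.natDegree * q') *
      (famErr Q (2 * (p.natDegree * Q) + 1) P.card * (coefSum p ^ 2 * ‖z‖))) fun f hf => ?_))
    (by positivity)).trans ?_
  · rw [Complex.re_sum, ← Finset.sum_sub_distrib]
    refine (Finset.abs_sum_le_sum_abs _ _).trans ((Finset.sum_le_card_nsmul _ _ _
      fun g hg => hfam f hf g hg).trans ?_)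
    rw [nsmul_eq_mul]
    exact mul_le_mul_of_nonneg_right (card_choices_sdiff_le p q' P X) (by positivity)
  · rw [nsmul_eq_mul]
    refine (mul_le_mul_of_nonneg_left (mul_le_mul_of_nonneg_right
      (card_choices_sdiff_le p q P X) (by positivity)) (by positivity)).trans_eq ?_
    rw [hcf, hcg]
    field_simp

/-- The tags reduce a pair of components to the mean over the marked pools. -/
theorem tau_comp_tags (hy : FieldLaw τ M y K alg) (ht : StepTags τ y K alg low P m e)
    (p : Polynomial ℝ) (q q' : ℕ) (F F' : Finset B) (a b : B) {u : C} {J : Set ℕ}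
    (hJ : ∀ r ∈ P, r ∉ J) (hu : u ∈ alg J) (hul : u ∈ low) :
    τ (comp p m y K e q P F a * comp p m y K e q' P F' b * u) =
      ((P.powersetCard m).card : ℂ)⁻¹ * ∑ X ∈ P.powersetCard m,
        τ (core p y K q (q - m) P X F a * core p y K q' (q' - m) P X F' b *
          ((∏ r ∈ X, K r a b) * u)) := by
  classical
  rw [comp, comp, Finset.sum_mul_sum, Finset.sum_mul, map_sum, Finset.mul_sum]
  refine Finset.sum_congr rfl fun X hX => ?_
  have hXP := (Finset.mem_powersetCard.1 hX).1
  rw [Finset.sum_mul, map_sum, Finset.sum_eq_single X]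
  · rw [show e X * (∏ r ∈ X, y r a) * core p y K q (q - m) P X F a *
        (e X * (∏ r ∈ X, y r b) * core p y K q' (q' - m) P X F' b) * u = e X * e X *
        ((∏ r ∈ X, y r a) * (∏ r ∈ X, y r b) *
          (core p y K q (q - m) P X F a * core p y K q' (q' - m) P X F' b * u)) by ring,
      ht.mul X hX X hX, if_pos rfl, ht.unif X hX _ (mul_mem (mul_mem
        (prod_mem fun i _ => ht.y_low i a) (prod_mem fun i _ => ht.y_low i b))
        (mul_mem (mul_mem (core_mem_low ht p q _ X F a) (core_mem_low ht p q' _ X F' b)) hul)),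
      tau_prod_prod hy a b X X (J ∪ ↑(P \ X)) (fun r hr => ?_) _ (mul_mem (mul_mem
        (mem_core hy p q _ F a fun r hr => Or.inr hr)
        (mem_core hy p q' _ F' b fun r hr => Or.inr hr))
        (hy.mono Set.subset_union_left hu)), if_pos rfl]
    · congr 2
      ring
    · rw [Finset.union_self] at hr
      simp [hJ r (hXP hr), hr]
  · intro Y hY hne
    rw [show e X * (∏ r ∈ X, y r a) * core p y K q (q - m) P X F a *
        (e Y * (∏ r ∈ Y, y r b) * core p y K q' (q' - m) P Y F' b) * u = e X * e Y *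
        ((∏ r ∈ X, y r a) * core p y K q (q - m) P X F a *
          ((∏ r ∈ Y, y r b) * core p y K q' (q' - m) P Y F' b) * u) by ring,
      ht.mul X hX Y hY, if_neg hne.symm, zero_mul, map_zero]
  · exact fun h => absurd hX h

/-- The pairing of two components. -/
theorem tau_comp_mul (hy : FieldLaw τ M y K alg) (ht : StepTags τ y K alg low P m e) (hm : m ≤ 1)
    (hP : P.Nonempty) (p : Polynomial ℝ) {q q' Q : ℕ} (hq : m ≤ q) (hq' : m ≤ q')
    (hQ : q ≤ Q) (hQ' : q' ≤ Q)
    (F F' : Finset B) (a b : B) {u : C} {J : Set ℕ} (hJ : ∀ r ∈ P, r ∉ J) (hu : u ∈ alg J)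
    (hul : u ∈ low) :
    |(τ (comp p m y K e q P F a * comp p m y K e q' P F' b * u)).re -
      if q = q' then (τ (wbar p K q P F a * wbar p K q' P F' b * avgK K P a b ^ q * u)).re else 0| ≤
      compErr p Q P.card * ‖u‖ := by
  classical
  set A := P.powersetCard m with hA
  have hA0 : (0 : ℝ) < A.card := by
    exact_mod_cast (Finset.powersetCard_nonempty.2 (hm.trans hP.card_pos)).card_pos
  have hqq : (q - m = q' - m) ↔ q = q' := by omega
  have hfinal : (if q = q' then
        (τ (wbar p K q P F a * wbar p K q' P F' b * avgK K P a b ^ q * u)).re else 0) =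
      (A.card : ℝ)⁻¹ * ∑ X ∈ A, if q = q' then (τ (avgK K P a b ^ (q - m) *
        (wbar p K q P F a * wbar p K q' P F' b * ((∏ r ∈ X, K r a b) * u)))).re else 0 := by
    split_ifs
    · rw [← Complex.re_sum, ← map_sum, ← Complex.re_ofReal_mul, ← Complex.real_smul,
        ← LinearMap.map_smul_of_tower]
      congr 2
      rw [← Finset.mul_sum, ← Finset.mul_sum, ← Finset.sum_mul, ← mul_smul_comm, ← mul_smul_comm,
        ← smul_mul_assoc, hA, mean_prodK hm a b]
      conv_lhs => rw [show q = q - m + m by omega, pow_add]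
      rw [show q - m + m = q by omega]
      ring
    · simp
  rw [tau_comp_tags hy ht p q q' F F' a b hJ hu hul, hfinal,
    show ((A.card : ℂ))⁻¹ = (((A.card : ℝ)⁻¹ : ℝ) : ℂ) by push_cast; rfl, Complex.re_ofReal_mul,
    Complex.re_sum, ← mul_sub, ← Finset.sum_sub_distrib, abs_mul, abs_of_pos (inv_pos.2 hA0),
    inv_mul_le_iff₀ hA0]
  refine (Finset.abs_sum_le_sum_abs _ _).trans ((Finset.sum_le_card_nsmul _ _
    (compErr p Q P.card * ‖u‖) fun X hX => ?_).trans (by rw [nsmul_eq_mul]))
  have hXP := (Finset.mem_powersetCard.1 hX).1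
  have hX1 : X.card ≤ 1 := (Finset.mem_powersetCard.1 hX).2.trans_le hm
  have hzn : ‖(∏ r ∈ X, K r a b) * u‖ ≤ ‖u‖ :=
    (norm_mul_le _ _).trans (mul_le_of_le_one_left (norm_nonneg _) (norm_prodK_le hy X a b))
  have h1 := tau_core_mul (q := q) (q' := q') hy hP p (show q - m ≤ Q by omega) (show q' - m ≤ Q by omega)
    hQ hQ' hX1 F F' a b (J := J ∪ ↑X) (z := (∏ r ∈ X, K r a b) * u)
    (fun r hr => by simp [hJ r (Finset.mem_sdiff.1 hr).1, (Finset.mem_sdiff.1 hr).2])
    (mul_mem (prod_mem fun r hr => hy.K_mem _ r a b (Or.inr hr))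
      (hy.mono Set.subset_union_left hu))
  simp only [hqq] at h1
  have hW := coefSum_nonneg p
  have hE : 0 ≤ famErr Q (2 * (p.natDegree * Q) + 1) P.card := by unfold famErr; positivity
  refine (abs_sub_le _ _ _).trans ((add_le_add (h1.trans (mul_le_mul_of_nonneg_left hzn
    (mul_nonneg hE (sq_nonneg _)))) (le_refl _)).trans ?_)
  have h2 : coefSum p ^ 2 * (2 * (p.natDegree * Q) / P.card) * ‖u‖ +
      famErr Q (2 * (p.natDegree * Q) + 1) P.card * coefSum p ^ 2 * ‖u‖ =
      compErr p Q P.card * ‖u‖ := by rw [compErr]; ring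
  rw [← h2, add_comm _ (famErr _ _ _ * _ * _)]
  gcongr
  split_ifs
  · rw [← Complex.sub_re, ← map_sub, ← mul_sub, ← sub_mul]
    refine (Complex.abs_re_le_norm _).trans ((hy.tr.norm_le _).trans ((norm_mul_le _ _).trans
      ((mul_le_of_le_one_left (norm_nonneg _) ?_).trans ((norm_mul_le _ _).trans
        (mul_le_mul (norm_wavg_mul_sub hy p hQ hQ' hP hXP hX1 F F' a b) hzn (norm_nonneg _)
          (by positivity))))))
    refine norm_le_of_char zero_le_one fun χ => ?_
    rw [map_pow, norm_pow, char_avgK hy, Complex.norm_real]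
    exact pow_le_one₀ (norm_nonneg _) (abs_kerAt_le hy χ P a b)
  · simp only [sub_self, abs_zero]
    positivity

end tags

end

end Vale.Agent.P095.Elem.Machine
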