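import Vale.Agent.P095.Elem.Defs
import Vale.Agent.P095.Elem.MachineStep
import Vale.Agent.P095.Elem.MachineMart
import Vale.Agent.P095.Gamma.Scalar

/-!
# P095, amenable groups: the machine

From commuting fields with their covariance, uniformly in the algebra and the functional: an element
which squares to almost one, is almost equal to its translates and is centred in the outside
contexts. `mart_map`, `mart_image` and `mart_flip` give naturality, equivariance and parity.
-/

namespace Vale.Agent.P095.Elem.Machine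

open VAgent.P095.Gamma VAgent.P101
open scoped symmDiff Topology

noncomputable section

section algebra

variable {C D : Type*} [CommCStarAlgebra C] [CommCStarAlgebra D] {B B' : Type*}

theorem map_rsmul' (φ : C →⋆ₐ[ℂ] D) (r : ℝ) (x : C) : φ (r • x) = r • φ x := by
  rw [← Complex.coe_smul, map_smul, Complex.coe_smul]

theorem weight_map (φ : C →⋆ₐ[ℂ] D) (p : Polynomial ℝ) (K : ℕ → B → B → C) {q : ℕ} (F : Finset B)
    (b : B) (f : Fin p.natDegree → Fin q → ℕ) :
    φ (weight p K q F b f) = weight p (fun i a c => φ (K i a c)) q F b f := by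
  simp only [weight, map_sum, map_rsmul', map_prod, apply_ite φ, map_one]

theorem fvec_map (φ : C →⋆ₐ[ℂ] D) (p : Polynomial ℝ) (I m : ℕ) (y : ℕ → B → C)
    (K : ℕ → B → B → C) (e : Finset ℕ → C) (P : Finset ℕ) (F : Finset B) :
    φ (fvec p I m y K e P F) = fvec p I m (fun i a => φ (y i a)) (fun i a b => φ (K i a b))
      (fun X => φ (e X)) P F := by
  simp only [fvec, core, map_sum, map_mul, map_rsmul', map_prod, weight_map]

theorem mart_map (φ : C →⋆ₐ[ℂ] D) (p : Polynomial ℝ) (I m n : ℕ) (η : ℝ) (y : ℕ → B → C)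
    (K : ℕ → B → B → C) (e : ℕ → Finset ℕ → C) (F : Finset B) (k : ℕ) :
    φ (mart p I m n η y K e F k) = mart p I m n η (fun i a => φ (y i a))
      (fun i a b => φ (K i a b)) (fun j X => φ (e j X)) F k := by
  induction k with
  | zero => simp [mart]
  | succ k ih => simp only [mart, map_add, map_mul, map_sub, map_one, map_rsmul', ih, fvec_map]

theorem weight_image [DecidableEq B] (p : Polynomial ℝ) (K : ℕ → B → B → C) {q : ℕ} (g : B' → B)
    (F : Finset B') (hg : Set.InjOn g F) (b : B') (f : Fin p.natDegree → Fin q → ℕ) :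
    weight p K q (F.image g) (g b) f = weight p (fun i a c => K i (g a) (g c)) q F b f := by
  simp only [weight, Finset.card_image_of_injOn hg, Finset.sum_image hg]

theorem fvec_image [DecidableEq B] (p : Polynomial ℝ) (I m : ℕ) (y : ℕ → B → C)
    (K : ℕ → B → B → C) (e : Finset ℕ → C) (P : Finset ℕ) (g : B' → B) (F : Finset B')
    (hg : Set.InjOn g F) :
    fvec p I m y K e P (F.image g) =
      fvec p I m (fun i a => y i (g a)) (fun i a b => K i (g a) (g b)) e P F := by
  simp only [fvec, core, Finset.card_image_of_injOn hg, Finset.sum_image hg,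
    weight_image p K g F hg]

/-- The martingale of a translated set is the martingale of the translated fields. -/
theorem mart_image [DecidableEq B] (p : Polynomial ℝ) (I m n : ℕ) (η : ℝ) (y : ℕ → B → C)
    (K : ℕ → B → B → C) (e : ℕ → Finset ℕ → C) (g : B' → B) (F : Finset B')
    (hg : Set.InjOn g F) (k : ℕ) :
    mart p I m n η y K e (F.image g) k =
      mart p I m n η (fun i a => y i (g a)) (fun i a b => K i (g a) (g b)) e F k := by
  induction k with
  | zero => simp [mart]
  | succ k ih => simp only [mart, ih, fvec_image p I m y K (e k) (pool n k) g F hg]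

theorem mul_prod_flip (e : C) (y y' : ℕ → B → C) (b : B) (S : Finset ℕ)
    (h : ∀ r ∈ S, e * y' r b = e * y r b) : e * ∏ r ∈ S, y' r b = e * ∏ r ∈ S, y r b := by
  induction S using Finset.cons_induction with
  | empty => simp
  | cons r S hr ih =>
    rw [Finset.prod_cons, Finset.prod_cons, ← mul_assoc, h r (Finset.mem_cons_self r S), mul_comm e,
      mul_assoc, ih fun s hs => h s (Finset.mem_cons_of_mem hs)]
    ring

/-- Flipping the selected fields flips the vector. -/
theorem fvec_flip (p : Polynomial ℝ) (I : ℕ) {y y' : ℕ → B → C} (K : ℕ → B → B → C)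
    {e : Finset ℕ → C} (P : Finset ℕ) (F : Finset B)
    (h : ∀ X ∈ P.powersetCard 1, ∀ r ∈ P, ∀ b,
      e X * y' r b = if r ∈ X then -(e X * y r b) else e X * y r b) :
    fvec p I 1 y' K e P F = -fvec p I 1 y K e P F := by
  classical
  simp only [fvec, ← smul_neg, ← Finset.sum_neg_distrib]
  congr 1
  refine Finset.sum_congr rfl fun i _ => Finset.sum_congr rfl fun b _ =>
    Finset.sum_congr rfl fun X hX => ?_
  obtain ⟨hXP, hXc⟩ := Finset.mem_powersetCard.1 hX
  obtain ⟨r, rfl⟩ := Finset.card_eq_one.1 hXc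
  have hr := h _ hX r (Finset.singleton_subset_iff.1 hXP) b
  rw [if_pos (Finset.mem_singleton_self r)] at hr
  simp only [Finset.prod_singleton, hr, core, mul_smul_comm, Finset.mul_sum, neg_mul]
  rw [← smul_neg, ← Finset.sum_neg_distrib]
  congr 1
  refine Finset.sum_congr rfl fun f _ => ?_
  simp only [Finset.sum_mul, Finset.mul_sum]
  rw [neg_inj]
  refine Finset.sum_congr rfl fun S hS => ?_
  have hS' := mul_prod_flip (e {r}) y y' b S fun s hs => by
    have hsP := (Finset.mem_powersetCard.1 hS).1 hs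
    simp only [Finset.mem_sdiff, Finset.mem_union, Finset.mem_singleton, not_or] at hsP
    rw [h _ hX s hsP.1 b, if_neg (by simpa using hsP.2.1)]
  rw [show e {r} * y r b * ((∏ i ∈ S, y' i b) *
      weight p K (2 ^ (i + 1)) F b f) = e {r} * (∏ i ∈ S, y' i b) *
      (y r b * weight p K (2 ^ (i + 1)) F b f) by ring, hS']
  ring

/-- Flipping the selected fields in every step flips the martingale. -/
theorem mart_flip (p : Polynomial ℝ) (I n : ℕ) (η : ℝ) {y y' : ℕ → B → C} (K : ℕ → B → B → C)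
    {e : ℕ → Finset ℕ → C} (F : Finset B)
    (h : ∀ j, ∀ X ∈ (pool n j).powersetCard 1, ∀ r ∈ pool n j, ∀ b,
      e j X * y' r b = if r ∈ X then -(e j X * y r b) else e j X * y r b) (k : ℕ) :
    mart p I 1 n η y' K e F k = -mart p I 1 n η y K e F k := by
  induction k with
  | zero => simp [mart]
  | succ k ih =>
    simp only [mart, ih, fvec_flip p I K (pool n k) F (h k), smul_neg]
    ring

theorem mart_eq_martSeq (p : Polynomial ℝ) (I m n : ℕ) (η : ℝ) (y : ℕ → B → C)
    (K : ℕ → B → B → C) (e : ℕ → Finset ℕ → C) (F : Finset B) (k : ℕ) :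
    mart p I m n η y K e F k = martSeq η (fun j => fvec p I m y K (e j) (pool n j) F) k := by
  induction k with
  | zero => rfl
  | succ k ih => simp only [mart, martSeq, ih]

theorem scaleForm_image [DecidableEq B] (p : Polynomial ℝ) (I : ℕ) (T : B → B → ℝ) (g : B' → B)
    (E E' : Finset B') (hE : Set.InjOn g E) (hE' : Set.InjOn g E') :
    scaleForm p I (fun a b => T (g a) (g b)) E E' = scaleForm p I T (E.image g) (E'.image g) := by
  simp only [scaleForm, qform, deg, Finset.card_image_of_injOn hE, Finset.card_image_of_injOn hE',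
    Finset.sum_image hE, Finset.sum_image hE']

theorem re_tau_nonneg {τ : C →ₗ[ℂ] ℂ} (hτ : IsTr τ) {a : C} (ha : IsSelfAdjoint a)
    (h : ∀ χ : WeakDual.characterSpace ℂ C, 0 ≤ (χ a).re) : 0 ≤ (τ a).re := by
  have hn : ‖(‖a‖ : ℝ) • (1 : C) - a‖ ≤ ‖a‖ := by
    refine norm_le_of_char (norm_nonneg a) fun χ => ?_
    rw [map_sub, char_rsmul, map_one, mul_one, VAgent.P101.char_re χ ha, ← Complex.ofReal_sub,
      Complex.norm_real, Real.norm_eq_abs, abs_le]
    have h1 := (Complex.abs_re_le_norm _).trans (norm_char_le χ a)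
    rw [abs_le] at h1
    constructor <;> linarith [h χ, norm_nonneg a]
  have h2 := (Complex.re_le_norm _).trans ((hτ.norm_le ((‖a‖ : ℝ) • (1 : C) - a)).trans hn)
  rw [map_sub, LinearMap.map_smul_of_tower, hτ.one, Complex.sub_re, Complex.real_smul, mul_one,
    Complex.ofReal_re] at h2
  linarith

theorem re_tau_le {τ : C →ₗ[ℂ] ℂ} (hτ : IsTr τ) {a b : C} (ha : IsSelfAdjoint a)
    (hb : IsSelfAdjoint b) (h : ∀ χ : WeakDual.characterSpace ℂ C, (χ a).re ≤ (χ b).re) :
    (τ a).re ≤ (τ b).re := by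
  have := re_tau_nonneg hτ (hb.sub ha) fun χ => by
    rw [map_sub, Complex.sub_re]; linarith [h χ]
  rw [map_sub, Complex.sub_re] at this
  linarith

end algebra

section step

variable {C : Type*} [CommCStarAlgebra C] {B : Type*} {τ : C →ₗ[ℂ] ℂ} {M : ℝ} {y : ℕ → B → C}
  {K : ℕ → B → B → C} {alg : Set ℕ → StarSubalgebra ℂ C} {low : StarSubalgebra ℂ C}
  {P : Finset ℕ} {m : ℕ} {e : Finset ℕ → C}

theorem mem_core_sub {S : StarSubalgebra ℂ C} (hyS : ∀ i a, y i a ∈ S)
    (hKS : ∀ i a b, K i a b ∈ S) (p : Polynomial ℝ) (q d : ℕ) (P X : Finset ℕ) (F : Finset B)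
    (b : B) : core p y K q d P X F b ∈ S := by
  refine mem_rsmul' _ (sum_mem fun f _ => mul_mem (sum_mem fun S _ => prod_mem fun i _ =>
    hyS i b) (sum_mem fun k _ => mem_rsmul' _ (prod_mem fun i _ => ?_)))
  split_ifs
  · exact mem_rsmul' _ (sum_mem fun z _ => prod_mem fun l _ => hKS _ _ _)
  · exact one_mem _

theorem tau_fvec_eq_zero (hy : FieldLaw τ M y K alg) (ht : StepTags τ y K alg low P m e)
    (p : Polynomial ℝ) (I : ℕ) (F : Finset B) {u : C} {J : Set ℕ} (hJ : ∀ r ∈ P, r ∉ J)
    (hu : u ∈ alg J) (hul : u ∈ low) : τ (fvec p I m y K e P F * u) = 0 := by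
  rw [fvec_eq, smul_mul_assoc, LinearMap.map_smul_of_tower]
  refine smul_eq_zero_of_right _ ?_
  simp only [Finset.sum_mul, map_sum]
  exact Finset.sum_eq_zero fun i _ => Finset.sum_eq_zero fun b _ =>
    tau_comp_eq_zero hy ht p Nat.one_le_two_pow F b hJ hu hul

theorem tau_fvec_mul (hy : FieldLaw τ M y K alg) (ht : StepTags τ y K alg low P m e) (hm : m ≤ 1)
    (hP : P.Nonempty) (p : Polynomial ℝ) (I : ℕ) {F F' : Finset B} (hFF : F.card = F'.card)
    {u : C} {J : Set ℕ} (hJ : ∀ r ∈ P, r ∉ J) (hu : u ∈ alg J) (hul : u ∈ low) :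
    |(τ (fvec p I m y K e P F * fvec p I m y K e P F' * u)).re -
      (τ (formEl p I K P F F' * u)).re| ≤ I * compErr p (2 ^ I) P.card * ‖u‖ := by
  classical
  set N := F.card with hN
  set E := compErr p (2 ^ I) P.card * ‖u‖
  set c := (√(I : ℝ))⁻¹ * (N : ℝ)⁻¹
  have hc : c * c = (I : ℝ)⁻¹ * ((N : ℝ) * N)⁻¹ := by
    rw [show c * c = (√(I : ℝ) * √(I : ℝ))⁻¹ * ((N : ℝ) * N)⁻¹ by simp only [c, mul_inv]; ring,
      Real.mul_self_sqrt (Nat.cast_nonneg I)]
  have h2 : ∀ i : ℕ, m ≤ 2 ^ (i + 1) := fun i => hm.trans Nat.one_le_two_pow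
  have hQ : ∀ i ∈ Finset.range I, 2 ^ (i + 1) ≤ 2 ^ I := fun i hi =>
    Nat.pow_le_pow_right two_pos (Finset.mem_range.1 hi)
  let T : ℕ → ℕ → B → B → ℝ := fun i i' a b =>
    (τ (comp p m y K e (2 ^ (i + 1)) P F a * comp p m y K e (2 ^ (i' + 1)) P F' b * u)).re
  let U : ℕ → ℕ → B → B → ℝ := fun i i' a b => if i = i' then
    (τ (wbar p K (2 ^ (i + 1)) P F a * wbar p K (2 ^ (i + 1)) P F' b *
      avgK K P a b ^ 2 ^ (i + 1) * u)).re else 0
  have e1 : (τ (fvec p I m y K e P F * fvec p I m y K e P F' * u)).re = c * c *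
      ∑ i ∈ Finset.range I, ∑ i' ∈ Finset.range I, ∑ a ∈ F, ∑ b ∈ F', T i i' a b := by
    rw [fvec_eq, fvec_eq, ← hN, ← hFF, smul_mul_smul_comm, smul_mul_assoc,
      LinearMap.map_smul_of_tower, Complex.real_smul, Complex.re_ofReal_mul]
    congr 1
    rw [Finset.sum_mul_sum, Finset.sum_mul, map_sum, Complex.re_sum]
    refine Finset.sum_congr rfl fun i _ => ?_
    rw [Finset.sum_mul, map_sum, Complex.re_sum]
    refine Finset.sum_congr rfl fun i' _ => ?_
    rw [Finset.sum_mul_sum, Finset.sum_mul, map_sum, Complex.re_sum]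
    refine Finset.sum_congr rfl fun a _ => ?_
    rw [Finset.sum_mul, map_sum, Complex.re_sum]
  have e2 : (τ (formEl p I K P F F' * u)).re = c * c *
      ∑ i ∈ Finset.range I, ∑ i' ∈ Finset.range I, ∑ a ∈ F, ∑ b ∈ F', U i i' a b := by
    rw [formEl, ← hN, ← hFF, hc, ← Finset.smul_sum, smul_smul, smul_mul_assoc,
      LinearMap.map_smul_of_tower, Complex.real_smul, Complex.re_ofReal_mul]
    congr 1
    simp only [Finset.sum_mul, map_sum, Complex.re_sum, U]
    refine Finset.sum_congr rfl fun i hi => ?_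
    rw [Finset.sum_eq_single i (fun i' _ hne => Finset.sum_eq_zero fun a _ =>
      Finset.sum_eq_zero fun b _ => if_neg hne.symm) (fun h => absurd hi h)]
    simp
  have hTU : ∀ i ∈ Finset.range I, ∀ i' ∈ Finset.range I, ∀ a b, |T i i' a b - U i i' a b| ≤ E := by
    intro i hi i' hi' a b
    have := tau_comp_mul hy ht hm hP p (h2 i) (h2 i') (hQ i hi) (hQ i' hi') F F' a b hJ hu hul
    rcases eq_or_ne i i' with rfl | hne
    · simpa [T, U, E] using this
    · have hne' : (2 : ℕ) ^ (i + 1) ≠ 2 ^ (i' + 1) := fun h => hne (by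
        have := Nat.pow_right_injective le_rfl h; omega)
      rw [if_neg hne'] at this
      simpa [T, U, E, hne] using this
  rw [e1, e2, ← mul_sub, abs_mul, hc, abs_of_nonneg (by positivity)]
  simp only [← Finset.sum_sub_distrib]
  refine (mul_le_mul_of_nonneg_left ((Finset.abs_sum_le_sum_abs _ _).trans (Finset.sum_le_sum
    fun i hi => (Finset.abs_sum_le_sum_abs _ _).trans (Finset.sum_le_sum fun i' hi' =>
      (Finset.abs_sum_le_sum_abs _ _).trans (Finset.sum_le_sum fun a _ =>
        (Finset.abs_sum_le_sum_abs _ _).trans (Finset.sum_le_sum fun b _ =>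
          hTU i hi i' hi' a b))))) (by positivity)).trans ?_
  simp only [Finset.sum_const, Finset.card_range, nsmul_eq_mul, ← hN, ← hFF]
  have hE : 0 ≤ E := by simp only [E, compErr, famErr]; positivity
  rw [show (I : ℝ) * compErr p (2 ^ I) P.card * ‖u‖ = I * E by simp only [E]; ring]
  rcases Nat.eq_zero_or_pos N with hN0 | hN0
  · simp only [hN0, CharP.cast_eq_zero, mul_zero, zero_mul, inv_zero]
    positivity
  rcases Nat.eq_zero_or_pos I with hI0 | hI0
  · simp [hI0]
  have : (0 : ℝ) < N := by exact_mod_cast hN0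
  have : (0 : ℝ) < I := by exact_mod_cast hI0
  field_simp
  exact le_refl _

theorem char_formEl (hy : FieldLaw τ M y K alg) (χ : WeakDual.characterSpace ℂ C)
    (p : Polynomial ℝ) (I : ℕ) (P : Finset ℕ) (F F' : Finset B) :
    χ (formEl p I K P F F') = (scaleForm p I (kerAt χ K P) F F' : ℂ) := by
  have hw : ∀ (q : ℕ) (E : Finset B) (b : B), χ (wbar p K q P E b) =
      ((p.eval (deg (fun x z => kerAt χ K P x z ^ q) E b) : ℝ) : ℂ) := by
    intro q E b
    simp only [wbar, map_sum, map_pow, char_rsmul, char_avgK hy]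
    rw [Polynomial.eval_eq_sum_range]
    push_cast [deg]
    rfl
  simp only [formEl, map_sum, char_rsmul, map_mul, map_pow, hw, char_avgK hy]
  simp only [scaleForm, qform]
  push_cast
  rfl

theorem sa_wbar (hy : FieldLaw τ M y K alg) (p : Polynomial ℝ) (q : ℕ) (P : Finset ℕ)
    (F : Finset B) (b : B) : IsSelfAdjoint (wbar p K q P F b) :=
  sa_sum fun k _ => sa_rsmul _ ((sa_rsmul _ (sa_sum fun z _ =>
    (sa_rsmul _ (sa_sum fun i _ => hy.K_sa i b z)).pow q)).pow k)

theorem sa_formEl (hy : FieldLaw τ M y K alg) (p : Polynomial ℝ) (I : ℕ) (P : Finset ℕ)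
    (F F' : Finset B) : IsSelfAdjoint (formEl p I K P F F') := by
  refine sa_rsmul _ (sa_sum fun i _ => sa_rsmul _ (sa_sum fun a _ => sa_sum fun b _ => ?_))
  rw [IsSelfAdjoint, star_mul', star_mul', (sa_wbar hy p _ P F a).star_eq,
    (sa_wbar hy p _ P F' b).star_eq,
    ((show IsSelfAdjoint (avgK K P a b) from sa_rsmul _ (sa_sum fun i _ => hy.K_sa i a b)).pow
      _).star_eq]

theorem sa_fvec (hy : FieldLaw τ M y K alg) (ht : StepTags τ y K alg low P m e)
    (p : Polynomial ℝ) (I : ℕ) (F : Finset B) : IsSelfAdjoint (fvec p I m y K e P F) := by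
  refine sa_rsmul _ (sa_sum fun i _ => sa_sum fun b _ => sa_sum fun X hX => ?_)
  refine (IsSelfAdjoint.commute_iff ?_ (sa_rsmul _ (sa_sum fun f _ => ?_))).1 (Commute.all _ _)
  · exact ((ht.sa X hX).commute_iff (sa_prod fun r _ => hy.y_sa r b)).1 (Commute.all _ _)
  · exact ((sa_sum fun S _ => sa_prod fun r _ => hy.y_sa r b).commute_iff
      (sa_weight hy p F b f)).1 (Commute.all _ _)

theorem mem_fvec (hy : FieldLaw τ M y K alg) (ht : StepTags τ y K alg low P m e)
    (p : Polynomial ℝ) (I : ℕ) (F : Finset B) {J : Set ℕ} (hPJ : ∀ r ∈ P, r ∈ J) :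
    fvec p I m y K e P F ∈ alg J := by
  refine mem_rsmul' _ (sum_mem fun i _ => sum_mem fun b _ => sum_mem fun X hX => mul_mem (mul_mem
    (hy.mono (Set.empty_subset J) (ht.e_alg X hX)) (prod_mem fun r hr => hy.y_mem J r b
      (hPJ r ((Finset.mem_powersetCard.1 hX).1 hr))))
    (mem_core hy p _ _ F b fun r hr => hPJ r (Finset.mem_sdiff.1 hr).1))

/-- A crude bound for the vectors of pools of `n` indices. -/
def fvecBd (p : Polynomial ℝ) (I N n : ℕ) (M : ℝ) : ℝ :=
  I * (N * (2 ^ n * ((max M 1) ^ n *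
    ((2 ^ I).factorial * (2 ^ n * (max M 1) ^ n * coefSum p)))))

theorem fvecBd_nonneg (p : Polynomial ℝ) (I N n : ℕ) (M : ℝ) : 0 ≤ fvecBd p I N n M := by
  have : 0 ≤ max M 1 := le_max_of_le_right zero_le_one
  have := coefSum_nonneg p
  unfold fvecBd
  positivity

theorem norm_fvec_le (hy : FieldLaw τ M y K alg) (ht : StepTags τ y K alg low P m e)
    (hP : P.Nonempty) (p : Polynomial ℝ) (I : ℕ) (F : Finset B) :
    ‖fvec p I m y K e P F‖ ≤ fvecBd p I F.card P.card M := by
  classical
  set n := P.card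
  set Mb := max M 1
  have hMb : 1 ≤ Mb := le_max_right _ _
  have hn : (1 : ℝ) ≤ n := by exact_mod_cast hP.card_pos
  have hW := coefSum_nonneg p
  have hprod : ∀ S : Finset ℕ, S.card ≤ n → ∀ b, ‖∏ r ∈ S, y r b‖ ≤ Mb ^ n := by
    intro S hS b
    refine norm_le_of_char (by positivity) fun χ => ?_
    rw [map_prod, norm_prod]
    refine (Finset.prod_le_prod (fun _ _ => norm_nonneg _) fun r _ =>
      (norm_char_le χ _).trans ((hy.y_norm r b).trans (le_max_left M 1))).trans ?_
    rw [Finset.prod_const]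
    exact pow_le_pow_right₀ hMb hS
  have hcard : ∀ (Q : Finset ℕ) (d : ℕ), Q ⊆ P → ((Q.powersetCard d).card : ℝ) ≤ 2 ^ n := by
    intro Q d hQ
    rw [Finset.card_powersetCard]
    exact_mod_cast (Nat.choose_le_two_pow _ _).trans
      (Nat.pow_le_pow_right two_pos (Finset.card_le_card hQ))
  have he : ∀ X ∈ P.powersetCard m, ‖e X‖ ≤ 1 := by
    intro X hX
    have h1 := CStarRing.norm_star_mul_self (x := e X)
    rw [(ht.sa X hX).star_eq, ht.mul X hX X hX, if_pos rfl] at h1
    nlinarith [norm_nonneg (e X)]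
  have hcore : ∀ i ∈ Finset.range I, ∀ X ∈ P.powersetCard m, ∀ b,
      ‖core p y K (2 ^ (i + 1)) (2 ^ (i + 1) - m) P X F b‖ ≤
        (2 ^ I).factorial * (2 ^ n * Mb ^ n * coefSum p) := by
    intro i hi X _ b
    set d := 2 ^ (i + 1) - m
    have hd : (√((d.factorial : ℝ) / (n : ℝ) ^ d)) ≤ (2 ^ I).factorial := by
      have h0 : (d.factorial : ℝ) ≤ (2 ^ I).factorial := by
        exact_mod_cast Nat.factorial_le ((Nat.sub_le _ _).trans
          (Nat.pow_le_pow_right two_pos (Finset.mem_range.1 hi)))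
      have h1 : (1 : ℝ) ≤ (2 ^ I).factorial := by exact_mod_cast Nat.factorial_pos _
      rw [Real.sqrt_le_iff]
      refine ⟨by positivity, ((div_le_self (Nat.cast_nonneg _) (one_le_pow₀ hn)).trans h0).trans ?_⟩
      exact le_self_pow₀ h1 two_ne_zero
    rw [core, norm_smul, Real.norm_of_nonneg (by positivity)]
    refine (mul_le_mul_of_nonneg_left ((norm_sum_le _ _).trans (Finset.sum_le_card_nsmul _ _
      (2 ^ n * Mb ^ n * coefSum p) fun f _ => (norm_mul_le _ _).trans (mul_le_mul ?_
        (norm_weight_le hy p F b f) (norm_nonneg _) (by positivity)))) (by positivity)).trans ?_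
    · refine (norm_sum_le _ _).trans ((Finset.sum_le_card_nsmul _ _ (Mb ^ n) fun S hS =>
        hprod S (Finset.card_le_card (((Finset.mem_powersetCard.1 hS).1).trans
          Finset.sdiff_subset)) b).trans ?_)
      rw [nsmul_eq_mul]
      exact mul_le_mul_of_nonneg_right (hcard _ _ Finset.sdiff_subset) (by positivity)
    · rw [nsmul_eq_mul]
      refine (mul_le_mul_of_nonneg_left (mul_le_mul_of_nonneg_right
        (card_choices_sdiff_le p _ P X) (by positivity)) (by positivity)).trans ?_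
      rw [show (((n : ℝ) ^ (p.natDegree * 2 ^ (i + 1)))⁻¹ * √((d.factorial : ℝ) / (n : ℝ) ^ d)) *
        ((n : ℝ) ^ (p.natDegree * 2 ^ (i + 1)) * (2 ^ n * Mb ^ n * coefSum p)) =
        √((d.factorial : ℝ) / (n : ℝ) ^ d) * (2 ^ n * Mb ^ n * coefSum p) by field_simp]
      exact mul_le_mul_of_nonneg_right hd (by positivity)
  rw [fvec, norm_smul, Real.norm_of_nonneg (by positivity)]
  refine (mul_le_of_le_one_left (norm_nonneg _) ?_).trans ((norm_sum_le _ _).trans ?_)
  · refine mul_le_one₀ ?_ (by positivity) (Nat.cast_inv_le_one _)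
    rcases Nat.eq_zero_or_pos I with h | h
    · simp [h]
    · exact inv_le_one_of_one_le₀ (Real.one_le_sqrt.2 (by exact_mod_cast h))
  refine (Finset.sum_le_card_nsmul _ _ (F.card * (2 ^ n * (Mb ^ n *
    ((2 ^ I).factorial * (2 ^ n * Mb ^ n * coefSum p))))) fun i hi => ?_).trans_eq
      (by rw [nsmul_eq_mul, Finset.card_range, fvecBd])
  refine (norm_sum_le _ _).trans ((Finset.sum_le_card_nsmul _ _ (2 ^ n * (Mb ^ n *
    ((2 ^ I).factorial * (2 ^ n * Mb ^ n * coefSum p)))) fun b _ => ?_).trans_eq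
      (by rw [nsmul_eq_mul]))
  refine (norm_sum_le _ _).trans ((Finset.sum_le_card_nsmul _ _ (Mb ^ n *
    ((2 ^ I).factorial * (2 ^ n * Mb ^ n * coefSum p))) fun X hX => ?_).trans ?_)
  · refine (norm_mul_le _ _).trans (mul_le_mul ((norm_mul_le _ _).trans ?_) (hcore i hi X hX b)
      (norm_nonneg _) (by positivity))
    exact (mul_le_of_le_one_left (norm_nonneg _) (he X hX)).trans
      (hprod X (Finset.card_le_card (Finset.mem_powersetCard.1 hX).1) b)
  · rw [nsmul_eq_mul]
    exact mul_le_mul_of_nonneg_right (hcard P m le_rfl) (by positivity)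

end step

theorem tendsto_compErr (p : Polynomial ℝ) (Q : ℕ) :
    Filter.Tendsto (fun n : ℕ => compErr p Q n) Filter.atTop (𝓝 0) := by
  have h : ∀ A : ℝ, Filter.Tendsto (fun n : ℕ => A / n) Filter.atTop (𝓝 0) := fun A =>
    tendsto_const_div_atTop_nhds_zero_nat A
  simpa [compErr, famErr] using
    ((((Real.continuous_sqrt.tendsto' 0 0 Real.sqrt_zero).comp
      (h ((Q : ℝ) ^ 2 + Q * (2 * (p.natDegree * Q) + 1 : ℕ)))).const_mul 2).add
      (h ((Q : ℝ) ^ 2 + Q * (2 * (p.natDegree * Q) + 1 : ℕ))) |>.add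
      (h (2 * (p.natDegree * Q)))).const_mul (coefSum p ^ 2)

theorem pool_nonempty {n : ℕ} (hn : 1 ≤ n) (k : ℕ) : (pool n k).Nonempty := by
  simp [pool, add_mul]; omega

theorem pool_card' (n k : ℕ) : (pool n k).card = n := by
  simp [pool, add_mul]

theorem notMem_below {n k r : ℕ} (hr : r ∈ pool n k) : r ∉ Set.Iio (k * n) := by
  simp [pool] at hr ⊢
  omega

universe u v

/-- The increments built from the pools. -/
theorem increments_fvec {C : Type u} [CommCStarAlgebra C] {B : Type v} {τ : C →ₗ[ℂ] ℂ} {M : ℝ}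
    {y : ℕ → B → C} {K : ℕ → B → B → C} {alg : Set ℕ → StarSubalgebra ℂ C}
    {low : ℕ → StarSubalgebra ℂ C} {n m : ℕ} {e : ℕ → Finset ℕ → C}
    (hy : FieldLaw τ M y K alg) (ht : Tags τ y K alg low n m e) (hm : m ≤ 1) (hn : 1 ≤ n)
    (p : Polynomial ℝ) (I : ℕ) {η δ : ℝ} (F : Finset B) (hη : 0 ≤ η)
    (hηV : η * fvecBd p I F.card n M ≤ 1 / 2)
    (herr : I * compErr p (2 ^ I) n ≤ δ)
    (hform : ∀ (χ : WeakDual.characterSpace ℂ C) (k : ℕ),
      |scaleForm p I (kerAt χ K (pool n k)) F F - 1| ≤ 1 / 4) :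
    Increments τ (fun k => alg (Set.Iio (k * n)) ⊓ low k) η δ
      (fun k => fvec p I m y K (e k) (pool n k) F) := by
  have hst : ∀ k, StepTags τ y K alg (low k) (pool n k) m (e k) := fun k =>
    ⟨ht.y_low k, ht.K_low k, ht.e_alg k, ht.sa k, ht.mul k, ht.unif k⟩
  have hest : ∀ k, ∀ u ∈ alg (Set.Iio (k * n)) ⊓ low k, IsSelfAdjoint u →
      |(τ (fvec p I m y K (e k) (pool n k) F * fvec p I m y K (e k) (pool n k) F * (u * u))).re -
        (τ (formEl p I K (pool n k) F F * (u * u))).re| ≤ δ * ‖u‖ ^ 2 := by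
    intro k u hu _
    refine (tau_fvec_mul hy (hst k) hm (pool_nonempty hn k) p I rfl (J := Set.Iio (k * n))
      (fun r hr => notMem_below hr) (mul_mem hu.1 hu.1) (mul_mem hu.2 hu.2)).trans ?_
    rw [pool_card']
    refine mul_le_mul herr ((norm_mul_le _ _).trans_eq (pow_two _).symm) (norm_nonneg _)
      (le_trans ?_ herr)
    simp only [compErr, famErr]
    positivity
  have hpt : ∀ k, ∀ u : C, IsSelfAdjoint u → ∀ χ : WeakDual.characterSpace ℂ C,
      3 / 4 * (χ (u * u)).re ≤ (χ (formEl p I K (pool n k) F F * (u * u))).re ∧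
      (χ (formEl p I K (pool n k) F F * (u * u))).re ≤ 5 / 4 * (χ (u * u)).re := by
    intro k u hu χ
    have h := abs_le.1 (hform χ k)
    rw [map_mul χ _ (u * u), char_formEl hy, Complex.re_ofReal_mul, map_mul, VAgent.P101.char_re χ hu,
      ← Complex.ofReal_mul, Complex.ofReal_re]
    constructor <;> nlinarith [mul_self_nonneg (χ u).re]
  have hsa : ∀ k, ∀ u : C, IsSelfAdjoint u →
      IsSelfAdjoint (formEl p I K (pool n k) F F * (u * u)) := fun k u hu =>
    ((sa_formEl hy p I _ F F).commute_iff ((hu.commute_iff hu).1 (Commute.refl u))).1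
      (Commute.all _ _)
  refine ⟨fun k => ⟨?_, ?_⟩, fun k => sa_fvec hy (hst k) p I F, fun k => ?_, fun k u hu => ?_,
    fun k u hu hus => ?_, fun k u hu hus => ?_⟩
  · exact mem_fvec hy (hst k) p I F fun r hr => by
      simp [pool] at hr ⊢
      omega
  · refine mem_rsmul' _ (sum_mem fun i _ => sum_mem fun b _ => sum_mem fun X hX => mul_mem (mul_mem
      (ht.e_low k (k + 1) (Nat.lt_succ_self k) X hX) (prod_mem fun r _ => ht.y_low _ r b))
      (mem_core_sub (ht.y_low _) (ht.K_low _) p _ _ _ X F b))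
  · rw [norm_smul, Real.norm_of_nonneg hη]
    refine (mul_le_mul_of_nonneg_left (norm_fvec_le hy (hst k) (pool_nonempty hn k) p I F) hη).trans ?_
    rw [pool_card']
    exact hηV
  · exact tau_fvec_eq_zero hy (hst k) p I F (fun r hr => notMem_below hr) hu.1 hu.2
  · have h1 := abs_le.1 (hest k u hu hus)
    have hus2 : IsSelfAdjoint (u * u) := (hus.commute_iff hus).1 (Commute.refl u)
    have h2 := re_tau_le hy.tr (sa_rsmul (3 / 4) hus2) (hsa k u hus) fun χ => by
      rw [char_rsmul, Complex.re_ofReal_mul]; exact (hpt k u hus χ).1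
    rw [LinearMap.map_smul_of_tower, Complex.real_smul, Complex.re_ofReal_mul] at h2
    have h3 : 0 ≤ (τ (u * u)).re := by rw [← hy.tr.sa_sq hus]; positivity
    linarith
  · have h1 := abs_le.1 (hest k u hu hus)
    have hus2 : IsSelfAdjoint (u * u) := (hus.commute_iff hus).1 (Commute.refl u)
    have h2 := re_tau_le hy.tr (hsa k u hus) (sa_rsmul (5 / 4) hus2) fun χ => by
      rw [char_rsmul, Complex.re_ofReal_mul]; exact (hpt k u hus χ).2
    rw [LinearMap.map_smul_of_tower, Complex.real_smul, Complex.re_ofReal_mul] at h2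
    have h3 : 0 ≤ (τ (u * u)).re := by rw [← hy.tr.sa_sq hus]; positivity
    linarith

theorem card_translate_symmDiff_le {G : Type*} [Group G] [DecidableEq G] (E : Finset G) (g : G)
    {d : ℝ} (h : ({x | x ∈ E ∧ g * x ∉ E}.ncard : ℝ) ≤ d * E.card) :
    (((E.image (g * ·)) ∆ E).card : ℝ) ≤ 2 * (d * E.card) := by
  have hi : Function.Injective (g * · : G → G) := mul_right_injective g
  have h1 : (E.image (g * ·) \ E).card = {x | x ∈ E ∧ g * x ∉ E}.ncard := by
    rw [show {x | x ∈ E ∧ g * x ∉ E} = ↑(E.filter fun x => g * x ∉ E) by ext; simp,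
      Set.ncard_coe_finset, ← Finset.card_image_of_injective (E.filter fun x => g * x ∉ E) hi]
    congr 1
    ext z
    simp only [Finset.mem_sdiff, Finset.mem_image, Finset.mem_filter]
    grind
  have h2 : (E \ E.image (g * ·)).card = (E.image (g * ·) \ E).card := by
    have := Finset.card_sdiff_add_card_inter E (E.image (g * ·))
    have := Finset.card_sdiff_add_card_inter (E.image (g * ·)) E
    have := Finset.card_image_of_injective E hi
    have := congrArg Finset.card (Finset.inter_comm E (E.image (g * ·)))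
    omega
  rw [symmDiff_def, Finset.sup_eq_union, Finset.card_union_of_disjoint disjoint_sdiff_sdiff, h2, h1]
  push_cast
  linarith

/-- The machine: a translated martingale which squares to almost one, moves little and is centred
in the outside contexts, uniformly in the algebra and the functional. -/
theorem exists_machine {G : Type v} [Group G] [DecidableEq G] (hG : Folner G) (K₀ : Finset G)
    (ε : ℝ) (hε : 0 < ε) (M : ℝ) {m : ℕ} (hm : m ≤ 1) :
    ∃ (p : Polynomial ℝ) (I : ℕ) (E : Finset G) (n₀ : ℕ), E.Nonempty ∧ 1 ≤ n₀ ∧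
      ∀ n ≥ n₀, ∃ (Ns : ℕ) (η : ℝ), 0 ≤ η ∧
        ∀ (C : Type u) [CommCStarAlgebra C] (τ : C →ₗ[ℂ] ℂ) (y : ℕ → G → C) (K : ℕ → G → G → C)
          (alg : Set ℕ → StarSubalgebra ℂ C) (low : ℕ → StarSubalgebra ℂ C)
          (e : ℕ → Finset ℕ → C),
          FieldLaw τ M y K alg → Tags τ y K alg low n m e →
          IsSelfAdjoint (mart p I m n η y K e E Ns) ∧ ‖mart p I m n η y K e E Ns‖ ≤ 1 ∧
          (τ (1 - mart p I m n η y K e E Ns * mart p I m n η y K e E Ns)).re ≤ ε ∧
          (∀ g ∈ K₀, (τ ((mart p I m n η y K e (E.image (g * ·)) Ns - mart p I m n η y K e E Ns) *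
            (mart p I m n η y K e (E.image (g * ·)) Ns - mart p I m n η y K e E Ns))).re ≤ ε) ∧
          ∀ u ∈ alg ∅ ⊓ low 0, τ (mart p I m n η y K e E Ns * u) = 0 := by
  classical
  set T : ℝ := 16 / ε ^ 2 with hT
  have hT0 : 0 < T := by positivity
  set e₀ : ℝ := ε / (16 * T * Real.exp (12 * T)) with he₀
  have he0 : 0 < e₀ := by positivity
  obtain ⟨E, hE, hFol⟩ := hG K₀ (e₀ / 4) (by positivity)
  set N := E.card with hN
  set B : Finset G := E ∪ K₀.biUnion (fun g => E.image (g * ·)) with hB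
  obtain ⟨p, hp⟩ := exists_scaleForm.{v} N hE.card_pos
  obtain ⟨I, hI, hsc⟩ := hp B.card (min (1 / 4) (e₀ / 4)) (by positivity)
  set δ : ℝ := min (ε ^ 2 / 16) (e₀ / 16) with hδ
  have hδ0 : 0 < δ := by positivity
  obtain ⟨n₁, hn₁⟩ := Filter.eventually_atTop.1
    (((tendsto_compErr p (2 ^ I)).const_mul (I : ℝ)).eventually
      (gt_mem_nhds (show (I : ℝ) * 0 < δ by simpa using hδ0)))
  refine ⟨p, I, E, max n₁ 1, hE, le_max_right _ _, fun n hn => ?_⟩
  set V : ℝ := fvecBd p I N n M
  have hV : 0 ≤ V := fvecBd_nonneg p I N n M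
  obtain ⟨Ns, hNs⟩ := exists_nat_gt (4 * V ^ 2 * T + T)
  have hNs0 : (0 : ℝ) < Ns := lt_of_le_of_lt (by positivity) hNs
  set η : ℝ := √(T / Ns) with hη
  have hη0 : 0 ≤ η := Real.sqrt_nonneg _
  have hη2 : (Ns : ℝ) * η ^ 2 = T := by
    rw [hη, Real.sq_sqrt (by positivity), mul_div_cancel₀ _ hNs0.ne']
  have hη1 : η ^ 2 ≤ 1 := by
    rw [hη, Real.sq_sqrt (by positivity), div_le_one hNs0]
    nlinarith [sq_nonneg V]
  have hηV : η * V ≤ 1 / 2 := by
    refine (pow_le_pow_iff_left₀ (mul_nonneg hη0 hV) (by norm_num) two_ne_zero).1 ?_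
    rw [mul_pow, hη, Real.sq_sqrt (by positivity), div_mul_eq_mul_div, div_le_iff₀ hNs0]
    nlinarith
  refine ⟨Ns, η, hη0, fun C _ τ y K alg low e hy ht => ?_⟩
  have hn1 : 1 ≤ n := (le_max_right _ _).trans hn
  have herr : (I : ℝ) * compErr p (2 ^ I) n ≤ δ := (hn₁ n ((le_max_left _ _).trans hn)).le
  have hBg : ∀ g ∈ K₀, E.image (g * ·) ⊆ B := fun g hg z hz =>
    Finset.mem_union_right _ (Finset.mem_biUnion.2 ⟨g, hg, hz⟩)
  have hscale : ∀ (χ : WeakDual.characterSpace ℂ C) (k : ℕ), ∀ F F' : Finset G, F ⊆ B → F' ⊆ B →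
      F.card = N → F'.card = N →
      |scaleForm p I (kerAt χ K (pool n k)) F F - 1| ≤ min (1 / 4) (e₀ / 4) ∧
      scaleForm p I (kerAt χ K (pool n k)) F F - 2 * scaleForm p I (kerAt χ K (pool n k)) F F' +
        scaleForm p I (kerAt χ K (pool n k)) F' F' ≤
        ((F ∆ F').card : ℝ) / N + min (1 / 4) (e₀ / 4) := by
    intro χ k F F' hF hF' hc hc'
    have hgk := goodKernel_kerAt hy χ (pool n k) (pool_nonempty hn1 k)
    have hgk' : GoodKernel fun a b : B => kerAt χ K (pool n k) a b :=
      ⟨fun a => hgk.diag a, fun a b => hgk.symm a b, fun a b => hgk.abs_le a b,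
        fun a b c => hgk.triangle a b c⟩
    have him : ∀ X : Finset G, X ⊆ B → (X.subtype (· ∈ B)).image Subtype.val = X := by
      intro X hX
      ext g
      simpa using fun h => hX h
    have hcard : ∀ X : Finset G, X ⊆ B → (X.subtype (· ∈ B)).card = X.card := by
      intro X hX
      rw [Finset.card_subtype, Finset.filter_true_of_mem fun g hg => hX hg]
    obtain ⟨h1, h2⟩ := hsc B (le_of_eq (Fintype.card_coe B)) _ hgk' (F.subtype (· ∈ B))
      (F'.subtype (· ∈ B)) ((hcard F hF).trans hc) ((hcard F' hF').trans hc')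
    have hinj : ∀ X : Finset B, Set.InjOn (Subtype.val : B → G) X := fun X =>
      Subtype.val_injective.injOn
    have e1 : ∀ X Y : Finset G, X ⊆ B → Y ⊆ B →
        scaleForm p I (fun a b : B => kerAt χ K (pool n k) a b) (X.subtype (· ∈ B))
          (Y.subtype (· ∈ B)) = scaleForm p I (kerAt χ K (pool n k)) X Y := fun X Y hX hY => by
      rw [scaleForm_image p I (kerAt χ K (pool n k)) Subtype.val _ _ (hinj _) (hinj _), him X hX,
        him Y hY]
    rw [e1 F F hF hF] at h1
    rw [e1 F F hF hF, e1 F F' hF hF', e1 F' F' hF' hF'] at h2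
    refine ⟨h1, h2.trans_eq ?_⟩
    congr 3
    rw [← Finset.card_map (Function.Embedding.subtype _)]
    congr 1
    ext z
    simp only [Finset.mem_map, Finset.mem_symmDiff, Finset.mem_subtype,
      Function.Embedding.subtype_apply]
    constructor
    · rintro ⟨a, ha, rfl⟩; exact ha
    · intro hz
      exact ⟨⟨z, hz.elim (fun h => hF h.1) (fun h => hF' h.1)⟩, hz, rfl⟩
  have hinc : ∀ F : Finset G, F ⊆ B → F.card = N →
      Increments τ (fun k => alg (Set.Iio (k * n)) ⊓ low k) η δ
        (fun k => fvec p I m y K (e k) (pool n k) F) := fun F hF hc =>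
    increments_fvec hy ht hm hn1 p I F hη0 (by rw [hc]; exact hηV) herr fun χ k =>
      ((hscale χ k F F hF hF hc hc).1).trans (min_le_left _ _)
  have hA : Monotone fun k => alg (Set.Iio (k * n)) ⊓ low k := fun i j hij => inf_le_inf
    (hy.mono (Set.Iio_subset_Iio (Nat.mul_le_mul_right n hij))) (ht.low_mono hij)
  have hEB : E ⊆ B := Finset.subset_union_left
  have hv := hinc E hEB rfl
  simp only [mart_eq_martSeq]
  obtain ⟨-, hsa, hnorm, -⟩ := martSeq_spec hA hv Ns
  refine ⟨hsa, hnorm, martSeq_defect_le hy.tr hA hv hε hη1 hδ0.le (min_le_left _ _) Ns ?_,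
    fun g hg => ?_, fun u hu => ?_⟩
  · rw [hη2, hT, div_mul_cancel₀ _ (by positivity)]
  · set Eg := E.image (g * ·) with hEg
    have hcg : Eg.card = N := Finset.card_image_of_injective _ (mul_right_injective g)
    have hw := hinc Eg (hBg g hg) hcg
    refine (martSeq_dist_le hy.tr hA hw hv hδ0.le (e := e₀) he0.le (fun k u hu hus hu1 => ?_)
      Ns).trans ?_
    · have hst : StepTags τ y K alg (low k) (pool n k) m (e k) :=
        ⟨ht.y_low k, ht.K_low k, ht.e_alg k, ht.sa k, ht.mul k, ht.unif k⟩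
      set P := pool n k
      set v := fvec p I m y K (e k) P E
      set w := fvec p I m y K (e k) P Eg
      have hus2 : IsSelfAdjoint (u * u) := (hus.commute_iff hus).1 (Commute.refl u)
      have hu2 : ‖u * u‖ ≤ 1 := (norm_mul_le _ _).trans (mul_le_one₀ hu1 (norm_nonneg _) hu1)
      have hest : ∀ F F' : Finset G, F.card = F'.card →
          |(τ (fvec p I m y K (e k) P F * fvec p I m y K (e k) P F' * (u * u))).re -
            (τ (formEl p I K P F F' * (u * u))).re| ≤ δ := by
        intro F F' hFF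
        refine (tau_fvec_mul hy hst hm (pool_nonempty hn1 k) p I hFF (J := Set.Iio (k * n))
          (fun r hr => notMem_below hr) (mul_mem hu.1 hu.1) (mul_mem hu.2 hu.2)).trans ?_
        rw [pool_card']
        exact (mul_le_mul herr hu2 (norm_nonneg _) hδ0.le).trans_eq (mul_one δ)
      have h11 := abs_le.1 (hest Eg Eg rfl)
      have h12 := abs_le.1 (hest Eg E hcg)
      have h22 := abs_le.1 (hest E E rfl)
      have hform : (τ (formEl p I K P Eg Eg * (u * u))).re -
          2 * (τ (formEl p I K P Eg E * (u * u))).re + (τ (formEl p I K P E E * (u * u))).re ≤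
          3 / 4 * e₀ := by
        have h := re_tau_le hy.tr
          (a := (formEl p I K P Eg Eg - (2 : ℝ) • formEl p I K P Eg E + formEl p I K P E E) *
            (u * u)) (b := (3 / 4 * e₀) • (1 : C))
          ((((sa_formEl hy p I P Eg Eg).sub (sa_rsmul 2 (sa_formEl hy p I P Eg E))).add
            (sa_formEl hy p I P E E)).commute_iff hus2 |>.1 (Commute.all _ _))
          (sa_rsmul _ (IsSelfAdjoint.one C)) fun χ => ?_
        · rw [add_mul, sub_mul, smul_mul_assoc, map_add, map_sub, LinearMap.map_smul_of_tower,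
            LinearMap.map_smul_of_tower, hy.tr.one, Complex.add_re, Complex.sub_re,
            Complex.real_smul, Complex.real_smul, Complex.re_ofReal_mul, mul_one,
            Complex.ofReal_re] at h
          exact h
        · rw [char_rsmul, map_one, mul_one, Complex.ofReal_re, map_mul, map_add, map_sub,
            char_rsmul, char_formEl hy, char_formEl hy, char_formEl hy, map_mul, VAgent.P101.char_re χ hus]
          simp only [← Complex.ofReal_mul, ← Complex.ofReal_sub, ← Complex.ofReal_add,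
            Complex.ofReal_re]
          have hs := (hscale χ k Eg E (hBg g hg) hEB hcg rfl).2
          have hΔ : (((Eg ∆ E).card : ℝ)) / N ≤ e₀ / 2 := by
            rw [div_le_iff₀ (by exact_mod_cast hE.card_pos)]
            refine (card_translate_symmDiff_le E g (hFol g hg)).trans_eq ?_
            ring
          have hle : min (1 / 4 : ℝ) (e₀ / 4) ≤ e₀ / 4 := min_le_right _ _
          have hb : (χ u).re * (χ u).re ≤ 1 := by
            have := (Complex.abs_re_le_norm _).trans ((norm_char_le χ u).trans hu1)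
            nlinarith [abs_nonneg (χ u).re, abs_mul_abs_self (χ u).re]
          refine (mul_le_mul_of_nonneg_right (show _ ≤ 3 / 4 * e₀ by linarith)
            (mul_self_nonneg _)).trans ?_
          exact mul_le_of_le_one_right (by positivity) hb
      have hδ' : δ ≤ e₀ / 16 := min_le_right _ _
      rw [show (w - v) * (w - v) * (u * u) =
        w * w * (u * u) - (w * v * (u * u) + w * v * (u * u)) + v * v * (u * u) by ring,
        map_add, map_sub, map_add, Complex.add_re, Complex.sub_re, Complex.add_re]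
      linarith
    · rw [hη2]
      have hδ' : δ ≤ e₀ / 16 := min_le_right _ _
      calc (2 * e₀ + 8 * δ) * T * Real.exp (12 * T)
          ≤ 3 * e₀ * T * Real.exp (12 * T) := by gcongr; linarith
        _ = 3 / 16 * ε := by rw [he₀]; field_simp
        _ ≤ ε := by linarith
  · refine tau_martSeq hA hv Ns u ⟨hy.mono (Set.empty_subset _) hu.1, hu.2⟩

end

end Vale.Agent.P095.Elem.Machine
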