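import Vale.Agent.P095.Elem.HalfDescend
import Vale.Agent.P095.Elem.Machine

/-!
# P095, amenable groups: nearly halving elements from equivariant fields

For an algebra whose second limit carries an equivariant family of commuting fields with a pair law
at every limit state, the machine gives nearly halving, nearly fixed elements.
-/

namespace Vale.Agent.P095.Elem

open Filter
open scoped CStarAlgebra BoundedContinuousFunction

noncomputable section

namespace Half

universe u v

section Congr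

variable {C : Type*} [CommCStarAlgebra C] {R : Type*} [CStarAlgebra R] (φ ψ : C →⋆ₐ[ℂ] R)
  {B B' : Type*}

theorem prod_hom_congr {ι : Type*} (s : Finset ι) {f g : ι → C}
    (h : ∀ i ∈ s, φ (f i) = ψ (g i)) : φ (∏ i ∈ s, f i) = ψ (∏ i ∈ s, g i) := by
  induction s using Finset.cons_induction with
  | empty => simp
  | cons i s hi ih =>
    rw [Finset.prod_cons, Finset.prod_cons, map_mul, map_mul, h i (Finset.mem_cons_self i s),
      ih fun j hj => h j (Finset.mem_cons_of_mem hj)]

theorem sum_hom_congr {ι : Type*} (s : Finset ι) {f g : ι → C}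
    (h : ∀ i ∈ s, φ (f i) = ψ (g i)) : φ (∑ i ∈ s, f i) = ψ (∑ i ∈ s, g i) := by
  rw [map_sum, map_sum]; exact Finset.sum_congr rfl h

theorem smul_hom_congr (r : ℝ) {x x' : C} (h : φ x = ψ x') : φ (r • x) = ψ (r • x') := by
  rw [← Complex.coe_smul, ← Complex.coe_smul, map_smul, map_smul, h]

/-- The martingale is natural, also towards algebras which are not commutative. -/
theorem mart_hom_congr (p : Polynomial ℝ) (I m n : ℕ) (η : ℝ) {y y' : ℕ → B → C}
    {K K' : ℕ → B → B → C} {e e' : ℕ → Finset ℕ → C} (hy : ∀ i a, φ (y i a) = ψ (y' i a))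
    (hK : ∀ i a b, φ (K i a b) = ψ (K' i a b)) (he : ∀ j X, φ (e j X) = ψ (e' j X))
    (F : Finset B) (k : ℕ) :
    φ (Machine.mart p I m n η y K e F k) = ψ (Machine.mart p I m n η y' K' e' F k) := by
  induction k with
  | zero => simp [Machine.mart]
  | succ k ih =>
    simp only [Machine.mart, map_add, map_mul, map_sub, map_one, ih]
    congr 2
    refine smul_hom_congr φ ψ _ ?_
    refine smul_hom_congr φ ψ _ (sum_hom_congr φ ψ _ fun i _ => sum_hom_congr φ ψ _ fun b _ =>
      sum_hom_congr φ ψ _ fun X _ => ?_)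
    rw [map_mul, map_mul, map_mul, map_mul, he, prod_hom_congr φ ψ X fun r _ => hy r b]
    refine congrArg (ψ (e' k X) * ψ (∏ r ∈ X, y' r b) * ·) ?_
    refine smul_hom_congr φ ψ _ (sum_hom_congr φ ψ _ fun f _ => ?_)
    rw [map_mul, map_mul, sum_hom_congr φ ψ _ fun S _ => prod_hom_congr φ ψ S fun r _ => hy r b]
    refine congrArg (ψ (∑ S ∈ _, ∏ r ∈ S, y' r b) * ·) ?_
    refine sum_hom_congr φ ψ _ fun j _ => smul_hom_congr φ ψ _ (prod_hom_congr φ ψ _ fun l _ => ?_)
    split_ifs
    · exact smul_hom_congr φ ψ _ (sum_hom_congr φ ψ _ fun z _ => prod_hom_congr φ ψ _ fun r _ =>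
        hK _ _ _)
    · simp

end Congr

/-- Nearly halving elements of `N` from equivariant fields in its limit. -/
theorem almostHalf_of_fields {N : Type u} [CStarAlgebra N] {G : Type v} [Group G]
    {β : G →* (N ≃⋆ₐ[ℂ] N)} (hF : Folner G) {ω : Ultrafilter ℕ}
    (hω : (ω : Filter ℕ) ≤ cofinite) {C : Type u} [CommCStarAlgebra C] (inc : C →⋆ₐ[ℂ] DQ N ω)
    (hinc : Function.Injective inc) (y : ℕ → G → C) (K : ℕ → G → G → C)
    (alg : Set ℕ → StarSubalgebra ℂ C) (τ : (ℕ → DimState N) → C →ₗ[ℂ] ℂ) (M : ℝ)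
    (hτ : ∀ D c, IsSelfAdjoint c → τ D c = (tau (DQ.limState D) (inc c) : ℂ))
    (hlaw : ∀ D, FieldLaw (τ D) M y K alg)
    (hy : ∀ g i a, DQ.act β g (inc (y i a)) = inc (y i (g * a)))
    (hK : ∀ g i a b, DQ.act β g (inc (K i a b)) = inc (K i (g * a) (g * b))) :
    AlmostHalfStatement β := by
  classical
  intro W δ hδ
  rcases isEmpty_or_nonempty (DimState N) with hD | ⟨⟨D₀⟩⟩
  · exact ⟨0, IsSelfAdjoint.zero N, by simp, fun D => (hD.false D).elim, fun D => (hD.false D).elim,
      fun g _ D => (hD.false D).elim⟩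
  set δ₀ := min (δ / 2) (1 / 2) with hδ₀
  have hδ0 : 0 < δ₀ := by positivity
  have hδ1 : δ₀ ≤ 1 / 2 := min_le_right _ _
  have hδ2 : δ₀ < δ := lt_of_le_of_lt (min_le_left _ _) (half_lt_self hδ)
  set ε := δ₀ ^ 2 / 2 with hε
  obtain ⟨p, I, E, n, -, -, hn⟩ := Machine.exists_machine.{u, v} hF W ε (by positivity) M
    (m := 0) zero_le_one
  obtain ⟨Ns, η, -, hmach⟩ := hn n le_rfl
  let e : ℕ → Finset ℕ → C := fun _ _ => 1
  have htags : ∀ D, Machine.Tags (τ D) y K alg (fun _ => ⊤) n 0 e := fun D =>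
    { low_mono := monotone_const
      y_low := fun _ _ _ => trivial
      K_low := fun _ _ _ _ => trivial
      e_low := fun _ _ _ _ _ => trivial
      e_alg := fun _ _ _ => one_mem _
      sa := fun _ _ _ => IsSelfAdjoint.one C
      mul := fun k X hX Y hY => by
        rw [Finset.powersetCard_zero, Finset.mem_singleton] at hX hY
        simp [e, hX, hY]
      unif := fun k X _ u _ => by simp [e] }
  set h := Machine.mart p I 0 n η y K e E Ns with hh
  have hkey := fun D => hmach C (τ D) y K alg (fun _ => ⊤) e (hlaw D) (htags D)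
  obtain ⟨hsa, hnorm, -⟩ := hkey fun _ => D₀
  have hact : ∀ g, DQ.act β g (inc h) =
      inc (Machine.mart p I 0 n η y K e (E.image (g * ·)) Ns) := fun g => by
    rw [Machine.mart_image p I 0 n η y K e (g * ·) E (mul_right_injective g).injOn, hh]
    exact mart_hom_congr (((DQ.act (ω := ω) β g) : DQ N ω →⋆ₐ[ℂ] DQ N ω).comp inc) inc p I 0 n η
      (fun i a => hy g i a) (fun i a b => hK g i a b)
      (fun j X => by simp [e]) E Ns
  have hXs : IsSelfAdjoint (inc h) := hsa.map inc
  have hXn : ‖inc h‖ ≤ 1 := (NonUnitalStarAlgHom.norm_apply_le inc h).trans hnorm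
  have hre : ∀ D c, IsSelfAdjoint c → (τ D c).re = tau (DQ.limState D) (inc c) := fun D c hc => by
    rw [hτ D c hc, Complex.ofReal_re]
  have hhalf : ∀ D : ℕ → DimState N,
      1 / 2 - δ₀ ≤ DQ.limState D (cut (1 - δ₀) (inc h)) ∧
      1 / 2 - δ₀ ≤ DQ.limState D (cut (1 - δ₀) (-inc h)) := by
    intro D
    obtain ⟨-, -, hdef, -, hmean⟩ := hkey D
    have hsq : IsSelfAdjoint (1 - h * h) :=
      (IsSelfAdjoint.one C).sub ((hsa.commute_iff hsa).1 (Commute.refl h))
    rw [hre D _ hsq, map_sub, map_one, map_mul] at hdef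
    have hm : tau (DQ.limState D) (inc h) = 0 := by
      have := hmean 1 ⟨one_mem _, trivial⟩
      rw [mul_one] at this
      rw [← hre D h hsa, this, Complex.zero_re]
    have hmk := mul_val_cut_le_tau (DQ.limState D) (isPos_one_sub_sq' hXs hXn) hδ0.le
    have hcut : DQ.limState D (cut δ₀ (1 - inc h * inc h)) ≤ δ₀ / 2 := by
      rw [← mul_le_mul_iff_of_pos_left hδ0]
      exact hmk.trans (hdef.trans (le_of_eq (by rw [hε]; ring)))
    obtain ⟨h1, h2⟩ := half_of_tau (DQ.limState D) hXs hXn (ρ := δ₀) (t := 1 - δ₀) (by linarith)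
      (by linarith) (by nlinarith) hcut hm
    have h3 : 1 / 2 - δ₀ / 2 ≤ (1 - δ₀) / (1 + (1 - δ₀)) := by
      rw [le_div_iff₀ (by linarith)]; nlinarith
    constructor <;> linarith
  refine descend hω hδ2 hXs hXn (fun D => (hhalf D).1) (fun D => (hhalf D).2) fun g hg D => ?_
  obtain ⟨-, -, -, hmv, -⟩ := hkey D
  have h1 := hmv g hg
  set hg' := Machine.mart p I 0 n η y K e (E.image (g * ·)) Ns with hg''
  have hgs : IsSelfAdjoint hg' := hinc (by
    rw [map_star, ← hact g]
    exact (hXs.map ((DQ.act (ω := ω) β g) : DQ N ω →⋆ₐ[ℂ] DQ N ω)).star_eq)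
  have hd := hgs.sub hsa
  rw [hre D _ ((hd.commute_iff hd).1 (Commute.refl _)), map_mul, map_sub, ← hact g] at h1
  have hds : IsSelfAdjoint (DQ.act β g (inc h) - inc h) :=
    (hXs.map ((DQ.act (ω := ω) β g) : DQ N ω →⋆ₐ[ℂ] DQ N ω)).sub hXs
  rw [hds.star_eq]
  have hmk := mul_val_cut_le_tau (DQ.limState D)
    (x := (DQ.act β g (inc h) - inc h) * (DQ.act β g (inc h) - inc h))
    ⟨DQ.act β g (inc h) - inc h, by rw [hds.star_eq]⟩ hδ0.le
  rw [← mul_le_mul_iff_of_pos_left hδ0]
  exact hmk.trans (h1.trans (by rw [hε]; nlinarith))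
where
  isPos_one_sub_sq' {B : Type u} [CStarAlgebra B] {x : B} (hs : IsSelfAdjoint x)
      (hn : ‖x‖ ≤ 1) : IsPos (1 - x * x) := by
    let := CStarAlgebra.spectralOrder B
    have := CStarAlgebra.spectralOrderedRing B
    refine Spec.isPos_iff_le'.mpr (sub_nonneg.mpr ?_)
    have h0 : 0 ≤ x * x := by simpa [hs.star_eq] using star_mul_self_nonneg x
    exact (CStarAlgebra.norm_le_one_iff_of_nonneg _ h0).mp
      ((norm_mul_le _ _).trans (mul_le_one₀ hn (norm_nonneg _) hn))

end Half

end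

end Vale.Agent.P095.Elem
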