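import Vale.Agent.P095.Elem.QuotSmall

/-!
# P095, amenable groups: the quotient by uniformly small sequences

`DQ N ω` is the C*-algebra of bounded sequences in `N` modulo those `f` for which, along `ω`, the
cuts of `star (f n) * f n` are small at every dimension state of `N`, uniformly in the state.
-/

namespace Vale.Agent.P095.Elem

open Filter Topology BoundedContinuousFunction
open scoped CStarAlgebra BoundedContinuousFunction

noncomputable section

universe u v

attribute [local instance] CStarAlgebra.spectralOrder CStarAlgebra.spectralOrderedRing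

namespace DQ

/-! ### Pullback of dimension states -/

section comap

variable {B : Type u} [CStarAlgebra B] {C : Type v} [CStarAlgebra C]

theorem map_isPos (ψ : B →⋆ₐ[ℂ] C) {x : B} (h : IsPos x) : IsPos (ψ x) := by
  obtain ⟨c, rfl⟩ := h
  exact ⟨ψ c, by rw [map_mul, map_star]⟩

theorem map_cut (ψ : B →⋆ₐ[ℂ] C) {x : B} (hx : IsSelfAdjoint x) (t : ℝ) :
    ψ (cut t x) = cut t (ψ x) :=
  StarAlgHomClass.map_cfc ψ _ x (by fun_prop) (map_continuous ψ) hx (hx.map ψ)

/-- The pullback of a dimension state along a unital star homomorphism. -/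
def comap (D : DimState C) (ψ : B →⋆ₐ[ℂ] C) : DimState B where
  val x := D (ψ x)
  one := by rw [map_one]; exact D.one
  mono x y hx hy h := by
    refine D.mono _ _ (fun i => map_isPos ψ (hx i)) (fun k => map_isPos ψ (hy k)) fun ε hε => ?_
    obtain ⟨w, hw⟩ := h ε hε
    refine ⟨fun k i => ψ (w k i), fun i j => ?_⟩
    refine le_trans (le_of_eq ?_) ((NonUnitalStarAlgHom.norm_apply_le ψ _).trans (hw i j))
    rw [map_sub, map_sum]
    simp only [map_mul, map_star]
    split_ifs <;> simp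
  lsc x hx ε hε := by
    obtain ⟨δ, hδ, hD⟩ := D.lsc (ψ x) (map_isPos ψ hx) ε hε
    exact ⟨δ, hδ, by rwa [map_cut ψ (sa_of_isPos hx)]⟩

theorem comap_apply (D : DimState C) (ψ : B →⋆ₐ[ℂ] C) (x : B) : comap D ψ x = D (ψ x) := rfl

end comap

/-! ### Small sequences -/

section small

variable {N : Type u} [CStarAlgebra N] {ω : Ultrafilter ℕ}

/-- Small along `ω`, at all dimension states uniformly. -/
def IsSmall (ω : Ultrafilter ℕ) (f : ℕ → N) : Prop :=
  ∀ ε : ℝ, 0 < ε → ∀ᶠ n in (ω : Filter ℕ), ∀ D : DimState N, D (cut ε (star (f n) * f n)) ≤ ε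

theorem val_cut_le_zero (D : DimState N) {b : N} (hb : IsSelfAdjoint b) {t : ℝ} (h : ‖b‖ < t) :
    D (cut t b) ≤ 0 := by
  refine (val_cut_le_of_le_add D hb le_rfl h ?_).trans_eq (Spec.val_zero D)
  simpa using le_add_of_norm_sub_le hb (IsSelfAdjoint.zero N) (e := ‖b‖) (by simp)

theorem IsSmall.cut_le {f : ℕ → N} (hf : IsSmall ω f) {t θ : ℝ} (ht : 0 < t) (hθ : 0 < θ) :
    ∀ᶠ n in (ω : Filter ℕ), ∀ D : DimState N, D (cut t (star (f n) * f n)) ≤ θ :=
  (hf (min t θ) (lt_min ht hθ)).mono fun _n hn D =>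
    (val_cut_antitone D (IsSelfAdjoint.star_mul_self _) (min_le_left _ _)).trans
      ((hn D).trans (min_le_right _ _))

theorem IsSmall.of_norm {f : ℕ → N}
    (h : ∀ ε : ℝ, 0 < ε → ∀ᶠ n in (ω : Filter ℕ), ‖f n‖ ≤ ε) : IsSmall ω f := by
  intro ε hε
  filter_upwards [h (min 1 (ε / 2)) (by positivity)] with n hn D
  refine (val_cut_le_zero D (IsSelfAdjoint.star_mul_self _) ?_).trans hε.le
  rw [CStarRing.norm_star_mul_self]
  have h1 := min_le_left (1 : ℝ) (ε / 2)
  have h2 := min_le_right (1 : ℝ) (ε / 2)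
  nlinarith [norm_nonneg (f n)]

theorem IsSmall.zero : IsSmall ω (fun _ => (0 : N)) :=
  IsSmall.of_norm fun ε hε => Eventually.of_forall fun _ => by simpa using hε.le

theorem IsSmall.star {f : ℕ → N} (hf : IsSmall ω f) : IsSmall ω (fun n => star (f n)) := by
  intro ε hε
  filter_upwards [hf ε hε] with n hn D
  rw [star_star, ← val_cut_star_mul_self D (f n) hε]
  exact hn D

theorem val_cut_star_add_le (D : DimState N) (f g : N) {ε : ℝ} (hε : 0 < ε) :
    D (cut ε (Star.star (f + g) * (f + g))) ≤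
      D (cut (ε / 8) (Star.star f * f)) + D (cut (ε / 8) (Star.star g * g)) := by
  refine (val_cut_mono' D (IsSelfAdjoint.star_mul_self _) (star_add_mul_add_le f g) ε).trans ?_
  refine (val_cut_smul_le D ((IsSelfAdjoint.star_mul_self f).add (IsSelfAdjoint.star_mul_self g))
    zero_le_two (s := ε / 3) (by linarith)).trans ?_
  exact val_cut_add_le D (IsSelfAdjoint.star_mul_self f) (IsSelfAdjoint.star_mul_self g)
    (by linarith)

theorem IsSmall.add {f g : ℕ → N} (hf : IsSmall ω f) (hg : IsSmall ω g) :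
    IsSmall ω (fun n => f n + g n) := by
  intro ε hε
  filter_upwards [hf.cut_le (t := ε / 8) (θ := ε / 2) (by positivity) (by positivity),
    hg.cut_le (t := ε / 8) (θ := ε / 2) (by positivity) (by positivity)] with n h1 h2 D
  linarith [val_cut_star_add_le D (f n) (g n) hε, h1 D, h2 D]

theorem IsSmall.mul_left {f : ℕ → N} (hf : IsSmall ω f) {g : ℕ → N} {c : ℝ}
    (hg : ∀ n, ‖g n‖ ≤ c) : IsSmall ω (fun n => g n * f n) := by
  intro ε hε
  filter_upwards [hf.cut_le (t := ε / (c ^ 2 + 1)) (θ := ε) (by positivity) hε] with n hn D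
  refine (val_cut_mono' D (IsSelfAdjoint.star_mul_self _) (star_mul_mul_le (g n) (f n)) ε).trans
    ((val_cut_smul_le D (IsSelfAdjoint.star_mul_self _) (sq_nonneg _)
      (s := ε / (c ^ 2 + 1)) ?_).trans (hn D))
  have h1 : ‖g n‖ ^ 2 ≤ c ^ 2 := pow_le_pow_left₀ (norm_nonneg _) (hg n) 2
  rw [mul_div_assoc', div_lt_iff₀ (by positivity)]
  nlinarith

theorem IsSmall.mul_right {f : ℕ → N} (hf : IsSmall ω f) {g : ℕ → N} {c : ℝ}
    (hg : ∀ n, ‖g n‖ ≤ c) : IsSmall ω (fun n => f n * g n) := by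
  simpa [star_mul] using
    (hf.star.mul_left (g := fun n => Star.star (g n)) (c := c) fun n => by simpa using hg n).star

theorem IsSmall.of_approx {f : ℕ → N}
    (h : ∀ δ : ℝ, 0 < δ → ∃ g, IsSmall ω g ∧ ∀ n, ‖f n - g n‖ ≤ δ) : IsSmall ω f := by
  intro ε hε
  obtain ⟨g, hg, hfg⟩ := h (min 1 (ε / 16)) (by positivity)
  filter_upwards [hg.cut_le (t := ε / 8) (θ := ε) (by positivity) hε] with n hn D
  have h1 := val_cut_star_add_le D (g n) (f n - g n) hε
  rw [add_sub_cancel] at h1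
  have h2 : D (cut (ε / 8) (Star.star (f n - g n) * (f n - g n))) ≤ 0 := by
    refine val_cut_le_zero D (IsSelfAdjoint.star_mul_self _) ?_
    rw [CStarRing.norm_star_mul_self]
    nlinarith [norm_nonneg (f n - g n), hfg n, min_le_left (1 : ℝ) (ε / 16),
      min_le_right (1 : ℝ) (ε / 16)]
  linarith [hn D]

theorem IsSmall.congr {f g : ℕ → N} (h : ∀ᶠ n in (ω : Filter ℕ), f n = g n) (hg : IsSmall ω g) :
    IsSmall ω f := fun ε hε => by
  filter_upwards [h, hg ε hε] with n h1 h2 D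
  rw [h1]
  exact h2 D

/-- For positive sequences smallness may be tested without squaring. -/
theorem isSmall_iff_of_pos {f : ℕ → N} {c : ℝ} (hc : ∀ n, ‖f n‖ ≤ c) (hf : ∀ n, IsPos (f n)) :
    IsSmall ω f ↔
      ∀ ε : ℝ, 0 < ε → ∀ᶠ n in (ω : Filter ℕ), ∀ D : DimState N, D (cut ε (f n)) ≤ ε := by
  have hc0 : 0 ≤ c := (norm_nonneg _).trans (hc 0)
  have hsa : ∀ n, IsSelfAdjoint (f n) := fun n => sa_of_isPos (hf n)
  constructor
  · intro h ε hε
    filter_upwards [h.cut_le (t := ε ^ 2 / 4) (θ := ε) (by positivity) hε] with n hn D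
    refine le_trans ?_ (hn D)
    -- `f ≤ (2 / ε) f² + ε / 2`
    have hle : f n ≤ (2 / ε) • (Star.star (f n) * f n) + (ε / 8) • (1 : N) := by
      rw [(hsa n).star_eq, ← Algebra.algebraMap_eq_smul_one]
      conv_lhs => rw [← cfc_id' ℝ (f n)]
      conv_rhs => rw [← cfc_id' ℝ (f n)]
      rw [← cfc_mul (fun r : ℝ => r) (fun r : ℝ => r) (f n) continuousOn_id continuousOn_id,
        ← cfc_smul (2 / ε) (fun r : ℝ => r * r) (f n) (by fun_prop),
        ← cfc_add_const (ε / 8) (fun r : ℝ => (2 / ε) • (r * r)) (f n) (by fun_prop)]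
      refine cfc_mono (fun r _ => ?_)
      rw [smul_eq_mul, div_mul_eq_mul_div, ← sub_nonneg]
      have e : 2 * (r * r) / ε + ε / 8 - r = ((4 * r - ε) ^ 2) / (8 * ε) := by field_simp; ring
      rw [e]
      positivity
    refine (val_cut_mono' D (hsa n) hle ε).trans ?_
    refine (val_cut_le_of_le_add D (y := (2 / ε) • cut (ε ^ 2 / 4) (Star.star (f n) * f n))
      (((IsSelfAdjoint.all _).smul
      (IsSelfAdjoint.star_mul_self _)).add ((IsSelfAdjoint.all _).smul (IsSelfAdjoint.one N)))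
      (smul_nonneg (by positivity) (cut_nonneg (ε ^ 2 / 4) _))
      (e := 2 / ε * (ε ^ 2 / 4) + ε / 8) ?_ ?_).trans
      (val_smul_le D (cut_nonneg _ _) (by positivity))
    · field_simp
      nlinarith
    · rw [add_smul, ← add_assoc, ← smul_smul, ← smul_add]
      exact add_le_add (smul_le_smul_of_nonneg_left
        (le_cut_add (IsSelfAdjoint.star_mul_self _) _) (by positivity)) le_rfl
  · intro h ε hε
    filter_upwards [h (min (ε / (c + 1)) ε) (lt_min (by positivity) hε)] with n hn D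
    refine le_trans ?_ ((hn D).trans (min_le_right _ _))
    have hle : Star.star (f n) * f n ≤ c • f n := by
      have h0 : 0 ≤ f n := isPos_iff_nonneg.1 (hf n)
      rw [(hsa n).star_eq]
      conv_lhs => rw [← cfc_id' ℝ (f n)]
      conv_rhs => rw [← cfc_id' ℝ (f n)]
      rw [← cfc_mul (fun r : ℝ => r) (fun r : ℝ => r) (f n) continuousOn_id continuousOn_id,
        ← cfc_smul c (fun r : ℝ => r) (f n) continuousOn_id]
      refine cfc_mono (fun r hr => ?_)
      have hr0 := spectrum_nonneg_of_nonneg h0 hr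
      have hrc : r ≤ c := ((le_algebraMap_iff_spectrum_le (hsa n)).1
        ((hsa n).le_algebraMap_norm_self.trans (algebraMap_mono N (hc n))) r hr)
      exact mul_le_mul_of_nonneg_right hrc hr0
    refine (val_cut_mono' D (IsSelfAdjoint.star_mul_self _) hle ε).trans
      (val_cut_smul_le D (hsa n) hc0 ?_)
    calc c * min (ε / (c + 1)) ε ≤ c * (ε / (c + 1)) :=
          mul_le_mul_of_nonneg_left (min_le_left _ _) hc0
      _ < ε := by rw [mul_div_assoc', div_lt_iff₀ (by positivity)]; nlinarith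

end small

/-! ### Quotients by closed star ideals -/

section cstar

variable {A : Type u} [CStarAlgebra A] (J : Ideal A) [J.IsTwoSided]

theorem cfc_sub_mem (hc : IsClosed (J : Set A)) {a b : A} (ha : IsSelfAdjoint a)
    (hb : IsSelfAdjoint b) (hab : a - b ∈ J) {g : ℝ → ℝ} (hg : Continuous g) :
    cfc g a - cfc g b ∈ J := by
  refine hc.closure_subset (Metric.mem_closure_iff.2 fun ε hε => ?_)
  set R := max ‖a‖ ‖b‖ with hR
  obtain ⟨p, hp⟩ := exists_polynomial_near_of_continuousOn (-R) R g hg.continuousOn (ε / 4)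
    (by positivity)
  have hspec : ∀ c : A, IsSelfAdjoint c → ‖c‖ ≤ R → ∀ r ∈ spectrum ℝ c, r ∈ Set.Icc (-R) R := by
    intro c hc hcR r hr
    refine ⟨?_, ((le_algebraMap_iff_spectrum_le hc).1
      (hc.le_algebraMap_norm_self.trans (algebraMap_mono A hcR)) r hr)⟩
    refine (algebraMap_le_iff_le_spectrum hc).1 ?_ r hr
    rw [map_neg]
    exact (neg_le_neg (algebraMap_mono A hcR)).trans hc.neg_algebraMap_norm_le_self
  have hnear : ∀ c : A, IsSelfAdjoint c → ‖c‖ ≤ R →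
      ‖cfc g c - Polynomial.aeval c p‖ ≤ ε / 4 := by
    intro c hc hcR
    rw [← cfc_polynomial p c hc, ← cfc_sub g p.eval c hg.continuousOn]
    refine norm_cfc_le (by positivity) fun r hr => ?_
    rw [Real.norm_eq_abs, abs_sub_comm]
    exact (hp r (hspec c hc hcR r hr)).le
  refine ⟨Polynomial.aeval a p - Polynomial.aeval b p, ?_, ?_⟩
  · rw [SetLike.mem_coe, ← Ideal.Quotient.eq]
    have h := Ideal.Quotient.eq.2 hab
    change Ideal.Quotient.mkₐ ℝ J (Polynomial.aeval a p) =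
      Ideal.Quotient.mkₐ ℝ J (Polynomial.aeval b p)
    rw [← Polynomial.aeval_algHom_apply, ← Polynomial.aeval_algHom_apply]
    exact congrArg (fun x => Polynomial.aeval x p) h
  · rw [dist_eq_norm]
    calc ‖cfc g a - cfc g b - (Polynomial.aeval a p - Polynomial.aeval b p)‖
        = ‖(cfc g a - Polynomial.aeval a p) - (cfc g b - Polynomial.aeval b p)‖ := by
          congr 1; abel
      _ ≤ ε / 4 + ε / 4 := (norm_sub_le _ _).trans
          (add_le_add (hnear a ha (le_max_left _ _)) (hnear b hb (le_max_right _ _)))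
      _ < ε := by linarith

/-- The inequality behind the C*-identity of a quotient. -/
theorem exists_sub_norm_le (hc : IsClosed (J : Set A)) (hs : ∀ x ∈ J, star x ∈ J) (f j : A)
    (hj : j ∈ J) {c : ℝ} (hlt : ‖star f * f + j‖ < c) : ∃ i ∈ J, ‖f - i‖ ^ 2 ≤ c := by
  set a := star f * f with ha'
  have ha : IsSelfAdjoint a := IsSelfAdjoint.star_mul_self f
  set b := a + (1 / 2 : ℝ) • (j + star j) with hb'
  have hb : IsSelfAdjoint b := ha.add ((IsSelfAdjoint.all _).smul (IsSelfAdjoint.add_star_self j))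
  have hbj : a - b ∈ J := by
    rw [hb', sub_add_cancel_left]
    refine J.neg_mem ?_
    rw [← Complex.coe_smul, Algebra.smul_def]
    exact J.mul_mem_left _ (J.add_mem hj (hs j hj))
  have hbc : ‖b‖ ≤ ‖a + j‖ := by
    have e : b = (1 / 2 : ℝ) • ((a + j) + star (a + j)) := by
      rw [hb', star_add, ha.star_eq]
      module
    rw [e, norm_smul]
    refine le_trans (mul_le_mul_of_nonneg_left (norm_add_le _ _) (norm_nonneg _)) ?_
    rw [norm_star, Real.norm_of_nonneg (by norm_num : (0 : ℝ) ≤ 1 / 2)]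
    linarith
  have hc0 : 0 < c := (norm_nonneg _).trans_lt hlt
  let e : ℝ → ℝ := fun x => √(c / max x c)
  have hec : Continuous e :=
    (continuous_const.div (continuous_id.max continuous_const)
      fun x => (lt_max_of_lt_right hc0).ne').sqrt
  have hdb : cfc (fun x => 1 - e x) b = 0 := by
    rw [cfc_congr (g := fun _ => (0 : ℝ)) fun r hr => ?_, cfc_const_zero]
    have hr' : r ≤ ‖b‖ := (le_algebraMap_iff_spectrum_le hb).1 hb.le_algebraMap_norm_self r hr
    simp [e, max_eq_right (hr'.trans (hbc.trans hlt.le)), hc0.ne']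
  have hmem : cfc (fun x => 1 - e x) a ∈ J := by
    have := cfc_sub_mem J hc ha hb hbj (g := fun x => 1 - e x) (continuous_const.sub hec)
    rwa [hdb, sub_zero] at this
  refine ⟨f * cfc (fun x => 1 - e x) a, J.mul_mem_left f hmem, ?_⟩
  have e1 : f - f * cfc (fun x => 1 - e x) a = f * cfc e a := by
    rw [cfc_sub (fun _ : ℝ => (1 : ℝ)) e a continuousOn_const hec.continuousOn,
      cfc_const_one ℝ a, mul_sub, mul_one, sub_sub_cancel]
  rw [e1, sq, ← CStarRing.norm_star_mul_self, star_mul,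
    (IsSelfAdjoint.cfc (f := e) (a := a)).star_eq,
    show cfc e a * star f * (f * cfc e a) = cfc e a * a * cfc e a by
      rw [ha']; simp only [mul_assoc]]
  conv_lhs => enter [1, 1, 2]; rw [← cfc_id' ℝ a]
  rw [← cfc_mul e (fun x : ℝ => x) a hec.continuousOn continuousOn_id,
    ← cfc_mul (fun x => e x * x) e a (hec.mul continuous_id).continuousOn hec.continuousOn]
  refine norm_cfc_le hc0.le fun r hr => ?_
  have hr0 : 0 ≤ r := spectrum_nonneg_of_nonneg (star_mul_self_nonneg f) hr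
  have hm : 0 < max r c := lt_max_of_lt_right hc0
  rw [mul_right_comm, Real.mul_self_sqrt (by positivity), Real.norm_of_nonneg (by positivity),
    div_mul_eq_mul_div, div_le_iff₀ hm]
  exact mul_le_mul_of_nonneg_left (le_max_left _ _) hc0.le

end cstar

end DQ

/-- The uniformly small bounded sequences. -/
def dIdeal (N : Type u) [CStarAlgebra N] (ω : Ultrafilter ℕ) : Ideal (ℕ →ᵇ N) where
  carrier := {f | DQ.IsSmall ω ⇑f}
  add_mem' hf hg := hf.add hg
  zero_mem' := DQ.IsSmall.zero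
  smul_mem' g _ hf := hf.mul_left (c := ‖g‖) fun n => g.norm_coe_le_norm n

variable {N : Type u} [CStarAlgebra N] {ω : Ultrafilter ℕ}

instance dIdeal_isTwoSided : (dIdeal N ω).IsTwoSided where
  mul_mem_of_left {f} g hf :=
    DQ.IsSmall.mul_right (f := ⇑f) hf (c := ‖g‖) fun n => g.norm_coe_le_norm n

theorem mem_dIdeal {f : ℕ →ᵇ N} : f ∈ dIdeal N ω ↔ DQ.IsSmall ω ⇑f := Iff.rfl

theorem dIdeal_star {f : ℕ →ᵇ N} (h : f ∈ dIdeal N ω) : star f ∈ dIdeal N ω :=
  DQ.IsSmall.star (f := ⇑f) h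

instance dIdeal_closed : IsClosed (dIdeal N ω : Set (ℕ →ᵇ N)) := by
  rw [← closure_subset_iff_isClosed]
  intro f hf
  refine DQ.IsSmall.of_approx fun δ hδ => ?_
  obtain ⟨g, hg, hfg⟩ := Metric.mem_closure_iff.1 hf δ hδ
  refine ⟨g, hg, fun n => ?_⟩
  rw [dist_eq_norm] at hfg
  exact le_trans (by simpa using (f - g).norm_coe_le_norm n) hfg.le

variable (N ω) in
/-- The quotient by uniformly small sequences. -/
abbrev DQ : Type u := (ℕ →ᵇ N) ⧸ dIdeal N ω

namespace DQ

instance instNormedAddCommGroup : NormedAddCommGroup (DQ N ω) :=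
  Submodule.Quotient.normedAddCommGroup (dIdeal N ω)

/-- The quotient map as an algebra homomorphism. -/
def mkAlg : (ℕ →ᵇ N) →ₐ[ℂ] DQ N ω := Ideal.Quotient.mkₐ ℂ (dIdeal N ω)

theorem mkAlg_surjective : Function.Surjective (mkAlg : (ℕ →ᵇ N) → DQ N ω) :=
  Ideal.Quotient.mk_surjective

theorem mkAlg_eq {f g : ℕ →ᵇ N} : (mkAlg f : DQ N ω) = mkAlg g ↔ f - g ∈ dIdeal N ω :=
  Ideal.Quotient.eq

theorem norm_mkAlg_le (f : ℕ →ᵇ N) : ‖(mkAlg f : DQ N ω)‖ ≤ ‖f‖ :=
  Submodule.Quotient.norm_mk_le (dIdeal N ω) f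

theorem exists_lift' (x : DQ N ω) {r : ℝ} (h : ‖x‖ < r) : ∃ f, mkAlg f = x ∧ ‖f‖ < r := by
  obtain ⟨f, rfl⟩ := mkAlg_surjective x
  have h' : ‖(Submodule.Quotient.mk f : (ℕ →ᵇ N) ⧸ dIdeal N ω)‖ < r := h
  obtain ⟨g, hg, hgn⟩ := QuotientAddGroup.norm_lt_iff.1 h'
  exact ⟨g, hg, hgn⟩

theorem norm_mul_le' (x y : DQ N ω) : ‖x * y‖ ≤ ‖x‖ * ‖y‖ := by
  refine le_of_forall_pos_le_add fun ε hε => ?_
  set δ := min 1 (ε / (‖x‖ + ‖y‖ + 1)) with hδ'
  have hδ : 0 < δ := lt_min one_pos (by positivity)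
  obtain ⟨f, rfl, hf⟩ := exists_lift' x (lt_add_of_pos_right ‖x‖ hδ)
  obtain ⟨g, rfl, hg⟩ := exists_lift' y (lt_add_of_pos_right ‖y‖ hδ)
  rw [← map_mul]
  refine ((norm_mkAlg_le _).trans (norm_mul_le f g)).trans ?_
  refine (mul_le_mul hf.le hg.le (norm_nonneg _) (by positivity)).trans ?_
  have h1 : δ ≤ 1 := min_le_left _ _
  have h2 : δ * (‖(mkAlg f : DQ N ω)‖ + ‖(mkAlg g : DQ N ω)‖ + 1) ≤ ε :=
    (le_div_iff₀ (by positivity)).1 (min_le_right _ _)
  nlinarith

theorem dist_eq' (x y : DQ N ω) : dist x y = ‖-x + y‖ := NormedAddGroup.dist_eq x y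

instance instNormedRing : NormedRing (DQ N ω) where
  toNorm := (instNormedAddCommGroup (N := N) (ω := ω)).toNorm
  toRing := Ideal.Quotient.ring (dIdeal N ω)
  toMetricSpace := (instNormedAddCommGroup (N := N) (ω := ω)).toMetricSpace
  dist_eq := dist_eq'
  norm_mul_le := norm_mul_le'

instance instStar : Star (DQ N ω) where
  star := Quotient.map' star fun f g h => by
    rw [Submodule.quotientRel_def] at h ⊢
    simpa using dIdeal_star h

theorem mkAlg_star (f : ℕ →ᵇ N) : (mkAlg (star f) : DQ N ω) = star (mkAlg f) := rfl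

instance instStarRing : StarRing (DQ N ω) where
  star_involutive x := by
    obtain ⟨f, rfl⟩ := mkAlg_surjective x
    rw [← mkAlg_star, ← mkAlg_star, star_star]
  star_mul x y := by
    obtain ⟨f, rfl⟩ := mkAlg_surjective x
    obtain ⟨g, rfl⟩ := mkAlg_surjective y
    rw [← map_mul, ← mkAlg_star, ← mkAlg_star, ← mkAlg_star, ← map_mul, star_mul]
  star_add x y := by
    obtain ⟨f, rfl⟩ := mkAlg_surjective x
    obtain ⟨g, rfl⟩ := mkAlg_surjective y
    rw [← map_add, ← mkAlg_star, ← mkAlg_star, ← mkAlg_star, ← map_add, star_add]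

instance instNormedAlgebra : NormedAlgebra ℂ (DQ N ω) where
  __ := (inferInstance : Algebra ℂ (DQ N ω))
  norm_smul_le r x := by
    refine le_of_forall_pos_le_add fun ε hε => ?_
    obtain ⟨f, rfl, hf⟩ := exists_lift' x (lt_add_of_pos_right ‖x‖
      (show 0 < ε / (‖r‖ + 1) by positivity))
    rw [← map_smul]
    refine ((norm_mkAlg_le _).trans (norm_smul_le r f)).trans ?_
    refine (mul_le_mul_of_nonneg_left hf.le (norm_nonneg _)).trans ?_
    have : ‖r‖ * (ε / (‖r‖ + 1)) ≤ ε := by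
      rw [mul_div_assoc', div_le_iff₀ (by positivity)]; nlinarith [norm_nonneg r]
    linarith

instance instStarModule : StarModule ℂ (DQ N ω) where
  star_smul r x := by
    obtain ⟨f, rfl⟩ := mkAlg_surjective x
    rw [← map_smul, ← mkAlg_star, ← mkAlg_star, ← map_smul, star_smul]

instance instCStarRing : CStarRing (DQ N ω) where
  norm_mul_self_le x := by
    obtain ⟨f, rfl⟩ := mkAlg_surjective x
    refine le_of_forall_pos_le_add fun ε hε => ?_
    obtain ⟨g, hg, hgn⟩ := exists_lift' (star (mkAlg f) * mkAlg f : DQ N ω)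
      (lt_add_of_pos_right _ hε)
    rw [← mkAlg_star, ← map_mul, mkAlg_eq] at hg
    obtain ⟨i, hi, hin⟩ := exists_sub_norm_le (dIdeal N ω) dIdeal_closed (fun _ => dIdeal_star)
      f (g - star f * f) hg (c := ‖(star (mkAlg f) * mkAlg f : DQ N ω)‖ + ε)
      (by rwa [add_sub_cancel])
    have e : (mkAlg f : DQ N ω) = mkAlg (f - i) := by
      rw [mkAlg_eq, sub_sub_cancel]; exact hi
    rw [e]
    refine le_trans ?_ (hin.trans (le_of_eq (by rw [← e])))
    rw [sq]
    exact mul_le_mul (norm_mkAlg_le _) (norm_mkAlg_le _) (norm_nonneg _) (norm_nonneg _)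

instance instCompleteSpace : CompleteSpace (DQ N ω) :=
  inferInstanceAs (CompleteSpace ((ℕ →ᵇ N) ⧸ dIdeal N ω))

instance instCStarAlgebra : CStarAlgebra (DQ N ω) where

/-- The quotient map. -/
def mk : (ℕ →ᵇ N) →⋆ₐ[ℂ] DQ N ω := { mkAlg with map_star' := mkAlg_star }

theorem mk_surjective : Function.Surjective (mk : (ℕ →ᵇ N) → DQ N ω) := mkAlg_surjective

theorem mk_eq_mk {f g : ℕ →ᵇ N} : (mk f : DQ N ω) = mk g ↔ IsSmall ω ⇑(f - g) := mkAlg_eq

theorem mk_eq_zero {f : ℕ →ᵇ N} : (mk f : DQ N ω) = 0 ↔ IsSmall ω ⇑f := by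
  rw [← map_zero (mk : (ℕ →ᵇ N) →⋆ₐ[ℂ] DQ N ω), mk_eq_mk, sub_zero]

theorem mk_eq_zero_of_pos {f : ℕ →ᵇ N} (hf : ∀ n, IsPos (f n))
    (h : ∀ ε : ℝ, 0 < ε → ∀ᶠ n in (ω : Filter ℕ), ∀ D : DimState N, D (cut ε (f n)) ≤ ε) :
    (mk f : DQ N ω) = 0 :=
  mk_eq_zero.2 ((isSmall_iff_of_pos (fun n => f.norm_coe_le_norm n) hf).2 h)

theorem small_of_pos {f : ℕ →ᵇ N} (hf : ∀ n, IsPos (f n)) (h : (mk f : DQ N ω) = 0) :
    ∀ ε : ℝ, 0 < ε → ∀ᶠ n in (ω : Filter ℕ), ∀ D : DimState N, D (cut ε (f n)) ≤ ε :=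
  (isSmall_iff_of_pos (fun n => f.norm_coe_le_norm n) hf).1 (mk_eq_zero.1 h)

theorem mk_eq_zero_of_norm {f : ℕ →ᵇ N}
    (h : ∀ ε : ℝ, 0 < ε → ∀ᶠ n in (ω : Filter ℕ), ‖f n‖ ≤ ε) : (mk f : DQ N ω) = 0 :=
  mk_eq_zero.2 (IsSmall.of_norm h)

theorem mk_eq_of_eventually {f g : ℕ →ᵇ N} (h : ∀ᶠ n in (ω : Filter ℕ), f n = g n) :
    (mk f : DQ N ω) = mk g :=
  mk_eq_mk.2 (IsSmall.congr (g := fun _ => (0 : N)) (h.mono fun n hn => by simp [hn]) IsSmall.zero)

theorem norm_mk_le {f : ℕ →ᵇ N} {r : ℝ} (hr : 0 ≤ r)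
    (h : ∀ᶠ n in (ω : Filter ℕ), ‖f n‖ ≤ r) : ‖(mk f : DQ N ω)‖ ≤ r := by
  classical
  let g : ℕ →ᵇ N := ofNormedAddCommGroupDiscrete (fun n => if ‖f n‖ ≤ r then f n else 0) r
    fun n => by split_ifs with hn <;> simp [hn, hr]
  rw [mk_eq_of_eventually (g := g) (h.mono fun n hn => by simp [g, hn])]
  exact (norm_mkAlg_le g).trans ((norm_le hr).2 fun n => by
    simp only [g, coe_ofNormedAddCommGroupDiscrete]; split_ifs with hn <;> simp [hn, hr])

theorem commute_mk {f g : ℕ →ᵇ N} (h : ∀ᶠ n in (ω : Filter ℕ), Commute (f n) (g n)) :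
    Commute (mk f : DQ N ω) (mk g) := by
  rw [Commute, SemiconjBy, ← map_mul, ← map_mul]
  exact mk_eq_of_eventually (h.mono fun n hn => hn.eq)

/-! ### Functional calculus and lifts -/

instance instCFCSeq : ContinuousFunctionalCalculus ℝ (ℕ →ᵇ N) IsSelfAdjoint :=
  IsSelfAdjoint.instContinuousFunctionalCalculus

instance instCFC : ContinuousFunctionalCalculus ℝ (DQ N ω) IsSelfAdjoint :=
  IsSelfAdjoint.instContinuousFunctionalCalculus

/-- Evaluation of bounded sequences. -/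
def eval (n : ℕ) : (ℕ →ᵇ N) →⋆ₐ[ℂ] N where
  toFun f := f n
  map_one' := rfl
  map_mul' _ _ := rfl
  map_zero' := rfl
  map_add' _ _ := rfl
  commutes' _ := rfl
  map_star' _ := rfl

theorem apply_cfc {f : ℕ →ᵇ N} (hf : IsSelfAdjoint f) {h : ℝ → ℝ} (hh : Continuous h) (n : ℕ) :
    cfc h f n = cfc h (f n) :=
  StarAlgHomClass.map_cfc (eval n) h f hh.continuousOn (map_continuous _) hf (hf.map (eval n))

theorem mk_cfc {f : ℕ →ᵇ N} (hf : IsSelfAdjoint f) {h : ℝ → ℝ} (hh : Continuous h) :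
    (mk (cfc h f) : DQ N ω) = cfc h (mk f) :=
  StarAlgHomClass.map_cfc mk h f hh.continuousOn (map_continuous mk) hf (hf.map mk)

theorem isSelfAdjoint_seq {f : ℕ →ᵇ N} (hf : ∀ n, IsSelfAdjoint (f n)) : IsSelfAdjoint f := by
  ext n; exact (hf n).star_eq

theorem exists_lift (x : DQ N ω) {r : ℝ} (h : ‖x‖ < r) : ∃ f, mk f = x ∧ ‖f‖ ≤ r := by
  obtain ⟨f, hf, hn⟩ := exists_lift' x h
  exact ⟨f, hf, hn.le⟩

theorem exists_lift_sa {x : DQ N ω} (hx : IsSelfAdjoint x) :
    ∃ f, mk f = x ∧ IsSelfAdjoint f := by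
  obtain ⟨f, rfl⟩ := mk_surjective x
  refine ⟨(1 / 2 : ℂ) • (f + star f), ?_, ?_⟩
  · rw [map_smul, map_add, map_star, hx.star_eq, ← two_smul ℂ, smul_smul]
    norm_num
  · rw [IsSelfAdjoint, star_smul, star_add, star_star, add_comm]
    norm_num

theorem exists_lift_cfc {x : DQ N ω} (hx : IsSelfAdjoint x) {h : ℝ → ℝ} (hh : Continuous h)
    (hid : ∀ r ∈ spectrum ℝ x, h r = r) :
    ∃ f, mk f = x ∧ IsSelfAdjoint f ∧ ∀ n, ∃ a : N, IsSelfAdjoint a ∧ f n = cfc h a := by
  obtain ⟨f, rfl, hf⟩ := exists_lift_sa hx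
  refine ⟨cfc h f, ?_, IsSelfAdjoint.cfc, fun n => ⟨f n, hf.map (eval n), apply_cfc hf hh n⟩⟩
  rw [mk_cfc hf hh]
  exact (cfc_congr hid).trans (cfc_id' ℝ _)

theorem exists_lift_saC {x : DQ N ω} (hx : IsSelfAdjoint x) (h1 : ‖x‖ ≤ 1) :
    ∃ f, mk f = x ∧ ∀ n, IsSelfAdjoint (f n) ∧ ‖f n‖ ≤ 1 := by
  obtain ⟨f, hf, -, hn⟩ := exists_lift_cfc hx (h := fun r => max (-1) (min 1 r)) (by fun_prop)
    fun r hr => by
      have h2 := (le_algebraMap_iff_spectrum_le hx).1
        (hx.le_algebraMap_norm_self.trans (algebraMap_mono _ h1)) r hr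
      have h3 := ((algebraMap_le_iff_le_spectrum (r := (-1 : ℝ)) hx)).1
        (by
          rw [map_neg]
          exact (neg_le_neg (algebraMap_mono (DQ N ω) h1)).trans hx.neg_algebraMap_norm_le_self)
        r hr
      rw [min_eq_right h2, max_eq_right h3]
  refine ⟨f, hf, fun n => ?_⟩
  obtain ⟨a, ha, e⟩ := hn n
  rw [e]
  exact ⟨IsSelfAdjoint.cfc, norm_cfc_le zero_le_one fun r _ => abs_le.2
    ⟨le_max_left _ _, max_le (by norm_num) (min_le_left _ _)⟩⟩

theorem exists_lift_posC {x : DQ N ω} (hx : IsPosC x) :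
    ∃ f, mk f = x ∧ ∀ n, IsPosC (f n) := by
  have hsa := sa_of_isPos hx.1
  obtain ⟨f, hf, -, hn⟩ := exists_lift_cfc hsa (h := fun r => max 0 (min 1 r)) (by fun_prop)
    fun r hr => by
      have h2 := (le_algebraMap_iff_spectrum_le hsa).1
        (hsa.le_algebraMap_norm_self.trans (algebraMap_mono _ hx.2)) r hr
      rw [min_eq_right h2,
        max_eq_right (spectrum_nonneg_of_nonneg (isPos_iff_nonneg.1 hx.1) hr)]
  refine ⟨f, hf, fun n => ?_⟩
  obtain ⟨a, ha, e⟩ := hn n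
  rw [e]
  exact ⟨isPos_iff_nonneg.2 (cfc_nonneg fun r _ => le_max_left _ _),
    norm_cfc_le zero_le_one fun r _ => abs_le.2
      ⟨by linarith [le_max_left (0 : ℝ) (min 1 r)], max_le zero_le_one (min_le_left _ _)⟩⟩

/-! ### Induced maps -/

section maps

variable {N' : Type v} [CStarAlgebra N']

/-- A sequence of unital star homomorphisms acting on bounded sequences. -/
def seqMap (ψ : ℕ → N →⋆ₐ[ℂ] N') : (ℕ →ᵇ N) →⋆ₐ[ℂ] (ℕ →ᵇ N') where
  toFun f := ofNormedAddCommGroupDiscrete (fun n => ψ n (f n)) ‖f‖ fun n =>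
    (NonUnitalStarAlgHom.norm_apply_le (ψ n) _).trans (f.norm_coe_le_norm n)
  map_one' := by ext n; simp
  map_mul' f g := by ext n; simp
  map_zero' := by ext n; simp
  map_add' f g := by ext n; simp
  commutes' r := by ext n; exact (ψ n).toAlgHom.commutes r
  map_star' f := by ext n; simp [map_star]

@[simp] theorem seqMap_apply (ψ : ℕ → N →⋆ₐ[ℂ] N') (f : ℕ →ᵇ N) (n : ℕ) :
    seqMap ψ f n = ψ n (f n) := rfl

theorem seqMap_small (ψ : ℕ → N →⋆ₐ[ℂ] N') {f : ℕ →ᵇ N} (h : f ∈ dIdeal N ω) :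
    seqMap ψ f ∈ dIdeal N' ω := by
  intro ε hε
  filter_upwards [h ε hε] with n hn D
  rw [seqMap_apply, ← map_star, ← map_mul, ← map_cut (ψ n) (IsSelfAdjoint.star_mul_self _)]
  exact hn (comap D (ψ n))

/-- A sequence of copies of a fixed algebra. -/
def seqHom (φ : ℕ → N →⋆ₐ[ℂ] N') : N →⋆ₐ[ℂ] (ℕ →ᵇ N') where
  toFun a := seqMap φ (BoundedContinuousFunction.const ℕ a)
  map_one' := by ext n; simp
  map_mul' f g := by ext n; simp
  map_zero' := by ext n; simp
  map_add' f g := by ext n; simp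
  commutes' r := by ext n; exact (φ n).toAlgHom.commutes r
  map_star' f := by ext n; simp [map_star]

@[simp] theorem seqHom_apply (φ : ℕ → N →⋆ₐ[ℂ] N') (a : N) (n : ℕ) : seqHom φ a n = φ n a := rfl

/-- The map induced by a sequence of unital star homomorphisms. -/
def mapSeq (ψ : ℕ → N →⋆ₐ[ℂ] N') : DQ N ω →⋆ₐ[ℂ] DQ N' ω :=
  { Ideal.Quotient.liftₐ (dIdeal N ω) ((mk.comp (seqMap ψ)).toAlgHom)
      (fun _f hf => mk_eq_zero.2 (seqMap_small ψ hf)) with
    map_star' := fun x => by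
      obtain ⟨f, rfl⟩ := mk_surjective x
      show mk (seqMap ψ (star f)) = star (mk (seqMap ψ f))
      rw [map_star, map_star] }

@[simp] theorem mapSeq_mk (ψ : ℕ → N →⋆ₐ[ℂ] N') (f : ℕ →ᵇ N) :
    mapSeq ψ (mk f : DQ N ω) = mk (seqMap ψ f) := rfl

/-- The map induced by a unital star homomorphism. -/
abbrev map (ψ : N →⋆ₐ[ℂ] N') : DQ N ω →⋆ₐ[ℂ] DQ N' ω := mapSeq fun _ => ψ

end maps

/-- An automorphism of `N` acting on the quotient. -/
def mapEquiv (e : N ≃⋆ₐ[ℂ] N) : DQ N ω ≃⋆ₐ[ℂ] DQ N ω where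
  toFun := map (e : N →⋆ₐ[ℂ] N)
  invFun := map (e.symm : N →⋆ₐ[ℂ] N)
  left_inv x := by
    obtain ⟨f, rfl⟩ := mk_surjective x
    rw [mapSeq_mk, mapSeq_mk]; congr 1; ext n; simp
  right_inv x := by
    obtain ⟨f, rfl⟩ := mk_surjective x
    rw [mapSeq_mk, mapSeq_mk]; congr 1; ext n; simp
  map_mul' := map_mul _
  map_add' := map_add _
  map_star' := map_star _
  map_smul' := map_smul _

/-- The induced action. -/
def act {G : Type*} [Group G] (β : G →* (N ≃⋆ₐ[ℂ] N)) : G →* (DQ N ω ≃⋆ₐ[ℂ] DQ N ω) where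
  toFun g := mapEquiv (β g)
  map_one' := by
    ext x
    obtain ⟨f, rfl⟩ := mk_surjective x
    show mk (seqMap _ f) = mk f
    congr 1; ext n; simp
  map_mul' g h := by
    ext x
    obtain ⟨f, rfl⟩ := mk_surjective x
    show mk (seqMap _ f) = mk (seqMap _ (seqMap _ f))
    congr 1; ext n; simp

theorem act_mk {G : Type*} [Group G] (β : G →* (N ≃⋆ₐ[ℂ] N)) (g : G) (f : ℕ →ᵇ N) :
    act β g (mk f : DQ N ω) = mk (seqMap (fun _ => (β g : N →⋆ₐ[ℂ] N)) f) := rfl

end DQ

end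

end Vale.Agent.P095.Elem
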