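import Vale.Agent.P095.Elem.FieldDefs
import Vale.Agent.P095.Elem.OrbTools
import Vale.Agent.P095.Elem.Quot
import Vale.Agent.P095.Elem.HalfCmp

/-!
# P095, amenable groups: exact symmetries in the first limit

Equivariant copies of better and better anticommuting pairs give, in the quotient of bounded
sequences, countably many exact symmetries with flips, all translates of different ones commuting.
-/

namespace Vale.Agent.P095.Elem

open Filter BoundedContinuousFunction
open scoped CStarAlgebra BoundedContinuousFunction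

noncomputable section

namespace Half

variable {F : Type*} [CStarAlgebra F] {G : Type*} [Group G] {β : G →* (F ≃⋆ₐ[ℂ] F)}

/-- A free ultrafilter. -/
def freeUlt : Ultrafilter ℕ := Ultrafilter.of atTop

theorem freeUlt_le : (freeUlt : Filter ℕ) ≤ atTop := Ultrafilter.of_le _

theorem freeUlt_le_cofinite : (freeUlt : Filter ℕ) ≤ cofinite := by
  rw [Nat.cofinite_eq_atTop]; exact freeUlt_le

theorem orbShift_mul (g h : G) {T : Finset F} (x : OrbAlg β T) :
    orbShift β T (g * h) x = orbShift β T g (orbShift β T h x) :=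
  Subtype.ext (by simp only [coe_orbShift, act_act])

/-- A self-adjoint element of norm at most one leaves a positive defect. -/
theorem isPos_one_sub_sq {B : Type*} [CStarAlgebra B] {x : B} (hs : IsSelfAdjoint x)
    (hn : ‖x‖ ≤ 1) : IsPos (1 - x * x) := by
  let := CStarAlgebra.spectralOrder B
  have := CStarAlgebra.spectralOrderedRing B
  refine Spec.isPos_iff_le'.mpr (sub_nonneg.mpr ?_)
  have h0 : 0 ≤ x * x := by simpa [hs.star_eq] using star_mul_self_nonneg x
  exact (CStarAlgebra.norm_le_one_iff_of_nonneg _ h0).mp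
    ((norm_mul_le _ _).trans (mul_le_one₀ hn (norm_nonneg _) hn))

/-- Exact symmetries with flips in the first limit, permuted by the action. -/
theorem exists_symPool (hd : Dyn β) (hb : BaseStatement β) :
    ∃ P u : ℕ → G → DQ F (freeUlt : Ultrafilter ℕ), SymPool P u ∧
      (∀ g r a, DQ.act β g (P r a) = P r (g * a)) ∧
      ∀ g r a, DQ.act β g (u r a) = u r (g * a) := by
  choose T P u hPs hus hPn hun hanti hsmall using
    fun n : ℕ => hb (1 / ((n : ℝ) + 1)) (by positivity)
  choose φ hφe hφS hφc using fun n : ℕ => exists_orbCopies hd (T n) ∅ (n + 1)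
  let ψ : (r : ℕ) → (g : G) → (n : ℕ) → OrbAlg β (T n) →⋆ₐ[ℂ] F := fun r g n =>
    (φ n ⟨min r n, by omega⟩).comp (orbShift β (T n) g)
  let sP : ℕ → G → (ℕ →ᵇ F) := fun r g => ofNormedAddCommGroupDiscrete
    (fun n => ψ r g n (P n)) 1 fun n => (NonUnitalStarAlgHom.norm_apply_le _ _).trans (hPn n)
  let su : ℕ → G → (ℕ →ᵇ F) := fun r g => ofNormedAddCommGroupDiscrete
    (fun n => ψ r g n (u n)) 1 fun n => (NonUnitalStarAlgHom.norm_apply_le _ _).trans (hun n)
  have hsq : ∀ (x : ∀ n, OrbAlg β (T n)), (∀ n, IsSelfAdjoint (x n)) → (∀ n, ‖x n‖ ≤ 1) →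
      (∀ n, ∀ D : DimState (OrbAlg β (T n)),
        D (cut (1 / ((n : ℝ) + 1)) (1 - x n * x n)) ≤ 1 / ((n : ℝ) + 1)) →
      ∀ (r : ℕ) (g : G) (f : ℕ →ᵇ F), (∀ n, f n = ψ r g n (x n)) →
      (DQ.mk f : DQ F freeUlt) * DQ.mk f = 1 := by
    intro x hxs hxn hx r g f hf
    have key : (DQ.mk (1 - f * f) : DQ F freeUlt) = 0 := by
      have hval : ∀ n, (1 - f * f : ℕ →ᵇ F) n = ψ r g n (1 - x n * x n) := fun n => by
        simp [hf n, map_sub, map_mul]
      refine DQ.mk_eq_zero_of_pos (fun n => ?_) fun ε hε => ?_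
      · rw [hval]; exact DQ.map_isPos _ (isPos_one_sub_sq (hxs n) (hxn n))
      · obtain ⟨N, hN⟩ := exists_nat_one_div_lt hε
        filter_upwards [freeUlt_le (eventually_ge_atTop N)] with n hn D
        have hθ : 1 / ((n : ℝ) + 1) ≤ ε := (one_div_le_one_div_of_le (by positivity)
          (by exact_mod_cast Nat.succ_le_succ hn)).trans hN.le
        have hsa : IsSelfAdjoint (1 - x n * x n) :=
          Spec.sa_of_isPos (isPos_one_sub_sq (hxs n) (hxn n))
        rw [hval, ← DQ.map_cut _ hsa, ← DQ.comap_apply]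
        exact (val_cut_anti _ hsa hθ).trans ((hx n _).trans hθ)
    rw [map_sub, map_one, map_mul, sub_eq_zero] at key
    exact key.symm
  have hcomm : ∀ (x y : ∀ n, OrbAlg β (T n)) (r s : ℕ), r ≠ s → ∀ (a b : G) (f f' : ℕ →ᵇ F),
      (∀ n, f n = ψ r a n (x n)) → (∀ n, f' n = ψ s b n (y n)) →
      Commute (DQ.mk f : DQ F freeUlt) (DQ.mk f') := by
    intro x y r s hrs a b f f' hf hf'
    refine DQ.commute_mk ?_
    filter_upwards [freeUlt_le (eventually_ge_atTop (max r s))] with n hn
    rw [hf, hf']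
    refine hφc n _ _ (fun h => hrs ?_) _ _
    have := congrArg Fin.val h
    simp only at this
    omega
  have hequi : ∀ (x : ∀ n, OrbAlg β (T n)) (g : G) (r : ℕ) (a : G) (f f' : ℕ →ᵇ F),
      (∀ n, f n = ψ r a n (x n)) → (∀ n, f' n = ψ r (g * a) n (x n)) →
      DQ.act β g (DQ.mk f : DQ F freeUlt) = DQ.mk f' := by
    intro x g r a f f' hf hf'
    rw [DQ.act_mk]
    congr 1
    ext n
    simp only [DQ.seqMap_apply, hf, hf', ψ, StarAlgHom.comp_apply, orbShift_mul]
    exact ((hφe n _).shift g _).symm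
  refine ⟨fun r g => DQ.mk (sP r g), fun r g => DQ.mk (su r g), ⟨fun r g => ?_, fun r g => ?_,
    fun r g => hsq P hPs hPn (fun n D => (hsmall n D).1) r g _ fun n => rfl,
    fun r g => hsq u hus hun (fun n D => (hsmall n D).2) r g _ fun n => rfl,
    fun r g => ?_, fun r s hrs a b => ⟨?_, ?_, ?_⟩⟩, fun g r a => ?_, fun g r a => ?_⟩
  · exact IsSelfAdjoint.map (DQ.isSelfAdjoint_seq fun n => (hPs n).map (ψ r g n)) DQ.mk
  · exact IsSelfAdjoint.map (DQ.isSelfAdjoint_seq fun n => (hus n).map (ψ r g n)) DQ.mk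
  · rw [← map_mul, ← map_mul, ← map_neg]
    congr 1
    ext n
    show ψ r g n (P n) * ψ r g n (u n) = -(ψ r g n (u n) * ψ r g n (P n))
    rw [← map_mul, ← map_mul, ← map_neg, hanti n]
  · exact hcomm P P r s hrs a b _ _ (fun n => rfl) fun n => rfl
  · exact hcomm P u r s hrs a b _ _ (fun n => rfl) fun n => rfl
  · exact hcomm u u r s hrs a b _ _ (fun n => rfl) fun n => rfl
  · exact hequi P g r a _ _ (fun n => rfl) fun n => rfl
  · exact hequi u g r a _ _ (fun n => rfl) fun n => rfl

end Half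

end

end Vale.Agent.P095.Elem
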