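import Vale.Agent.P095.Elem.Half
import Vale.Agent.P095.Elem.HalfFields
import Vale.Agent.P095.Elem.HalfPool
import Vale.Agent.P095.Elem.QuotTau
import Vale.Agent.P095.Elem.FieldLaw

/-!
# P095, amenable groups: halving

Exact symmetries with flips in the first limit give fields with a pair law in the second, the
machine makes nearly halving, nearly fixed elements from these, and the bridge makes them signs.
-/

namespace Vale.Agent.P095.Elem

open Filter
open scoped CStarAlgebra

noncomputable section

namespace Half

variable {F : Type*} [CStarAlgebra F] {G : Type*} [Group G] {β : G →* (F ≃⋆ₐ[ℂ] F)}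

/-- Nearly halving elements from an anticommuting pair. -/
theorem almostHalf_of_base (hd : Dyn β) (hb : BaseStatement β) (hF : Folner G) :
    AlmostHalfStatement β := by
  obtain ⟨P, u, hpool, hPe, -⟩ := exists_symPool hd hb
  let S : Field.Setup (DQ F (freeUlt : Ultrafilter ℕ)) G freeUlt :=
    ⟨freeUlt_le, P, u, hpool, ∅, fun e he => he.elim, fun e he => he.elim,
      fun e he => he.elim⟩
  refine almostHalf_of_quot freeUlt_le_cofinite (almostHalf_of_fields hF freeUlt_le_cofinite
    S.C.subtype Subtype.val_injective S.y S.K S.alg (fun D => S.tau (DQ.limState D))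
    (√fieldVar)⁻¹ (fun D c hc => S.tau_sa _ hc)
    (fun D => S.fieldLaw_of_lim (DQ.limState D) D fun f hf => DQ.tau_limState D hf) ?_ ?_)
  · exact fun g i a => (S.equivariant (DQ.act β) g (g * ·) (fun r c => hPe g r c) i a a).1
  · exact fun g i a b => (S.equivariant (DQ.act β) g (g * ·) (fun r c => hPe g r c) i a b).2

/-- Halving, for amenable groups. -/
theorem halfStatement (hd : Dyn β) (hb : BaseStatement β) (hF : Folner G) : HalfStatement β :=
  halfStatement_of_almost hd hF (almostHalf_of_base hd hb hF)

end Half

end

end Vale.Agent.P095.Elem
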