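import Vale.Agent.P095.Elem.LeafSeed

/-!
# P095, amenable groups: full almost invariant elements of square zero

The halving, comparison and absorption give, at every tolerance, an almost invariant element `y`
of square zero with `cut (1 / 2) (y* y)` full, at a level which does not depend on the tolerance.
-/

namespace Vale.Agent.P095.Elem

open VAgent.P101 Vale.Agent.P101 Calc LeafFullAux Filter Topology
open scoped CStarAlgebra

noncomputable section

variable {F : Type*} [CStarAlgebra F] {G : Type*} [Group G] {β : G →* (F ≃⋆ₐ[ℂ] F)}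

namespace LeafFullAux

theorem map_fp {A B : Type*} [CStarAlgebra A] [CStarAlgebra B] (φ : A →⋆ₐ[ℂ] B) {S : A}
    (hS : IsSelfAdjoint S) (a : ℝ) : φ (fp a S) = fp a (φ S) :=
  map_cfc' φ (continuous_rp a) hS

theorem map_fn' {A B : Type*} [CStarAlgebra A] [CStarAlgebra B] (φ : A →⋆ₐ[ℂ] B) {S : A}
    (hS : IsSelfAdjoint S) (a : ℝ) : φ (fn' a S) = fn' a (φ S) :=
  map_cfc' φ (continuous_rp_neg a) hS

/-- The measures of the positive and the negative parts of a sign. -/
theorem sign_bounds {T : Finset F} {K : Finset G} {η θ : ℝ} {S : OrbAlg β T}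
    (h : Sign β T K η θ S) (hθ : θ < 1 / 2) (D : DimState (OrbAlg β T)) :
    D (fp (1 / 5) S) ≤ 1 / 2 + θ ∧ 1 / 2 - 2 * θ ≤ D (fn' (1 / 5) S) := by
  have hsa := h.sa
  refine ⟨?_, ?_⟩
  · refine le_trans ?_ (sub_le_iff_le_add'.1 (abs_le.1 (h.half_pos D)).2)
    rw [ppart, cut]
    exact Half.val_cfc_le D hsa (continuous_rp _) (by fun_prop) (fun t => (rp_mem _ t).1)
      (fun _ => le_max_right _ _) fun t _ ht => lt_max_of_lt_left (by
        by_contra hc
        rw [rp_zero (by linarith)] at ht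
        exact lt_irrefl _ ht)
  · have h1 := (abs_le.1 (h.half_neg D)).1
    have h2 := h.defect D
    have e1 : cut θ (1 - S * S) = cfc (fun u : ℝ => max (1 - u * u - θ) 0) S := by
      rw [cut, show 1 - S * S = cfc (fun u : ℝ => 1 - u * u) S by
          rw [cfc_sub .., cfc_const_one ℝ S, cfc_mul .., cfc_id' ℝ S],
        ← cfc_comp' (fun u : ℝ => max (u - θ) 0) (fun u : ℝ => 1 - u * u) S]
    have hle : D (ppart (-S)) ≤ D (fn' (1 / 5) S) + D (cut θ (1 - S * S)) := by
      have hgc : Continuous fun u : ℝ => max (1 - u * u - θ) 0 := by fun_prop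
      rw [e1, ppart, Half.cut_neg_eq hsa, fn']
      refine le_trans (Half.val_cfc_le D hsa
        (g := fun s => rp (1 / 5) (-s) + max (1 - s * s - θ) 0) (by fun_prop)
        ((continuous_rp_neg _).add hgc) (fun _ => le_max_right _ _)
        (fun t => add_nonneg (rp_mem _ _).1 (le_max_right _ _)) fun t _ ht => ?_) ?_
      · have ht' : t < 0 := by
          rcases lt_max_iff.mp ht with h' | h'
          · linarith
          · exact absurd h' (lt_irrefl _)
        rcases le_or_gt (-t) (1 / 5) with hc | hc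
        · exact add_pos_of_nonneg_of_pos (rp_mem _ _).1 (lt_max_of_lt_left (by nlinarith))
        · exact add_pos_of_pos_of_nonneg (rp_pos hc) (le_max_right _ _)
      · rw [cfc_add (a := S) _ _ (continuous_rp_neg _).continuousOn hgc.continuousOn]
        refine Half.val_sum_two D (Half.isPos_cfc (fun t => (rp_mem _ _).1) S)
          (Half.isPos_cfc (fun _ => le_max_right _ _) S) ?_
        rw [← cfc_add (a := S) _ _ (continuous_rp_neg _).continuousOn hgc.continuousOn]
        exact Half.isPos_cfc (fun t => add_nonneg (rp_mem _ _).1 (le_max_right _ _)) S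
    linarith

theorem norm_aut_sub_copy_le {T : Finset F} {φ : OrbAlg β T →⋆ₐ[ℂ] F} (hφ : Equivariant φ)
    (g : G) (x : OrbAlg β T) : ‖β g (φ x) - φ x‖ ≤ ‖β g (x : F) - x‖ := by
  rw [← hφ, ← map_sub]
  exact NonUnitalStarAlgHom.norm_apply_le φ _

/-- An element which acts as a unit on a full element is full. -/
theorem fullSet_of_mul_fix {A : Type*} [CStarAlgebra A] {x y : A} (hy : FullSet ({y} : Set A))
    (h : y * x = y) : FullSet ({x} : Set A) := by
  refine hy.trans fun z hz => ?_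
  rw [Set.mem_singleton_iff.1 hz, ← h]
  exact TwoSidedIdeal.mul_mem_left _ _ _ (TwoSidedIdeal.subset_span rfl)

/-- The automorphism as a star homomorphism. -/
def σW (β : G →* (F ≃⋆ₐ[ℂ] F)) (g : G) : F →⋆ₐ[ℂ] F := (β g).toStarAlgHom

theorem norm_oprodF_le' {M : ℕ} (f : Fin M → F) (h : ∀ l, ‖f l‖ ≤ 1) : ‖oprodF f‖ ≤ 1 := by
  induction M with
  | zero =>
    rcases subsingleton_or_nontrivial F with hF | hF
    · simp [Subsingleton.elim (oprodF f) 0]
    · simp [oprodF]
  | succ M ih =>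
    rw [show oprodF f = f 0 * oprodF (fun l : Fin M => f l.succ) by simp [oprodF, List.ofFn_succ]]
    exact (norm_mul_le _ _).trans (mul_le_one₀ (h 0) (norm_nonneg _) (ih _ fun l => h l.succ))

theorem coe_oprodF {S : StarSubalgebra ℂ F} [IsClosed (S : Set F)] {M : ℕ} (f : Fin M → S) (g : Fin M → F)
    (h : ∀ l, (f l : F) = g l) : ((oprodF f : S) : F) = oprodF g := by
  induction M with
  | zero => simp [oprodF]
  | succ M ih =>
    simp only [oprodF, List.ofFn_succ, List.prod_cons, MulMemClass.coe_mul, h 0]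
    congr 1
    exact ih _ _ fun l => h l.succ

theorem star_oprodF_of {M : ℕ} (f : Fin M → F) (hc : ∀ l l', l ≠ l' → Commute (f l) (f l')) :
    star (oprodF f) = oprodF fun l => star (f l) := by
  induction M with
  | zero => simp [oprodF]
  | succ M ih =>
    have h' := ih (fun l => f l.succ) fun l l' hne => hc _ _ fun e => hne (Fin.succ_injective _ e)
    simp only [oprodF, List.ofFn_succ, List.prod_cons, star_mul] at h' ⊢
    rw [← h']
    refine (Commute.star_star ?_).eq.symm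
    refine Commute.list_prod_right _ _ fun y hy => ?_
    obtain ⟨l, rfl⟩ := List.mem_ofFn.1 hy
    exact hc 0 l.succ (Fin.succ_ne_zero l).symm

theorem oprodF_mul_fix {M : ℕ} (f g : Fin M → F) (h : ∀ l, f l * g l = f l)
    (hc : ∀ l l', l ≠ l' → Commute (f l) (g l')) : oprodF f * oprodF g = oprodF f := by
  induction M with
  | zero => simp [oprodF]
  | succ M ih =>
    simp only [oprodF, List.ofFn_succ, List.prod_cons] at ih ⊢
    have hco : Commute (List.ofFn fun l : Fin M => f l.succ).prod (g 0) := by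
      refine Commute.list_prod_left _ _ fun y hy => ?_
      obtain ⟨l, rfl⟩ := List.mem_ofFn.1 hy
      exact hc l.succ 0 (Fin.succ_ne_zero l)
    rw [mul_assoc (f 0), ← mul_assoc _ (g 0), hco.eq, mul_assoc (g 0),
      ih _ _ (fun l => h l.succ) fun l l' hne => hc _ _ fun e => hne (Fin.succ_injective _ e),
      ← mul_assoc, h 0]

/-- Normalising an element whose square is close to the square of a contraction. -/
theorem norm_normalise_le {x top : F} {ε : ℝ} (h : ‖star x * x - top * top‖ ≤ ε) (ht : ‖top‖ ≤ 1)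
    (hε : ε ≤ 1 / 16) :
    ‖star ((max 1 ‖x‖)⁻¹ • x) * ((max 1 ‖x‖)⁻¹ • x) - top * top‖ ≤ 1 / 4 := by
  set r : ℝ := (max 1 ‖x‖)⁻¹
  have hr0 : 0 < r := by positivity
  have hr1 : r ≤ 1 := inv_le_one_of_one_le₀ (le_max_left _ _)
  have htt : ‖top * top‖ ≤ 1 := (norm_mul_le _ _).trans (mul_le_one₀ ht (norm_nonneg _) ht)
  have hxn : ‖star x * x‖ ≤ 1 + ε := by
    linarith [norm_le_norm_add_norm_sub' (star x * x) (top * top)]
  have e : star (r • x) * (r • x) - top * top =
      (star x * x - top * top) - (1 - r * r) • (star x * x) := by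
    rw [star_smul, star_trivial, smul_mul_smul_comm, sub_smul, one_smul]
    abel
  rw [e]
  refine (norm_sub_le _ _).trans ?_
  have hrr : r * r ≤ 1 := mul_le_one₀ hr1 hr0.le hr1
  rw [norm_smul, Real.norm_of_nonneg (by linarith)]
  have h2 : (1 - r * r) * ‖star x * x‖ ≤ ε := by
    rw [CStarRing.norm_star_mul_self] at hxn ⊢
    rcases le_total ‖x‖ 1 with h1 | h1
    · rw [show r = 1 by simp [r, max_eq_left h1]]
      simp only [mul_one, sub_self, zero_mul]
      exact le_trans (norm_nonneg _) h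
    · have hx0 : ‖x‖ ≠ 0 := by linarith
      rw [show r = ‖x‖⁻¹ by simp [r, max_eq_right h1]]
      field_simp
      linarith
  linarith

/-- The two commuting signs and the comparison element. -/
theorem exists_seed (h : Dyn β) (hcmp : CompareStatement F) (hhalf : HalfStatement β)
    (W : Finset G) {η : ℝ} (hη : 0 < η) :
    ∃ (T : Finset F) (S₁ S₂ v : OrbAlg β T), IsSelfAdjoint S₁ ∧ IsSelfAdjoint S₂ ∧
      ‖S₁‖ ≤ 1 ∧ ‖S₂‖ ≤ 1 ∧ Commute S₁ S₂ ∧
      AlmostFixed β W η (S₁ : F) ∧ AlmostFixed β W η (S₂ : F) ∧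
      star v * fn' (1 / 5) S₁ * v = cut (1 / 2) (fp (1 / 5) S₁ * fp (1 / 5) S₂) ∧
      FullSet ({fp (2 / 5) S₁ * fp (2 / 5) S₂} : Set (OrbAlg β T)) := by
  classical
  obtain ⟨T₀, S, hS⟩ := hhalf W η (1 / 20) hη (by norm_num)
  obtain ⟨ψ, hψe, -, hψc⟩ := h.exists_copies T₀ ∅ 2
  set s : Fin 2 → F := fun i => ψ i S
  have hssa : ∀ i, IsSelfAdjoint (s i) := fun i => hS.sa.map (ψ i)
  -- the fullness of the levels
  have hfp : FullSet ({fp (2 / 5) S} : Set (OrbAlg β T₀)) := by
    refine fullSet_of_mul_fix hS.full_pos ?_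
    rw [cut]
    exact cfc_mul_fun _ (by fun_prop) (continuous_rp _) fun t => by
      rcases le_total t (1 / 2) with h' | h'
      · rw [max_eq_right (by linarith), zero_mul]
      · rw [rp_one (by linarith), mul_one]
  have hfn : FullSet ({fn' (1 / 5) S} : Set (OrbAlg β T₀)) := by
    refine fullSet_of_mul_fix hS.full_neg ?_
    rw [Half.cut_neg_eq hS.sa]
    exact cfc_mul_fun _ (by fun_prop) (continuous_rp_neg _) fun t => by
      rcases le_total (-t) (1 / 2) with h' | h'
      · rw [max_eq_right (by linarith), zero_mul]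
      · rw [rp_one (by linarith), mul_one]
  -- comparison in the ambient algebra
  set e := fn' (1 / 5) (s 0)
  set z := fp (1 / 5) (s 0) * fp (1 / 5) (s 1)
  have hz : IsPosC z := isPosC_mul (isPosC_fp _ _) (isPosC_fp _ _) (by
    rw [← map_fp _ hS.sa, ← map_fp _ hS.sa]
    exact hψc 0 1 (by decide) _ _)
  have hefull : FullSet ({e} : Set F) := by
    have := fullSet_map (ψ 0) hfn
    rwa [map_fn' _ hS.sa] at this
  have hD : ∀ D : DimState F, D z < D e := by
    intro D
    have hb := fun i => sign_bounds hS (by norm_num) (D.comap (ψ i))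
    simp only [DimState.comap_apply, map_fp _ hS.sa, map_fn' _ hS.sa] at hb
    have h1 : D z ≤ (1 / 2 + 1 / 20) * D (fp (1 / 5) (s 0)) := by
      have := ctx_le D (ψ 1) (x := fp (1 / 5) (s 0)) (isPosC_fp _ _).1
        (fun a => by rw [← map_fp _ hS.sa]; exact hψc 0 1 (by decide) _ _)
        (y := fp (1 / 5) S) (isPosC_fp _ _).1 (r := 1 / 2 + 1 / 20)
        (fun D' => (sign_bounds hS (by norm_num) D').1)
      rwa [map_fp _ hS.sa] at this
    have h2 := (hb 0).1
    have h3 := (hb 0).2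
    linarith
  obtain ⟨v, hv⟩ := hcmp z e hz (isPosC_fn' _ _) hefull hD (1 / 2) (by norm_num)
  -- the algebra of the seed
  set T₁ : Finset F := insert v (Finset.univ.biUnion fun i : Fin 2 =>
    T₀.attach.image fun t => ψ i ⟨t.1, mem_orbAlg t.2⟩) with hT₁
  have hrange : ∀ i x, ψ i x ∈ OrbAlg β T₁ := fun i x =>
    (hψe i).range_le (fun t ht => mem_orbAlg (Finset.mem_insert_of_mem (Finset.mem_biUnion.2
      ⟨i, Finset.mem_univ _, Finset.mem_image.2 ⟨⟨t, ht⟩, Finset.mem_attach _ _, rfl⟩⟩))) x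
  let ψ' : Fin 2 → (OrbAlg β T₀ →⋆ₐ[ℂ] OrbAlg β T₁) := fun i => (ψ i).codRestrict _ (hrange i)
  have hψ' : ∀ i x, (ψ' i x : F) = ψ i x := fun i x =>
    StarAlgHom.coe_codRestrict (ψ i) (OrbAlg β T₁) (hrange i) x
  have hc' : ∀ x y, Commute (ψ' 0 x) (ψ' 1 y) := fun x y => Subtype.ext (by
    simp only [MulMemClass.coe_mul, hψ']
    exact (hψc 0 1 (by decide) x y).eq)
  refine ⟨T₁, ψ' 0 S, ψ' 1 S, ⟨v, mem_orbAlg (Finset.mem_insert_self _ _)⟩, hS.sa.map _,
    hS.sa.map _, (NonUnitalStarAlgHom.norm_apply_le _ S).trans hS.contr,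
    (NonUnitalStarAlgHom.norm_apply_le _ S).trans hS.contr, hc' S S,
    fun g hg => by rw [hψ']; exact (norm_aut_sub_copy_le (hψe 0) g S).trans (hS.inv g hg),
    fun g hg => by rw [hψ']; exact (norm_aut_sub_copy_le (hψe 1) g S).trans (hS.inv g hg), ?_, ?_⟩
  · rw [← map_fn' _ hS.sa, ← map_fp _ hS.sa, ← map_fp _ hS.sa]
    refine Subtype.ext ?_
    have hzsa : IsSelfAdjoint (ψ' 0 (fp (1 / 5) S) * ψ' 1 (fp (1 / 5) S)) :=
      ((isPosC_fp _ _).1.map (ψ' 0)).isSelfAdjoint.commute_iff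
        ((isPosC_fp _ _).1.map (ψ' 1)).isSelfAdjoint |>.1 (hc' _ _)
    rw [cut, coe_cfc _ hzsa _ (by fun_prop), MulMemClass.coe_mul, MulMemClass.coe_mul,
      MulMemClass.coe_mul, hψ', hψ', hψ', map_fn' _ hS.sa, map_fp _ hS.sa, map_fp _ hS.sa]
    exact hv
  · rw [← map_fp _ hS.sa, ← map_fp _ hS.sa]
    exact fullSet_mul (ψ' 0) hfp (fullSet_map (ψ' 1) hfp) fun x => hc' x _

end LeafFullAux

/-- Halving, comparison and absorption give full leaves. -/
theorem leafFullStatement (h : Dyn β) (hcmp : CompareStatement F) (hhalf : HalfStatement β)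
    (habs : AbsorbStatement β) : LeafFullStatement β := by
  classical
  intro K η hη
  obtain ⟨W, M, ηA, hηA, habs⟩ := habs K (min η (1 / 16)) (lt_min hη (by norm_num))
  have hd := fun n : ℕ => exists_seed h hcmp hhalf W (show (0 : ℝ) < 1 / ((n : ℝ) + 1) by positivity)
  choose T₁ S₁ S₂ v hsa₁ hsa₂ hn₁ hn₂ hc hi₁ hi₂ hv hfull using hd
  -- the slots are almost fixed at a late index
  have hAF : ∀ g ∈ W, AF (σW β g) (fun n => (S₁ n : F)) ∧ AF (σW β g) (fun n => (S₂ n : F)) :=
    fun g hg =>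
      ⟨⟨⟨1, hn₁⟩, squeeze_zero (fun n => norm_nonneg _) (fun n => hi₁ n g hg)
          tendsto_one_div_add_atTop_nhds_zero_nat⟩,
        ⟨⟨1, hn₂⟩, squeeze_zero (fun n => norm_nonneg _) (fun n => hi₂ n g hg)
          tendsto_one_div_add_atTop_nhds_zero_nat⟩⟩
  have hev : ∀ᶠ n in atTop, ∀ g ∈ W,
      ‖β g (fp (3 / 10) (S₁ n : F) * fp (3 / 10) (S₂ n : F)) -
          fp (3 / 10) (S₁ n : F) * fp (3 / 10) (S₂ n : F)‖ ≤ ηA ∧
      ‖β g (fp (1 / 10) (S₁ n : F)) - fp (1 / 10) (S₁ n : F)‖ ≤ ηA ∧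
      ‖β g (fn' (1 / 10) (S₁ n : F)) - fn' (1 / 10) (S₁ n : F)‖ ≤ ηA := by
    refine W.eventually_all.2 fun g hg => ?_
    obtain ⟨a1, a2⟩ := hAF g hg
    have s1 : ∀ n, IsSelfAdjoint (S₁ n : F) := fun n => (hsa₁ n).map (OrbAlg β (T₁ n)).subtype
    have s2 : ∀ n, IsSelfAdjoint (S₂ n : F) := fun n => (hsa₂ n).map (OrbAlg β (T₁ n)).subtype
    exact (((a1.cfc s1 (continuous_rp _)).mul (a2.cfc s2 (continuous_rp _))).eventually_le hηA).and
      (((a1.cfc s1 (continuous_rp _)).eventually_le hηA).and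
        ((a1.cfc s1 (continuous_rp_neg _)).eventually_le hηA))
  obtain ⟨n, hn⟩ := hev.exists
  have hcfp : ∀ a b, Commute (fp a (S₁ n)) (fp b (S₂ n)) := fun a b =>
    ((((hc n).cfc_real (rp a)).symm).cfc_real (rp b)).symm
  obtain ⟨hq, ht, hq'q, heq', htq', het, hsrc, hq0⟩ := slots (hc n) (hv n)
  set T := T₁ n
  set R₁ := S₁ n
  set R₂ := S₂ n
  set qs := fp (3 / 10) R₁ * fp (3 / 10) R₂ with hqs
  set ts := cfc sN R₁ * v n
  obtain ⟨φ, hφe, -, hφc⟩ := h.exists_copies T ∅ M
  have hval : ∀ a, ((fp a R₁ : OrbAlg β T) : F) = fp a (R₁ : F) ∧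
      ((fp a R₂ : OrbAlg β T) : F) = fp a (R₂ : F) ∧
      ((fn' a R₁ : OrbAlg β T) : F) = fn' a (R₁ : F) := fun a =>
    ⟨map_fp (OrbAlg β T).subtype (hsa₁ n) a, map_fp (OrbAlg β T).subtype (hsa₂ n) a,
      map_fn' (OrbAlg β T).subtype (hsa₁ n) a⟩
  have hposC : ∀ (l : Fin M) {x : OrbAlg β T}, IsPosC x → IsPosC (φ l x) := fun l x hx =>
    ⟨hx.1.map (φ l), (NonUnitalStarAlgHom.norm_apply_le (φ l) x).trans hx.2⟩
  let L : Leaves β W M ηA :=
    { q := fun l => φ l qs
      q' := fun l => φ l (fp (1 / 10) R₁)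
      e := fun l => φ l (fn' (1 / 10) R₁)
      t := fun l => φ l ts
      pos := fun l => ⟨hposC l hq, hposC l (isPosC_fp _ _), hposC l (isPosC_fn' _ _),
        (NonUnitalStarAlgHom.norm_apply_le (φ l) ts).trans ht⟩
      q'_q := fun l => by rw [← map_mul, hq'q]
      e_q' := fun l => by rw [← map_mul, heq', map_zero]
      t_q' := fun l => by rw [← map_mul, htq']
      range := fun l => by rw [← map_mul, het]
      source := fun l => by rw [← map_star, ← map_mul, ← map_mul, hsrc]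
      inv := fun l => ⟨fun g hg => (norm_aut_sub_copy_le (hφe l) g _).trans (by
          rw [hqs, MulMemClass.coe_mul, (hval _).1, (hval _).2.1]
          exact (hn g hg).1),
        fun g hg => (norm_aut_sub_copy_le (hφe l) g _).trans (by
          rw [(hval _).1]
          exact (hn g hg).2.1),
        fun g hg => (norm_aut_sub_copy_le (hφe l) g _).trans (by
          rw [(hval _).2.2]
          exact (hn g hg).2.2)⟩
      comm := fun l l' hne x hx y hy g => by
        obtain ⟨a, rfl⟩ : ∃ a, x = φ l a := by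
          simp only [Set.mem_insert_iff, Set.mem_singleton_iff] at hx
          rcases hx with rfl | rfl | rfl | rfl <;> exact ⟨_, rfl⟩
        obtain ⟨b, rfl⟩ : ∃ b, y = φ l' b := by
          simp only [Set.mem_insert_iff, Set.mem_singleton_iff] at hy
          rcases hy with rfl | rfl | rfl | rfl <;> exact ⟨_, rfl⟩
        exact ⟨by rw [← hφe l]; exact hφc l l' hne _ _,
          by rw [← hφe l, ← map_star]; exact hφc l l' hne _ _⟩ }
  obtain ⟨x, hx2, hxK, hxx, hxsq, -⟩ := habs L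
  set r : ℝ := (max 1 ‖x‖)⁻¹
  have hr0 : 0 < r := by positivity
  have hr1 : r ≤ 1 := inv_le_one_of_one_le₀ (le_max_left _ _)
  set y := r • x
  -- the final algebra
  set T' : Finset F := insert y (Finset.univ.biUnion fun l : Fin M =>
    T.attach.image fun t => φ l ⟨t.1, mem_orbAlg t.2⟩)
  have hrange : ∀ l a, φ l a ∈ OrbAlg β T' := fun l a =>
    (hφe l).range_le (fun t ht => mem_orbAlg (Finset.mem_insert_of_mem (Finset.mem_biUnion.2
      ⟨l, Finset.mem_univ _, Finset.mem_image.2 ⟨⟨t, ht⟩, Finset.mem_attach _ _, rfl⟩⟩))) a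
  let φ' : Fin M → (OrbAlg β T →⋆ₐ[ℂ] OrbAlg β T') := fun l => (φ l).codRestrict _ (hrange l)
  have hφ' : ∀ l a, (φ' l a : F) = φ l a := fun l a =>
    StarAlgHom.coe_codRestrict (φ l) (OrbAlg β T') (hrange l) a
  have hc'' : ∀ l l', l ≠ l' → ∀ a b, Commute (φ' l a) (φ' l' b) := fun l l' hne a b =>
    Subtype.ext (by simp only [MulMemClass.coe_mul, hφ']; exact (hφc l l' hne a b).eq)
  refine ⟨T', ⟨y, mem_orbAlg (Finset.mem_insert_self _ _)⟩, ?_, Subtype.ext ?_, fun g hg => ?_, ?_⟩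
  · show ‖r • x‖ ≤ 1
    rw [norm_smul, Real.norm_of_nonneg hr0.le, inv_mul_le_iff₀ (by positivity), mul_one]
    exact le_max_right _ _
  · show r • x * r • x = 0
    rw [smul_mul_smul_comm, hxsq, smul_zero]
  · show ‖β g (r • x) - r • x‖ ≤ η
    rw [← Complex.coe_smul, map_smul, ← smul_sub, norm_smul, Complex.norm_real,
      Real.norm_of_nonneg hr0.le]
    exact (mul_le_of_le_one_left (norm_nonneg _) hr1).trans ((hxK g hg).trans (min_le_left _ _))
  · set Y : OrbAlg β T' := ⟨y, mem_orbAlg (Finset.mem_insert_self _ _)⟩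
    set top' : OrbAlg β T' := oprodF fun l => φ' l qs
    set c' : OrbAlg β T' := oprodF fun l => φ' l (fp (2 / 5) R₁ * fp (2 / 5) R₂)
    have htop : (top' : F) = L.top := coe_oprodF _ _ fun l => hφ' l qs
    have hsaP : ∀ {a : OrbAlg β T}, IsSelfAdjoint a →
        IsSelfAdjoint (oprodF fun l => φ' l a) := fun {a} ha => by
      rw [IsSelfAdjoint, star_oprodF_of _ fun l l' hne => hc'' l l' hne a a]
      exact congrArg oprodF (funext fun l => (ha.map (φ' l)).star_eq)
    refine fullSet_cut_of_sandwich (IsSelfAdjoint.star_mul_self Y)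
      (hsaP (isPosC_mul (isPosC_fp _ _) (isPosC_fp _ _) (hcfp _ _)).1.isSelfAdjoint)
      (hsaP hq.1.isSelfAdjoint) ?_ (fullSet_oprodF φ' hc'' (hfull n)) ?_
    · refine oprodF_mul_fix _ _ (fun l => ?_) fun l l' hne => hc'' l l' hne _ _
      rw [← map_mul, hq0]
    · show ‖((star Y * Y - top' * top' : OrbAlg β T') : F)‖ ≤ 1 / 4
      rw [AddSubgroupClass.coe_sub, MulMemClass.coe_mul, MulMemClass.coe_mul, htop]
      show ‖star (r • x) * (r • x) - L.top * L.top‖ ≤ 1 / 4
      exact norm_normalise_le hxx (norm_oprodF_le' _ fun l => (L.pos l).1.2)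
        (min_le_right η (1 / 16))

end

end Vale.Agent.P095.Elem
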