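import Vale.Agent.P095.Elem.HalfPool

/-!
# P095, amenable groups: almost fixed signs become fixed in the first limit

Equivariant copies of better and better flips give, in the quotient of bounded sequences, a pool of
symmetries anticommuting with symmetries which are fixed by a given finite subset of the group.
-/

namespace Vale.Agent.P095.Elem.Leaf

open Filter BoundedContinuousFunction Half
open scoped CStarAlgebra BoundedContinuousFunction

noncomputable section

variable {F : Type*} [CStarAlgebra F] {G : Type*} [Group G] {β : G →* (F ≃⋆ₐ[ℂ] F)}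

/-- Symmetries in the first limit, permuted by the action, such that the flips of each copy
are fixed by `W`. -/
theorem exists_invPool (hd : Dyn β) (hb : FlipStatement β) (W : Finset G) :
    ∃ P u : ℕ → G → DQ F (freeUlt : Ultrafilter ℕ), SymPool P u ∧
      (∀ g r a, DQ.act β g (P r a) = P r (g * a)) ∧
      (∀ g r a, DQ.act β g (u r a) = u r (g * a)) ∧
      ∀ a ∈ W, ∀ r, u r a = u r 1 := by
  choose T u P hsign hPs hPn hanti hPsmall using
    fun n : ℕ => hb W (1 / ((n : ℝ) + 1)) (1 / ((n : ℝ) + 1)) (by positivity) (by positivity)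
  have hus := fun n => (hsign n).sa
  have hun := fun n => (hsign n).contr
  choose φ hφe hφS hφc using fun n : ℕ => exists_orbCopies hd (T n) ∅ (n + 1)
  let ψ : (r : ℕ) → (g : G) → (n : ℕ) → OrbAlg β (T n) →⋆ₐ[ℂ] F := fun r g n =>
    (φ n ⟨min r n, by omega⟩).comp (orbShift β (T n) g)
  let sP : ℕ → G → (ℕ →ᵇ F) := fun r g => ofNormedAddCommGroupDiscrete
    (fun n => ψ r g n (P n)) 1 fun n => (NonUnitalStarAlgHom.norm_apply_le _ _).trans (hPn n)
  let su : ℕ → G → (ℕ →ᵇ F) := fun r g => ofNormedAddCommGroupDiscrete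
    (fun n => ψ r g n (u n)) 1 fun n => (NonUnitalStarAlgHom.norm_apply_le _ _).trans (hun n)
  have hsq : ∀ (x : ∀ n, OrbAlg β (T n)), (∀ n, IsSelfAdjoint (x n)) → (∀ n, ‖x n‖ ≤ 1) →
      (∀ n, ∀ D : DimState (OrbAlg β (T n)),
        D (cut (1 / ((n : ℝ) + 1)) (1 - x n * x n)) ≤ 1 / ((n : ℝ) + 1)) →
      ∀ (r : ℕ) (g : G) (f : ℕ →ᵇ F), (∀ n, f n = ψ r g n (x n)) →
      (DQ.mk f : DQ F freeUlt) * DQ.mk f = 1 := by
    intro x hxs hxn hx r g f hf
    have key : (DQ.mk (1 - f * f) : DQ F freeUlt) = 0 := by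
      have hval : ∀ n, (1 - f * f : ℕ →ᵇ F) n = ψ r g n (1 - x n * x n) := fun n => by
        simp [hf n, map_sub, map_mul]
      refine DQ.mk_eq_zero_of_pos (fun n => ?_) fun ε hε => ?_
      · rw [hval]; exact DQ.map_isPos _ (isPos_one_sub_sq (hxs n) (hxn n))
      · obtain ⟨N, hN⟩ := exists_nat_one_div_lt hε
        filter_upwards [freeUlt_le (eventually_ge_atTop N)] with n hn D
        have hθ : 1 / ((n : ℝ) + 1) ≤ ε := (one_div_le_one_div_of_le (by positivity)
          (by exact_mod_cast Nat.succ_le_succ hn)).trans hN.le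
        have hsa : IsSelfAdjoint (1 - x n * x n) :=
          Spec.sa_of_isPos (isPos_one_sub_sq (hxs n) (hxn n))
        rw [hval, ← DQ.map_cut _ hsa, ← DQ.comap_apply]
        exact (val_cut_anti _ hsa hθ).trans ((hx n _).trans hθ)
    rw [map_sub, map_one, map_mul, sub_eq_zero] at key
    exact key.symm
  have hcomm : ∀ (x y : ∀ n, OrbAlg β (T n)) (r s : ℕ), r ≠ s → ∀ (a b : G) (f f' : ℕ →ᵇ F),
      (∀ n, f n = ψ r a n (x n)) → (∀ n, f' n = ψ s b n (y n)) →
      Commute (DQ.mk f : DQ F freeUlt) (DQ.mk f') := by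
    intro x y r s hrs a b f f' hf hf'
    refine DQ.commute_mk ?_
    filter_upwards [freeUlt_le (eventually_ge_atTop (max r s))] with n hn
    rw [hf, hf']
    refine hφc n _ _ (fun h => hrs ?_) _ _
    have := congrArg Fin.val h
    simp only at this
    omega
  have hequi : ∀ (x : ∀ n, OrbAlg β (T n)) (g : G) (r : ℕ) (a : G) (f f' : ℕ →ᵇ F),
      (∀ n, f n = ψ r a n (x n)) → (∀ n, f' n = ψ r (g * a) n (x n)) →
      DQ.act β g (DQ.mk f : DQ F freeUlt) = DQ.mk f' := by
    intro x g r a f f' hf hf'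
    rw [DQ.act_mk]
    congr 1
    ext n
    simp only [DQ.seqMap_apply, hf, hf', ψ, StarAlgHom.comp_apply, orbShift_mul]
    exact ((hφe n _).shift g _).symm
  refine ⟨fun r g => DQ.mk (sP r g), fun r g => DQ.mk (su r g), ⟨fun r g => ?_, fun r g => ?_,
    fun r g => hsq P hPs hPn hPsmall r g _ fun n => rfl,
    fun r g => hsq u hus hun (fun n => (hsign n).defect) r g _ fun n => rfl,
    fun r g => ?_, fun r s hrs a b => ⟨?_, ?_, ?_⟩⟩, fun g r a => ?_, fun g r a => ?_,
    fun a ha r => ?_⟩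
  · exact IsSelfAdjoint.map (DQ.isSelfAdjoint_seq fun n => (hPs n).map (ψ r g n)) DQ.mk
  · exact IsSelfAdjoint.map (DQ.isSelfAdjoint_seq fun n => (hus n).map (ψ r g n)) DQ.mk
  · rw [← map_mul, ← map_mul, ← map_neg]
    congr 1
    ext n
    show ψ r g n (P n) * ψ r g n (u n) = -(ψ r g n (u n) * ψ r g n (P n))
    rw [← map_mul, ← map_mul, ← map_neg, neg_eq_iff_eq_neg.1 (hanti n).symm]
  · exact hcomm P P r s hrs a b _ _ (fun n => rfl) fun n => rfl
  · exact hcomm P u r s hrs a b _ _ (fun n => rfl) fun n => rfl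
  · exact hcomm u u r s hrs a b _ _ (fun n => rfl) fun n => rfl
  · exact hequi P g r a _ _ (fun n => rfl) fun n => rfl
  · exact hequi u g r a _ _ (fun n => rfl) fun n => rfl
  · refine sub_eq_zero.1 ?_
    rw [← map_sub]
    refine DQ.mk_eq_zero_of_norm fun ε hε => ?_
    obtain ⟨N, hN⟩ := exists_nat_one_div_lt hε
    filter_upwards [freeUlt_le (eventually_ge_atTop N)] with n hn
    have hθ : 1 / ((n : ℝ) + 1) ≤ ε := (one_div_le_one_div_of_le (by positivity)
      (by exact_mod_cast Nat.succ_le_succ hn)).trans hN.le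
    refine le_trans ?_ (((hsign n).inv a ha).trans hθ)
    show ‖ψ r a n (u n) - ψ r 1 n (u n)‖ ≤ _
    simp only [ψ, StarAlgHom.comp_apply, orbShift_one, ← map_sub]
    refine (NonUnitalStarAlgHom.norm_apply_le _ _).trans (le_of_eq ?_)
    show ‖((orbShift β (T n) a (u n) - u n : OrbAlg β (T n)) : F)‖ = _
    simp

end

end Vale.Agent.P095.Elem.Leaf
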