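import Vale.Agent.P095.Elem.LeafField
import Vale.Agent.P095.Elem.LeafPool
import Vale.Agent.P095.Elem.Bridge

/-!
# P095, amenable groups: small leaves

From flips of almost fixed signs and the Følner condition: almost fixed elements of square zero
which cover all but a small set.
-/

namespace Vale.Agent.P095.Elem.Leaf

open scoped CStarAlgebra

noncomputable section

universe u v

variable {F : Type u} [CStarAlgebra F] {G : Type v} [Group G] {β : G →* (F ≃⋆ₐ[ℂ] F)}

/-- Anticommuting almost fixed pairs of every quality. -/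
theorem pairStatement (hd : Dyn β) (hF : Folner G) (hb : FlipStatement β) : PairStatement β := by
  intro W δ hδ
  obtain ⟨W₀, hW₀⟩ := exists_pair hF (DQ.act (ω := Half.freeUlt) β) Half.freeUlt W
    (show (0 : ℝ) < δ / 4 by linarith)
  obtain ⟨P, u, hpool, hP, hu, hinv⟩ := exists_invPool hd hb W₀
  obtain ⟨x, Q, hxs, hQs, hxn, hQn, h⟩ :=
    hW₀ ⟨P, u, hpool, Half.freeUlt_le⟩ hP hu hinv
  obtain ⟨x₁, Q₁, hp⟩ := descend (show δ / 4 < δ / 2 by linarith) hxs hQs hxn hQn h
  exact descend (half_lt_self hδ) hp.sa_x hp.sa_P hp.contr_x hp.contr_P fun D =>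
    ⟨hp.sq_x _, hp.sq_P _, hp.anti _, fun g hg => hp.inv_x g hg _, fun g hg => hp.inv_P g hg _⟩

/-- Small leaves from flips. -/
theorem leafSmallStatement (hd : Dyn β) (hF : Folner G) (hb : FlipStatement β) :
    LeafSmallStatement β :=
  leafSmallStatement_of_pair (fun K _ hη => exists_almostFixed β K hη) (pairStatement hd hF hb)

end

end Vale.Agent.P095.Elem.Leaf
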