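import Vale.Agent.P095.Elem.Central
import Vale.Agent.P101.JS.ZTensor
import Vale.Agent.P101.JS.Density
import Vale.Agent.P101.Ultra

/-!
# P095: a Z-stable algebra has central sequences without characters
-/

namespace Vale.Agent.P095.JSCentral

open VAgent.P101 Vale.Agent.P101.JS Filter TopologicalSpace BoundedContinuousFunction
open scoped ComplexOrder CStarAlgebra Topology BoundedContinuousFunction

noncomputable section

universe u

variable {A : Type u} [CStarAlgebra A] [PartialOrder A] [StarOrderedRing A]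

theorem commute_const_scBlk {p q : ℕ} (a : A) (g : Blk ℂ p q) :
    Commute (const A p q a) (scBlk A p q g) := by
  refine Subtype.ext (ContinuousMap.ext fun t => ?_)
  simp only [MulMemClass.coe_mul, ContinuousMap.mul_apply, const_apply]
  exact (commute_sc_dg ((g : MPath ℂ (Ix p q)) t) a).eq.symm

theorem ofBlk_ops {m : ℕ} (F G : Blk A (P m) (Q m)) (c : ℂ) :
    ofBlk (F + G) = ofBlk F + ofBlk G ∧ ofBlk (F * G) = ofBlk F * ofBlk G ∧
      ofBlk (c • F) = c • ofBlk F ∧ ofBlk (star F) = star (ofBlk F) := by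
  refine ⟨?_, ?_, ?_, ?_⟩ <;> funext t <;> ext x y
  · rfl
  · simp only [ofBlk, MulMemClass.coe_mul, ContinuousMap.mul_apply]
    rfl
  · rfl
  · simp only [ofBlk, StarMemClass.coe_star, ContinuousMap.star_apply]
    rfl

/-- The maps of a tensor limit on the bundled stages. -/
theorem exists_maps (h : IsTensorLimit A frame) :
    ∃ φ : ∀ m, Blk A (P m) (Q m) →⋆ₐ[ℂ] A,
      (∀ m d F, φ (m + d) (connTo A m d F) = φ m F) ∧
      ∀ (x : A) (ε : ℝ), 0 < ε → ∃ m F, ‖x - φ m F‖ < ε := by
  obtain ⟨-, ι, h1, hops, hstep, hd⟩ := h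
  have hone : ∀ m, ι m (ofBlk (1 : Blk A (P m) (Q m))) = 1 := fun m => by
    rw [show ofBlk (1 : Blk A (P m) (Q m)) = 1 from funext fun t => Matrix.ext fun x y => rfl, h1]
  have ops := fun m (F G : Blk A (P m) (Q m)) c =>
    hops m (ofBlk F) (ofBlk G) c (inStage_ofBlk F) (inStage_ofBlk G)
  let φ : ∀ m, Blk A (P m) (Q m) →⋆ₐ[ℂ] A := fun m =>
    { toFun := fun F => ι m (ofBlk F)
      map_one' := hone m
      map_mul' := fun F G => by rw [(ofBlk_ops F G 1).2.1, (ops m F G 1).2.1]
      map_zero' := by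
        have := (ops m 0 0 0).1
        rw [← (ofBlk_ops (0 : Blk A (P m) (Q m)) 0 1).1, add_zero] at this
        exact left_eq_add.1 this
      map_add' := fun F G => by rw [(ofBlk_ops F G 1).1, (ops m F G 1).1]
      commutes' := fun r => by
        rw [Algebra.algebraMap_eq_smul_one, (ofBlk_ops _ 1 r).2.2.1, (ops m 1 1 r).2.2.1, hone m,
          Algebra.algebraMap_eq_smul_one]
      map_star' := fun F => by rw [(ofBlk_ops F F 1).2.2.2, (ops m F F 1).2.2.2.1] }
  have hconn : ∀ m F, φ (m + 1) (conn A m F) = φ m F := fun m F => by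
    show ι (m + 1) (ofBlk (conn A m F)) = ι m (ofBlk F)
    rw [← hstep m (ofBlk F) (inStage_ofBlk F), stepMap_eq (ofBlk F) (inStage_ofBlk F),
      toBlk_ofBlk]
  refine ⟨φ, fun m d => ?_, fun x ε hε => ?_⟩
  · induction d with
    | zero => exact fun F => rfl
    | succ d ih => exact fun F => by rw [connTo_succ]; exact (hconn _ _).trans (ih F)
  · obtain ⟨m, f, hf, hx⟩ := hd x ε hε
    exact ⟨m, toBlk f hf, hx⟩

theorem exists_stage {φ : ∀ m, Blk A (P m) (Q m) →⋆ₐ[ℂ] A}
    (hc : ∀ m d F, φ (m + d) (connTo A m d F) = φ m F)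
    (hd : ∀ (x : A) (ε : ℝ), 0 < ε → ∃ m F, ‖x - φ m F‖ < ε) (T : Finset A) {ε : ℝ} (hε : 0 < ε) :
    ∃ m, ∀ a ∈ T, ∃ F, ‖a - φ m F‖ < ε := by
  classical
  choose m F hF using fun a => hd a ε hε
  refine ⟨T.sup m, fun a ha => ?_⟩
  obtain ⟨d, e⟩ := Nat.exists_eq_add_of_le (Finset.le_sup (f := m) ha)
  rw [e]
  exact ⟨connTo A (m a) d (F a), by rw [hc]; exact hF a⟩

/-- The defect of commutation with a sum. -/
theorem comm_sum_le {R : Type*} [CStarAlgebra R] {L : ℕ} (c g : Fin L → R) (x : R) {η : ℝ}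
    (hc : ∀ i, Commute (c i) x) (hg : ∀ i, ‖x * g i - g i * x‖ ≤ η) :
    ‖x * (∑ i, c i * g i) - (∑ i, c i * g i) * x‖ ≤ (∑ i, ‖c i‖) * η := by
  rw [Finset.mul_sum, Finset.sum_mul, ← Finset.sum_sub_distrib, Finset.sum_mul]
  refine (norm_sum_le _ _).trans (Finset.sum_le_sum fun i _ => ?_)
  have e : x * (c i * g i) - c i * g i * x = c i * (x * g i - g i * x) := by
    rw [mul_sub, mul_assoc (c i) (g i) x, ← mul_assoc x, ← mul_assoc (c i) x, (hc i).eq]
  rw [e]
  exact (norm_mul_le _ _).trans (mul_le_mul_of_nonneg_left (hg i) (norm_nonneg _))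

/-- An element almost commuting with something near `a` almost commutes with `a`. -/
theorem comm_near {R : Type*} [CStarAlgebra R] {x a b : R} {δ r : ℝ} (hx : ‖x‖ ≤ 1)
    (hab : ‖a - b‖ ≤ δ) (h : ‖x * b - b * x‖ ≤ r) : ‖x * a - a * x‖ ≤ 2 * δ + r := by
  have e : x * a - a * x = (x * (a - b) - (a - b) * x) + (x * b - b * x) := by noncomm_ring
  rw [e]
  refine (norm_add_le _ _).trans (add_le_add ?_ h)
  refine (norm_sub_le _ _).trans ((add_le_add (norm_mul_le _ _) (norm_mul_le _ _)).trans ?_)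
  nlinarith [norm_nonneg x, norm_nonneg (a - b)]

/-- In a tensor limit finitely many elements almost commute with square zero elements covering
the unit. -/
theorem exists_cover (h : IsTensorLimit A frame) (T : Finset A) {ε : ℝ} (hε : 0 < ε) :
    ∃ (x : Fin 6 → A) (w : Fin 3 → A),
      (∀ i, ‖x i‖ ≤ 1 ∧ x i * x i = 0 ∧ ∀ a ∈ T, ‖x i * a - a * x i‖ ≤ ε) ∧
      (∀ i, ‖w i‖ ≤ 1 ∧ ∀ a ∈ T, ‖w i * a - a * w i‖ ≤ ε) ∧
      ∑ i, (star (x i) * x i + x i * star (x i)) = 1 + ∑ i, star (w i) * w i := by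
  classical
  obtain ⟨φ, hc, hd⟩ := exists_maps h
  obtain ⟨m, hm⟩ := exists_stage hc hd T (ε := ε / 8) (by positivity)
  choose! F hF using hm
  choose L c g hg using fun a => density A (P m) (Q m) (F a) (ε / 8) (by positivity)
  let S : ℝ := ∑ a ∈ T, ∑ i, ‖const A (P m) (Q m) (c a i)‖
  have hS : 0 ≤ S := Finset.sum_nonneg fun a _ => Finset.sum_nonneg fun i _ => norm_nonneg _
  obtain ⟨d, q, z, hq, hz, hs⟩ := exists_central m
    (T.biUnion fun a => Finset.univ.image (g a)) (ε := ε / (2 * (S + 1))) (by positivity)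
  let j : Blk ℂ (P (m + d)) (Q (m + d)) →⋆ₐ[ℂ] A :=
    (φ (m + d)).comp (scBlk A (P (m + d)) (Q (m + d)))
  have main : ∀ y : Blk ℂ (P (m + d)) (Q (m + d)), ‖y‖ ≤ 1 →
      (∀ e ∈ T.biUnion (fun a => Finset.univ.image (g a)),
        ‖y * connTo ℂ m d e - connTo ℂ m d e * y‖ ≤ ε / (2 * (S + 1))) →
      ‖j y‖ ≤ 1 ∧ ∀ a ∈ T, ‖j y * a - a * j y‖ ≤ ε := by
    intro y hy he
    have hj : ‖j y‖ ≤ 1 := (NonUnitalStarAlgHom.norm_apply_le j y).trans hy
    refine ⟨hj, fun a ha => ?_⟩
    let b : Blk A (P m) (Q m) :=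
      ∑ i, const A (P m) (Q m) (c a i) * scBlk A (P m) (Q m) (g a i)
    have hab : ‖a - φ m b‖ ≤ ε / 4 := by
      have e : a - φ m b = (a - φ m (F a)) + φ m (F a - b) := by rw [map_sub]; abel
      rw [e]
      refine (norm_add_le _ _).trans ?_
      have h1 := hF a ha
      have h2 := (NonUnitalStarAlgHom.norm_apply_le (φ m) (F a - b)).trans (hg a)
      linarith
    refine (comm_near hj hab (r := ε / 2) ?_).trans (by linarith)
    have eb : φ m b = φ (m + d) (∑ i, const A (P (m + d)) (Q (m + d)) (c a i) *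
        scBlk A (P (m + d)) (Q (m + d)) (connTo ℂ m d (g a i))) := by
      rw [← hc m d b, connTo_sum]
    rw [eb, show j y = φ (m + d) (scBlk A (P (m + d)) (Q (m + d)) y) from rfl,
      ← map_mul (φ (m + d)), ← map_mul (φ (m + d)), ← map_sub (φ (m + d))]
    refine (NonUnitalStarAlgHom.norm_apply_le (φ (m + d)) _).trans ?_
    refine (comm_sum_le _ _ _ (fun i => commute_const_scBlk (c a i) y)
      (η := ε / (2 * (S + 1))) fun i => ?_).trans ?_
    · rw [← map_mul, ← map_mul, ← map_sub]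
      exact (NonUnitalStarAlgHom.norm_apply_le _ _).trans (he _ (Finset.mem_biUnion.2
        ⟨a, ha, Finset.mem_image_of_mem _ (Finset.mem_univ i)⟩))
    · have h1 : ∀ i, ‖const A (P (m + d)) (Q (m + d)) (c a i)‖ ≤
          ‖const A (P m) (Q m) (c a i)‖ := fun i => by
        rw [← connTo_const A m (c a i) d]
        exact NonUnitalStarAlgHom.norm_apply_le _ _
      have h2 : ∑ i, ‖const A (P (m + d)) (Q (m + d)) (c a i)‖ ≤ S :=
        (Finset.sum_le_sum fun i _ => h1 i).trans (Finset.single_le_sum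
          (f := fun a => ∑ i, ‖const A (P m) (Q m) (c a i)‖)
          (fun a _ => Finset.sum_nonneg fun i _ => norm_nonneg _) ha)
      refine (mul_le_mul_of_nonneg_right h2 (by positivity)).trans ?_
      rw [← mul_div_assoc, div_le_div_iff₀ (by positivity) two_pos]
      nlinarith
  refine ⟨fun i => j (q i), fun i => j (z i), fun i => ?_,
    fun i => main _ (hz i).1 (hz i).2, ?_⟩
  · obtain ⟨h1, h2⟩ := main _ (hq i).1 (hq i).2.2
    exact ⟨h1, by rw [← map_mul, (hq i).2.1, map_zero], h2⟩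
  · have := congrArg j hs
    simpa only [map_sum, map_add, map_mul, map_star, map_one] using this

/-- A Z-stable algebra has central sequence algebras without characters. -/
theorem noCharacters_of_tensorLimit (A : Type u) [CStarAlgebra A] [SeparableSpace A]
    (ω : Ultrafilter ℕ) (hω : (ω : Filter ℕ) ≤ cofinite)
    (h : IsTensorLimit A frame) : Vale.Agent.P101.NoCharacters (CentralSeq A ω) := by
  let : PartialOrder A := CStarAlgebra.spectralOrder A
  have : StarOrderedRing A := CStarAlgebra.spectralOrderedRing A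
  classical
  let a := TopologicalSpace.denseSeq A
  choose x w hx hw hs using fun n : ℕ =>
    exists_cover h ((Finset.range (n + 1)).image a) (ε := 1 / (n + 1)) (by positivity)
  have mem : ∀ f : ℕ →ᵇ A, ‖f‖ ≤ 1 → (∀ n : ℕ, ∀ b ∈ (Finset.range (n + 1)).image a,
      ‖f n * b - b * f n‖ ≤ 1 / (n + 1)) → (UPow.mk f : UPow A ω) ∈ CentralSeq A ω := by
    intro f _ hf
    refine mem_centralSeq.2 fun b => ?_
    have hcl : IsClosed {b : A | Commute (UPow.const b) (UPow.mk f : UPow A ω)} :=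
      isClosed_eq ((continuous_mul_const (UPow.mk f : UPow A ω)).comp UPow.continuous_const')
        ((continuous_const_mul (UPow.mk f : UPow A ω)).comp UPow.continuous_const')
    refine hcl.closure_subset_iff.2 ?_ ((TopologicalSpace.denseRange_denseSeq A) b)
    intro b hb
    obtain ⟨l, rfl⟩ := hb
    show UPow.mk _ * UPow.mk f = UPow.mk f * UPow.mk _
    rw [← map_mul, ← map_mul, UPow.mk_eq_mk, mem_nullIdeal]
    have h0 : Tendsto (fun n : ℕ => (1 : ℝ) / (n + 1)) atTop (𝓝 0) :=
      tendsto_one_div_add_atTop_nhds_zero_nat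
    refine squeeze_zero' (Eventually.of_forall fun n => norm_nonneg _) ?_
      (h0.mono_left (hω.trans_eq Nat.cofinite_eq_atTop))
    filter_upwards [(hω.trans_eq Nat.cofinite_eq_atTop) (eventually_ge_atTop l)] with n hn
    simp only [BoundedContinuousFunction.sub_apply, BoundedContinuousFunction.mul_apply,
      BoundedContinuousFunction.const_apply]
    rw [norm_sub_rev]
    exact hf n _ (Finset.mem_image_of_mem a (Finset.mem_range.2 (by simpa using Nat.lt_succ_of_le hn)))
  let X : Fin 6 → ℕ →ᵇ A := fun i =>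
    ofNormedAddCommGroupDiscrete (fun n => x n i) 1 fun n => (hx n i).1
  let W : Fin 3 → ℕ →ᵇ A := fun i =>
    ofNormedAddCommGroupDiscrete (fun n => w n i) 1 fun n => (hw n i).1
  let Xc : Fin 6 → CentralSeq A ω := fun i => ⟨UPow.mkHom (X i),
    mem (X i) ((norm_le zero_le_one).2 fun n => (hx n i).1) fun n => (hx n i).2.2⟩
  let Wc : Fin 3 → CentralSeq A ω := fun i => ⟨UPow.mkHom (W i),
    mem (W i) ((norm_le zero_le_one).2 fun n => (hw n i).1) fun n => (hw n i).2⟩
  have hsq : ∀ i, Xc i * Xc i = 0 := fun i => Subtype.ext (by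
    show UPow.mkHom (X i) * UPow.mkHom (X i) = 0
    rw [← map_mul, show X i * X i = 0 from BoundedContinuousFunction.ext fun n => (hx n i).2.1,
      map_zero])
  have hsum : ∑ i, (star (Xc i) * Xc i + Xc i * star (Xc i)) =
      1 + ∑ i, star (Wc i) * Wc i := Subtype.ext (by
    have e : ∑ i, (star (X i) * X i + X i * star (X i)) = 1 + ∑ i, star (W i) * W i :=
      BoundedContinuousFunction.ext fun n => by simpa [X, W] using hs n
    have := congrArg (UPow.mkHom (A := A) (ω := ω)) e
    simpa only [map_sum, map_add, map_mul, map_star, map_one, AddSubmonoidClass.coe_finset_sum,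
      AddMemClass.coe_add, MulMemClass.coe_mul, StarMemClass.coe_star, OneMemClass.coe_one]
      using this)
  intro χ
  have hχ : ∀ i, χ (Xc i) = 0 := fun i =>
    mul_self_eq_zero.1 (by rw [← map_mul, hsq i, map_zero])
  have h1 := congrArg χ hsum
  simp only [map_sum, map_add, map_mul, map_star, hχ, mul_zero, star_zero, zero_mul, add_zero,
    Finset.sum_const_zero] at h1
  have hi : χ 1 * χ 1 = χ 1 := by rw [← map_mul, one_mul]
  rcases eq_or_ne (χ 1) 0 with h0 | h0
  · refine DFunLike.ext _ _ fun y => ?_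
    rw [← mul_one y, map_mul, h0, mul_zero]
    rfl
  · exfalso
    rw [mul_right_cancel₀ h0 (hi.trans (one_mul _).symm)] at h1
    have h2 := congrArg Complex.re h1
    simp only [Complex.zero_re, Complex.add_re, Complex.one_re, Complex.re_sum,
      Complex.star_def, Complex.mul_re, Complex.conj_re, Complex.conj_im] at h2
    have h3 : (0 : ℝ) ≤ ∑ i, ((χ (Wc i)).re * (χ (Wc i)).re -
        -(χ (Wc i)).im * (χ (Wc i)).im) :=
      Finset.sum_nonneg fun i _ => by nlinarith [sq_nonneg (χ (Wc i)).re, sq_nonneg (χ (Wc i)).im]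
    linarith

end

end Vale.Agent.P095.JSCentral
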