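import Vale.Agent.P095.Elem.Absorb
import Vale.Agent.P095.Elem.Backend
import Vale.Agent.P095.Elem.Base
import Vale.Agent.P095.Elem.Cert
import Vale.Agent.P095.Elem.Cuntz
import Vale.Agent.P095.Elem.Flip
import Vale.Agent.P095.Elem.HalfMain
import Vale.Agent.P095.Elem.LeafFull
import Vale.Agent.P095.Elem.LeafSmall
import Vale.Agent.P095.Elem.StableNoChar

/-!
# P095, amenable groups: the certificate for all systems, and the unital theorem

Every action of a countable amenable group on a unital separable Z-stable C*-algebra is
equivariantly Z-stable.
-/

namespace Vale.Agent.P095.Elem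

open Vale.Agent.P101.JS Vale.Agent.P095 Filter TopologicalSpace
open scoped CStarAlgebra

noncomputable section

universe u v

/-- Every system with equivariant copies over a group with the Følner property has a certificate. -/
theorem certificate (F : Type u) [CStarAlgebra F] (G : Type v) [Group G] [Countable G]
    (β : G →* (F ≃⋆ₐ[ℂ] F)) (hG : Folner G) (hd : Dyn β) : CertStatement β :=
  have hcmp := compareStatement hd
  have hhalf := Half.halfStatement hd (baseStatement hd) hG
  have habs : AbsorbStatement β := absorbStatement hG
  certStatement hd hcmp (Leaf.leafSmallStatement hd hG (Flip.flipStatement hd hcmp hhalf))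
    (leafFullStatement hd hcmp hhalf habs) habs

/-- Unital algebras whose central sequence algebra has no characters. -/
theorem equivariant_of_noCharacters (A : Type u) [CStarAlgebra A] [Nontrivial A] [SeparableSpace A]
    (G : Type v) [Group G] [Countable G] (hG : Folner G) (α : G → A → A) (hα : IsAction α)
    (ω : Ultrafilter ℕ) (hω : (ω : Filter ℕ) ≤ cofinite)
    (hchar : Vale.Agent.P101.NoCharacters (VAgent.P101.CentralSeq A ω)) :
    IsEquivariantTensorLimit A α frame :=
  equivariant_of_certificate certificate A G hG α hα ω hω hchar

/-- Every action of a countable amenable group on a unital separable Z-stable algebra is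
equivariantly Z-stable. -/
theorem equivariant_of_tensorLimit (A : Type u) [CStarAlgebra A] [Nontrivial A] [SeparableSpace A]
    (h : IsTensorLimit A frame) (G : Type v) [Group G] [Countable G] (hG : Folner G)
    (α : G → A → A) (hα : IsAction α) : IsEquivariantTensorLimit A α frame :=
  let ω := Filter.hyperfilter ℕ
  equivariant_of_noCharacters A G hG α hα ω Filter.hyperfilter_le_cofinite
    (JSCentral.noCharacters_of_tensorLimit A ω Filter.hyperfilter_le_cofinite h)

end

end Vale.Agent.P095.Elem
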