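import Vale.Agent.P095.Elem.HalfCmp
import Vale.Agent.P101.Block

/-!
# P095, amenable groups: small bumps with full plateaus

From full elements of square zero in commuting copies: a positive contraction of small dimension
which is one on one full region and zero on another one, together with all its translates.
-/

namespace Vale.Agent.P095.Elem

open scoped CStarAlgebra
open VAgent.P101

noncomputable section

namespace Half

variable {B : Type*} [CStarAlgebra B] (D : DimState B)

theorem isPos_mul_comm {a b : B} (ha : IsPos a) (hb : IsPos b) (h : Commute a b) :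
    IsPos (a * b) := by
  let := CStarAlgebra.spectralOrder B
  have := CStarAlgebra.spectralOrderedRing B
  exact Spec.isPos_iff_le'.mpr
    (h.mul_nonneg (Spec.isPos_iff_le'.mp ha) (Spec.isPos_iff_le'.mp hb))

theorem val_star_mul_self (z : B) : D (star z * z) = D (z * star z) := by
  have key : ∀ w : B, D (star w * w) ≤ D (w * star w) := by
    intro w
    refine le_of_forall_pos_le_add fun ε hε => ?_
    obtain ⟨δ, hδ, hl⟩ := D.lsc _ ⟨w, rfl⟩ ε hε
    have h1 := val_cut_star_mul_self_le D w hδ
    have hp : IsPos (w * star w) := ⟨star w, by rw [star_star]⟩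
    have h2 : D (cut δ (w * star w)) ≤ D (w * star w) := by
      conv_rhs => rw [← (ppart_of_isPos hp).1]
      exact val_cut_anti D (IsSelfAdjoint.mul_star_self w) hδ.le
    linarith
  exact le_antisymm (key z) (by simpa using key (star z))

theorem val_add_orth {a b : B} (ha : IsPos a) (hb : IsPos b) (h : a * b = 0) :
    D a + D b ≤ D (a + b) := by
  let := CStarAlgebra.spectralOrder B
  have := CStarAlgebra.spectralOrderedRing B
  have has := Spec.sa_of_isPos ha
  have hbs := Spec.sa_of_isPos hb
  have hba : b * a = 0 := by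
    have := congrArg star h
    rwa [star_mul, star_zero, has.star_eq, hbs.star_eq] at this
  have hc := commSA_pair has hbs (h.trans hba.symm)
  have e1 := Spec.jointHom_coord hc (x := a) (Or.inl rfl)
  have e2 := Spec.jointHom_coord hc (x := b) (Or.inr rfl)
  set f := Spec.coord hc (x := a) (Or.inl rfl)
  set g := Spec.coord hc (x := b) (Or.inr rfl)
  have mk0 : ∀ (u : Abel ({a, b} : Set B) hc), IsPos (u : B) →
      ∀ χ : WeakDual.characterSpace ℂ (Abel ({a, b} : Set B) hc), 0 ≤ (χ u).re := by
    intro u hu χ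
    have hus : IsSelfAdjoint u := Subtype.ext (Spec.sa_of_isPos hu).star_eq
    have hmem : (χ u).re ∈ spectrum ℝ (u : B) := by
      have h1 : χ u ∈ spectrum ℂ (u : B) := by
        rw [← StarSubalgebra.spectrum_eq (S := Abel ({a, b} : Set B) hc) (a := u)]
        exact AlgHom.apply_mem_spectrum χ u
      rw [char_re χ hus] at h1
      exact spectrum.of_algebraMap_mem ℂ h1
    exact spectrum_nonneg_of_nonneg (Spec.isPos_iff_le'.mp hu) hmem
  have hf : 0 ≤ f := ContinuousMap.le_def.mpr fun χ => mk0 ⟨a, _⟩ ha χ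
  have hg : 0 ≤ g := ContinuousMap.le_def.mpr fun χ => mk0 ⟨b, _⟩ hb χ
  have hd : ∀ χ, 0 < f χ → g χ = 0 := by
    intro χ hχ
    have h0 : χ (⟨a, mem_abel hc (Or.inl rfl)⟩ : Abel ({a, b} : Set B) hc) *
        χ ⟨b, mem_abel hc (Or.inr rfl)⟩ = 0 := by
      rw [← map_mul, show (⟨a, _⟩ : Abel ({a, b} : Set B) hc) * ⟨b, mem_abel hc (Or.inr rfl)⟩ = 0
        from Subtype.ext h, map_zero]
    rcases mul_eq_zero.mp h0 with h' | h'
    · exact absurd hχ (by simp [f, Spec.coord, h'])
    · simp [g, Spec.coord, h']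
  have := Spec.val_le_add D (Spec.jointHom hc) hf hg hd
  rwa [Spec.fval_add, e1, e2] at this

/-- A square zero block halves what commutes with it. -/
theorem val_half {x Y : B} (hx : x * x = 0) (hn : ‖diagSum x‖ ≤ 1) (hY : IsPos Y)
    (hc : Commute x Y) : IsPos (star x * x * Y) ∧
      ∀ D : DimState B, 2 * D (star x * x * Y) ≤ D Y := by
  let := CStarAlgebra.spectralOrder B
  have := CStarAlgebra.spectralOrderedRing B
  have hY0 : 0 ≤ Y := Spec.isPos_iff_le'.mp hY
  have hYs := Spec.sa_of_isPos hY
  have hc' : Commute (star x) Y := by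
    have := hc.star_star
    rwa [hYs.star_eq] at this
  set s := CFC.sqrt Y
  have hss : s * s = Y := CFC.sqrt_mul_sqrt_self _ hY0
  have hsa : star s = s := (IsSelfAdjoint.of_nonneg (CFC.sqrt_nonneg _)).star_eq
  have hsx : Commute s x := by
    simp only [s, CFC.sqrt]; exact hc.symm.cfcₙ_nnreal NNReal.sqrt
  have hsx' : Commute s (star x) := by
    simp only [s, CFC.sqrt]; exact hc'.symm.cfcₙ_nnreal NNReal.sqrt
  set z := x * s with hz
  have e1 : star z * z = star x * x * Y := by
    rw [hz, star_mul, hsa, ← hss]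
    calc s * star x * (x * s) = (s * (star x * x)) * s := by simp only [mul_assoc]
      _ = (star x * x * s) * s := by rw [(hsx'.mul_right hsx).eq]
      _ = _ := by simp only [mul_assoc]
  have e2 : z * star z = x * star x * Y := by
    rw [hz, star_mul, hsa]
    calc x * s * (s * star x) = x * ((s * s) * star x) := by simp only [mul_assoc]
      _ = x * (Y * star x) := by rw [hss]
      _ = _ := by rw [← hc'.eq, mul_assoc]
  have hzz : z * z = 0 := by
    rw [hz, ← mul_assoc, mul_assoc x s x, hsx.eq, ← mul_assoc, hx, zero_mul, zero_mul]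
  have horth : (star z * z) * (z * star z) = 0 := by
    rw [mul_assoc, ← mul_assoc z z, hzz, zero_mul, mul_zero]
  have hp1 : IsPos (star z * z) := ⟨z, rfl⟩
  have hp2 : IsPos (z * star z) := ⟨star z, by rw [star_star]⟩
  refine ⟨e1 ▸ hp1, fun D => ?_⟩
  have hsum : IsPos (star z * z + z * star z) := Spec.isPos_iff_le'.mpr
    (add_nonneg (star_mul_self_nonneg z) (mul_star_self_nonneg z))
  have hle : IsPos (Y - (star z * z + z * star z)) := by
    rw [e1, e2, ← add_mul, ← one_sub_mul]
    refine isPos_mul_comm (Spec.isPos_iff_le'.mpr (sub_nonneg.mpr ?_)) hY ?_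
    · exact (CStarAlgebra.norm_le_one_iff_of_nonneg _
        (add_nonneg (star_mul_self_nonneg x) (mul_star_self_nonneg x))).mp hn
    · exact (Commute.one_left Y).sub_left ((hc'.mul_left hc).add_left (hc.mul_left hc'))
  have h := (val_add_orth D hp1 hp2 horth).trans (val_le_of_sub D hsum hY hle)
  rw [← val_star_mul_self D z, e1] at h
  linarith

theorem oprod_mul_fix : ∀ {n : ℕ} (f : Fin n → B) (c : B), (∀ i, f i * c = c) → oprod f * c = c
  | 0, _, c, _ => one_mul c
  | _ + 1, f, c, h => by
    rw [oprod_succ, mul_assoc, oprod_mul_fix _ c fun i => h i.succ, h 0]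

theorem oprod_mul_kill {n : ℕ} (f : Fin n → B) (hf : ∀ i j, i ≠ j → Commute (f i) (f j)) (i : Fin n)
    (c : B) (h : f i * c = 0) : oprod f * c = 0 := by
  rw [oprod_update f i fun j hj => hf i j (ne_of_gt hj)]
  have hcm : Commute (f i) (oprod (Function.update f i 1)) := commute_oprod _ _ fun j => by
    by_cases hj : j = i
    · subst hj; simp
    · rw [Function.update_of_ne hj]; exact hf i j (Ne.symm hj)
  rw [hcm.eq, mul_assoc, h, mul_zero]

/-- A member of a commuting product: what it fixes or kills is fixed or killed by the product. -/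
theorem mul_oprod_of_mul {n : ℕ} (f : Fin n → B) (hf : ∀ i j, i ≠ j → Commute (f i) (f j))
    (i : Fin n) (y : B) :
    (y * f i = f i → y * oprod f = oprod f) ∧ (y * f i = 0 → y * oprod f = 0) := by
  have e := oprod_update f i fun j hj => hf i j (ne_of_gt hj)
  refine ⟨fun h => ?_, fun h => ?_⟩
  · rw [e, ← mul_assoc, h]
  · rw [e, ← mul_assoc, h, zero_mul]

/-- Products of commuting positive diagonals of square zero blocks are small. -/
theorem val_oprod_blocks : ∀ {n : ℕ} (x : Fin n → B), (∀ i, x i * x i = 0) →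
    (∀ i, ‖diagSum (x i)‖ ≤ 1) →
    (∀ i j, i ≠ j → Commute (x i) (x j) ∧ Commute (x i) (star (x j))) →
    IsPos (oprod fun i => star (x i) * x i) ∧
      ∀ D : DimState B, D (oprod fun i => star (x i) * x i) ≤ ((1 : ℝ) / 2) ^ n
  | 0, _, _, _, _ => ⟨⟨1, by simp [oprod]⟩, fun D => by simp [oprod, D.one]⟩
  | n + 1, x, hx, hn, hc => by
    obtain ⟨hp, hv⟩ := val_oprod_blocks (fun i => x i.succ) (fun i => hx _) (fun i => hn _)
      fun i j hij => hc _ _ (by simpa using hij)
    have hcm : Commute (x 0) (oprod fun i => star (x i.succ) * x i.succ) :=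
      commute_oprod _ _ fun i =>
        (hc 0 i.succ (Fin.succ_ne_zero i).symm).2.mul_right (hc 0 i.succ (Fin.succ_ne_zero i).symm).1
    obtain ⟨hp', hv'⟩ := val_half (hx 0) (hn 0) hp hcm
    rw [oprod_succ]
    refine ⟨hp', fun D => ?_⟩
    rw [pow_succ]
    linarith [hv D, hv' D]

/-- The join of commuting positive contractions. -/
theorem join_props : ∀ {n : ℕ} (Y : Fin n → B), (∀ i, IsPos (Y i)) → (∀ i, IsPos (1 - Y i)) →
    (∀ i j, i ≠ j → Commute (Y i) (Y j)) →
    IsPos (1 - oprod fun i => 1 - Y i) ∧ IsPos (oprod fun i => 1 - Y i) ∧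
      ∀ D : DimState B, D (1 - oprod fun i => 1 - Y i) ≤ ∑ i, D (Y i)
  | 0, _, _, _, _ => by
    simp only [oprod, sub_self, Finset.univ_eq_empty, Finset.sum_empty]
    exact ⟨⟨0, by simp⟩, ⟨1, by simp⟩, fun D => by simp [Spec.val_zero]⟩
  | n + 1, Y, h0, h1, hc => by
    obtain ⟨hp, hq, hv⟩ := join_props (fun i => Y i.succ) (fun i => h0 _) (fun i => h1 _)
      fun i j hij => hc _ _ (by simpa using hij)
    set P := oprod fun i => 1 - Y i.succ with hP
    have hcm : Commute (Y 0) P := commute_oprod _ _ fun i =>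
      (Commute.one_right _).sub_right (hc 0 i.succ (Fin.succ_ne_zero i).symm)
    have hcm1 : Commute (1 - Y 0) P := (Commute.one_left P).sub_left hcm
    rw [oprod_succ]
    show IsPos (1 - (1 - Y 0) * P) ∧ IsPos ((1 - Y 0) * P) ∧ _
    have e : 1 - (1 - Y 0) * P = Y 0 + (1 - Y 0) * (1 - P) := by noncomm_ring
    have ht : IsPos ((1 - Y 0) * (1 - P)) :=
      isPos_mul_comm (h1 0) hp ((Commute.one_right _).sub_right hcm1)
    have hpos : IsPos (1 - (1 - Y 0) * P) := by
      let := CStarAlgebra.spectralOrder B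
      have := CStarAlgebra.spectralOrderedRing B
      rw [e]
      exact Spec.isPos_iff_le'.mpr (add_nonneg (Spec.isPos_iff_le'.mp (h0 0))
        (Spec.isPos_iff_le'.mp ht))
    refine ⟨hpos, isPos_mul_comm (h1 0) hq hcm1, fun D => ?_⟩
    rw [e] at hpos ⊢
    refine (val_sum_two D (h0 0) ht hpos).trans ?_
    rw [Fin.sum_univ_succ]
    refine add_le_add le_rfl ((val_le_of_sub D ht hp ?_).trans (hv D))
    rw [show 1 - P - (1 - Y 0) * (1 - P) = Y 0 * (1 - P) by noncomm_ring]
    exact isPos_mul_comm (h0 0) hp ((Commute.one_right _).sub_right hcm)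

/-- `1 - ∏_b (1 - ∏_c (x_bc)^* x_bc)`. -/
def bump {N M : ℕ} (x : Fin N → Fin M → B) : B :=
  1 - oprod fun b => 1 - oprod fun c => star (x b c) * x b c

theorem map_bump {B' : Type*} [CStarAlgebra B'] (φ : B →⋆ₐ[ℂ] B') {N M : ℕ}
    (x : Fin N → Fin M → B) : φ (bump x) = bump fun b c => φ (x b c) := by
  simp only [bump, map_sub, map_one, map_oprod, map_mul, map_star]

variable {N M : ℕ} {x : Fin N → Fin M → B}

/-- Hypotheses on the blocks of a bump. -/
structure BumpBlocks (x : Fin N → Fin M → B) : Prop where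
  sq : ∀ b c, x b c * x b c = 0
  norm_le : ∀ b c, ‖diagSum (x b c)‖ ≤ 1
  comm : ∀ b c b' c', (b, c) ≠ (b', c') →
    Commute (x b c) (x b' c') ∧ Commute (x b c) (star (x b' c'))

theorem BumpBlocks.comm_sq (h : BumpBlocks x) {b c b' c'} (hne : (b, c) ≠ (b', c')) :
    Commute (star (x b c) * x b c) (star (x b' c') * x b' c') := by
  obtain ⟨h1, h2⟩ := h.comm b c b' c' hne
  have h3 : Commute (star (x b c)) (x b' c') := by
    have := h2.star_star
    rwa [star_star] at this
  exact (h1.star_star.mul_left h2).mul_right (h3.mul_left h1)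

theorem BumpBlocks.comm_prod (h : BumpBlocks x) {b b'} (hne : b ≠ b') :
    Commute (oprod fun c => star (x b c) * x b c) (oprod fun c => star (x b' c) * x b' c) :=
  commute_oprod _ _ fun _ => (commute_oprod _ _ fun _ =>
    h.comm_sq fun e => hne (Prod.ext_iff.mp e).1.symm).symm

theorem BumpBlocks.props (h : BumpBlocks x) :
    IsPos (bump x) ∧ IsPos (1 - bump x) ∧
      ∀ D : DimState B, D (bump x) ≤ N * ((1 : ℝ) / 2) ^ M := by
  have hrow : ∀ b, IsPos (oprod fun c => star (x b c) * x b c) ∧
      ∀ D : DimState B, D (oprod fun c => star (x b c) * x b c) ≤ ((1 : ℝ) / 2) ^ M := fun b =>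
    val_oprod_blocks (fun c => x b c) (h.sq b) (h.norm_le b) fun c c' hcc =>
      h.comm b c b c' fun e => hcc (Prod.ext_iff.mp e).2
  have hone : ∀ b, IsPos (1 - oprod fun c => star (x b c) * x b c) := by
    intro b
    let := CStarAlgebra.spectralOrder B
    have := CStarAlgebra.spectralOrderedRing B
    refine Spec.isPos_iff_le'.mpr (sub_nonneg.mpr
      ((CStarAlgebra.norm_le_one_iff_of_nonneg _ (Spec.isPos_iff_le'.mp (hrow b).1)).mp ?_))
    have hrw : ∀ {n : ℕ} (y : Fin n → B), (∀ i, ‖y i‖ ≤ 1) → ‖oprod y‖ ≤ 1 := by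
      intro n
      induction n with
      | zero =>
        intro y _
        rcases subsingleton_or_nontrivial B with h | h
        · simp [Subsingleton.elim (oprod y) 0]
        · simp [oprod]
      | succ n ih =>
        intro y hy
        rw [oprod_succ]
        exact (norm_mul_le _ _).trans
          (mul_le_one₀ (hy 0) (norm_nonneg _) (ih _ fun i => hy i.succ))
    refine hrw _ fun c => ?_
    refine (CStarAlgebra.norm_le_norm_of_nonneg_of_le (star_mul_self_nonneg _) ?_).trans
      (h.norm_le b c)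
    exact le_add_of_nonneg_right (mul_star_self_nonneg _)
  obtain ⟨h1, h2, h3⟩ := join_props _ (fun b => (hrow b).1) hone fun _ _ => h.comm_prod
  refine ⟨h1, ?_, fun D => (h3 D).trans ?_⟩
  · rw [bump, sub_sub_cancel]; exact h2
  · refine (Finset.sum_le_sum fun b _ => (hrow b).2 D).trans ?_
    simp

theorem BumpBlocks.fix (h : BumpBlocks x) (b : Fin N) {c : B}
    (hc : ∀ k, star (x b k) * x b k * c = c) : bump x * c = c := by
  rw [bump, sub_mul, one_mul, oprod_mul_kill (fun b => 1 - oprod fun c => star (x b c) * x b c)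
    (fun i j hij => ((Commute.one_right _).sub_right
      ((Commute.one_left _).sub_left (h.comm_prod hij)))) b c
    (by show (1 - _) * c = 0; rw [sub_mul, one_mul, oprod_mul_fix _ c hc, sub_self]), sub_zero]

theorem BumpBlocks.kill (h : BumpBlocks x) {c : B}
    (hc : ∀ b, ∃ k, star (x b k) * x b k * c = 0) : bump x * c = 0 := by
  rw [bump, sub_mul, one_mul, oprod_mul_fix, sub_self]
  intro b
  obtain ⟨k, hk⟩ := hc b
  rw [sub_mul, one_mul, oprod_mul_kill _ (fun i j hij => h.comm_sq fun e => hij
    (Prod.ext_iff.mp e).2) k c hk, sub_zero]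

end Half

end

end Vale.Agent.P095.Elem
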