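import Vale.Agent.P095.Elem.Defs

/-!
# P095, amenable groups: nearly halving elements

A self-adjoint contraction which is close to a halving symmetry in every dimension state and is
moved little, in the same sense, by a finite set of group elements.
-/

namespace Vale.Agent.P095.Elem

open scoped CStarAlgebra

noncomputable section

variable {N : Type*} [CStarAlgebra N] {G : Type*} [Group G]

/-- Nearly a halving symmetry, nearly fixed by `W`, measured by the dimension states. -/
structure NearHalf (β : G →* (N ≃⋆ₐ[ℂ] N)) (W : Finset G) (δ : ℝ) (x : N) : Prop where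
  sa : IsSelfAdjoint x
  contr : ‖x‖ ≤ 1
  pos_ge : ∀ D : DimState N, 1 / 2 - δ ≤ D (cut (1 - δ) x)
  neg_ge : ∀ D : DimState N, 1 / 2 - δ ≤ D (cut (1 - δ) (-x))
  move : ∀ g ∈ W, ∀ D : DimState N, D (cut δ (star (β g x - x) * (β g x - x))) ≤ δ

/-- Nearly halving elements exist at every quality. -/
def AlmostHalfStatement (β : G →* (N ≃⋆ₐ[ℂ] N)) : Prop :=
  ∀ (W : Finset G) (δ : ℝ), 0 < δ → ∃ x : N, NearHalf β W δ x

end

end Vale.Agent.P095.Elem
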