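import Vale.Agent.P095.Elem.Quot

/-!
# P095, amenable groups: limit dimension states on the quotient, and transfer

A sequence of dimension states of `N` has a limit `DQ.limState`, a dimension state of `DQ N ω`.
A bound which holds at all limit states holds, up to a small loss, uniformly at all dimension states
of `N` along `ω` (`DQ.eventually_le`, `DQ.eventually_ge`).
-/

namespace Vale.Agent.P095.Elem.DQ

open Filter Topology BoundedContinuousFunction
open scoped CStarAlgebra BoundedContinuousFunction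

noncomputable section

universe u

attribute [local instance] CStarAlgebra.spectralOrder CStarAlgebra.spectralOrderedRing

variable {N : Type u} [CStarAlgebra N] {ω : Ultrafilter ℕ}

theorem norm_cut_sub_le {g : N} (hg : 0 ≤ g) {s : ℝ} (hs : 0 ≤ s) : ‖cut s g - g‖ ≤ s := by
  conv_lhs => arg 1; arg 2; rw [← cfc_id' ℝ g]
  rw [cut, ← cfc_sub (fun r : ℝ => max (r - s) 0) (fun r : ℝ => r) g]
  refine norm_cfc_le hs fun r hr => ?_
  have hr0 : 0 ≤ r := spectrum_nonneg_of_nonneg hg hr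
  rw [Real.norm_eq_abs, abs_le]
  constructor <;> cases max_cases (r - s) 0 <;> linarith

/-- The split `1 = q + p` used to discard a small element `z`. -/
theorem exists_split {z : N} (hz : 0 ≤ z) {s : ℝ} (hs : 0 < s) :
    ∃ q p : N, IsSelfAdjoint q ∧ IsSelfAdjoint p ∧ q + p = 1 ∧ ‖q‖ ≤ 1 ∧
      ‖q * z * q‖ ≤ s ∧ p * p ≤ s⁻¹ • z := by
  let f : ℝ → ℝ := fun r => √(s / (s + max r 0))
  have hf : Continuous f := (continuous_const.div (continuous_const.add
    (continuous_id.max continuous_const))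
    fun r => (add_pos_of_pos_of_nonneg hs (le_max_right _ _)).ne').sqrt
  have h01 : ∀ r, 0 ≤ f r ∧ f r ≤ 1 ∧ f r * f r = s / (s + max r 0) := fun r => by
    have h0 : 0 ≤ max r 0 := le_max_right _ _
    refine ⟨Real.sqrt_nonneg _, Real.sqrt_le_one.2 ?_, Real.mul_self_sqrt (by positivity)⟩
    rw [div_le_one (by linarith)]
    linarith
  refine ⟨cfc f z, cfc (fun r => 1 - f r) z, IsSelfAdjoint.cfc, IsSelfAdjoint.cfc, ?_, ?_, ?_, ?_⟩
  · rw [← cfc_add (a := z) f (fun r => 1 - f r) hf.continuousOn (by fun_prop)]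
    simp [cfc_const_one ℝ z]
  · exact norm_cfc_le zero_le_one fun r _ => by
      rw [Real.norm_of_nonneg (h01 r).1]; exact (h01 r).2.1
  · conv_lhs => arg 1; arg 1; arg 2; rw [← cfc_id' ℝ z]
    rw [← cfc_mul f (fun r : ℝ => r) z hf.continuousOn continuousOn_id,
      ← cfc_mul (fun r => f r * r) f z (by fun_prop) hf.continuousOn]
    refine norm_cfc_le hs.le fun r hr => ?_
    have hr0 : 0 ≤ r := spectrum_nonneg_of_nonneg hz hr
    rw [mul_right_comm, (h01 r).2.2, max_eq_left hr0, Real.norm_of_nonneg (by positivity),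
      div_mul_eq_mul_div, div_le_iff₀ (by linarith)]
    nlinarith
  · conv_rhs => arg 2; rw [← cfc_id' ℝ z]
    rw [← cfc_mul (fun r => 1 - f r) (fun r => 1 - f r) z (by fun_prop) (by fun_prop),
      ← cfc_smul s⁻¹ (fun r : ℝ => r) z continuousOn_id]
    refine cfc_mono (fun r hr => ?_)
    have hr0 : 0 ≤ r := spectrum_nonneg_of_nonneg hz hr
    obtain ⟨a0, a1, asq⟩ := h01 r
    rw [max_eq_left hr0] at asq
    have : 1 - f r * f r ≤ s⁻¹ * r := by
      rw [asq, one_sub_div (by linarith), add_sub_cancel_left, inv_mul_eq_div]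
      exact div_le_div_of_nonneg_left hr0 hs (by linarith)
    rw [smul_eq_mul]
    nlinarith [mul_nonneg a0 (sub_nonneg.2 a1)]

theorem isPos_mk {f : ℕ →ᵇ N} (hf : ∀ n, IsPos (f n)) : IsPos (mk f : DQ N ω) := by
  have hsa : IsSelfAdjoint f := isSelfAdjoint_seq fun n => sa_of_isPos (hf n)
  have e : cfc (fun r : ℝ => max r 0) f = f := by
    ext n
    rw [apply_cfc hsa (by fun_prop)]
    conv_rhs => rw [← cfc_id' ℝ (f n) (ha := sa_of_isPos (hf n))]
    exact cfc_congr fun r hr =>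
      max_eq_left (spectrum_nonneg_of_nonneg (isPos_iff_nonneg.1 (hf n)) hr)
  rw [← e, mk_cfc hsa (by fun_prop)]
  exact isPos_iff_nonneg.2 (cfc_nonneg fun r _ => le_max_right _ _)

theorem exists_lift_pos {x : DQ N ω} (hx : IsPos x) :
    ∃ f : ℕ →ᵇ N, mk f = x ∧ ∀ n, IsPos (f n) := by
  obtain ⟨c, rfl⟩ := hx
  obtain ⟨g, rfl⟩ := mk_surjective c
  exact ⟨star g * g, by rw [map_mul, map_star], fun n => ⟨g n, rfl⟩⟩

theorem mk_cut {f : ℕ →ᵇ N} (hf : ∀ n, IsSelfAdjoint (f n)) (t : ℝ) :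
    ∃ g : ℕ →ᵇ N, (∀ n, g n = cut t (f n)) ∧ (mk g : DQ N ω) = cut t (mk f) :=
  ⟨cfc (fun r : ℝ => max (r - t) 0) f, apply_cfc (isSelfAdjoint_seq hf) (by fun_prop),
    mk_cfc (isSelfAdjoint_seq hf) (by fun_prop)⟩

theorem norm_conj_le {q : N} (hq1 : ‖q‖ ≤ 1) (a : N) : ‖q * a * q‖ ≤ ‖a‖ := by
  refine (norm_mul₃_le).trans ?_
  calc ‖q‖ * ‖a‖ * ‖q‖ ≤ 1 * ‖a‖ * 1 := by gcongr
    _ = ‖a‖ := by ring

theorem norm_small_conj_le {q j z : N} (hq : IsSelfAdjoint q) (hq1 : ‖q‖ ≤ 1)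
    (hjz : star j * j ≤ z) {e : ℝ} (he : 0 ≤ e) (hqz : ‖q * z * q‖ ≤ e ^ 2) : ‖q * j * q‖ ≤ e := by
  have hjq : ‖j * q‖ ^ 2 ≤ e ^ 2 := by
    rw [sq, ← CStarRing.norm_star_mul_self, star_mul, hq.star_eq]
    refine le_trans (CStarAlgebra.norm_le_norm_of_nonneg_of_le ?_ ?_) hqz
    · simpa [star_mul, hq.star_eq] using star_mul_self_nonneg (j * q)
    · simpa [hq.star_eq, mul_assoc] using star_left_conjugate_le_conjugate hjz q
  have hjq' : ‖j * q‖ ≤ e := by nlinarith [norm_nonneg (j * q)]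
  rw [mul_assoc]
  refine (norm_mul_le _ _).trans ?_
  nlinarith [norm_nonneg (j * q), norm_nonneg q]

theorem val_cut_split_le (D : DimState N) {f z q p : N} (hf : IsPos f) (hz : 0 ≤ z)
    (hq : IsSelfAdjoint q) (hp : IsSelfAdjoint p) (hqp : q + p = 1) {C r T σ : ℝ}
    (hC : ‖f‖ ≤ C) (hr : 0 ≤ r) (hpp : p * p ≤ r • z) (hT : 0 < T) (hσ : C * r * σ < T / 8) :
    D (cut T f) ≤ D (cut (T / 8) (q * f * q)) + D (cut σ z) := by
  obtain ⟨c, hc⟩ := hf
  have e : f = star (c * q + c * p) * (c * q + c * p) := by rw [← mul_add, hqp, mul_one, hc]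
  have e1 : star (c * q) * (c * q) = q * f * q := by
    rw [star_mul, hq.star_eq, hc]; simp only [mul_assoc]
  have e2 : star (c * p) * (c * p) = star p * f * p := by
    rw [star_mul, hc]; simp only [mul_assoc]
  have h1 := val_cut_star_add_le D (c * q) (c * p) hT
  rw [← e, e1, e2] at h1
  refine h1.trans (add_le_add le_rfl ?_)
  have hfsa : IsSelfAdjoint f := hc ▸ IsSelfAdjoint.star_mul_self c
  have hC0 : 0 ≤ C := (norm_nonneg _).trans hC
  have hfle : f ≤ C • (1 : N) := by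
    rw [← Algebra.algebraMap_eq_smul_one]
    exact hfsa.le_algebraMap_norm_self.trans (algebraMap_mono N hC)
  have hle : star p * f * p ≤ (C * r) • z := by
    refine (star_left_conjugate_le_conjugate hfle p).trans ?_
    rw [mul_smul_comm, mul_one, smul_mul_assoc, hp.star_eq, ← smul_smul]
    exact smul_le_smul_of_nonneg_left hpp hC0
  exact (val_cut_mono' D (hfsa.conjugate' p) hle _).trans
    (val_cut_smul_le D (IsSelfAdjoint.of_nonneg hz) (by positivity) hσ)

theorem norm_entry_le {m : ℕ} (V W G G' : Fin m → N) {q δ R j z : N} (hq : IsSelfAdjoint q)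
    (hq1 : ‖q‖ ≤ 1) (hsum : R + j = (∑ k, star (V k) * G k * W k) - δ) (hjz : star j * j ≤ z)
    {e : ℝ} (he : 0 ≤ e) (hqz : ‖q * z * q‖ ≤ e ^ 2) (hR : ‖R‖ ≤ e)
    (hGG : ∑ k, ‖V k‖ * ‖G' k - G k‖ * ‖W k‖ ≤ e) :
    ‖(∑ k, star (V k * q) * G' k * (W k * q)) - q * δ * q‖ ≤ 3 * e := by
  have e1 : (∑ k, star (V k * q) * G' k * (W k * q)) =
      q * (∑ k, star (V k) * (G' k - G k) * W k) * q +
        q * (∑ k, star (V k) * G k * W k) * q := by
    rw [← add_mul, ← mul_add, ← Finset.sum_add_distrib, Finset.mul_sum, Finset.sum_mul]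
    refine Finset.sum_congr rfl fun k _ => ?_
    rw [star_mul, hq.star_eq]
    noncomm_ring
  have e2 : q * (∑ k, star (V k) * G k * W k) * q - q * δ * q = q * R * q + q * j * q := by
    rw [← add_mul, ← mul_add, hsum, mul_sub, sub_mul]
  rw [e1, add_sub_assoc, e2, ← add_assoc]
  refine norm_add₃_le.trans ?_
  have h1 : ‖∑ k, star (V k) * (G' k - G k) * W k‖ ≤ e := by
    refine (norm_sum_le _ _).trans ((Finset.sum_le_sum fun k _ => ?_).trans hGG)
    exact norm_mul₃_le.trans (by rw [norm_star])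
  linarith [(norm_conj_le hq1 _).trans h1, (norm_conj_le hq1 _).trans hR,
    norm_small_conj_le hq hq1 hjz he hqz]

theorem exists_uniform_lifts {m n : ℕ} (f : Fin m → ℕ →ᵇ N) (g : Fin n → ℕ →ᵇ N)
    (h : TupLe (fun i => (mk (f i) : DQ N ω)) (fun k => (mk (g k) : DQ N ω)))
    {e : ℝ} (he : 0 < e) :
    ∃ (V : Fin n → Fin m → ℕ →ᵇ N) (R J : Fin m → Fin m → ℕ →ᵇ N), ∀ i j,
      IsSmall ω ⇑(J i j) ∧ ‖R i j‖ ≤ e ∧ ∀ l, R i j l + J i j l =
        (∑ k, star (V k i l) * g k l * V k j l) - if i = j then f i l else 0 := by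
  classical
  obtain ⟨v, hv⟩ := h (e / 2) (by positivity)
  choose V hV using fun k i => mk_surjective (v k i)
  set E : Fin m → Fin m → ℕ →ᵇ N :=
    fun i j => (∑ k, star (V k i) * g k * V k j) - if i = j then f i else 0 with hE
  have hEn : ∀ i j, ‖(mk (E i j) : DQ N ω)‖ < e := fun i j => by
    refine lt_of_le_of_lt (le_trans (le_of_eq ?_) (hv i j)) (by linarith)
    rw [hE]
    simp only [map_sub, map_sum, map_mul, map_star, hV, apply_ite (mk : (ℕ →ᵇ N) → DQ N ω),
      map_zero]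
  choose R hR hRn using fun i j => exists_lift (mk (E i j) : DQ N ω) (hEn i j)
  refine ⟨V, R, fun i j => E i j - R i j, fun i j => ⟨mk_eq_mk.1 (hR i j).symm, hRn i j,
    fun l => ?_⟩⟩
  rw [BoundedContinuousFunction.sub_apply, add_sub_cancel]
  simp only [hE]
  split_ifs <;> simp

/-- A subequivalence of diagonals in the quotient holds uniformly at all dimension states along
`ω`, up to a small loss. -/
theorem eventually_sum_le {m n : ℕ} (f : Fin m → ℕ →ᵇ N) (g : Fin n → ℕ →ᵇ N)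
    (hf : ∀ i l, IsPos (f i l)) (hg : ∀ k l, IsPos (g k l))
    (h : TupLe (fun i => (mk (f i) : DQ N ω)) (fun k => (mk (g k) : DQ N ω)))
    {T θ : ℝ} (hT : 0 < T) (hθ : 0 < θ) :
    ∃ s : ℝ, 0 < s ∧ ∀ᶠ l in (ω : Filter ℕ), ∀ D : DimState N,
      ∑ i, D (cut T (f i l)) ≤ ∑ k, D (cut s (g k l)) + θ := by
  classical
  set err : ℝ := T / (32 * ((m : ℝ) * m + 1)) with herr'
  have herr : 0 < err := by positivity
  obtain ⟨V, R, J, hVRJ⟩ := exists_uniform_lifts f g h herr
  obtain ⟨Cv, hCv0, hb⟩ : ∃ Cv : ℝ, 0 ≤ Cv ∧ ∀ l k i, ‖V k i l‖ ≤ Cv :=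
    ⟨∑ k, ∑ i, ‖V k i‖, Finset.sum_nonneg fun k _ => Finset.sum_nonneg fun i _ => norm_nonneg _,
      fun l k i => ((V k i).norm_coe_le_norm l).trans
        ((Finset.single_le_sum (f := fun i => ‖V k i‖) (fun a _ => norm_nonneg _)
          (Finset.mem_univ i)).trans (Finset.single_le_sum (f := fun k => ∑ i, ‖V k i‖)
          (fun a _ => Finset.sum_nonneg fun b _ => norm_nonneg _) (Finset.mem_univ k)))⟩
  obtain ⟨Cf, hCf0, hfC⟩ : ∃ Cf : ℝ, 0 ≤ Cf ∧ ∀ l i, ‖f i l‖ ≤ Cf :=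
    ⟨∑ i, ‖f i‖, Finset.sum_nonneg fun i _ => norm_nonneg _, fun l i =>
      ((f i).norm_coe_le_norm l).trans
        (Finset.single_le_sum (f := fun i => ‖f i‖) (fun j _ => norm_nonneg _) (Finset.mem_univ i))⟩
  set s' : ℝ := err / ((n : ℝ) * Cv ^ 2 + 1) with hs'
  have hs'0 : 0 < s' := by positivity
  set σ : ℝ := T * err ^ 2 / (9 * (Cf + 1)) with hσ
  have hσ0 : 0 < σ := by positivity
  set σ' : ℝ := σ / ((m : ℝ) * m + 1) with hσ'
  have hσm : (m : ℝ) * m * σ' < σ := by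
    rw [hσ', mul_div_assoc', div_lt_iff₀ (by positivity)]
    nlinarith
  have hσC : Cf * (err ^ 2)⁻¹ * σ < T / 8 := by
    rw [hσ]
    field_simp
    nlinarith
  set θ' : ℝ := θ / ((m : ℝ) * (m * m) + 1) with hθ'
  refine ⟨s', hs'0, ?_⟩
  filter_upwards [eventually_all.2 fun p : Fin m × Fin m =>
    (hVRJ p.1 p.2).1.cut_le (t := σ') (θ := θ') (by positivity) (by positivity)] with l hl D
  set z : N := ∑ p : Fin m × Fin m, star (J p.1 p.2 l) * J p.1 p.2 l with hz'
  have hz : 0 ≤ z := Finset.sum_nonneg fun p _ => star_mul_self_nonneg _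
  obtain ⟨q, p, hq, hp, hqp, hq1, hqz, hpp⟩ := exists_split hz (show 0 < err ^ 2 by positivity)
  have hf0 : ∀ i, 0 ≤ q * f i l * q := fun i => by
    simpa [hq.star_eq] using star_left_conjugate_nonneg (isPos_iff_nonneg.1 (hf i l)) q
  have hzD : D (cut σ z) ≤ (m : ℝ) * m * θ' := by
    refine (val_cut_sum_le D Finset.univ (fun p : Fin m × Fin m => star (J p.1 p.2 l) * J p.1 p.2 l)
      (fun p => IsSelfAdjoint.star_mul_self _) (show 0 ≤ σ' by positivity) σ ?_).trans ?_
    · simpa [Fintype.card_prod] using hσm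
    · refine (Finset.sum_le_sum fun p _ => hl p D).trans (le_of_eq ?_)
      simp
  have hone : ∀ i, D (cut T (f i l)) ≤ D (cut (T / 8) (q * f i l * q)) + (m : ℝ) * m * θ' :=
    fun i => (val_cut_split_le D (hf i l) hz hq hp hqp (hfC l i)
      (by positivity) hpp hT hσC).trans (add_le_add le_rfl hzD)
  have happ : ∀ i j, ‖(∑ k, star (V k i l * q) * cut s' (g k l) * (V k j l * q)) -
      (if i = j then q * f i l * q else 0)‖ ≤ 3 * err := by
    intro i j
    rw [show (if i = j then q * f i l * q else 0) = q * (if i = j then f i l else 0) * q by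
      split_ifs <;> simp]
    refine norm_entry_le (fun k => V k i l) (fun k => V k j l) (fun k => g k l)
      (fun k => cut s' (g k l)) hq hq1 ((hVRJ i j).2.2 l) (z := z) ?_ herr.le hqz
      (((R i j).norm_coe_le_norm l).trans (hVRJ i j).2.1) ?_
    · exact Finset.single_le_sum
        (f := fun p : Fin m × Fin m => star (J p.1 p.2 l) * J p.1 p.2 l)
        (fun p _ => star_mul_self_nonneg _) (Finset.mem_univ (i, j))
    · refine (Finset.sum_le_sum fun k _ => mul_le_mul (mul_le_mul (hb l k i)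
        (norm_cut_sub_le (isPos_iff_nonneg.1 (hg k l)) hs'0.le) (norm_nonneg _) hCv0)
        (hb l k j) (norm_nonneg _) (by positivity)).trans ?_
      simp only [Finset.sum_const, Finset.card_univ, Fintype.card_fin, nsmul_eq_mul]
      have : s' * ((n : ℝ) * Cv ^ 2 + 1) = err := div_mul_cancel₀ _ (by positivity)
      nlinarith
  have hmono : ∑ i, D (cut (T / 8) (q * f i l * q)) ≤ ∑ k, D (cut s' (g k l)) := by
    refine D.mono _ _ (fun i => isPos_cut _ _) (fun k => isPos_cut _ _)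
      (tupLe_of_approx hf0 (fun k => cut_nonneg _ _) (fun k i => V k i l * q) (err := 3 * err)
        ?_ (by positivity) happ)
    rw [herr']
    field_simp
    nlinarith [mul_nonneg (Nat.cast_nonneg (α := ℝ) m) (Nat.cast_nonneg (α := ℝ) m)]
  calc ∑ i, D (cut T (f i l))
      ≤ ∑ i, (D (cut (T / 8) (q * f i l * q)) + (m : ℝ) * m * θ') :=
        Finset.sum_le_sum fun i _ => hone i
    _ ≤ ∑ k, D (cut s' (g k l)) + θ := by
      rw [Finset.sum_add_distrib, Finset.sum_const, Finset.card_univ, Fintype.card_fin,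
        nsmul_eq_mul]
      refine add_le_add hmono ?_
      have : θ' * ((m : ℝ) * (m * m) + 1) = θ := div_mul_cancel₀ _ (by positivity)
      nlinarith [show 0 < θ' by positivity]

/-! ### Limit states -/

/-- The lower bounds of the limit at `x`. -/
def limSet (D : ℕ → DimState N) (x : DQ N ω) : Set ℝ :=
  {r | ∃ (f : ℕ →ᵇ N) (t : ℝ), 0 < t ∧ (∀ n, IsPos (f n)) ∧ mk f = x ∧
    ∀ᶠ n in (ω : Filter ℕ), r ≤ D n (cut t (f n))}

/-- The value of the limit state. -/
def limVal (D : ℕ → DimState N) (x : DQ N ω) : ℝ := sSup (insert 0 (limSet D x))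

theorem bddAbove_limSet (D : ℕ → DimState N) (x : DQ N ω) :
    BddAbove (insert 0 (limSet D x)) := by
  refine ⟨1, ?_⟩
  rintro r (rfl | ⟨f, t, ht, hf, hx, h⟩)
  · exact zero_le_one
  · obtain ⟨n, hn⟩ := h.exists
    exact hn.trans (val_cut_le_one _ _ _)

theorem limVal_nonneg (D : ℕ → DimState N) (x : DQ N ω) : 0 ≤ limVal D x :=
  le_csSup (bddAbove_limSet D x) (Set.mem_insert _ _)

theorem le_limVal (D : ℕ → DimState N) {f : ℕ →ᵇ N} (hf : ∀ n, IsPos (f n)) {t c : ℝ}
    (ht : 0 < t) (h : ∀ᶠ n in (ω : Filter ℕ), c ≤ D n (cut t (f n))) :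
    c ≤ limVal D (mk f : DQ N ω) :=
  le_csSup (bddAbove_limSet D _) (Set.mem_insert_of_mem _ ⟨f, t, ht, hf, rfl, h⟩)

theorem eventually_lt_limVal (D : ℕ → DimState N) {f : ℕ →ᵇ N} (hf : ∀ n, IsPos (f n)) {t θ : ℝ}
    (ht : 0 < t) (hθ : 0 < θ) :
    ∀ᶠ n in (ω : Filter ℕ), D n (cut t (f n)) < limVal D (mk f : DQ N ω) + θ := by
  rcases ω.em fun n => D n (cut t (f n)) < limVal D (mk f : DQ N ω) + θ with h | h
  · exact h
  · have := le_limVal D hf ht (h.mono fun n hn => not_lt.1 hn)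
    linarith

theorem exists_witness (D : ℕ → DimState N) {x : DQ N ω} (hx : IsPos x) {θ : ℝ} (hθ : 0 < θ) :
    ∃ (f : ℕ →ᵇ N) (t : ℝ), 0 < t ∧ (∀ n, IsPos (f n)) ∧ mk f = x ∧
      ∀ᶠ n in (ω : Filter ℕ), limVal D x - θ ≤ D n (cut t (f n)) := by
  obtain ⟨r, hr, hlt⟩ := exists_lt_of_lt_csSup (Set.insert_nonempty (0 : ℝ) (limSet D x))
    (show limVal D x - θ < sSup (insert 0 (limSet D x)) from sub_lt_self _ hθ)
  rcases hr with rfl | ⟨f, t, ht, hf, e, h⟩
  · obtain ⟨f, e, hf⟩ := exists_lift_pos hx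
    exact ⟨f, 1, one_pos, hf, e, Eventually.of_forall fun n =>
      hlt.le.trans (val_nonneg _ (cut_nonneg _ _))⟩
  · exact ⟨f, t, ht, hf, e, h.mono fun n hn => hlt.le.trans hn⟩

/-- The limit of a sequence of dimension states. -/
def limState (D : ℕ → DimState N) : DimState (DQ N ω) where
  val := limVal D
  one := by
    refine le_antisymm (csSup_le (Set.insert_nonempty _ _) ?_) ?_
    · rintro r (rfl | ⟨f, t, ht, hf, hx, h⟩)
      · exact zero_le_one
      · obtain ⟨n, hn⟩ := h.exists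
        exact hn.trans (val_cut_le_one _ _ _)
    · rw [← map_one (mk : (ℕ →ᵇ N) →⋆ₐ[ℂ] DQ N ω)]
      refine le_limVal D (f := 1) (fun n => ⟨1, by simp⟩) (t := 1 / 2) one_half_pos
        (Eventually.of_forall fun n => ?_)
      refine (D n).one.symm.le.trans ?_
      rw [show (1 : ℕ →ᵇ N) n = 1 from rfl, cut, ← map_one (algebraMap ℝ N), cfc_algebraMap]
      have := val_smul_le (D n) (y := algebraMap ℝ N (max (1 - 1 / 2 : ℝ) 0))
        (algebraMap_nonneg N (le_max_right _ _)) (r := 2) zero_le_two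
      rw [Algebra.algebraMap_eq_smul_one, smul_smul] at this
      norm_num at this ⊢
      simpa [Algebra.algebraMap_eq_smul_one] using this
  mono := by
    intro m k x y hx hy h
    refine le_of_forall_pos_le_add fun ε hε => ?_
    set θ : ℝ := ε / ((m : ℝ) + k + 2) with hθ'
    have hθ : 0 < θ := by positivity
    choose f t ht hf hfx hw using fun i => exists_witness D (hx i) hθ
    choose g hgy hg using fun j => exists_lift_pos (hy j)
    obtain ⟨T, hT, hTle⟩ : ∃ T : ℝ, 0 < T ∧ ∀ i, T ≤ t i := by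
      refine ⟨Finset.univ.inf' ⟨0, Finset.mem_univ _⟩ (Fin.cons 1 t : Fin (m + 1) → ℝ), ?_, ?_⟩
      · exact (Finset.lt_inf'_iff _).2 fun i _ => Fin.cases (by simp) (fun i => by simpa using ht i) i
      · intro i
        simpa using Finset.inf'_le (Fin.cons 1 t : Fin (m + 1) → ℝ) (Finset.mem_univ i.succ)
    obtain ⟨s, hs, hev⟩ := eventually_sum_le (ω := ω) f g hf hg
      (by simpa only [hfx, hgy] using h) hT hθ
    obtain ⟨n, ⟨⟨hn, hwn⟩, hgn⟩⟩ := ((hev.and (eventually_all.2 hw)).and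
      (eventually_all.2 fun j => eventually_lt_limVal (ω := ω) D (hg j) hs hθ)).exists
    have h1 : ∑ i, (limVal D (x i) - θ) ≤ ∑ i, D n (cut T (f i n)) :=
      Finset.sum_le_sum fun i _ => (hwn i).trans
        (val_cut_antitone _ (sa_of_isPos (hf i n)) (hTle i))
    have h2 : ∑ j, D n (cut s (g j n)) ≤ ∑ j, (limVal D (y j) + θ) :=
      Finset.sum_le_sum fun j _ => by rw [← hgy j]; exact (hgn j).le
    have h3 := hn (D n)
    simp only [Finset.sum_sub_distrib, Finset.sum_add_distrib, Finset.sum_const, Finset.card_univ,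
      Fintype.card_fin, nsmul_eq_mul] at h1 h2
    have : θ * ((m : ℝ) + k + 2) = ε := div_mul_cancel₀ _ (by positivity)
    nlinarith
  lsc := by
    intro x hx ε hε
    obtain ⟨f, t, ht, hf, hfx, hw⟩ := exists_witness D hx hε
    refine ⟨t / 2, half_pos ht, ?_⟩
    obtain ⟨g, hg, hgx⟩ := mk_cut (ω := ω) (fun n => sa_of_isPos (hf n)) (t / 2)
    rw [← hfx, ← hgx]
    refine le_limVal D (fun n => by rw [hg]; exact isPos_cut _ _) (half_pos ht)
      (hw.mono fun n hn => ?_)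
    rw [hg, cut_cut (sa_of_isPos (hf n)) (by positivity), add_halves, hfx]
    exact hn

theorem le_limState (D : ℕ → DimState N) {f : ℕ →ᵇ N} (hf : ∀ n, IsPos (f n)) {t c : ℝ}
    (ht : 0 < t) (h : ∀ᶠ n in (ω : Filter ℕ), c ≤ D n (cut t (f n))) :
    c ≤ limState D (mk f : DQ N ω) :=
  le_limVal D hf ht h

theorem eventually_lt_limState (D : ℕ → DimState N) {f : ℕ →ᵇ N} (hf : ∀ n, IsPos (f n))
    {t θ : ℝ} (ht : 0 < t) (hθ : 0 < θ) :
    ∀ᶠ n in (ω : Filter ℕ), D n (cut t (f n)) < limState D (mk f : DQ N ω) + θ :=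
  eventually_lt_limVal D hf ht hθ

theorem limState_le (D : ℕ → DimState N) {f : ℕ →ᵇ N} (hf : ∀ n, IsPos (f n)) {c : ℝ}
    (hc : 0 ≤ c) (h : ∀ t : ℝ, 0 < t → ∀ᶠ n in (ω : Filter ℕ), D n (cut t (f n)) ≤ c) :
    limState D (mk f : DQ N ω) ≤ c := by
  refine le_of_forall_pos_le_add fun ε hε => ?_
  obtain ⟨g, t, ht, hg, hgx, hw⟩ := exists_witness D (x := (mk f : DQ N ω))
    (isPos_mk hf)
    (half_pos hε)
  obtain ⟨s, hs, hev⟩ := eventually_sum_le (ω := ω) (fun _ : Fin 1 => g) (fun _ : Fin 1 => f)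
    (fun _ => hg) (fun _ => hf) (fun δ hδ => ⟨fun _ _ => 1, fun i j => by
      simp [Subsingleton.elim i j, hgx, hδ.le]⟩) ht (half_pos hε)
  obtain ⟨n, ⟨hn, hwn⟩, hsn⟩ := ((hev.and hw).and (h s hs)).exists
  have := hn (D n)
  simp at this
  change limVal D (mk f : DQ N ω) ≤ c + ε
  linarith

/-! ### Transfer -/

/-- An upper bound at all limit states holds uniformly at all dimension states along `ω`. -/
theorem eventually_le {f : ℕ →ᵇ N} (hf : ∀ n, IsPos (f n)) {t t' c ε : ℝ} (ht : t < t')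
    (hε : 0 < ε) (h : ∀ D : ℕ → DimState N, limState D (cut t (mk f : DQ N ω)) ≤ c) :
    ∀ᶠ n in (ω : Filter ℕ), ∀ D : DimState N, D (cut t' (f n)) ≤ c + ε := by
  classical
  rcases ω.em fun n => ∀ D : DimState N, D (cut t' (f n)) ≤ c + ε with hok | hbad
  · exact hok
  · have : Nonempty (DimState N) := by
      obtain ⟨n, hn⟩ := hbad.exists
      push Not at hn
      exact ⟨hn.choose⟩
    obtain ⟨g, hg, hgx⟩ := mk_cut (ω := ω) (fun n => sa_of_isPos (hf n)) t
    let D : ℕ → DimState N := fun n => Classical.epsilon fun D => c + ε < D (cut t' (f n))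
    have := le_limState (ω := ω) D (f := g) (c := c + ε) (fun n => by rw [hg]; exact isPos_cut _ _)
      (sub_pos.2 ht) (hbad.mono fun n hn => by
        push Not at hn
        rw [hg, cut_cut (sa_of_isPos (hf n)) (by linarith), add_sub_cancel]
        exact (Classical.epsilon_spec hn).le)
    rw [hgx] at this
    linarith [h D]

/-- A lower bound at all limit states holds uniformly at all dimension states along `ω`, at some
positive cut. -/
theorem eventually_ge (hω : (ω : Filter ℕ) ≤ cofinite) {f : ℕ →ᵇ N} (hf : ∀ n, IsPos (f n))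
    {c ε : ℝ} (hε : 0 < ε) (h : ∀ D : ℕ → DimState N, c ≤ limState D (mk f : DQ N ω)) :
    ∃ s : ℝ, 0 < s ∧ ∀ᶠ n in (ω : Filter ℕ), ∀ D : DimState N, c - ε ≤ D (cut s (f n)) := by
  classical
  rcases lt_or_ge (c - ε) 0 with hc | hc
  · exact ⟨1, one_pos, Eventually.of_forall fun n D => hc.le.trans (val_nonneg D (cut_nonneg _ _))⟩
  by_contra hcon
  push Not at hcon
  let P : ℕ → ℕ → Prop := fun n k => ∃ D : DimState N, D (cut (1 / ((k : ℝ) + 1)) (f n)) < c - ε
  have hP : ∀ k, ∀ᶠ n in (ω : Filter ℕ), P n k ∧ k ≤ n := fun k => by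
    refine Eventually.and ?_ (hω ((Nat.cofinite_eq_atTop).symm ▸ eventually_ge_atTop k))
    exact hcon _ (by positivity)
  have : Nonempty (DimState N) := by
    obtain ⟨n, ⟨D, _⟩, _⟩ := (hP 0).exists
    exact ⟨D⟩
  let D : ℕ → DimState N := fun n => Classical.epsilon fun D =>
    D (cut (1 / ((Nat.findGreatest (P n) n : ℝ) + 1)) (f n)) < c - ε
  have hle := limState_le (ω := ω) D hf hc fun t ht => by
    obtain ⟨k, hk⟩ := exists_nat_gt (1 / t)
    filter_upwards [hP k] with n hn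
    have hK : k ≤ Nat.findGreatest (P n) n := Nat.le_findGreatest hn.2 hn.1
    refine le_trans (val_cut_antitone _ (sa_of_isPos (hf n)) ?_)
      (Classical.epsilon_spec (Nat.findGreatest_spec hn.2 hn.1)).le
    have hKr : (k : ℝ) ≤ (Nat.findGreatest (P n) n : ℝ) := by exact_mod_cast hK
    rw [div_le_iff₀ (by positivity)]
    rw [div_lt_iff₀ ht] at hk
    nlinarith
  linarith [h D]

end

end Vale.Agent.P095.Elem.DQ
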