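import Vale.Agent.P095.Elem.HalfDefs
import Vale.Agent.P095.Elem.HalfCmp
import Vale.Agent.P095.Elem.QuotState

/-!
# P095, amenable groups: from the functional to cuts, and out of the quotient

A contraction which is centred and squares to one up to a small functional error nearly halves the
state; nearly halving elements of the quotient at all limit states descend.
-/

namespace Vale.Agent.P095.Elem

open Filter BoundedContinuousFunction
open scoped CStarAlgebra BoundedContinuousFunction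

noncomputable section

namespace Half

section Scalar

variable {B : Type*} [CStarAlgebra B] (D : DimState B) {x : B}

/-- The defect and the two high cuts cover everything. -/
theorem one_le_cover (hx : IsSelfAdjoint x) (hn : ‖x‖ ≤ 1) {ρ t : ℝ} (ht : 0 ≤ t)
    (h : t * t < 1 - ρ) :
    1 ≤ D (cut t x) + D (cut t (-x)) + D (cut ρ (1 - x * x)) := by
  let := CStarAlgebra.spectralOrder B
  have := CStarAlgebra.spectralOrderedRing B
  have e1 : cut ρ (1 - x * x) = cfc (fun u : ℝ => max (1 - u * u - ρ) 0) x := by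
    rw [cut, show 1 - x * x = cfc (fun u : ℝ => 1 - u * u) x by
        rw [cfc_sub .., cfc_const_one ℝ x, cfc_mul .., cfc_id' ℝ x],
      ← cfc_comp' (fun u : ℝ => max (u - ρ) 0) (fun u : ℝ => 1 - u * u) x]
  rw [e1, cut_neg_eq hx, cut]
  have h12 : D (cfc (fun u : ℝ => max (u - t) 0 + max (-u - t) 0) x) ≤
      D (cfc (fun u : ℝ => max (u - t) 0) x) + D (cfc (fun u : ℝ => max (-u - t) 0) x) := by
    rw [cfc_add x (fun u : ℝ => max (u - t) 0) (fun u : ℝ => max (-u - t) 0)]
    exact DQ.val_add_le D (cfc_nonneg fun _ _ => le_max_right _ _)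
      (cfc_nonneg fun _ _ => le_max_right _ _)
  refine le_trans ?_ (add_le_add h12 le_rfl)
  refine le_trans ?_ (DQ.val_add_le D (cfc_nonneg fun _ _ => add_nonneg (le_max_right _ _)
    (le_max_right _ _)) (cfc_nonneg fun _ _ => le_max_right _ _))
  rw [← cfc_add x (fun u : ℝ => max (u - t) 0 + max (-u - t) 0)
    (fun u : ℝ => max (1 - u * u - ρ) 0)]
  have h1 : D (cfc (fun _ : ℝ => (1 : ℝ)) x) = 1 := by rw [cfc_const_one ℝ x]; exact D.one
  refine h1.symm.le.trans (val_cfc_le D hx continuous_const (by fun_prop) (fun _ => zero_le_one)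
    (fun u => by positivity) fun u hu _ => ?_)
  have hu1 : |u| ≤ 1 := hu.trans hn
  rcases le_or_gt |u| t with hut | hut
  · have h2 : u * u < 1 - ρ := by nlinarith [abs_nonneg u, abs_mul_abs_self u]
    linarith [le_max_right (u - t) 0, le_max_right (-u - t) 0, le_max_left (1 - u * u - ρ) 0]
  · rcases le_or_gt 0 u with h0 | h0
    · rw [abs_of_nonneg h0] at hut
      linarith [le_max_left (u - t) 0, le_max_right (-u - t) 0, le_max_right (1 - u * u - ρ) 0]
    · rw [abs_of_neg h0] at hut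
      linarith [le_max_right (u - t) 0, le_max_left (-u - t) 0, le_max_right (1 - u * u - ρ) 0]

/-- Centred and nearly of square one: both high cuts are nearly one half. -/
theorem half_of_tau (hx : IsSelfAdjoint x) (hn : ‖x‖ ≤ 1) {ρ t a : ℝ} (ht : 0 < t) (ht1 : t ≤ 1)
    (h : t * t < 1 - ρ) (hdef : D (cut ρ (1 - x * x)) ≤ a) (hmean : tau D x = 0) :
    t / (1 + t) - a ≤ D (cut t x) ∧ t / (1 + t) - a ≤ D (cut t (-x)) := by
  have hpn : ∀ y : B, IsSelfAdjoint y → ‖y‖ ≤ 1 → ‖ppart y‖ ≤ 1 := fun y hy hyn => by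
    refine norm_cfc_le zero_le_one fun u hu => ?_
    have h1 : |u| ≤ ‖y‖ := by
      let := CStarAlgebra.spectralOrder B
      have := CStarAlgebra.spectralOrderedRing B
      refine abs_le.2 ⟨(algebraMap_le_iff_le_spectrum (r := -‖y‖) hy).1 ?_ u hu,
        (le_algebraMap_iff_spectrum_le hy).1 hy.le_algebraMap_norm_self u hu⟩
      rw [map_neg]
      exact hy.neg_algebraMap_norm_le_self
    rw [Real.norm_eq_abs, abs_of_nonneg (le_max_right _ _)]
    exact max_le (by linarith [le_abs_self u]) zero_le_one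
  have hbd : ∀ y : B, IsSelfAdjoint y → ‖y‖ ≤ 1 →
      t * D (cut t y) ≤ tauP D (ppart y) ∧ tauP D (ppart y) ≤ D (ppart y) := fun y hy hyn => by
    have hp : IsPos (ppart y) := Spec.cut_isPos 0 y
    rw [← tau_eq_tauP D hp]
    constructor
    · refine le_trans (le_of_eq ?_) (mul_val_cut_le_tau D hp ht.le)
      rw [ppart, DQ.cut_cut hy ht.le, zero_add]
    · refine (tau_le_add_mul_val_cut D hp le_rfl).trans ?_
      rw [zero_add]
      refine (mul_le_of_le_one_left (Spec.val_nonneg D (Spec.cut_isPos _ _)) (hpn y hy hyn)).trans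
        (le_of_eq ?_)
      rw [ppart, DQ.cut_cut hy le_rfl, add_zero]
  obtain ⟨hp1, hp2⟩ := hbd x hx hn
  obtain ⟨hn1, hn2⟩ := hbd (-x) hx.neg (by rwa [norm_neg])
  have heq : tauP D (ppart x) = tauP D (ppart (-x)) := by
    have : tauP D (ppart x) - tauP D (ppart (-x)) = 0 := hmean
    linarith
  have hs1 : D (ppart x) + D (ppart (-x)) ≤ 1 := val_cut_add_le_one D hx le_rfl le_rfl
  have hA : D (cut t x) ≤ D (ppart x) := val_cut_anti D hx ht.le
  have hB : D (cut t (-x)) ≤ D (ppart (-x)) := val_cut_anti D hx.neg ht.le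
  have hc := one_le_cover D hx hn ht.le h
  have e : ∀ X Y : ℝ, X * t + X ≤ 1 → 1 ≤ Y + X + a → t / (1 + t) - a ≤ Y := fun X Y h1 h2 => by
    have h3 : X ≤ 1 / (1 + t) := by rw [le_div_iff₀ (by linarith)]; linarith
    have h4 : t / (1 + t) + 1 / (1 + t) = 1 := by rw [← add_div, add_comm t, div_self (by linarith)]
    linarith
  constructor
  · exact e (D (cut t (-x))) _ (by linarith) (by linarith)
  · exact e (D (cut t x)) _ (by linarith) (by linarith)

end Scalar

section Descend

variable {N : Type*} [CStarAlgebra N] {G : Type*} [Group G] {β : G →* (N ≃⋆ₐ[ℂ] N)}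
  {ω : Ultrafilter ℕ}

/-- A nearly halving element of the quotient, tested at the limit states only, gives one in the
algebra. -/
theorem descend (hω : (ω : Filter ℕ) ≤ cofinite) {W : Finset G} {δ δ' : ℝ} (hδ : δ < δ')
    {x : DQ N ω} (hx : IsSelfAdjoint x) (hn : ‖x‖ ≤ 1)
    (hp : ∀ D : ℕ → DimState N, 1 / 2 - δ ≤ DQ.limState D (cut (1 - δ) x))
    (hm : ∀ D : ℕ → DimState N, 1 / 2 - δ ≤ DQ.limState D (cut (1 - δ) (-x)))
    (hmove : ∀ g ∈ W, ∀ D : ℕ → DimState N,
      DQ.limState D (cut δ (star (DQ.act β g x - x) * (DQ.act β g x - x))) ≤ δ) :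
    ∃ y : N, NearHalf β W δ' y := by
  obtain ⟨f, rfl, hf⟩ := DQ.exists_lift_saC hx hn
  have lower : ∀ (f : ℕ →ᵇ N), (∀ n, IsSelfAdjoint (f n)) →
      (∀ D : ℕ → DimState N, 1 / 2 - δ ≤ DQ.limState D (cut (1 - δ) (DQ.mk f : DQ N ω))) →
      ∀ᶠ n in (ω : Filter ℕ), ∀ D : DimState N, 1 / 2 - δ' ≤ D (cut (1 - δ') (f n)) := by
    intro f hf h
    obtain ⟨g, hg, hgx⟩ := DQ.mk_cut (ω := ω) hf (1 - δ)
    obtain ⟨s, hs, hev⟩ := DQ.eventually_ge hω (f := g)
      (fun n => by rw [hg]; exact Spec.cut_isPos _ _) (sub_pos.2 hδ) (c := 1 / 2 - δ)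
      fun D => by rw [hgx]; exact h D
    filter_upwards [hev] with n hn D
    have h1 := hn D
    rw [hg, DQ.cut_cut (hf n) hs.le] at h1
    linarith [val_cut_anti D (hf n) (show 1 - δ' ≤ 1 - δ + s by linarith)]
  have h1 := lower f (fun n => (hf n).1) hp
  have h2 := lower (-f) (fun n => (hf n).1.neg) fun D => by rw [map_neg]; exact hm D
  have h3 : ∀ᶠ n in (ω : Filter ℕ), ∀ g : W, ∀ D : DimState N,
      D (cut δ' (star (β g (f n) - f n) * (β g (f n) - f n))) ≤ δ' := by
    refine eventually_all.2 fun g => ?_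
    let d : ℕ →ᵇ N := DQ.seqMap (fun _ => (β g : N →⋆ₐ[ℂ] N)) f - f
    have hd : (DQ.mk (star d * d) : DQ N ω) =
        star (DQ.act β g (DQ.mk f) - DQ.mk f) * (DQ.act β g (DQ.mk f) - DQ.mk f) := by
      rw [map_mul, map_star, map_sub, DQ.act_mk]
    have := DQ.eventually_le (ω := ω) (f := star d * d) (fun n => ⟨d n, rfl⟩) hδ (sub_pos.2 hδ)
      (c := δ) fun D => by rw [hd]; exact hmove g g.2 D
    filter_upwards [this] with n hn D
    have h := hn D
    rw [add_sub_cancel] at h
    simpa [d] using h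
  obtain ⟨n, ⟨hn1, hn2⟩, hn3⟩ := ((h1.and h2).and h3).exists
  exact ⟨f n, (hf n).1, (hf n).2, hn1, fun D => by simpa using hn2 D,
    fun g hg => hn3 ⟨g, hg⟩⟩

/-- Nearly halving elements at all states of the quotient descend. -/
theorem almostHalf_of_quot (hω : (ω : Filter ℕ) ≤ cofinite)
    (h : AlmostHalfStatement (DQ.act (ω := ω) β)) : AlmostHalfStatement β := by
  intro W δ hδ
  obtain ⟨x, hx⟩ := h W (δ / 2) (half_pos hδ)
  exact descend hω (half_lt_self hδ) hx.sa hx.contr (fun D => hx.pos_ge _) (fun D => hx.neg_ge _)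
    fun g hg D => hx.move g hg _

end Descend

end Half

end

end Vale.Agent.P095.Elem
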