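import Vale.Agent.P095.Elem.LeafPair
import Vale.Agent.P095.Elem.HalfPool
import Vale.Agent.P095.Elem.QuotState

/-!
# P095, amenable groups: pairs descend from the quotient

Nearly anticommuting, nearly invariant pairs of the quotient, tested at the limit states only, give
such pairs in the algebra.
-/

namespace Vale.Agent.P095.Elem.Leaf

open Filter BoundedContinuousFunction
open scoped CStarAlgebra BoundedContinuousFunction

noncomputable section

variable {G : Type*} [Group G] {N : Type*} [CStarAlgebra N]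

/-- The conditions of a pair at one state. -/
structure PairAt (β : G →* (N ≃⋆ₐ[ℂ] N)) (W : Finset G) (δ : ℝ) (x P : N) (D : DimState N) :
    Prop where
  sq_x : D (cut δ (1 - x * x)) ≤ δ
  sq_P : D (cut δ (1 - P * P)) ≤ δ
  anti : D (cut δ (star (x * P + P * x) * (x * P + P * x))) ≤ δ
  inv_x : ∀ g ∈ W, D (cut δ (star (β g x - x) * (β g x - x))) ≤ δ
  inv_P : ∀ g ∈ W, D (cut δ (star (β g P - P) * (β g P - P))) ≤ δ

variable {β : G →* (N ≃⋆ₐ[ℂ] N)} {ω : Ultrafilter ℕ}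

/-- A pair of the quotient, tested at the limit states only, gives one in the algebra. -/
theorem descend {W : Finset G} {δ δ' : ℝ} (hδ : δ < δ') {x P : DQ N ω} (hx : IsSelfAdjoint x)
    (hP : IsSelfAdjoint P) (hxn : ‖x‖ ≤ 1) (hPn : ‖P‖ ≤ 1)
    (h : ∀ D : ℕ → DimState N, PairAt (DQ.act β) W δ x P (DQ.limState D)) :
    ∃ y Q : N, NearPair β W δ' y Q := by
  obtain ⟨f, rfl, hf⟩ := DQ.exists_lift_saC hx hxn
  obtain ⟨k, rfl, hk⟩ := DQ.exists_lift_saC hP hPn
  have up : ∀ (a : ℕ →ᵇ N), (∀ n, IsPos (a n)) →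
      (∀ D : ℕ → DimState N, DQ.limState D (cut δ (DQ.mk a : DQ N ω)) ≤ δ) →
      ∀ᶠ n in (ω : Filter ℕ), ∀ D : DimState N, D (cut δ' (a n)) ≤ δ' := by
    intro a ha hD
    filter_upwards [DQ.eventually_le ha hδ (sub_pos.2 hδ) hD] with n hn D
    simpa using hn D
  have sq : ∀ (a : ℕ →ᵇ N), (∀ n, IsSelfAdjoint (a n) ∧ ‖a n‖ ≤ 1) →
      (∀ D : ℕ → DimState N,
        DQ.limState D (cut δ (1 - DQ.mk a * DQ.mk a : DQ N ω)) ≤ δ) →
      ∀ᶠ n in (ω : Filter ℕ), ∀ D : DimState N, D (cut δ' (1 - a n * a n)) ≤ δ' := fun a ha hD =>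
    up (1 - a * a) (fun n => Half.isPos_one_sub_sq (ha n).1 (ha n).2)
      fun D => by rw [map_sub, map_one, map_mul]; exact hD D
  have mov : ∀ (a : ℕ →ᵇ N), (∀ g ∈ W, ∀ D : ℕ → DimState N, DQ.limState D
      (cut δ (star (DQ.act β g (DQ.mk a) - DQ.mk a : DQ N ω) *
        (DQ.act β g (DQ.mk a) - DQ.mk a))) ≤ δ) →
      ∀ᶠ n in (ω : Filter ℕ), ∀ g : W, ∀ D : DimState N,
        D (cut δ' (star (β g (a n) - a n) * (β g (a n) - a n))) ≤ δ' := by
    intro a hD
    refine eventually_all.2 fun g => ?_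
    let d : ℕ →ᵇ N := DQ.seqMap (fun _ => (β g : N →⋆ₐ[ℂ] N)) a - a
    filter_upwards [up (star d * d) (fun n => ⟨d n, rfl⟩) fun D => by
      rw [map_mul, map_star, map_sub, ← DQ.act_mk]; exact hD g g.2 D] with n hn D
    simpa [d] using hn D
  have anti : ∀ᶠ n in (ω : Filter ℕ), ∀ D : DimState N,
      D (cut δ' (star (f n * k n + k n * f n) * (f n * k n + k n * f n))) ≤ δ' :=
    up (star (f * k + k * f) * (f * k + k * f)) (fun n => ⟨_, rfl⟩) fun D => by
      simp only [map_mul, map_add, map_star]; exact (h D).anti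
  obtain ⟨n, ⟨⟨⟨h1, h2⟩, h3⟩, h4⟩, h5⟩ := (((((sq f hf fun D => (h D).sq_x).and
    (sq k hk fun D => (h D).sq_P)).and anti).and
    (mov f fun g hg D => (h D).inv_x g hg)).and (mov k fun g hg D => (h D).inv_P g hg)).exists
  exact ⟨f n, k n, (hf n).1, (hk n).1, (hf n).2, (hk n).2, h1, h2, h3,
    fun g hg => h4 ⟨g, hg⟩, fun g hg => h5 ⟨g, hg⟩⟩

/-- Pairs in the quotient give pairs in the algebra. -/
theorem pairStatement_of_quot (h : PairStatement (DQ.act (ω := ω) β)) : PairStatement β := by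
  intro W δ hδ
  obtain ⟨x, P, hp⟩ := h W (δ / 2) (half_pos hδ)
  exact descend (half_lt_self hδ) hp.sa_x hp.sa_P hp.contr_x hp.contr_P fun D =>
    ⟨hp.sq_x _, hp.sq_P _, hp.anti _, fun g hg => hp.inv_x g hg _, fun g hg => hp.inv_P g hg _⟩

end

end Vale.Agent.P095.Elem.Leaf
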