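import Vale.Agent.P095.Elem.LeafTags
import Vale.Agent.P095.Elem.LeafDescend
import Vale.Agent.P095.Elem.HalfFields
import Vale.Agent.P095.Elem.QuotTau

/-!
# P095, amenable groups: an invariant symmetry anticommuting with the martingale

Each tagged pool is turned over by the product of its flips. The product over all steps is an
exact symmetry which is fixed by the prescribed finite set and anticommutes with the martingale.
-/

namespace Vale.Agent.P095.Elem.Leaf

open Filter BoundedContinuousFunction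
open Vale.Agent.P095.Elem.Field (pprod pprod_succ pprod_mul commute_pprod star_pprod norm_symm_le)
open scoped CStarAlgebra BoundedContinuousFunction

noncomputable section

universe u v

section algebra

/-- Conjugation by a symmetry. -/
def conjHom {R : Type*} [CStarAlgebra R] (V : R) (hs : IsSelfAdjoint V) (h2 : V * V = 1) :
    R →⋆ₐ[ℂ] R where
  toFun x := V * x * V
  map_one' := by rw [mul_one, h2]
  map_mul' x z := by
    rw [show V * x * V * (V * z * V) = V * x * (V * V) * z * V by noncomm_ring, h2]; noncomm_ring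
  map_zero' := by simp
  map_add' x z := by noncomm_ring
  commutes' c := by rw [← Algebra.commutes, mul_assoc, h2, mul_one]
  map_star' x := by simp [star_mul, hs.star_eq, mul_assoc]

/-- Flipping the selected fields in every step flips the martingale. -/
theorem mart_flip_lt {C : Type*} [CommCStarAlgebra C] {B : Type*} (p : Polynomial ℝ) (I n : ℕ)
    (η : ℝ) {y y' : ℕ → B → C} (K : ℕ → B → B → C) {e : ℕ → Finset ℕ → C} (F : Finset B) (k : ℕ)
    (h : ∀ j < k, ∀ X ∈ (Machine.pool n j).powersetCard 1, ∀ r ∈ Machine.pool n j, ∀ b,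
      e j X * y' r b = if r ∈ X then -(e j X * y r b) else e j X * y r b) :
    Machine.mart p I 1 n η y' K e F k = -Machine.mart p I 1 n η y K e F k := by
  induction k with
  | zero => simp [Machine.mart]
  | succ k ih =>
    simp only [Machine.mart, ih fun j hj => h j (hj.trans k.lt_succ_self),
      Machine.fvec_flip p I K (Machine.pool n k) F (h k k.lt_succ_self), smul_neg]
    ring

end algebra

section flips

variable {B : Type*} [CStarAlgebra B] {ι : Type*} {ω : Ultrafilter ℕ} (S : Field.Setup B ι ω)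

theorem flip_commute_flip {i j : ℕ} (h : i ≠ j) (a b : ι) :
    Commute (S.flip i a) (S.flip j b) :=
  DQ.commute_mk (Eventually.of_forall fun n => commute_pprod n _ fun _ _ =>
    (commute_pprod n _ fun _ _ =>
      (S.pool.comm _ _ (Field.Setup.pair_ne (Or.inl h.symm)) b a).2.2).symm)

theorem flip_commute_K (i : ℕ) {a b c : ι} (hb : ∀ r, S.u r b = S.u r a)
    (hc : ∀ r, S.u r c = S.u r a) : Commute (S.flip i a) (S.K i b c : DQ B ω) := by
  have key : Commute (S.flip i a) (DQ.mk (S.rseq i b c)) := by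
    refine DQ.commute_mk (Eventually.of_forall fun n => ?_)
    rw [S.rseq_apply]
    refine (Commute.sum_right _ _ _ fun t _ => (commute_pprod n (fun r => S.pu i r a)
      fun r _ => ?_).symm).smul_right _
    rcases eq_or_ne t r with rfl | hne
    · have anti : ∀ d, (∀ r, S.u r d = S.u r a) →
          S.pP i t d * S.pu i t a = -(S.pu i t a * S.pP i t d) := fun d hd => by
        have := S.pool.anti (Nat.pair i t) d
        rw [hd] at this
        exact this
      have two : ∀ d e, (∀ r, S.u r d = S.u r a) → (∀ r, S.u r e = S.u r a) →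
          Commute (S.pP i t d * S.pP i t e) (S.pu i t a) := fun d e hd he => by
        rw [Commute, SemiconjBy, mul_assoc, anti e he, mul_neg, ← mul_assoc, anti d hd, neg_mul,
          neg_neg, mul_assoc]
      exact (two b c hb hc).add_left (two c b hc hb)
    · have cu : ∀ d, Commute (S.pP i t d) (S.pu i r a) := fun d =>
        (S.pool.comm _ _ (Field.Setup.pair_ne (Or.inr hne)) d a).2.1
      exact ((cu b).mul_left (cu c)).add_left ((cu c).mul_left (cu b))
  rw [S.coe_K, DQ.mk_cfc (S.rseq_sa i b c) Field.Setup.continuous_fieldG]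
  exact (key.symm.cfc_real _).symm

end flips

namespace Split

variable {G : Type v} [Group G] {N : Type u} [CStarAlgebra N] {ω : Ultrafilter ℕ}
  (L : Split G N ω)

/-- The tag of the pool `r`. -/
def own (D r : ℕ) : L.setup.C := L.tag D (r / 2 ^ D) r

/-- The flip of the pool `r` under its tag. -/
def fac (D r : ℕ) : DQ N ω :=
  1 - (L.own D r : DQ N ω) + (L.own D r : DQ N ω) * L.setup.flip r 1

/-- The product of the tagged flips of the first `M` pools. -/
def sym0 (D M : ℕ) : DQ N ω := pprod M (L.fac D)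

theorem mem_pool_own (D r : ℕ) : r ∈ Machine.pool (2 ^ D) (r / 2 ^ D) := by
  rw [Machine.pool, Finset.mem_Ico, add_mul, one_mul]
  exact ⟨Nat.div_mul_le_self r _, Nat.lt_div_mul_add (Nat.two_pow_pos D)⟩

theorem tag_alg (D k r : ℕ) (J : Set ℕ) : L.tag D k r ∈ L.setup.alg J :=
  prod_mem fun _ _ => L.half_mem (L.setup.inc_mem _ _) _

theorem flip_tag (D k r i : ℕ) (a : G) :
    Commute (L.setup.flip i a) (L.tag D k r : DQ N ω) :=
  L.setup.flip_commute_of_mem (Set.notMem_empty i) (L.tag_alg D k r ∅) a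

theorem fac_sym (D r : ℕ) : IsSelfAdjoint (L.fac D r) ∧ L.fac D r * L.fac D r = 1 := by
  have ee : (L.own D r : DQ N ω) * L.own D r = L.own D r := by
    have := L.tag_mul (mem_pool_own D r) (mem_pool_own D r)
    rw [if_pos rfl] at this
    exact congrArg Subtype.val this
  have hc := L.flip_tag D (r / 2 ^ D) r r 1
  have es : IsSelfAdjoint (L.own D r : DQ N ω) := L.setup.coe_sa (L.tag_sa _ _ _)
  refine ⟨((IsSelfAdjoint.one _).sub es).add
    (Field.isSelfAdjoint_mul es (L.setup.flip_sa r 1) hc.symm), ?_⟩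
  rw [fac]
  set e := (L.own D r : DQ N ω)
  set E := L.setup.flip r 1
  have hEe : E * e = e * E := hc.eq
  rw [show (1 - e + e * E) * (1 - e + e * E) = 1 - e - e + e * e + (e * E - e * e * E) +
    (e * E - e * (E * e)) + e * (E * e) * E by noncomm_ring, hEe, ← mul_assoc, ee,
    mul_assoc e E E, L.setup.flip_sq]
  noncomm_ring

theorem fac_commute_fac (D : ℕ) {r s : ℕ} (h : r ≠ s) : Commute (L.fac D r) (L.fac D s) := by
  have ee : Commute (L.own D r : DQ N ω) (L.own D s : DQ N ω) := L.setup.commute_coe _ _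
  have eF : Commute (L.own D r : DQ N ω) (L.fac D s) :=
    ((Commute.one_right _).sub_right ee).add_right (ee.mul_right (L.flip_tag D _ r s 1).symm)
  have EF : Commute (L.setup.flip r 1) (L.fac D s) :=
    ((Commute.one_right _).sub_right (L.flip_tag D _ s r 1)).add_right
      ((L.flip_tag D _ s r 1).mul_right (flip_commute_flip L.setup h 1 1))
  exact ((Commute.one_left _).sub_left eF).add_left (eF.mul_left EF)

theorem sym0_sym (D M : ℕ) : IsSelfAdjoint (L.sym0 D M) ∧ L.sym0 D M * L.sym0 D M = 1 := by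
  refine ⟨?_, ?_⟩
  · rw [sym0, IsSelfAdjoint, star_pprod M _ fun r t _ _ h => L.fac_commute_fac D h]
    congr 1; funext r; exact (L.fac_sym D r).1.star_eq
  · rw [sym0, pprod_mul M _ _ fun r s _ _ h => L.fac_commute_fac D h]
    induction M with
    | zero => rfl
    | succ M ih => rw [pprod_succ, ih, one_mul]; exact (L.fac_sym D M).2

/-- An element of the algebra commuting with the flip commutes with the tagged flip. -/
theorem commute_fac (D r : ℕ) {c : L.setup.C}
    (h : Commute (L.setup.flip r 1) (c : DQ N ω)) : Commute (L.fac D r) (c : DQ N ω) :=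
  ((Commute.one_left _).sub_left (L.setup.commute_coe _ _)).add_left
    ((L.setup.commute_coe _ _).mul_left h)

theorem conj_fixed (D M : ℕ) {c : L.setup.C}
    (h : ∀ r < M, Commute (L.setup.flip r 1) (c : DQ N ω)) :
    L.sym0 D M * c * L.sym0 D M = c := by
  rw [sym0, ← (commute_pprod M (L.fac D) fun r hr => (L.commute_fac D r (h r hr)).symm).eq,
    mul_assoc]
  exact (congrArg _ (L.sym0_sym D M).2).trans (mul_one _)

theorem flip_commute_y {r i : ℕ} (h : r ≠ i) (b : G) :
    Commute (L.setup.flip r 1) (L.setup.y i b : DQ N ω) :=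
  L.setup.flip_commute_of_mem (J := {i}) h (L.setup.y_mem (Set.mem_singleton i) b) 1

/-- The tagged flips turn over the selected fields. -/
theorem conj_y (D : ℕ) {b : G} (hb : ∀ r, L.setup.u r b = L.setup.u r 1) (i : ℕ) :
    ∀ M, L.sym0 D M * (L.setup.y i b : DQ N ω) * L.sym0 D M =
      ((if i < M then L.setup.y i b * (1 - 2 * L.own D i) else L.setup.y i b : L.setup.C) :
        DQ N ω) := by
  intro M
  induction M with
  | zero => simp [sym0, pprod]
  | succ M ih =>
    have hcomm : Commute (L.sym0 D M) (L.fac D M) :=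
      (commute_pprod M _ fun r hr => L.fac_commute_fac D (Nat.ne_of_gt hr)).symm
    rw [sym0, pprod_succ, ← sym0, show L.sym0 D M * L.fac D M * (L.setup.y i b : DQ N ω) *
      (L.sym0 D M * L.fac D M) = L.sym0 D M * (L.fac D M * (L.setup.y i b : DQ N ω)) *
      (L.sym0 D M * L.fac D M) by noncomm_ring, hcomm.eq,
      show L.sym0 D M * (L.fac D M * (L.setup.y i b : DQ N ω)) * (L.fac D M * L.sym0 D M) =
        L.sym0 D M * (L.fac D M * (L.setup.y i b : DQ N ω) * L.fac D M) * L.sym0 D M by
          noncomm_ring]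
    rcases eq_or_ne M i with rfl | hne
    · have key : L.fac D M * (L.setup.y M b : DQ N ω) * L.fac D M =
          ((L.setup.y M b * (1 - 2 * L.own D M) : L.setup.C) : DQ N ω) := by
        have hEy := L.setup.flip_y M (a := 1) hb
        have ee : (L.own D M : DQ N ω) * L.own D M = L.own D M := by
          have := L.tag_mul (mem_pool_own D M) (mem_pool_own D M)
          rw [if_pos rfl] at this
          exact congrArg Subtype.val this
        show (1 - (L.own D M : DQ N ω) + (L.own D M : DQ N ω) * L.setup.flip M 1) *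
          (L.setup.y M b : DQ N ω) * (1 - (L.own D M : DQ N ω) +
          (L.own D M : DQ N ω) * L.setup.flip M 1) =
          (L.setup.y M b : DQ N ω) * ((1 : DQ N ω) - 2 * (L.own D M : DQ N ω))
        set y := (L.setup.y M b : DQ N ω)
        set e := (L.own D M : DQ N ω)
        set E := L.setup.flip M 1
        have hye : y * e = e * y := (L.setup.commute_coe _ _).eq
        have hEe : E * e = e * E := (L.flip_tag D _ M M 1).eq
        rw [show (1 - e + e * E) * y * (1 - e + e * E) = y - y * e - e * y + e * y * e +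
          ((y * e) * E - e * (y * e) * E) + (e * (E * y) - e * (E * y) * e) +
          e * (E * y) * e * E by noncomm_ring, hEy, hye,
          show e * -(y * E) * e = -(e * y * (E * e)) by noncomm_ring, hEe,
          show e * y * e = e * (y * e) by noncomm_ring, hye]
        simp only [mul_neg, neg_mul, ← mul_assoc]
        rw [show e * y * e = e * (y * e) by noncomm_ring, hye, ← mul_assoc, ee,
          mul_assoc (e * y) E E, L.setup.flip_sq, mul_sub, mul_one, two_mul, mul_add, hye]
        noncomm_ring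
      rw [key, if_pos M.lt_succ_self, L.conj_fixed D M]
      intro r hr
      rw [MulMemClass.coe_mul]
      refine (L.flip_commute_y (Nat.ne_of_lt hr) b).mul_right ?_
      show Commute _ ((1 : DQ N ω) - 2 * (L.own D M : DQ N ω))
      rw [two_mul]
      exact (Commute.one_right _).sub_right
        ((L.flip_tag D _ M r 1).add_right (L.flip_tag D _ M r 1))
    · have hfix : L.fac D M * (L.setup.y i b : DQ N ω) * L.fac D M = L.setup.y i b := by
        rw [(L.commute_fac D M (L.flip_commute_y hne b)).eq, mul_assoc, (L.fac_sym D M).2,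
          mul_one]
      rw [hfix, ih]
      have : i < M ↔ i < M + 1 := by omega
      simp only [this]


variable {β : G →* (N ≃⋆ₐ[ℂ] N)}

theorem act_y (hP : ∀ g r a, β g (L.P r a) = L.P r (g * a)) (g : G) (i : ℕ) (a : G) :
    DQ.act β g (L.setup.y i a : DQ N ω) = (L.setup.y i (g * a) : DQ N ω) :=
  (L.setup.equivariant β g (g * ·) (fun r c => hP g (2 * r) c) i a a).1

theorem act_sym (hu : ∀ g r a, β g (L.u r a) = L.u r (g * a)) {g : G}
    (hg : ∀ r, L.u r g = L.u r 1) (k d : ℕ) : DQ.act β g (L.sym k d) = L.sym k d := by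
  rw [sym, cst, DQ.act_mk]
  congr 1; ext n
  show β g (L.u (2 * Nat.pair k d + 1) 1) = L.u (2 * Nat.pair k d + 1) 1
  rw [hu, mul_one, hg]

theorem act_tag (hu : ∀ g r a, β g (L.u r a) = L.u r (g * a)) {g : G}
    (hg : ∀ r, L.u r g = L.u r 1) (D k r : ℕ) :
    DQ.act β g (L.tag D k r : DQ N ω) = (L.tag D k r : DQ N ω) := by
  refine Half.prod_hom_congr (((DQ.act (ω := ω) β g) : DQ N ω →⋆ₐ[ℂ] DQ N ω).comp
    L.setup.C.subtype) L.setup.C.subtype _ fun d _ => ?_
  show DQ.act β g (L.half _ k d : DQ N ω) = (L.half _ k d : DQ N ω)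
  have hT : DQ.act β g (L.T k d : DQ N ω) = (L.T k d : DQ N ω) := L.act_sym hu hg k d
  generalize (r - k * 2 ^ D).testBit d = b
  cases b
  · show DQ.act β g ((1 / 2 : ℂ) • (1 + -(L.T k d : DQ N ω))) = _
    rw [map_smul, map_add, map_one, map_neg, hT]; rfl
  · show DQ.act β g ((1 / 2 : ℂ) • (1 + (L.T k d : DQ N ω))) = _
    rw [map_smul, map_add, map_one, hT]; rfl

theorem act_sym0 (hu : ∀ g r a, β g (L.u r a) = L.u r (g * a)) {g : G}
    (hg : ∀ r, L.u r g = L.u r 1) (D M : ℕ) : DQ.act β g (L.sym0 D M) = L.sym0 D M := by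
  have hf : ∀ r, DQ.act β g (L.setup.flip r 1) = L.setup.flip r 1 := by
    intro r
    rw [Field.Setup.flip, DQ.act_mk]
    congr 1; ext n
    show β g (pprod n fun t => L.setup.pu r t 1) = pprod n fun t => L.setup.pu r t 1
    induction n with
    | zero => exact map_one _
    | succ n ih =>
      rw [pprod_succ, map_mul, ih]
      exact congrArg _ ((hu g (2 * Nat.pair r n) 1).trans (by rw [mul_one, hg]; rfl))
  induction M with
  | zero => exact map_one _
  | succ M ih =>
    rw [sym0, pprod_succ, map_mul, ← sym0, ih, fac, map_add, map_sub, map_one, map_mul,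
      show L.own D M = L.tag D (M / 2 ^ D) M from rfl, L.act_tag hu hg, hf]

end Split

open Split in
/-- Pairs at all limit states, once the flips are fixed by a large enough finite set. -/
theorem exists_pair {G : Type v} [Group G] {N : Type u} [CStarAlgebra N] (hF : Folner G)
    (β : G →* (N ≃⋆ₐ[ℂ] N)) (ω : Ultrafilter ℕ) (W : Finset G) {δ : ℝ} (hδ : 0 < δ) :
    ∃ W₀ : Finset G, ∀ L : Split G N ω, (∀ g r a, β g (L.P r a) = L.P r (g * a)) →
      (∀ g r a, β g (L.u r a) = L.u r (g * a)) → (∀ a ∈ W₀, ∀ r, L.u r a = L.u r 1) →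
      ∃ x P : DQ N ω, IsSelfAdjoint x ∧ IsSelfAdjoint P ∧ ‖x‖ ≤ 1 ∧ ‖P‖ ≤ 1 ∧
        ∀ D : ℕ → DimState N, PairAt (DQ.act β) W δ x P (DQ.limState D) := by
  classical
  obtain ⟨p, I, E, n₀, -, -, hn⟩ := Machine.exists_machine.{u, v} hF W (δ * δ) (by positivity)
    (√fieldVar)⁻¹ (m := 1) le_rfl
  obtain ⟨Ns, η, -, hmach⟩ := hn (2 ^ n₀) Nat.lt_two_pow_self.le
  refine ⟨W ∪ E, fun L hP hu hinv => ?_⟩
  rcases isEmpty_or_nonempty (DimState N) with hD | ⟨⟨D₀⟩⟩
  · exact ⟨0, 0, IsSelfAdjoint.zero _, IsSelfAdjoint.zero _, by simp, by simp,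
      fun D => (hD.false (D 0)).elim⟩
  set h := Machine.mart p I 1 (2 ^ n₀) η L.setup.y L.setup.K (L.tags n₀) E Ns with hh
  have hkey := fun D : ℕ → DimState N =>
    hmach L.setup.C (L.setup.tau (DQ.limState D)) L.setup.y L.setup.K L.setup.alg L.low
      (L.tags n₀)
      (L.setup.fieldLaw_of_lim (DQ.limState D) D fun f hf => DQ.tau_limState D hf)
      (L.isTags (DQ.limState D) n₀)
  obtain ⟨hsa, hnorm, -⟩ := hkey fun _ => D₀
  let inc : L.setup.C →⋆ₐ[ℂ] DQ N ω := L.setup.C.subtype
  have hXs : IsSelfAdjoint (inc h) := hsa.map inc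
  have hXn : ‖inc h‖ ≤ 1 := hnorm
  obtain ⟨hP0s, hP02⟩ := L.sym0_sym n₀ (Ns * 2 ^ n₀)
  set P0 := L.sym0 n₀ (Ns * 2 ^ n₀) with hP0
  have hsetu : ∀ b ∈ E, ∀ r, L.setup.u r b = L.setup.u r 1 := fun b hb r =>
    hinv b (Finset.mem_union_right _ hb) (2 * r)
  -- the martingale changes sign
  have hanti : inc h * P0 + P0 * inc h = 0 := by
    let φ := (conjHom P0 hP0s hP02).comp inc
    let y0 : ℕ → E → L.setup.C := fun i a => L.setup.y i a
    let y1 : ℕ → E → L.setup.C := fun i a =>
      if i < Ns * 2 ^ n₀ then L.setup.y i a * (1 - 2 * L.own n₀ i) else L.setup.y i a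
    have himg : h = Machine.mart p I 1 (2 ^ n₀) η y0 (fun i a b => L.setup.K i (a : G) b)
        (L.tags n₀) E.attach Ns := by
      rw [hh]
      conv_lhs => rw [← E.attach_image_val]
      exact Machine.mart_image p I 1 (2 ^ n₀) η L.setup.y L.setup.K (L.tags n₀)
        (Subtype.val : E → G) E.attach Subtype.val_injective.injOn Ns
    have h1 : φ h = inc (Machine.mart p I 1 (2 ^ n₀) η y1 (fun i a b => L.setup.K i (a : G) b)
        (L.tags n₀) E.attach Ns) := by
      rw [himg]
      refine Half.mart_hom_congr φ inc p I 1 (2 ^ n₀) η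
        (fun i (a : E) => L.conj_y n₀ (hsetu a a.2) i _) (fun i (a b : E) => L.conj_fixed n₀ _ fun r _ => ?_)
        (fun j X => L.conj_fixed n₀ _ fun r _ => ?_) E.attach Ns
      · rcases eq_or_ne r i with rfl | hne
        · exact flip_commute_K L.setup r (hsetu a a.2) (hsetu b b.2)
        · exact L.setup.flip_commute_of_mem (J := {i}) hne (L.setup.K_mem (Set.mem_singleton i) _ _) 1
      · exact L.setup.flip_commute_of_mem (Set.notMem_empty r)
          (sum_mem fun s _ => L.tag_alg n₀ j s ∅) 1
    have h2 : Machine.mart p I 1 (2 ^ n₀) η y1 (fun i a b => L.setup.K i (a : G) b)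
        (L.tags n₀) E.attach Ns = -h := by
      rw [himg]
      refine mart_flip_lt p I (2 ^ n₀) η _ E.attach Ns fun j hj X hX r hr b => ?_
      obtain ⟨hXP, hXc⟩ := Finset.mem_powersetCard.1 hX
      obtain ⟨s, rfl⟩ := Finset.card_eq_one.1 hXc
      have hs := Finset.singleton_subset_iff.1 hXP
      obtain ⟨hr1, hr2⟩ := Finset.mem_Ico.1 hr
      have hrj : r / 2 ^ n₀ = j := Nat.div_eq_of_lt_le hr1 hr2
      have hrM : r < Ns * 2 ^ n₀ :=
        hr2.trans_le (Nat.mul_le_mul_right _ hj)
      have hm := L.tag_mul hs hr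
      simp only [Split.tags, Finset.sum_singleton, Finset.mem_singleton, y1, y0, if_pos hrM,
        Split.own, hrj, mul_sub, mul_one]
      have e3 : L.tag n₀ j s * (L.setup.y r b * (2 * L.tag n₀ j r)) =
          2 * (L.setup.y r b * (L.tag n₀ j s * L.tag n₀ j r)) := by ring
      rw [e3, hm]
      by_cases hsr : r = s
      · subst hsr; simp only [if_true]; ring
      · rw [if_neg hsr, if_neg (Ne.symm hsr)]; ring
    have h3 : P0 * inc h * P0 = -inc h := by
      have := h1
      rw [h2, map_neg] at this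
      exact this
    have h4 : P0 * inc h = -(inc h * P0) := by
      calc P0 * inc h = P0 * inc h * P0 * P0 := by rw [mul_assoc (P0 * inc h), hP02, mul_one]
        _ = -(inc h * P0) := by rw [h3, neg_mul]
    rw [h4, add_neg_cancel]
  -- equivariance of the martingale
  have hact : ∀ g ∈ W, DQ.act β g (inc h) =
      inc (Machine.mart p I 1 (2 ^ n₀) η L.setup.y L.setup.K (L.tags n₀)
        (E.image (g * ·)) Ns) := by
    intro g hg
    rw [Machine.mart_image p I 1 (2 ^ n₀) η L.setup.y L.setup.K (L.tags n₀) (g * ·) E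
      (mul_right_injective g).injOn, hh]
    refine Half.mart_hom_congr (((DQ.act (ω := ω) β g) : DQ N ω →⋆ₐ[ℂ] DQ N ω).comp inc) inc
      p I 1 (2 ^ n₀) η (fun i a => L.act_y hP g i a)
      (fun i a b => (L.setup.equivariant β g (g * ·) (fun r c => hP g (2 * r) c) i a b).2)
      (fun j X => ?_) E Ns
    exact Half.sum_hom_congr _ inc X fun r _ =>
      L.act_tag hu (hinv g (Finset.mem_union_left _ hg)) n₀ j r
  refine ⟨inc h, P0, hXs, hP0s, hXn, norm_symm_le hP0s hP02, fun D => ?_⟩
  obtain ⟨-, -, hdef, hmv, -⟩ := hkey D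
  have hre : ∀ c : L.setup.C, IsSelfAdjoint c →
      (L.setup.tau (DQ.limState D) c).re = tau (DQ.limState D) (inc c) := fun c hc => by
    rw [L.setup.tau_sa _ hc, Complex.ofReal_re]; rfl
  have small : ∀ z : DQ N ω, IsPos z → tau (DQ.limState D) z ≤ δ * δ →
      DQ.limState D (cut δ z) ≤ δ := fun z hz h => by
    rw [← mul_le_mul_iff_of_pos_left hδ]
    exact (mul_val_cut_le_tau (DQ.limState D) hz hδ.le).trans h
  have zero : DQ.limState D (cut δ (0 : DQ N ω)) ≤ δ :=
    small 0 ⟨0, by simp⟩ (by rw [tau_zero]; positivity)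
  have hsq : IsSelfAdjoint (1 - h * h) :=
    (IsSelfAdjoint.one _).sub ((hsa.commute_iff hsa).1 (Commute.refl h))
  rw [hre _ hsq, map_sub, map_one, map_mul] at hdef
  refine ⟨small _ (Half.isPos_one_sub_sq hXs hXn) hdef, by rw [hP02, sub_self]; exact zero,
    by rw [hanti, mul_zero]; exact zero, fun g hg => ?_, fun g hg => ?_⟩
  · have h1 := hmv g hg
    set hg' := Machine.mart p I 1 (2 ^ n₀) η L.setup.y L.setup.K (L.tags n₀)
      (E.image (g * ·)) Ns with hg''
    have hgs : IsSelfAdjoint hg' := Subtype.ext (by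
      show star (inc hg') = inc hg'
      rw [← hact g hg]
      exact (hXs.map ((DQ.act (ω := ω) β g) : DQ N ω →⋆ₐ[ℂ] DQ N ω)).star_eq)
    have hd := hgs.sub hsa
    rw [hre _ ((hd.commute_iff hd).1 (Commute.refl _)), map_mul, map_sub, ← hact g hg] at h1
    have hds : IsSelfAdjoint (DQ.act β g (inc h) - inc h) :=
      (hXs.map ((DQ.act (ω := ω) β g) : DQ N ω →⋆ₐ[ℂ] DQ N ω)).sub hXs
    refine small _ ⟨_, rfl⟩ ?_
    rw [hds.star_eq]
    exact h1
  · rw [hP0, L.act_sym0 hu (hinv g (Finset.mem_union_left _ hg)), sub_self, mul_zero]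
    exact zero

end

end Vale.Agent.P095.Elem.Leaf
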