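import Vale.Agent.P095.Elem.Calc
import Vale.Agent.P095.Elem.HalfCmp
import Vale.Agent.P095.Elem.Certify
import Vale.Agent.P095.Elem.Quot

/-!
# P095, amenable groups: small leaves from anticommuting pairs

A pair of contractions `x`, `P` which square to almost one, almost anticommute and are almost fixed,
all in the sense of dimension states, gives an element of square zero which is almost fixed in norm
and covers all but a small set.
-/

namespace Vale.Agent.P095.Elem.Leaf

open VAgent.P101 Filter Topology BoundedContinuousFunction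
open scoped CStarAlgebra BoundedContinuousFunction

noncomputable section

variable {G : Type*} [Group G] {F : Type*} [CStarAlgebra F]

/-- Two self-adjoint contractions which square to one, anticommute and are fixed by `W`, up to `δ`
in all dimension states. -/
structure NearPair (β : G →* (F ≃⋆ₐ[ℂ] F)) (W : Finset G) (δ : ℝ) (x P : F) : Prop where
  sa_x : IsSelfAdjoint x
  sa_P : IsSelfAdjoint P
  contr_x : ‖x‖ ≤ 1
  contr_P : ‖P‖ ≤ 1
  sq_x : ∀ D : DimState F, D (cut δ (1 - x * x)) ≤ δ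
  sq_P : ∀ D : DimState F, D (cut δ (1 - P * P)) ≤ δ
  anti : ∀ D : DimState F, D (cut δ (star (x * P + P * x) * (x * P + P * x))) ≤ δ
  inv_x : ∀ g ∈ W, ∀ D : DimState F, D (cut δ (star (β g x - x) * (β g x - x))) ≤ δ
  inv_P : ∀ g ∈ W, ∀ D : DimState F, D (cut δ (star (β g P - P) * (β g P - P))) ≤ δ

/-- Pairs of every quality. -/
def PairStatement (β : G →* (F ≃⋆ₐ[ℂ] F)) : Prop :=
  ∀ (W : Finset G) (δ : ℝ), 0 < δ → ∃ x P : F, NearPair β W δ x P

/-- The bridge from invariance in all states to invariance in norm. -/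
def BridgeStatement (β : G →* (F ≃⋆ₐ[ℂ] F)) : Prop :=
  ∀ (K : Finset G) (η : ℝ), 0 < η → ∃ W : Finset G, ∀ θ : ℝ, 0 < θ → ∃ δ : ℝ, 0 < δ ∧
    ∀ x : F, ‖x‖ ≤ 1 →
      (∀ g ∈ W, ∀ D : DimState F, D (cut δ (star (β g x - x) * (β g x - x))) ≤ δ) →
      ∃ e : F, IsPosC e ∧ AlmostFixed β K η e ∧ AlmostFixed β K η ((1 - e) * x * (1 - e)) ∧
        (∀ D : DimState F, D (cut θ e) ≤ θ) ∧
        ∀ D : DimState F, D (cut θ (star (x - (1 - e) * x * (1 - e)) *
          (x - (1 - e) * x * (1 - e)))) ≤ θ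

/-- The rate used along the sequences. -/
def rate (j : ℕ) : ℝ := 1 / ((j : ℝ) + 1)

theorem rate_pos (j : ℕ) : 0 < rate j := by unfold rate; positivity

theorem eventually_rate {ε : ℝ} (hε : 0 < ε) : ∀ᶠ j in atTop, rate j ≤ ε :=
  (tendsto_one_div_add_atTop_nhds_zero_nat (𝕜 := ℝ)).eventually (eventually_le_nhds hε)

/-- A bounded sequence from a bound. -/
def seq (f : ℕ → F) (h : ∀ n, ‖f n‖ ≤ 1) : ℕ →ᵇ F := ofNormedAddCommGroupDiscrete f 1 h

theorem seq_apply (f : ℕ → F) (h : ∀ n, ‖f n‖ ≤ 1) (n : ℕ) : seq f h n = f n := rfl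

theorem norm_one_sub_le {e : F} (he : IsPosC e) : ‖1 - e‖ ≤ 1 := by
  let := CStarAlgebra.spectralOrder F
  have := CStarAlgebra.spectralOrderedRing F
  obtain ⟨⟨c, hc⟩, hn⟩ := he
  have h0 : 0 ≤ e := hc ▸ star_mul_self_nonneg c
  have h1 : e ≤ 1 := (CStarAlgebra.norm_le_one_iff_of_nonneg e h0).1 hn
  exact (CStarAlgebra.norm_le_one_iff_of_nonneg _ (sub_nonneg.2 h1)).2 (sub_le_self _ h0)

theorem norm_ppart_le {x : F} (h : ‖x‖ ≤ 1) : ‖ppart x‖ ≤ 1 := by
  rcases subsingleton_or_nontrivial F with hF | hF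
  · simp [Subsingleton.elim (ppart x) 0]
  refine norm_cfc_le zero_le_one fun t ht => ?_
  have h1 := (Real.norm_eq_abs t).symm.le.trans ((spectrum.norm_le_norm_of_mem ht).trans h)
  rw [Real.norm_eq_abs, abs_of_nonneg (le_max_right _ _), sub_zero]
  exact max_le ((le_abs_self t).trans h1) zero_le_one

theorem sa_ppart {x : F} : IsSelfAdjoint (ppart x) := cfc_predicate _ _

theorem ppart_mul_ppart_neg {x : F} (hx : IsSelfAdjoint x) : ppart x * ppart (-x) = 0 := by
  rw [ppart, ppart, cut, cut, ← cfc_comp_neg _ x (by fun_prop) hx,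
    ← cfc_mul _ _ x (by fun_prop) (by fun_prop)]
  refine (cfc_congr (g := fun _ : ℝ => (0 : ℝ)) fun t _ => ?_).trans (cfc_const_zero ℝ x)
  rcases le_total t 0 with h | h <;> simp [h]

/-- In an algebra, anticommuting symmetries give complementary squares. -/
theorem leaf_identity {X P : F} (hX : IsSelfAdjoint X) (hX2 : X * X = 1) (hP : IsSelfAdjoint P)
    (hP2 : P * P = 1) (hXP : X * P + P * X = 0) :
    1 - star (ppart P * X * ppart (-P)) * (ppart P * X * ppart (-P)) -
      ppart P * X * ppart (-P) * star (ppart P * X * ppart (-P)) = 0 := by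
  have hspec : ∀ t ∈ spectrum ℝ P, t = 1 ∨ t = -1 := by
    intro t ht
    have h := spectrum.pow_mem_pow P 2 ht
    rw [sq P, hP2] at h
    rcases subsingleton_or_nontrivial F with hF | hF
    · simp [spectrum.of_subsingleton] at ht
    rw [spectrum.one_eq, Set.mem_singleton_iff, sq] at h
    exact mul_self_eq_one_iff.1 h
  have hhalf : ∀ Q : F, IsSelfAdjoint Q → (∀ t ∈ spectrum ℝ Q, t = 1 ∨ t = -1) →
      ppart Q = (1 / 2 : ℝ) • (1 + Q) := by
    intro Q hQ hs
    rw [ppart, cut]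
    refine (cfc_congr (g := fun t : ℝ => (1 / 2 : ℝ) * (1 + t)) fun t ht => ?_).trans ?_
    · rcases hs t ht with rfl | rfl <;> norm_num
    · rw [cfc_const_mul _ _ Q, cfc_const_add (1 : ℝ) (fun t => t) Q, cfc_id' ℝ Q, map_one]
  have hneg : ∀ t ∈ spectrum ℝ (-P), t = 1 ∨ t = -1 := fun t ht => by
    rw [← spectrum.neg_eq, Set.mem_neg] at ht
    rcases hspec _ ht with h | h
    · exact Or.inr (by linarith)
    · exact Or.inl (by linarith)
  set p := ppart P with hp
  set q := ppart (-P) with hq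
  have hp' : p = (1 / 2 : ℝ) • (1 + P) := hhalf P hP hspec
  have hq' : q = (1 / 2 : ℝ) • (1 + -P) := hhalf (-P) hP.neg hneg
  have hanti : X * P = -(P * X) := eq_neg_of_add_eq_zero_left hXP
  have hXp : X * p = q * X := by
    rw [hp', hq', mul_smul_comm, smul_mul_assoc, mul_add, add_mul, mul_one, one_mul, neg_mul,
      hanti]
  have hpp : p * p = p := by
    rw [hp', smul_mul_smul_comm, show (1 + P) * (1 + P) = 1 + P + (P + P * P) by noncomm_ring, hP2,
      show 1 + P + (P + 1) = (2 : ℝ) • (1 + P) by rw [two_smul]; abel, smul_smul]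
    norm_num
  have hqq : q * q = q := by
    rw [hq', smul_mul_smul_comm,
      show (1 + -P) * (1 + -P) = 1 + -P + (-P + P * P) by noncomm_ring, hP2, show 1 + -P + (-P + 1) = (2 : ℝ) • (1 + -P) by rw [two_smul]; abel, smul_smul]
    norm_num
  have hpq : p + q = 1 := by
    rw [hp', hq', ← smul_add, show (1 : F) + P + (1 + -P) = (2 : ℝ) • (1 : F) by
      rw [two_smul]; abel, smul_smul]
    norm_num
  have hXq : X * q = p * X := by
    rw [hp', hq', mul_smul_comm, smul_mul_assoc, mul_add, add_mul, mul_one, one_mul, mul_neg,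
      hanti, neg_neg]
  have hy : star (p * X * q) = q * X * p := by
    rw [star_mul, star_mul, hX.star_eq, (sa_ppart (x := P)).star_eq, (sa_ppart (x := -P)).star_eq,
      mul_assoc]
  rw [hy, show q * X * p * (p * X * q) = q * (X * (p * p)) * X * q by noncomm_ring, hpp, hXp,
    show q * (q * X) * X * q = q * q * (X * X) * q by noncomm_ring, hX2, mul_one, hqq, hqq,
    show p * X * q * (q * X * p) = p * (X * (q * q)) * X * p by noncomm_ring, hqq, hXq,
    show p * (p * X) * X * p = p * p * (X * X) * p by noncomm_ring, hX2, mul_one, hpp, hpp,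
    sub_sub, add_comm q p, hpq, sub_self]

/-- Pairs of every quality give small leaves. -/
theorem leafSmallStatement_of_pair {β : G →* (F ≃⋆ₐ[ℂ] F)} (hb : BridgeStatement β)
    (hpair : PairStatement β) : LeafSmallStatement β := by
  classical
  intro K η θ hη hθ
  have hex : ∀ j : ℕ, ∃ x P : F, IsSelfAdjoint x ∧ IsSelfAdjoint P ∧ ‖x‖ ≤ 1 ∧ ‖P‖ ≤ 1 ∧
      AlmostFixed β K (rate j) x ∧ AlmostFixed β K (rate j) P ∧
      ∃ x₀ P₀ : F, ∃ δ, δ ≤ rate j ∧ NearPair β ∅ δ x₀ P₀ ∧
        (∀ D : DimState F, D (cut (rate j) (star (x₀ - x) * (x₀ - x))) ≤ rate j) ∧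
        ∀ D : DimState F, D (cut (rate j) (star (P₀ - P) * (P₀ - P))) ≤ rate j := by
    intro j
    obtain ⟨W, hW⟩ := hb K (rate j) (rate_pos j)
    obtain ⟨δ, hδ, hδb⟩ := hW (rate j) (rate_pos j)
    obtain ⟨x₀, P₀, hp⟩ := hpair W (min δ (rate j)) (lt_min hδ (rate_pos j))
    have hweak : ∀ (z : F), (∀ g ∈ W, ∀ D : DimState F,
        D (cut (min δ (rate j)) (star (β g z - z) * (β g z - z))) ≤ min δ (rate j)) →
        ∀ g ∈ W, ∀ D : DimState F, D (cut δ (star (β g z - z) * (β g z - z))) ≤ δ :=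
      fun z h g hg D => (Half.val_cut_anti D (IsSelfAdjoint.star_mul_self _) (min_le_left _ _)).trans
        ((h g hg D).trans (min_le_left _ _))
    obtain ⟨e, he, -, hxf, -, hxd⟩ := hδb x₀ hp.contr_x (hweak x₀ hp.inv_x)
    obtain ⟨e', he', -, hPf, -, hPd⟩ := hδb P₀ hp.contr_P (hweak P₀ hp.inv_P)
    have hsa : ∀ {d z : F}, IsPosC d → IsSelfAdjoint z →
        IsSelfAdjoint ((1 - d) * z * (1 - d)) := fun {d z} hd hz => by
      have h1 := (IsSelfAdjoint.one F).sub (Spec.sa_of_isPos hd.1)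
      simpa [h1.star_eq] using hz.conjugate' (1 - d)
    have hn : ∀ {d z : F}, IsPosC d → ‖z‖ ≤ 1 → ‖(1 - d) * z * (1 - d)‖ ≤ 1 := fun {d z} hd hz =>
      (norm_mul_le _ _).trans (mul_le_one₀ ((norm_mul_le _ _).trans
        (mul_le_one₀ (norm_one_sub_le hd) (norm_nonneg _) hz)) (norm_nonneg _)
        (norm_one_sub_le hd))
    exact ⟨_, _, hsa he hp.sa_x, hsa he' hp.sa_P, hn he hp.contr_x, hn he' hp.contr_P, hxf, hPf,
      x₀, P₀, min δ (rate j), min_le_right _ _,
      ⟨hp.sa_x, hp.sa_P, hp.contr_x, hp.contr_P, hp.sq_x, hp.sq_P, hp.anti, by simp, by simp⟩,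
      hxd, hPd⟩
  choose x P hsx hsP hnx hnP hfx hfP x₀ P₀ δ hδ hp hdx hdP using hex
  let ω : Ultrafilter ℕ := hyperfilter ℕ
  have hω : (ω : Filter ℕ) ≤ atTop := (Nat.cofinite_eq_atTop ▸ hyperfilter_le_cofinite)
  let sx := seq x hnx
  let sP := seq P hnP
  let sx₀ := seq x₀ fun j => (hp j).contr_x
  let sP₀ := seq P₀ fun j => (hp j).contr_P
  let m : (ℕ →ᵇ F) →⋆ₐ[ℂ] DQ F ω := DQ.mk
  -- smallness along the sequences
  have hsmall : ∀ (f : ℕ → F) (b : ℕ → ℝ), (∀ j, IsSelfAdjoint (f j)) → (∀ j, b j ≤ rate j) →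
      (∀ j, ∀ D : DimState F, D (cut (b j) (f j)) ≤ b j) → ∀ ε : ℝ, 0 < ε →
      ∀ᶠ j in (ω : Filter ℕ), ∀ D : DimState F, D (cut ε (f j)) ≤ ε := by
    intro f b hf hb hfd ε hε
    refine hω ((eventually_rate hε).mono fun j hj D => ?_)
    exact (Half.val_cut_anti D (hf j) ((hb j).trans hj)).trans ((hfd j D).trans ((hb j).trans hj))
  have hdiff : ∀ (f g : ℕ →ᵇ F), (∀ j, ∀ D : DimState F,
      D (cut (rate j) (star (f j - g j) * (f j - g j))) ≤ rate j) → m f = m g := by
    intro f g h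
    refine DQ.mk_eq_mk.2 fun ε hε => ?_
    exact hsmall (fun j => star (f j - g j) * (f j - g j)) rate
      (fun j => IsSelfAdjoint.star_mul_self _) (fun j => le_rfl) h ε hε
  have hx0 : m sx₀ = m sx := hdiff sx₀ sx hdx
  have hP0 : m sP₀ = m sP := hdiff sP₀ sP hdP
  have hone : ∀ (f : ℕ →ᵇ F), (∀ j, IsSelfAdjoint (f j)) → (∀ j, ‖f j‖ ≤ 1) →
      (∀ j, ∀ D : DimState F, D (cut (δ j) (1 - f j * f j)) ≤ δ j) → m f * m f = 1 := by
    intro f hf hf1 h
    refine (sub_eq_zero.1 ?_).symm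
    rw [← map_one m, ← map_mul, ← map_sub]
    refine DQ.mk_eq_zero_of_pos (fun j => ?_) (hsmall _ δ (fun j => ?_) hδ fun j => h j)
    · let := CStarAlgebra.spectralOrder F
      have := CStarAlgebra.spectralOrderedRing F
      refine Spec.isPos_iff_le'.2 (sub_nonneg.2 ?_)
      rw [BoundedContinuousFunction.coe_one, Pi.one_apply, BoundedContinuousFunction.mul_apply]
      have hq : 0 ≤ f j * f j := by simpa [(hf j).star_eq] using star_mul_self_nonneg (f j)
      exact (CStarAlgebra.norm_le_one_iff_of_nonneg _ hq).1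
        ((norm_mul_le _ _).trans (mul_le_one₀ (hf1 j) (norm_nonneg _) (hf1 j)))
    · exact (IsSelfAdjoint.one F).sub (((hf j).commute_iff (hf j)).1 (Commute.refl _))
  have hX2 : m sx * m sx = 1 :=
    hx0 ▸ hone sx₀ (fun j => (hp j).sa_x) (fun j => (hp j).contr_x) fun j => (hp j).sq_x
  have hP2 : m sP * m sP = 1 :=
    hP0 ▸ hone sP₀ (fun j => (hp j).sa_P) (fun j => (hp j).contr_P) fun j => (hp j).sq_P
  have hXP : m sx * m sP + m sP * m sx = 0 := by
    rw [← hx0, ← hP0, ← map_mul, ← map_mul, ← map_add, DQ.mk_eq_zero]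
    intro ε hε
    exact hsmall (fun j => star (x₀ j * P₀ j + P₀ j * x₀ j) * (x₀ j * P₀ j + P₀ j * x₀ j)) δ
      (fun j => IsSelfAdjoint.star_mul_self _) hδ (fun j => (hp j).anti) ε hε
  -- the elements
  let y : ℕ → F := fun j => ppart (P j) * x j * ppart (-P j)
  have hny : ∀ j, ‖y j‖ ≤ 1 := fun j => (norm_mul_le _ _).trans
    (mul_le_one₀ ((norm_mul_le _ _).trans (mul_le_one₀ (norm_ppart_le (hnP j))
      (norm_nonneg _) (hnx j))) (norm_nonneg _)
      (norm_ppart_le (by rw [norm_neg]; exact hnP j)))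
  let sy := seq y hny
  have hsPsa : IsSelfAdjoint sP := DQ.isSelfAdjoint_seq hsP
  have hmy : m sy = ppart (m sP) * m sx * ppart (-(m sP)) := by
    have e : sy = cfc (fun t : ℝ => max (t - 0) 0) sP * sx *
        cfc (fun t : ℝ => max (t - 0) 0) (-sP) := by
      ext j
      rw [BoundedContinuousFunction.mul_apply, BoundedContinuousFunction.mul_apply,
        DQ.apply_cfc hsPsa (by fun_prop), DQ.apply_cfc hsPsa.neg (by fun_prop)]
      rfl
    rw [e, map_mul, map_mul, DQ.mk_cfc hsPsa (by fun_prop), DQ.mk_cfc hsPsa.neg (by fun_prop),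
      map_neg]
    rfl
  let B : ℕ → F := fun j => 1 - star (y j) * y j - y j * star (y j)
  have hBsa : ∀ j, IsSelfAdjoint (B j) := fun j => ((IsSelfAdjoint.one F).sub
    (IsSelfAdjoint.star_mul_self (y j))).sub (IsSelfAdjoint.mul_star_self (y j))
  let sB : ℕ →ᵇ F := 1 - star sy * sy - sy * star sy
  have hsB : ∀ j, sB j = B j := fun j => rfl
  have hsBsa : IsSelfAdjoint sB := DQ.isSelfAdjoint_seq hBsa
  have hB0 : m sB = 0 := by
    simp only [sB, map_sub, map_mul, map_one, map_star, hmy]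
    exact leaf_identity ((DQ.isSelfAdjoint_seq hsx).map m) hX2 (hsPsa.map m) hP2 hXP
  have hBpart : m (cfc (fun t : ℝ => max (t - 0) 0) sB) = 0 := by
    rw [DQ.mk_cfc hsBsa (by fun_prop), hB0, cfc_apply_zero]
    simp
  have hBsmall := DQ.small_of_pos (fun j => by
    rw [DQ.apply_cfc hsBsa (by fun_prop)]; exact Spec.cut_isPos 0 (sB j)) hBpart
    (min (1 / 6) (θ / 2)) (by positivity)
  -- invariance in norm
  have hAF : ∀ g ∈ K, Calc.AF ((β g : F →⋆ₐ[ℂ] F)) y := by
    intro g hg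
    have hz : ∀ z : ℕ → F, (∀ j, ‖z j‖ ≤ 1) → (∀ j, AlmostFixed β K (rate j) (z j)) →
        Calc.AF ((β g : F →⋆ₐ[ℂ] F)) z := fun z hz1 hz2 =>
      ⟨⟨1, hz1⟩, squeeze_zero (fun j => norm_nonneg _) (fun j => hz2 j g hg)
        tendsto_one_div_add_atTop_nhds_zero_nat⟩
    have hP' := hz P hnP hfP
    exact ((hP'.cfc hsP (by fun_prop)).mul (hz x hnx hfx)).mul
      (hP'.neg.cfc (fun j => (hsP j).neg) (by fun_prop))
  have hev : ∀ᶠ j in atTop, ∀ g ∈ K, ‖β g (y j) - y j‖ ≤ η :=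
    (eventually_all_finset K).2 fun g hg => (hAF g hg).eventually_le hη
  obtain ⟨j, hjB, hjη⟩ := (hBsmall.and (hω hev)).exists
  -- certify in an orbit algebra
  have hcut : ∀ D : DimState F, D (cut (1 / 6) (B j)) ≤ θ / 2 := by
    intro D
    have h := hjB D
    rw [DQ.apply_cfc hsBsa (by fun_prop), hsB] at h
    have e : cut (min (1 / 6 : ℝ) (θ / 2)) (cfc (fun t : ℝ => max (t - 0) 0) (B j)) =
        cut (min (1 / 6 : ℝ) (θ / 2)) (B j) := by
      rw [cut, cut, ← cfc_comp' _ _ (B j) (by fun_prop) (by fun_prop) (hBsa j)]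
      refine cfc_congr fun t _ => ?_
      have : (0 : ℝ) ≤ min (1 / 6 : ℝ) (θ / 2) := by positivity
      simp only [sub_zero]
      rcases le_total t 0 with ht | ht
      · rw [max_eq_right ht, max_eq_right (by linarith), max_eq_right (by linarith)]
      · rw [max_eq_left ht]
    rw [e] at h
    exact ((Half.val_cut_anti D (hBsa j) (min_le_left _ _)).trans h).trans (min_le_right _ _)
  obtain ⟨W, -, hW⟩ := Half.exists_cert_le (β := β) (hBsa j) (show (1 / 6 : ℝ) < 1 / 4 by norm_num)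
    (show θ / 2 < θ by linarith) hcut
  let T : Finset F := insert (y j) W
  have hyT : y j ∈ OrbAlg β T := Half.mem_orbAlg (Finset.mem_insert_self _ _)
  refine ⟨T, ⟨y j, hyT⟩, hny j, Subtype.ext ?_, hjη, fun D => ?_⟩
  · show y j * y j = 0
    simp only [y]
    have h0 : ppart (-P j) * ppart (P j) = 0 := by
      simpa [(sa_ppart (x := P j)).star_eq, (sa_ppart (x := -P j)).star_eq] using
        congrArg star (ppart_mul_ppart_neg (hsP j))
    rw [show ppart (P j) * x j * ppart (-P j) * (ppart (P j) * x j * ppart (-P j)) =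
      ppart (P j) * x j * (ppart (-P j) * ppart (P j)) * x j * ppart (-P j) by noncomm_ring, h0]
    simp
  · exact hW T (Finset.subset_insert _ _) _ rfl D

end

end Vale.Agent.P095.Elem.Leaf
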