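import Vale.Agent.P095.Elem.Calc
import Vale.Agent.P095.Elem.Copies
import Vale.Agent.P095.Elem.HalfCmp
import Vale.Agent.P101.Pair

/-!
# P095, amenable groups: the slots of a leaf cut out of two commuting signs

Functions of two commuting self-adjoint elements, and two fullness lemmas: a product of commuting
full elements is full, and an element whose sandwich is close to a square which is full has a full
cut.
-/

namespace Vale.Agent.P095.Elem.LeafFullAux

open VAgent.P101 Vale.Agent.P101 Calc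
open scoped CStarAlgebra

noncomputable section

variable {F : Type*} [CStarAlgebra F]

/-- The ramps used for the slots. -/
def rp (a : ℝ) (s : ℝ) : ℝ := ramp a (1 / 10) s

theorem continuous_rp (a : ℝ) : Continuous (rp a) := continuous_ramp _ _

theorem rp_mem (a s : ℝ) : 0 ≤ rp a s ∧ rp a s ≤ 1 :=
  ⟨le_max_left _ _, max_le zero_le_one (min_le_left _ _)⟩

theorem rp_zero {a s : ℝ} (h : s ≤ a) : rp a s = 0 := ramp_of_le (by norm_num) h

theorem rp_one {a s : ℝ} (h : a + 1 / 10 ≤ s) : rp a s = 1 := ramp_of_ge (by norm_num) h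

theorem rp_pos {a s : ℝ} (h : a < s) : 0 < rp a s := by
  refine lt_max_of_lt_right (lt_min one_pos ?_)
  exact div_pos (by linarith) (by norm_num)

theorem rp_mul {a b : ℝ} (h : b + 1 / 10 ≤ a) (s : ℝ) : rp b s * rp a s = rp a s := by
  rcases le_total s a with h' | h'
  · rw [rp_zero h', mul_zero]
  · rw [rp_one (by linarith), one_mul]

theorem rp_mul' {a b : ℝ} (h : b + 1 / 10 ≤ a) (s : ℝ) : rp a s * rp b s = rp a s := by
  rw [mul_comm, rp_mul h]

theorem rp_neg_mul {a b : ℝ} (ha : 0 ≤ a) (hb : 0 ≤ b) (s : ℝ) : rp a (-s) * rp b s = 0 := by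
  rcases le_total s 0 with h | h
  · rw [rp_zero (s := s) (by linarith), mul_zero]
  · rw [rp_zero (s := -s) (by linarith), zero_mul]

/-- A function of a sign. -/
def fp (a : ℝ) (S : F) : F := cfc (rp a) S

/-- A function of the negative side of a sign. -/
def fn' (a : ℝ) (S : F) : F := cfc (fun s => rp a (-s)) S

theorem continuous_rp_neg (a : ℝ) : Continuous fun s => rp a (-s) :=
  (continuous_rp a).comp continuous_neg

theorem norm_cfc_rp_le (S : F) {f : ℝ → ℝ} (h : ∀ t, 0 ≤ f t ∧ f t ≤ 1) : ‖cfc f S‖ ≤ 1 :=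
  norm_cfc_le zero_le_one fun t _ => by
    rw [Real.norm_eq_abs, abs_of_nonneg (h t).1]; exact (h t).2

theorem isPosC_fp (a : ℝ) (S : F) : IsPosC (fp a S) :=
  ⟨Half.isPos_cfc (fun t => (rp_mem a t).1) S, norm_cfc_rp_le S (rp_mem a)⟩

theorem isPosC_fn' (a : ℝ) (S : F) : IsPosC (fn' a S) :=
  ⟨Half.isPos_cfc (fun t => (rp_mem a (-t)).1) S, norm_cfc_rp_le S fun t => rp_mem a (-t)⟩

theorem isPosC_mul {x y : F} (hx : IsPosC x) (hy : IsPosC y) (h : Commute x y) :
    IsPosC (x * y) :=
  ⟨hx.1.mul hy.1 h, (norm_mul_le _ _).trans (mul_le_one₀ hx.2 (norm_nonneg _) hy.2)⟩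

/-- The comparison function of the range side. -/
def sN (s : ℝ) : ℝ := Real.sqrt (2 * rp (1 / 5) (-s))

theorem continuous_sN : Continuous sN :=
  (continuous_const.mul (continuous_rp_neg _)).sqrt

/-- The source of the comparison element as a function of the middle source. -/
def kz (t : ℝ) : ℝ := max (t - 1 / 2) 0 + max (t - 1 / 2) 0

theorem continuous_kz : Continuous kz := by unfold kz; fun_prop

/-- The algebraic properties of the slots. -/
theorem slots {S₁ S₂ v : F} (hc : Commute S₁ S₂)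
    (hv : star v * fn' (1 / 5) S₁ * v = cut (1 / 2) (fp (1 / 5) S₁ * fp (1 / 5) S₂)) :
    IsPosC (fp (3 / 10) S₁ * fp (3 / 10) S₂) ∧ ‖cfc sN S₁ * v‖ ≤ 1 ∧
    fp (1 / 10) S₁ * (fp (3 / 10) S₁ * fp (3 / 10) S₂) = fp (3 / 10) S₁ * fp (3 / 10) S₂ ∧
    fn' (1 / 10) S₁ * fp (1 / 10) S₁ = 0 ∧
    cfc sN S₁ * v * fp (1 / 10) S₁ = cfc sN S₁ * v ∧
    fn' (1 / 10) S₁ * (cfc sN S₁ * v) = cfc sN S₁ * v ∧
    star (cfc sN S₁ * v) * (cfc sN S₁ * v) * (fp (3 / 10) S₁ * fp (3 / 10) S₂) =
      fp (3 / 10) S₁ * fp (3 / 10) S₂ ∧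
    fp (2 / 5) S₁ * fp (2 / 5) S₂ * (fp (3 / 10) S₁ * fp (3 / 10) S₂) =
      fp (2 / 5) S₁ * fp (2 / 5) S₂ := by
  have hcf : ∀ a b, Commute (fp a S₁) (fp b S₂) := fun a b =>
    (((hc.cfc_real (rp a)).symm).cfc_real (rp b)).symm
  set z := fp (1 / 5) S₁ * fp (1 / 5) S₂
  have hz : IsPosC z := isPosC_mul (isPosC_fp _ _) (isPosC_fp _ _) (hcf _ _)
  have hzsa : IsSelfAdjoint z := hz.1.isSelfAdjoint
  set t := cfc sN S₁ * v with ht
  have htt : star t * t = cut (1 / 2) z + cut (1 / 2) z := by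
    have e : cfc sN S₁ * cfc sN S₁ = fn' (1 / 5) S₁ + fn' (1 / 5) S₁ := by
      rw [fn', ← cfc_add (a := S₁) _ _ (continuous_rp_neg _).continuousOn
        (continuous_rp_neg _).continuousOn]
      exact cfc_mul_fun _ continuous_sN continuous_sN fun s => by
        rw [sN, Real.mul_self_sqrt (by linarith [(rp_mem (1 / 5) (-s)).1])]; ring
    calc star t * t = star v * (cfc sN S₁ * cfc sN S₁) * v := by
          rw [ht, star_mul, (cfc_predicate _ _ : IsSelfAdjoint (cfc sN S₁)).star_eq]
          noncomm_ring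
      _ = cut (1 / 2) z + cut (1 / 2) z := by rw [e, ← hv]; noncomm_ring
  have htk : star t * t = cfc kz z := by
    rw [htt, cut, ← cfc_add (a := z) _ _ (by fun_prop) (by fun_prop)]
    rfl
  refine ⟨isPosC_mul (isPosC_fp _ _) (isPosC_fp _ _) (hcf _ _), ?_, ?_, ?_, ?_, ?_, ?_, ?_⟩
  · rcases subsingleton_or_nontrivial F with hF | hF
    · rw [Subsingleton.elim t 0, norm_zero]; exact zero_le_one
    have h : ‖t‖ * ‖t‖ ≤ 1 := by
      rw [← CStarRing.norm_star_mul_self, htk]
      refine norm_cfc_le zero_le_one fun s hs => ?_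
      have h' : ‖s‖ ≤ 1 := (spectrum.norm_le_norm_of_mem hs).trans hz.2
      rw [Real.norm_eq_abs] at h' ⊢
      have h3 : 0 ≤ max (s - 1 / 2) 0 := le_max_right _ _
      have h4 : max (s - 1 / 2) 0 ≤ 1 / 2 := max_le (by linarith [le_abs_self s]) (by norm_num)
      rw [kz, abs_of_nonneg (by linarith)]
      linarith
    nlinarith [norm_nonneg t]
  · rw [← mul_assoc, fp, fp, cfc_mul_fun _ (continuous_rp _) (continuous_rp _)
      (rp_mul (by norm_num))]
  · exact cfc_mul_zero _ (continuous_rp_neg _) (continuous_rp _)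
      (rp_neg_mul (by norm_num) (by norm_num))
  · have h0 : star t * t * (1 - fp (1 / 10) S₁) = 0 := by
      rw [htk]
      refine kill_zero hzsa continuous_kz (by simp [kz]) ?_
      have e : fp (1 / 5) S₁ * fp (1 / 10) S₁ = fp (1 / 5) S₁ :=
        cfc_mul_fun _ (continuous_rp _) (continuous_rp _) (rp_mul' (by norm_num))
      show fp (1 / 5) S₁ * fp (1 / 5) S₂ * (1 - fp (1 / 10) S₁) = 0
      rw [(hcf _ _).eq, mul_assoc, mul_sub, mul_one, e, sub_self, mul_zero]
    have h3 : t * (1 - fp (1 / 10) S₁) = 0 := by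
      rw [← CStarRing.star_mul_self_eq_zero_iff, star_mul, mul_assoc, ← mul_assoc (star t) t, h0,
        mul_zero]
    rw [mul_sub, mul_one, sub_eq_zero] at h3
    exact h3.symm
  · rw [ht, ← mul_assoc]
    congr 1
    exact cfc_mul_fun _ (continuous_rp_neg _) continuous_sN fun s => by
      rcases le_total (-s) (1 / 5) with h | h
      · rw [sN, rp_zero h, mul_zero, Real.sqrt_zero, mul_zero]
      · rw [rp_one (by linarith), one_mul]
  · rw [htk]
    refine fix_of hzsa continuous_kz (by norm_num [kz]) ?_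
    show fp (1 / 5) S₁ * fp (1 / 5) S₂ * (fp (3 / 10) S₁ * fp (3 / 10) S₂) = _
    rw [(hcf (3 / 10) (1 / 5)).symm.mul_mul_mul_comm, fp, fp, fp, fp,
      cfc_mul_fun _ (continuous_rp _) (continuous_rp _) (rp_mul (by norm_num)),
      cfc_mul_fun _ (continuous_rp _) (continuous_rp _) (rp_mul (by norm_num))]
  · rw [(hcf (3 / 10) (2 / 5)).symm.mul_mul_mul_comm, fp, fp, fp, fp,
      cfc_mul_fun _ (continuous_rp _) (continuous_rp _) (rp_mul' (by norm_num)),
      cfc_mul_fun _ (continuous_rp _) (continuous_rp _) (rp_mul' (by norm_num))]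

/-- The product of a full element of a commuting range with a full element is full. -/
theorem fullSet_mul {A : Type*} [CStarAlgebra A] (ψ : A →⋆ₐ[ℂ] F) {a : A} {b : F}
    (ha : FullSet ({a} : Set A)) (hb : FullSet ({b} : Set F)) (hc : ∀ z, Commute (ψ z) b) :
    FullSet ({ψ a * b} : Set F) := by
  refine hb.trans fun x hx => ?_
  rw [Set.mem_singleton_iff] at hx
  subst hx
  obtain ⟨n', u', w', e', he', hsum'⟩ := ha.exists_sum
  have hx2 : x = ∑ i, ψ (u' i) * (ψ a * x) * ψ (w' i) := by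
    conv_lhs => rw [← one_mul x, ← map_one ψ, ← hsum', map_sum, Finset.sum_mul]
    refine Finset.sum_congr rfl fun i _ => ?_
    rw [Set.mem_singleton_iff.1 (he' i), map_mul, map_mul]
    simp only [mul_assoc]
    rw [(hc (w' i)).eq]
  have hm : ∑ i, ψ (u' i) * (ψ a * x) * ψ (w' i) ∈ TwoSidedIdeal.span ({ψ a * x} : Set F) :=
    sum_mem fun i _ => TwoSidedIdeal.mul_mem_right _ _ _
      (TwoSidedIdeal.mul_mem_left _ _ _ (TwoSidedIdeal.subset_span rfl))
  rwa [← hx2] at hm

/-- A product of full elements of pairwise commuting ranges is full. -/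
theorem fullSet_oprodF {A : Type*} [CStarAlgebra A] :
    ∀ {M : ℕ} (ψ : Fin M → (A →⋆ₐ[ℂ] F)), (∀ l l', l ≠ l' → ∀ x y, Commute (ψ l x) (ψ l' y)) →
      ∀ {a : A}, FullSet ({a} : Set A) → FullSet ({oprodF fun l => ψ l a} : Set F)
  | 0, _, _, a, _ => by
    show (1 : F) ∈ TwoSidedIdeal.span _
    exact TwoSidedIdeal.subset_span (by simp [oprodF])
  | M + 1, ψ, hc, a, ha => by
    have e : oprodF (fun l => ψ l a) = ψ 0 a * oprodF fun l : Fin M => ψ l.succ a := by
      simp [oprodF, List.ofFn_succ]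
    rw [e]
    refine fullSet_mul (ψ 0) ha (fullSet_oprodF (fun l => ψ l.succ)
      (fun l l' h => hc _ _ fun e => h (Fin.succ_injective _ e)) ha) fun z => ?_
    refine Commute.list_prod_right _ _ fun y hy => ?_
    obtain ⟨l, rfl⟩ := List.mem_ofFn.1 hy
    exact hc 0 l.succ (Fin.succ_ne_zero l).symm z a

/-- An element is in the closed left ideal of a positive element which dominates its square. -/
theorem exists_approx [PartialOrder F] [StarOrderedRing F] {b c : F} (hc : IsSelfAdjoint c)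
    (hcc : (1 / 4 : ℝ) • (c * c) ≤ b) {ε : ℝ} (hε : 0 < ε) :
    ∃ g : F, ‖c - c * g * b‖ ≤ ε := by
  have hb0 : 0 ≤ b := le_trans (smul_nonneg (by norm_num) hc.mul_self_nonneg) hcc
  have hbsa : IsSelfAdjoint b := hb0.isSelfAdjoint
  set ρ : ℝ := (ε / 2) ^ 2 with hρ
  have hρ0 : 0 < ρ := by positivity
  have hpos : ∀ t : ℝ, 0 < ρ + max t 0 := fun t => by positivity
  have hgc : Continuous fun t : ℝ => 1 / (ρ + max t 0) :=
    continuous_const.div (by fun_prop) fun t => (hpos t).ne'
  have hrc : Continuous fun t : ℝ => ρ / (ρ + max t 0) :=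
    continuous_const.div (by fun_prop) fun t => (hpos t).ne'
  set g := cfc (fun t : ℝ => 1 / (ρ + max t 0)) b
  set r := cfc (fun t : ℝ => ρ / (ρ + max t 0)) b
  refine ⟨g, ?_⟩
  have hgr : g * b + r = 1 := by
    conv_lhs => enter [1, 2]; rw [← cfc_id' ℝ b hbsa]
    rw [← cfc_mul (fun t : ℝ => 1 / (ρ + max t 0)) (fun t : ℝ => t) b hgc.continuousOn continuousOn_id,
      ← cfc_add (a := b) (fun t : ℝ => 1 / (ρ + max t 0) * t) (fun t : ℝ => ρ / (ρ + max t 0))
        (hgc.mul continuous_id).continuousOn hrc.continuousOn,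
      ← cfc_one ℝ b]
    refine cfc_congr fun t ht => ?_
    have ht0 : 0 ≤ t := spectrum_nonneg_of_nonneg hb0 ht
    simp only [Pi.one_apply, max_eq_left ht0]
    field_simp
    ring
  have hres : c - c * g * b = c * r := by
    rw [eq_sub_of_add_eq' hgr, mul_sub, mul_one, mul_assoc]
  rw [hres]
  have hrsa : star r = r := (cfc_predicate _ b : IsSelfAdjoint r).star_eq
  have hrbr : r * b * r ≤ algebraMap ℝ F ρ := by
    conv_lhs => arg 1; arg 2; rw [← cfc_id' ℝ b hbsa]
    rw [← cfc_mul _ (fun t : ℝ => t) b hrc.continuousOn continuousOn_id,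
      ← cfc_mul (fun t : ℝ => ρ / (ρ + max t 0) * t) (fun t : ℝ => ρ / (ρ + max t 0)) b
        (hrc.mul continuous_id).continuousOn hrc.continuousOn]
    refine cfc_le_algebraMap (R := ℝ) (fun t : ℝ => ρ / (ρ + max t 0) * t * (ρ / (ρ + max t 0))) ρ b
      (fun t ht => ?_) ((hrc.mul continuous_id).mul hrc).continuousOn hbsa
    have ht0 : 0 ≤ t := spectrum_nonneg_of_nonneg hb0 ht
    rw [max_eq_left ht0]
    have e1 : ρ / (ρ + t) ≤ 1 := (div_le_one (by positivity)).2 (by linarith)
    calc ρ / (ρ + t) * t * (ρ / (ρ + t)) ≤ ρ / (ρ + t) * t * 1 :=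
          mul_le_mul_of_nonneg_left e1 (by positivity)
      _ ≤ ρ := by
          rw [mul_one, div_mul_eq_mul_div, div_le_iff₀ (by positivity)]
          nlinarith
  have hle : star (c * r) * (c * r) ≤ algebraMap ℝ F (4 * ρ) := by
    have h4 : c * c ≤ (4 : ℝ) • b := by
      have := smul_le_smul_of_nonneg_left hcc (show (0 : ℝ) ≤ 4 by norm_num)
      rwa [smul_smul, show (4 : ℝ) * (1 / 4) = 1 by norm_num, one_smul] at this
    have := star_left_conjugate_le_conjugate h4 r
    rw [hrsa] at this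
    calc star (c * r) * (c * r) = r * (c * c) * r := by
          rw [star_mul, hrsa, hc.star_eq]; simp only [mul_assoc]
      _ ≤ r * ((4 : ℝ) • b) * r := this
      _ = (4 : ℝ) • (r * b * r) := by rw [mul_smul_comm, smul_mul_assoc]
      _ ≤ (4 : ℝ) • algebraMap ℝ F ρ := smul_le_smul_of_nonneg_left hrbr (by norm_num)
      _ = algebraMap ℝ F (4 * ρ) := by
          rw [Algebra.algebraMap_eq_smul_one, smul_smul, ← Algebra.algebraMap_eq_smul_one]
  have h5 := (CStarAlgebra.norm_le_iff_le_algebraMap _ (by positivity)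
    (star_mul_self_nonneg _)).2 hle
  rw [CStarRing.norm_star_mul_self] at h5
  have : (4 : ℝ) * ρ = ε * ε := by rw [hρ]; ring
  nlinarith [norm_nonneg (c * r)]


/-- If `c` is full, `c * top = c` and `a` is near `top * top`, then `cut (1 / 2) a` is full. -/
theorem fullSet_cut_of_sandwich {a c top : F} (ha : IsSelfAdjoint a) (hc : IsSelfAdjoint c)
    (htop : IsSelfAdjoint top) (hct : c * top = c) (hfull : FullSet ({c} : Set F))
    (hE : ‖a - top * top‖ ≤ 1 / 4) : FullSet ({cut (1 / 2) a} : Set F) := by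
  let _ : PartialOrder F := CStarAlgebra.spectralOrder F
  let _ : StarOrderedRing F := CStarAlgebra.spectralOrderedRing F
  set m := cfc (fun t : ℝ => min t (1 / 2)) a
  set E := a - top * top
  have hsplit : cut (1 / 2) a + m = a := by
    rw [cut, ← cfc_add (a := a) _ _ (by fun_prop) (by fun_prop)]
    conv_rhs => rw [← cfc_id ℝ a ha]
    exact cfc_congr fun t _ => by
      rcases le_total t (1 / 2) with h | h
      · rw [max_eq_right (by linarith), min_eq_left h, zero_add]; rfl
      · rw [max_eq_left (by linarith), min_eq_right h, sub_add_cancel]; rfl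
  have htc : top * c = c := by
    have := congrArg star hct
    rwa [star_mul, hc.star_eq, htop.star_eq] at this
  set w := 1 + E - m
  have hb : c * cut (1 / 2) a * c = c * w * c := by
    have e : cut (1 / 2) a = top * top + E - m := by
      rw [show top * top + E = a by simp only [E]; abel, ← eq_sub_of_add_eq hsplit]
    rw [e]
    simp only [w, mul_sub, mul_add, sub_mul, add_mul, mul_one, ← mul_assoc, hct]
  have hw : (1 / 4 : ℝ) • (1 : F) ≤ w := by
    have h1 : -((1 / 4 : ℝ) • (1 : F)) ≤ E := by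
      have hEsa : IsSelfAdjoint E := ha.sub (htop.mul_self_nonneg.isSelfAdjoint)
      have := hEsa.neg_algebraMap_norm_le_self
      refine le_trans ?_ this
      rw [Algebra.algebraMap_eq_smul_one, neg_le_neg_iff]
      exact smul_le_smul_of_nonneg_right hE zero_le_one
    have h2 : m ≤ (1 / 2 : ℝ) • (1 : F) := by
      rw [← Algebra.algebraMap_eq_smul_one]
      exact cfc_le_algebraMap _ _ _ fun t _ => min_le_right _ _
    have h3 := add_le_add h1 (neg_le_neg h2)
    simp only [w]
    calc (1 / 4 : ℝ) • (1 : F) = 1 + (-((1 / 4 : ℝ) • (1 : F)) + -((1 / 2 : ℝ) • (1 : F))) := by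
          module
      _ ≤ 1 + (E + -m) := add_le_add_right h3 _
      _ = 1 + E - m := by abel
  set b := c * w * c with hbdef
  have hbmem : b ∈ TwoSidedIdeal.span ({cut (1 / 2) a} : Set F) := by
    rw [← hb]
    exact TwoSidedIdeal.mul_mem_right _ _ _ (TwoSidedIdeal.mul_mem_left _ _ _
      (TwoSidedIdeal.subset_span rfl))
  have hcc : (1 / 4 : ℝ) • (c * c) ≤ b := by
    have := star_left_conjugate_le_conjugate hw c
    rw [hc.star_eq] at this
    simpa only [mul_smul_comm, smul_mul_assoc, mul_one] using this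
  refine hfull.approx fun x hx ε hε => ?_
  rw [Set.mem_singleton_iff] at hx
  rw [hx]
  obtain ⟨g, hg⟩ := exists_approx hc hcc hε
  exact ⟨c * g * b, TwoSidedIdeal.mul_mem_left _ _ _ hbmem, hg⟩

end

end Vale.Agent.P095.Elem.LeafFullAux
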