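import Vale.Agent.P095.Elem.FieldLaw
import Vale.Agent.P095.Elem.MachineDefs

/-!
# P095, amenable groups: uniform tags from spare symmetries

A pool is split: the even copies carry the fields, the odd ones give constant symmetries with
flips. Products of their spectral projections tag the pools of each step uniformly.
-/

namespace Vale.Agent.P095.Elem.Leaf

open Filter BoundedContinuousFunction
open scoped CStarAlgebra BoundedContinuousFunction ComplexStarModule

noncomputable section

variable {G : Type*} [Group G] {N : Type*} [CStarAlgebra N] {ω : Ultrafilter ℕ}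

/-- A constant sequence in the quotient. -/
def cst (x : N) : DQ N ω := DQ.mk (BoundedContinuousFunction.const ℕ x)

theorem cst_sa {x : N} (h : IsSelfAdjoint x) : IsSelfAdjoint (cst x : DQ N ω) :=
  (DQ.isSelfAdjoint_seq fun _ => h).map _

theorem cst_mul (x z : N) : (cst x * cst z : DQ N ω) = cst (x * z) := by
  rw [cst, cst, cst, ← map_mul]; rfl

theorem cst_one : (cst (1 : N) : DQ N ω) = 1 := map_one _

theorem cst_commute {x z : N} (h : Commute x z) : Commute (cst x : DQ N ω) (cst z) :=
  DQ.commute_mk (Eventually.of_forall fun _ => h)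

/-- A pool of symmetries with flips, to be split into fields and tags. -/
structure Split (G : Type*) [Group G] (N : Type*) [CStarAlgebra N] (ω : Ultrafilter ℕ) where
  P : ℕ → G → N
  u : ℕ → G → N
  pool : SymPool P u
  hω : (ω : Filter ℕ) ≤ atTop

namespace Split

variable (L : Split G N ω)

/-- The constant symmetry behind bit `d` of step `k`. -/
def sym (k d : ℕ) : DQ N ω := cst (L.u (2 * Nat.pair k d + 1) 1)

/-- Its flip. -/
def symFlip (k d : ℕ) : DQ N ω := cst (L.P (2 * Nat.pair k d + 1) 1)

/-- The fields on the even copies, with the symmetries of the odd ones. -/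
def setup : Field.Setup N G ω where
  hω := L.hω
  P r := L.P (2 * r)
  u r := L.u (2 * r)
  pool :=
    ⟨fun _ _ => L.pool.P_sa _ _, fun _ _ => L.pool.u_sa _ _, fun _ _ => L.pool.P_sq _ _,
      fun _ _ => L.pool.u_sq _ _, fun _ _ => L.pool.anti _ _,
      fun r s h a b => L.pool.comm _ _ (by omega) a b⟩
  extra := Set.range fun p : ℕ × ℕ => L.sym p.1 p.2
  extra_sa := by rintro e ⟨p, rfl⟩; exact cst_sa (L.pool.u_sa _ _)
  extra_comm := by
    rintro e ⟨p, rfl⟩ e' ⟨q, rfl⟩
    rcases eq_or_ne p q with rfl | h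
    · exact Commute.refl _
    · refine cst_commute (L.pool.comm _ _ (fun e => h ?_) 1 1).2.2
      have := Nat.pair_eq_pair.1 (by omega : Nat.pair p.1 p.2 = Nat.pair q.1 q.2)
      exact Prod.ext this.1 this.2
  extra_lift := by
    rintro e ⟨p, rfl⟩
    exact ⟨_, rfl, fun n r a => ⟨(L.pool.comm _ _ (by omega) a 1).2.1.symm,
      (L.pool.comm _ _ (by omega) a 1).2.2.symm⟩⟩

theorem symFlip_commute (k d i : ℕ) (a b : G) :
    Commute (L.symFlip k d) (DQ.mk (L.setup.useq i a)) ∧
      Commute (L.symFlip k d) (DQ.mk (L.setup.rseq i a b)) :=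
  Field.Setup.commute_extra
    { L.setup with
      extra := {L.symFlip k d}
      extra_sa := by rintro e rfl; exact cst_sa (L.pool.P_sa _ _)
      extra_comm := by rintro e rfl e' rfl; exact Commute.refl _
      extra_lift := by
        rintro e rfl
        exact ⟨_, rfl, fun n r c => ⟨(L.pool.comm (2 * Nat.pair k d + 1) (2 * r) (by omega) 1 c).1,
          (L.pool.comm (2 * Nat.pair k d + 1) (2 * r) (by omega) 1 c).2.1⟩⟩ }
    rfl i a b

/-- The symmetries in the algebra of the fields. -/
def T (k d : ℕ) : L.setup.C := L.setup.inc ⟨L.sym k d, ⟨(k, d), rfl⟩⟩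

theorem T_sa (k d : ℕ) : IsSelfAdjoint (L.T k d) :=
  Subtype.ext (cst_sa (L.pool.u_sa _ _)).star_eq

theorem T_sq (k d : ℕ) : L.T k d * L.T k d = 1 := by
  refine Subtype.ext ?_
  show L.sym k d * L.sym k d = 1
  rw [sym, cst_mul, L.pool.u_sq, cst_one]

/-- A spectral projection of a symmetry. -/
def half (b : Bool) (k d : ℕ) : L.setup.C := (1 / 2 : ℂ) • (1 + if b then L.T k d else -L.T k d)

theorem half_sa (b : Bool) (k d : ℕ) : IsSelfAdjoint (L.half b k d) := by
  have h := (L.T_sa k d).star_eq
  cases b <;> simp [IsSelfAdjoint, half, h]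

theorem half_mul (b b' : Bool) (k d : ℕ) :
    L.half b k d * L.half b' k d = if b = b' then L.half b k d else 0 := by
  have h := L.T_sq k d
  cases b <;> cases b' <;>
    simp only [half, smul_mul_smul_comm, Bool.false_eq_true, if_false, if_true,
      reduceCtorEq, add_mul, mul_add, one_mul, mul_one, neg_mul, mul_neg, h] <;>
    module

/-- The projection of the pool `r` of step `k`. -/
def tag (D k r : ℕ) : L.setup.C :=
  ∏ d ∈ Finset.range D, L.half ((r - k * 2 ^ D).testBit d) k d

/-- The tags. -/
def tags (D k : ℕ) (X : Finset ℕ) : L.setup.C := ∑ r ∈ X, L.tag D k r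

theorem tag_sa (D k r : ℕ) : IsSelfAdjoint (L.tag D k r) := by
  rw [IsSelfAdjoint, tag, star_prod]
  exact Finset.prod_congr rfl fun d _ => (L.half_sa _ k d).star_eq

theorem tag_mul {D k r r' : ℕ} (hr : r ∈ Machine.pool (2 ^ D) k)
    (hr' : r' ∈ Machine.pool (2 ^ D) k) :
    L.tag D k r * L.tag D k r' = if r = r' then L.tag D k r else 0 := by
  rw [tag, tag, ← Finset.prod_mul_distrib]
  split_ifs with h
  · subst h
    exact Finset.prod_congr rfl fun d _ => by rw [half_mul, if_pos rfl]
  · obtain ⟨d, hd, hne⟩ :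
        ∃ d ∈ Finset.range D, (r - k * 2 ^ D).testBit d ≠ (r' - k * 2 ^ D).testBit d := by
      by_contra hc
      push Not at hc
      simp only [Machine.pool, Finset.mem_Ico, add_mul, one_mul] at hr hr'
      refine h ?_
      have hx : r - k * 2 ^ D < 2 ^ D := by omega
      have hx' : r' - k * 2 ^ D < 2 ^ D := by omega
      have := Nat.eq_of_testBit_eq (x := r - k * 2 ^ D) (y := r' - k * 2 ^ D) fun d => by
        rcases lt_or_ge d D with hd | hd
        · exact hc d (Finset.mem_range.2 hd)
        · rw [Nat.testBit_lt_two_pow (hx.trans_le (Nat.pow_le_pow_right two_pos hd)),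
            Nat.testBit_lt_two_pow (hx'.trans_le (Nat.pow_le_pow_right two_pos hd))]
      omega
    exact Finset.prod_eq_zero hd (by rw [half_mul, if_neg hne])

/-- Elements commuting with the flips of the steps from `k` on. -/
def low (k : ℕ) : StarSubalgebra ℂ L.setup.C :=
  (StarSubalgebra.centralizer ℂ {z | ∃ j d, k ≤ j ∧ z = L.symFlip j d}).comap L.setup.C.subtype

theorem mem_low {k : ℕ} {c : L.setup.C} :
    c ∈ L.low k ↔ ∀ j d, k ≤ j → Commute (L.symFlip j d) (c : DQ N ω) := by
  rw [low, StarSubalgebra.mem_comap, StarSubalgebra.mem_centralizer_iff]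
  constructor
  · exact fun h j d hj => (h _ ⟨j, d, hj, rfl⟩).1
  · rintro h z ⟨j, d, hj, rfl⟩
    have hs : star (L.symFlip j d) = L.symFlip j d := (cst_sa (L.pool.P_sa _ _)).star_eq
    rw [hs]
    exact ⟨h j d hj, h j d hj⟩

theorem low_mono : Monotone L.low := fun _ _ hk _ hc =>
  L.mem_low.2 fun j d hj => L.mem_low.1 hc j d (hk.trans hj)

theorem T_commute {k d j e : ℕ} (h : (k, d) ≠ (j, e)) :
    Commute (L.symFlip j e) (L.T k d : DQ N ω) :=
  cst_commute (L.pool.comm _ _ (fun he => h (by
    have := Nat.pair_eq_pair.1 (by omega : Nat.pair k d = Nat.pair j e)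
    rw [this.1, this.2])) 1 1).2.1

theorem T_mem_low {k k' : ℕ} (h : k < k') (d : ℕ) : L.T k d ∈ L.low k' :=
  L.mem_low.2 fun j e hj => L.T_commute (by intro he; simp at he; omega)

theorem half_mem {A : StarSubalgebra ℂ L.setup.C} {k d : ℕ} (h : L.T k d ∈ A) (b : Bool) :
    L.half b k d ∈ A := by
  refine SMulMemClass.smul_mem _ (add_mem (one_mem A) ?_)
  cases b
  · simpa using neg_mem h
  · simpa using h

theorem y_low (k i : ℕ) (a : G) : L.setup.y i a ∈ L.low k := by
  have hU : L.setup.U i a ∈ L.low k :=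
    L.mem_low.2 fun j d _ => (L.symFlip_commute j d i a a).1
  exact SMulMemClass.smul_mem _ (SMulMemClass.smul_mem _ (sub_mem hU (star_mem hU)))

theorem K_low (k i : ℕ) (a b : G) : L.setup.K i a b ∈ L.low k := by
  refine L.mem_low.2 fun j d _ => ?_
  rw [L.setup.coe_K, DQ.mk_cfc (L.setup.rseq_sa i a b) Field.Setup.continuous_fieldG]
  exact ((L.symFlip_commute j d i a b).2.symm.cfc_real _).symm

/-- A symmetry has mean zero against everything commuting with its flip. -/
theorem tau_T_mul (D' : DimState (DQ N ω)) (k d : ℕ) {w : L.setup.C}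
    (hw : Commute (L.symFlip k d) (w : DQ N ω)) : L.setup.tau D' (L.T k d * w) = 0 := by
  set V := L.symFlip k d with hV
  have hVs : IsSelfAdjoint V := cst_sa (L.pool.P_sa _ _)
  have sa : ∀ z : L.setup.C, IsSelfAdjoint z → Commute V (z : DQ N ω) →
      L.setup.tau D' (L.T k d * z) = 0 := by
    intro z hz hc
    have hzs : IsSelfAdjoint (L.T k d * z) :=
      Field.isSelfAdjoint_mul (L.T_sa k d) hz (Commute.all _ _)
    rw [L.setup.tau_sa D' hzs, Complex.ofReal_eq_zero]
    refine Field.tau_flip D' hVs (by rw [hV, symFlip, cst_mul, L.pool.P_sq, cst_one])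
      (L.setup.coe_sa hzs) ?_
    show V * (L.sym k d * (z : DQ N ω)) = -(L.sym k d * (z : DQ N ω) * V)
    rw [← mul_assoc, hV, symFlip, sym, cst_mul, L.pool.anti, show (cst (-(L.u (2 * Nat.pair k d + 1)
      1 * L.P (2 * Nat.pair k d + 1) 1)) : DQ N ω) = -(cst (L.u (2 * Nat.pair k d + 1) 1) *
      cst (L.P (2 * Nat.pair k d + 1) 1)) by rw [cst_mul, cst, cst, ← map_neg]; rfl,
      neg_mul, mul_assoc (cst _) (cst _) (z : DQ N ω)]
    exact congrArg Neg.neg ((congrArg _ hc.eq).trans (mul_assoc _ _ _).symm)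
  have hstar : Commute V (star (w : DQ N ω)) := by simpa [hVs.star_eq] using hw.star_star
  have hre : Commute V ((ℜ w : L.setup.C) : DQ N ω) := by
    rw [realPart_apply_coe, ← Complex.coe_smul]
    exact ((hw.add_right hstar).smul_right _)
  have him : Commute V ((ℑ w : L.setup.C) : DQ N ω) := by
    rw [imaginaryPart_apply_coe, ← Complex.coe_smul]
    exact (((hw.sub_right hstar).smul_right _).smul_right _)
  rw [← realPart_add_I_smul_imaginaryPart w, mul_add, mul_smul_comm, map_add, map_smul,
    sa _ (ℜ w).2 hre, sa _ (ℑ w).2 him, smul_zero, add_zero]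

theorem tau_prod_half (D' : DimState (DQ N ω)) (k : ℕ) (σ : ℕ → Bool) (s : Finset ℕ) :
    ∀ {w : L.setup.C}, w ∈ L.low k →
      L.setup.tau D' ((∏ d ∈ s, L.half (σ d) k d) * w) =
        (1 / 2 : ℂ) ^ s.card * L.setup.tau D' w := by
  induction s using Finset.cons_induction with
  | empty => intro w _; simp
  | cons d s hd ih =>
    intro w hw
    have hrest : Commute (L.symFlip k d)
        (((∏ e ∈ s, L.half (σ e) k e) * w : L.setup.C) : DQ N ω) := by
      let A : StarSubalgebra ℂ L.setup.C :=
        (StarSubalgebra.centralizer ℂ {L.symFlip k d}).comap L.setup.C.subtype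
      have mem : ∀ c : L.setup.C, Commute (L.symFlip k d) (c : DQ N ω) → c ∈ A := by
        intro c hc
        rw [StarSubalgebra.mem_comap, StarSubalgebra.mem_centralizer_iff]
        rintro z rfl
        have hs : star (L.symFlip k d) = L.symFlip k d := (cst_sa (L.pool.P_sa _ _)).star_eq
        rw [hs]
        exact ⟨hc, hc⟩
      have : (∏ e ∈ s, L.half (σ e) k e) * w ∈ A :=
        mul_mem (prod_mem fun e he => L.half_mem
          (mem _ (L.T_commute (fun heq => hd (by simp at heq; exact heq ▸ he)))) _)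
          (mem _ (L.mem_low.1 hw k d le_rfl))
      rw [StarSubalgebra.mem_comap, StarSubalgebra.mem_centralizer_iff] at this
      exact (this _ rfl).1
    rw [Finset.prod_cons, Finset.card_cons, pow_succ, mul_assoc, half]
    cases σ d <;>
      simp only [smul_mul_assoc, add_mul, one_mul, neg_mul, map_smul, map_add, map_neg, ih hw,
        L.tau_T_mul D' k d hrest, Bool.false_eq_true, if_false, if_true, neg_zero, add_zero,
        smul_eq_mul] <;>
      ring

/-- The tags are uniform tags. -/
theorem isTags (D' : DimState (DQ N ω)) (D : ℕ) :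
    Machine.Tags (L.setup.tau D') L.setup.y L.setup.K L.setup.alg L.low (2 ^ D) 1 (L.tags D) where
  low_mono := L.low_mono
  y_low := L.y_low
  K_low := L.K_low
  e_low k k' h X _ :=
    sum_mem fun r _ => prod_mem fun d _ => L.half_mem (L.T_mem_low h d) _
  e_alg k X _ :=
    sum_mem fun r _ => prod_mem fun d _ => L.half_mem (L.setup.inc_mem _ _) _
  sa k X _ := by
    rw [IsSelfAdjoint, tags, star_sum]
    exact Finset.sum_congr rfl fun r _ => (L.tag_sa D k r).star_eq
  mul k X hX Y hY := by
    obtain ⟨hXP, hXc⟩ := Finset.mem_powersetCard.1 hX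
    obtain ⟨hYP, hYc⟩ := Finset.mem_powersetCard.1 hY
    obtain ⟨r, rfl⟩ := Finset.card_eq_one.1 hXc
    obtain ⟨r', rfl⟩ := Finset.card_eq_one.1 hYc
    simp only [tags, Finset.sum_singleton, Finset.singleton_inj]
    exact L.tag_mul (Finset.singleton_subset_iff.1 hXP) (Finset.singleton_subset_iff.1 hYP)
  unif k X hX w hw := by
    obtain ⟨r, rfl⟩ := Finset.card_eq_one.1 (Finset.mem_powersetCard.1 hX).2
    rw [tags, Finset.sum_singleton, tag, L.tau_prod_half D' k _ _ hw, Finset.card_range,
      Finset.card_powersetCard, Nat.choose_one_right, Machine.pool, Nat.card_Ico,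
      show (k + 1) * 2 ^ D - k * 2 ^ D = 2 ^ D by rw [add_mul, one_mul, Nat.add_sub_cancel_left]]
    simp

end Split

end

end Vale.Agent.P095.Elem.Leaf
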