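import Vale.Agent.P095.Elem.Defs

/-!
# P095, elementary amenable groups: the measure of a dimension state

A dimension state restricted along a star homomorphism from the continuous functions on a compact
Hausdorff space is a regular probability measure on the cozero sets.
-/

namespace Vale.Agent.P095.Elem

open scoped CStarAlgebra ENNReal NNReal
open MeasureTheory Set TopologicalSpace

noncomputable section

namespace Spec

variable {B : Type*} [CStarAlgebra B] {Ω : Type*} [TopologicalSpace Ω] [CompactSpace Ω]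
  (D : DimState B) (Φ : C(Ω, ℂ) →⋆ₐ[ℂ] B)

/-- A real function as a complex one. -/
def toC (f : C(Ω, ℝ)) : C(Ω, ℂ) := ⟨fun ω => (f ω : ℂ), Complex.continuous_ofReal.comp f.continuous⟩

omit [CompactSpace Ω] in
@[simp] lemma toC_apply (f : C(Ω, ℝ)) (ω : Ω) : toC f ω = (f ω : ℂ) := rfl

instance cfcRealC : ContinuousFunctionalCalculus ℝ C(Ω, ℂ) IsSelfAdjoint :=
  IsSelfAdjoint.instContinuousFunctionalCalculus

omit [CompactSpace Ω] in
lemma toC_sa (f : C(Ω, ℝ)) : IsSelfAdjoint (toC f) := by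
  ext ω
  simp

/-- The image of a real function. -/
def fval (f : C(Ω, ℝ)) : B := Φ (toC f)

lemma fval_sa (f : C(Ω, ℝ)) : IsSelfAdjoint (fval Φ f) := (toC_sa f).map Φ

lemma fval_add (f g : C(Ω, ℝ)) : fval Φ (f + g) = fval Φ f + fval Φ g := by
  rw [fval, fval, fval, ← map_add]; congr 1; ext ω; simp

lemma fval_sub (f g : C(Ω, ℝ)) : fval Φ (f - g) = fval Φ f - fval Φ g := by
  rw [fval, fval, fval, ← map_sub]; congr 1; ext ω; simp

lemma fval_mul (f g : C(Ω, ℝ)) : fval Φ (f * g) = fval Φ f * fval Φ g := by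
  rw [fval, fval, fval, ← map_mul]; congr 1; ext ω; simp

lemma fval_one : fval Φ (1 : C(Ω, ℝ)) = 1 := by
  rw [fval, show toC (1 : C(Ω, ℝ)) = 1 by ext ω; simp, map_one]

lemma fval_zero : fval Φ (0 : C(Ω, ℝ)) = 0 := by
  rw [fval, show toC (0 : C(Ω, ℝ)) = 0 by ext ω; simp, map_zero]

lemma norm_fval_le (f : C(Ω, ℝ)) {r : ℝ} (hr : 0 ≤ r) (h : ∀ ω, |f ω| ≤ r) : ‖fval Φ f‖ ≤ r := by
  refine (NonUnitalStarAlgHom.norm_apply_le Φ (toC f)).trans ?_
  exact (ContinuousMap.norm_le _ hr).mpr fun ω => by simpa using h ω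

lemma isPos_fval {f : C(Ω, ℝ)} (h : 0 ≤ f) : IsPos (fval Φ f) := by
  refine ⟨fval Φ ⟨fun ω => Real.sqrt (f ω), f.continuous.sqrt⟩, ?_⟩
  rw [(fval_sa Φ _).star_eq, ← fval_mul]
  congr 1
  ext ω
  simp [Real.mul_self_sqrt (ContinuousMap.le_def.mp h ω)]

lemma cfc_toC (f : C(Ω, ℝ)) {h : ℝ → ℝ} (hh : Continuous h) :
    cfc h (toC f) = toC ⟨fun ω => h (f ω), hh.comp f.continuous⟩ := by
  ext ω
  have he := StarAlgHomClass.map_cfc (ContinuousMap.evalStarAlgHom ℂ ℂ ω) h (toC f)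
    hh.continuousOn (continuous_eval_const ω) (toC_sa f) ((toC_sa f).map _)
  simp only [ContinuousMap.evalStarAlgHom_apply] at he
  rw [he, toC_apply, toC_apply]
  exact cfc_algebraMap (A := ℂ) (f ω) h

lemma cfc_fval (f : C(Ω, ℝ)) {h : ℝ → ℝ} (hh : Continuous h) :
    cfc h (fval Φ f) = fval Φ ⟨fun ω => h (f ω), hh.comp f.continuous⟩ := by
  rw [fval, fval, ← cfc_toC f hh]
  exact (StarAlgHomClass.map_cfc Φ h (toC f) hh.continuousOn (map_continuous Φ) (toC_sa f)
    ((toC_sa f).map Φ)).symm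

lemma cut_fval (f : C(Ω, ℝ)) (ε : ℝ) :
    cut ε (fval Φ f) =
      fval Φ ⟨fun ω => max (f ω - ε) 0, (f.continuous.sub continuous_const).max continuous_const⟩ :=
  cfc_fval Φ f (h := fun t => max (t - ε) 0) (by fun_prop)

lemma ppart_fval (f : C(Ω, ℝ)) :
    ppart (fval Φ f) = fval Φ ⟨fun ω => max (f ω) 0, f.continuous.max continuous_const⟩ := by
  rw [ppart, cut_fval]
  congr 1
  ext ω
  simp

/-- The function carrying `(f - ε)_+` over to `g`. -/
lemma exists_carrier {f g : C(Ω, ℝ)} (hg : 0 ≤ g) (h : ∀ ω, 0 < f ω → 0 < g ω) {ε : ℝ}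
    (hε : 0 < ε) :
    ∃ w : C(Ω, ℝ), (∀ ω, w ω * g ω * w ω = max (f ω - ε) 0) ∧ ∀ ω, f ω ≤ ε → w ω = 0 := by
  obtain ⟨c, hc, hcg⟩ : ∃ c : ℝ, 0 < c ∧ ∀ ω, ε ≤ f ω → c ≤ g ω := by
    rcases ({ω | ε ≤ f ω} : Set Ω).eq_empty_or_nonempty with he | hne
    · exact ⟨1, one_pos, fun ω hω => absurd hω (Set.eq_empty_iff_forall_notMem.mp he ω)⟩
    · obtain ⟨ω0, hω0, hmin⟩ := (isClosed_le continuous_const f.continuous).isCompact.exists_isMinOn
        hne g.continuous.continuousOn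
      exact ⟨g ω0, h ω0 (hε.trans_le hω0), fun ω hω => isMinOn_iff.mp hmin ω hω⟩
  refine ⟨⟨fun ω => Real.sqrt (max (f ω - ε) 0 / max (g ω) c), ?_⟩, fun ω => ?_, fun ω hω => ?_⟩
  · exact (((f.continuous.sub continuous_const).max continuous_const).div
      (g.continuous.max continuous_const) fun ω => (lt_max_of_lt_right hc).ne').sqrt
  · have h0 : 0 ≤ max (f ω - ε) 0 / max (g ω) c :=
      div_nonneg (le_max_right _ _) (hc.le.trans (le_max_right _ _))
    show Real.sqrt _ * g ω * Real.sqrt _ = _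
    rw [mul_right_comm, Real.mul_self_sqrt h0]
    rcases le_or_gt ε (f ω) with hεf | hεf
    · rw [max_eq_left (hcg ω hεf), div_mul_cancel₀ _ (hc.trans_le (hcg ω hεf)).ne']
    · rw [max_eq_right (by linarith), zero_div, zero_mul]
  · show Real.sqrt _ = 0
    rw [max_eq_right (by linarith), zero_div, Real.sqrt_zero]

lemma abs_carrier {ε : ℝ} (hε : 0 ≤ ε) {t : ℝ} (ht : 0 ≤ t) : |max (t - ε) 0 - t| ≤ ε := by
  rw [abs_le]
  constructor <;> cases max_cases (t - ε) 0 <;> linarith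

lemma val_zero : D (0 : B) = 0 := by
  have h1 := D.mono (m := 0) (n := 1) Fin.elim0 (fun _ => (0 : B)) (fun i => i.elim0)
    (fun _ => ⟨0, by simp⟩) (fun ε hε => ⟨fun _ j => j.elim0, fun i => i.elim0⟩)
  have h2 := D.mono (m := 1) (n := 0) (fun _ => (0 : B)) Fin.elim0
    (fun _ => ⟨0, by simp⟩) (fun i => i.elim0)
    (fun ε hε => ⟨fun k => k.elim0, fun i j => by simpa using hε.le⟩)
  simp only [Finset.univ_unique, Finset.sum_singleton, Finset.univ_eq_empty,
    Finset.sum_empty] at h1 h2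
  exact le_antisymm h2 h1

lemma val_nonneg {x : B} (hx : IsPos x) : 0 ≤ D x := by
  have h1 := D.mono (m := 0) (n := 1) Fin.elim0 (fun _ => x) (fun i => i.elim0)
    (fun _ => hx) (fun ε _ => ⟨fun _ j => j.elim0, fun i => i.elim0⟩)
  simpa using h1

lemma val_mono {f g : C(Ω, ℝ)} (hf : 0 ≤ f) (hg : 0 ≤ g) (h : ∀ ω, 0 < f ω → 0 < g ω) :
    D (fval Φ f) ≤ D (fval Φ g) := by
  have := D.mono (m := 1) (n := 1) (fun _ => fval Φ f) (fun _ => fval Φ g)
    (fun _ => isPos_fval Φ hf) (fun _ => isPos_fval Φ hg) fun ε hε => by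
      obtain ⟨w, hw, -⟩ := exists_carrier hg h hε
      refine ⟨fun _ _ => fval Φ w, fun i j => ?_⟩
      rw [Subsingleton.elim i j, if_pos rfl, Fin.sum_univ_one, (fval_sa Φ w).star_eq, ← fval_mul,
        ← fval_mul, ← fval_sub]
      refine norm_fval_le Φ _ hε.le fun ω => ?_
      simpa [hw] using abs_carrier hε.le (ContinuousMap.le_def.mp hf ω)
  simpa using this

lemma val_congr {f g : C(Ω, ℝ)} (hf : 0 ≤ f) (hg : 0 ≤ g) (h : ∀ ω, 0 < f ω ↔ 0 < g ω) :
    D (fval Φ f) = D (fval Φ g) :=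
  le_antisymm (val_mono D Φ hf hg fun ω => (h ω).1) (val_mono D Φ hg hf fun ω => (h ω).2)

lemma val_add_le {f g : C(Ω, ℝ)} (hf : 0 ≤ f) (hg : 0 ≤ g) :
    D (fval Φ (f + g)) ≤ D (fval Φ f) + D (fval Φ g) := by
  have := D.mono (m := 1) (n := 2) (fun _ => fval Φ (f + g)) ![fval Φ f, fval Φ g]
    (fun _ => isPos_fval Φ (add_nonneg hf hg))
    (Fin.forall_fin_two.mpr ⟨by simpa using isPos_fval Φ hf, by simpa using isPos_fval Φ hg⟩)
    fun ε hε => ⟨fun _ _ => 1, fun i j => by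
      rw [Subsingleton.elim i j, if_pos rfl]
      simp [Fin.sum_univ_two, fval_add, hε.le]⟩
  simpa [Fin.sum_univ_two] using this

lemma val_le_add {f g : C(Ω, ℝ)} (hf : 0 ≤ f) (hg : 0 ≤ g) (hd : ∀ ω, 0 < f ω → g ω = 0) :
    D (fval Φ f) + D (fval Φ g) ≤ D (fval Φ (f + g)) := by
  have := D.mono (m := 2) (n := 1) ![fval Φ f, fval Φ g] (fun _ => fval Φ (f + g))
    (Fin.forall_fin_two.mpr ⟨by simpa using isPos_fval Φ hf, by simpa using isPos_fval Φ hg⟩)
    (fun _ => isPos_fval Φ (add_nonneg hf hg)) fun ε hε => by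
      have hsum : ∀ ω, (f + g) ω = f ω + g ω := fun ω => rfl
      have hf' := ContinuousMap.le_def.mp hf
      have hg' := ContinuousMap.le_def.mp hg
      simp only [ContinuousMap.zero_apply] at hf' hg'
      obtain ⟨w₁, hw₁, hz₁⟩ := exists_carrier (add_nonneg hf hg) (f := f)
        (fun ω h => by rw [hsum]; linarith [hg' ω]) hε
      obtain ⟨w₂, hw₂, hz₂⟩ := exists_carrier (add_nonneg hf hg) (f := g)
        (fun ω h => by rw [hsum]; linarith [hf' ω]) hε
      have h12 : ∀ ω, w₁ ω * w₂ ω = 0 := fun ω => by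
        rcases le_or_gt (f ω) ε with h | h
        · rw [hz₁ ω h, zero_mul]
        · rw [hz₂ ω (by rw [hd ω (hε.trans h)]; exact hε.le), mul_zero]
      refine ⟨fun _ => ![fval Φ w₁, fval Φ w₂], ?_⟩
      have h21 : ∀ ω, w₂ ω * w₁ ω = 0 := fun ω => by rw [mul_comm]; exact h12 ω
      rw [Fin.forall_fin_two]
      constructor <;> rw [Fin.forall_fin_two] <;> constructor <;>
        simp only [Fin.sum_univ_one, Matrix.cons_val_zero, Matrix.cons_val_one, if_pos,
          Fin.reduceEq, if_false, (fval_sa Φ _).star_eq, sub_zero, ← fval_mul, ← fval_sub] <;>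
        refine norm_fval_le Φ _ hε.le fun ω => ?_ <;>
        simp only [ContinuousMap.sub_apply, ContinuousMap.mul_apply]
      · rw [hw₁]; exact abs_carrier hε.le (hf' ω)
      · rw [mul_right_comm, h12, zero_mul, abs_zero]; exact hε.le
      · rw [mul_right_comm, h21, zero_mul, abs_zero]; exact hε.le
      · rw [hw₂]; exact abs_carrier hε.le (hg' ω)
  simpa [Fin.sum_univ_two] using this

/-- The test functions of a compact set. -/
def Above (K : Compacts Ω) : Type _ := {f : C(Ω, ℝ) // 0 ≤ f ∧ ∀ ω ∈ K, 1 ≤ f ω}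

instance (K : Compacts Ω) : Nonempty (Above K) :=
  ⟨⟨1, ContinuousMap.le_def.mpr fun ω => by simp, fun ω _ => by simp⟩⟩

/-- The outer value of a compact set. -/
def outer (K : Compacts Ω) : ℝ≥0 :=
  ⨅ f : Above K, (D (fval Φ f.1)).toNNReal

lemma outer_le {K : Compacts Ω} {f : C(Ω, ℝ)} (hf : 0 ≤ f) (h : ∀ ω ∈ K, 1 ≤ f ω) :
    (outer D Φ K : ℝ) ≤ D (fval Φ f) := by
  refine le_trans ?_ (Real.coe_toNNReal _ (val_nonneg D (isPos_fval Φ hf))).le
  exact NNReal.coe_le_coe.mpr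
    (ciInf_le (OrderBot.bddBelow _) (⟨f, hf, h⟩ : Above K))

lemma le_outer {K : Compacts Ω} {r : ℝ}
    (h : ∀ f : C(Ω, ℝ), 0 ≤ f → (∀ ω ∈ K, 1 ≤ f ω) → r ≤ D (fval Φ f)) :
    r ≤ (outer D Φ K : ℝ) := by
  rw [outer, NNReal.coe_iInf]
  exact le_ciInf fun f => (h f.1 f.2.1 f.2.2).trans (Real.le_coe_toNNReal _)

variable [T2Space Ω]

/-- The content of a dimension state. -/
def content : Content Ω where
  toFun := outer D Φ
  mono' K₁ K₂ h := NNReal.coe_le_coe.mp
    (le_outer D Φ fun f hf h1 => outer_le D Φ hf fun ω hω => h1 ω (h hω))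
  sup_le' K₁ K₂ := by
    rw [← NNReal.coe_le_coe, NNReal.coe_add, ← sub_le_iff_le_add]
    refine le_outer D Φ fun f hf hf1 => ?_
    rw [sub_le_iff_le_add, ← sub_le_iff_le_add']
    refine le_outer D Φ fun g hg hg1 => ?_
    rw [sub_le_iff_le_add']
    refine (outer_le D Φ (add_nonneg hf hg) fun ω hω => ?_).trans (val_add_le D Φ hf hg)
    have hf0 : 0 ≤ f ω := ContinuousMap.le_def.mp hf ω
    have hg0 : 0 ≤ g ω := ContinuousMap.le_def.mp hg ω
    rw [ContinuousMap.add_apply]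
    rcases (show ω ∈ K₁ ∨ ω ∈ K₂ by simpa [← SetLike.mem_coe] using hω) with h | h
    · linarith [hf1 ω h]
    · linarith [hg1 ω h]
  sup_disjoint' K₁ K₂ hd h₁ h₂ := by
    refine le_antisymm ?_ ?_
    · rw [← NNReal.coe_le_coe, NNReal.coe_add, ← sub_le_iff_le_add]
      refine le_outer D Φ fun f hf hf1 => ?_
      rw [sub_le_iff_le_add, ← sub_le_iff_le_add']
      refine le_outer D Φ fun g hg hg1 => ?_
      rw [sub_le_iff_le_add']
      refine (outer_le D Φ (add_nonneg hf hg) fun ω hω => ?_).trans (val_add_le D Φ hf hg)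
      have hf0 : 0 ≤ f ω := ContinuousMap.le_def.mp hf ω
      have hg0 : 0 ≤ g ω := ContinuousMap.le_def.mp hg ω
      rw [ContinuousMap.add_apply]
      rcases (show ω ∈ K₁ ∨ ω ∈ K₂ by simpa [← SetLike.mem_coe] using hω) with h | h
      · linarith [hf1 ω h]
      · linarith [hg1 ω h]
    rw [← NNReal.coe_le_coe, NNReal.coe_add]
    refine le_outer D Φ fun f hf hf1 => ?_
    obtain ⟨u, hu0, hu1, -⟩ := exists_continuous_zero_one_of_isClosed h₁ h₂ hd
    have hf' := ContinuousMap.le_def.mp hf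
    simp only [ContinuousMap.zero_apply] at hf'
    set f₁ : C(Ω, ℝ) := f * ⟨fun ω => max (1 - 2 * u ω) 0, by fun_prop⟩ with hf₁
    set f₂ : C(Ω, ℝ) := f * ⟨fun ω => max (2 * u ω - 1) 0, by fun_prop⟩ with hf₂
    have h1 : 0 ≤ f₁ := ContinuousMap.le_def.mpr fun ω => mul_nonneg (hf' ω) (le_max_right _ _)
    have h2 : 0 ≤ f₂ := ContinuousMap.le_def.mpr fun ω => mul_nonneg (hf' ω) (le_max_right _ _)
    refine (add_le_add (outer_le D Φ h1 fun ω hω => ?_) (outer_le D Φ h2 fun ω hω => ?_)).trans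
      ((val_le_add D Φ h1 h2 fun ω hω => ?_).trans
        (val_mono D Φ (add_nonneg h1 h2) hf fun ω hω => ?_))
    · have e : u ω = 0 := hu0 hω
      show (1 : ℝ) ≤ f ω * max (1 - 2 * u ω) 0
      rw [e]; simpa using hf1 ω (Or.inl hω)
    · have e : u ω = 1 := hu1 hω
      show (1 : ℝ) ≤ f ω * max (2 * u ω - 1) 0
      rw [e]; norm_num; exact hf1 ω (Or.inr hω)
    · show f ω * max (2 * u ω - 1) 0 = 0
      have hlt : 0 < 1 - 2 * u ω := by
        by_contra hle
        change 0 < f ω * max (1 - 2 * u ω) 0 at hω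
        rw [max_eq_right (not_lt.mp hle), mul_zero] at hω
        exact lt_irrefl 0 hω
      rw [max_eq_right (by linarith), mul_zero]
    · rcases (hf' ω).lt_or_eq with h | h
      · exact h
      · simp [hf₁, hf₂, ← h] at hω

variable [MeasurableSpace Ω] [BorelSpace Ω]

/-- The measure of a dimension state along `Φ`. -/
def specMeasure : Measure Ω := (content D Φ).measure

/-- The measure of a cozero set is the value of the state. -/
theorem specMeasure_coz {f : C(Ω, ℝ)} (hf : 0 ≤ f) :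
    specMeasure D Φ {ω | 0 < f ω} = ENNReal.ofReal (D (fval Φ f)) := by
  have hU : IsOpen {ω | 0 < f ω} := isOpen_lt continuous_const f.continuous
  rw [specMeasure, Content.measure_apply _ hU.measurableSet, Content.outerMeasure_of_isOpen _ _ hU,
    Content.innerContent]
  refine le_antisymm (iSup₂_le fun K hK => ?_) (ENNReal.le_of_forall_pos_le_add fun ε hε _ => ?_)
  · show ((outer D Φ K : ℝ≥0) : ℝ≥0∞) ≤ _
    rw [← ENNReal.ofReal_coe_nnreal]
    refine ENNReal.ofReal_le_ofReal ?_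
    obtain ⟨c, hc, hcf⟩ : ∃ c : ℝ, 0 < c ∧ ∀ ω ∈ K, c ≤ f ω := by
      rcases (K : Set Ω).eq_empty_or_nonempty with he | hne
      · exact ⟨1, one_pos, fun ω hω => absurd hω (Set.eq_empty_iff_forall_notMem.mp he ω)⟩
      · obtain ⟨ω0, h0, hmin⟩ := K.isCompact.exists_isMinOn hne f.continuous.continuousOn
        exact ⟨f ω0, hK h0, fun ω hω => isMinOn_iff.mp hmin ω hω⟩
    have hg : 0 ≤ c⁻¹ • f := smul_nonneg (inv_nonneg.mpr hc.le) hf
    refine (outer_le D Φ hg fun ω hω => ?_).trans (val_congr D Φ hg hf fun ω => ?_).le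
    · rw [ContinuousMap.smul_apply, smul_eq_mul, inv_mul_eq_div, le_div_iff₀ hc, one_mul]
      exact hcf ω hω
    · rw [ContinuousMap.smul_apply, smul_eq_mul]
      exact mul_pos_iff_of_pos_left (inv_pos.mpr hc)
  · obtain ⟨δ, hδ, hlsc⟩ := D.lsc _ (isPos_fval Φ hf) ε (by exact_mod_cast hε)
    rw [cut_fval] at hlsc
    let K : Compacts Ω := ⟨{ω | δ ≤ f ω}, (isClosed_le continuous_const f.continuous).isCompact⟩
    have hKU : (K : Set Ω) ⊆ {ω | 0 < f ω} := fun ω hω => lt_of_lt_of_le hδ hω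
    refine le_trans ?_ (add_le_add_left (le_iSup₂_of_le K hKU le_rfl) _)
    show _ ≤ ((outer D Φ K : ℝ≥0) : ℝ≥0∞) + (ε : ℝ≥0∞)
    rw [← ENNReal.coe_add]
    refine ENNReal.ofReal_le_of_le_toReal ?_
    rw [ENNReal.coe_toReal, NNReal.coe_add, ← sub_le_iff_le_add]
    refine hlsc.trans (le_outer D Φ fun g hg hg1 => val_mono D Φ ?_ hg fun ω hω => ?_)
    · exact ContinuousMap.le_def.mpr fun ω => le_max_right _ _
    · refine one_pos.trans_le (hg1 ω ?_)
      show δ ≤ f ω
      by_contra h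
      rw [ContinuousMap.coe_mk, max_eq_right (by linarith [not_le.mp h])] at hω
      exact lt_irrefl 0 hω

instance isProbabilityMeasure_specMeasure : IsProbabilityMeasure (specMeasure D Φ) := by
  constructor
  have h := specMeasure_coz D Φ (f := 1) (ContinuousMap.le_def.mpr fun ω => by simp)
  simpa [fval_one, D.one] using h

instance regular_specMeasure : (specMeasure D Φ).Regular := by
  unfold specMeasure; infer_instance

/-- Real form of `specMeasure_coz`. -/
theorem real_specMeasure_coz {f : C(Ω, ℝ)} (hf : 0 ≤ f) :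
    (specMeasure D Φ).real {ω | 0 < f ω} = D (fval Φ f) := by
  rw [measureReal_def, specMeasure_coz D Φ hf, ENNReal.toReal_ofReal
    (val_nonneg D (isPos_fval Φ hf))]

open VAgent.P101 in
/-- The functional calculus of a commuting self-adjoint family, on its joint spectrum. -/
def jointHom {c : Set B} (h : CommSA c) :
    C(WeakDual.characterSpace ℂ (Abel c h), ℂ) →⋆ₐ[ℂ] B :=
  (Abel c h).subtype.comp (gelfandStarTransform (Abel c h)).symm

open VAgent.P101 in
/-- The coordinate of a member of the family. -/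
def coord {c : Set B} (h : CommSA c) {x : B} (hx : x ∈ c) :
    C(WeakDual.characterSpace ℂ (Abel c h), ℝ) :=
  ⟨fun χ => (χ ⟨x, mem_abel h hx⟩).re, Complex.continuous_re.comp
    (gelfandStarTransform (Abel c h) ⟨x, mem_abel h hx⟩).continuous⟩

open VAgent.P101 in
lemma jointHom_coord {c : Set B} (h : CommSA c) {x : B} (hx : x ∈ c) :
    fval (jointHom h) (coord h hx) = x := by
  have hsa : IsSelfAdjoint (⟨x, mem_abel h hx⟩ : Abel c h) := Subtype.ext (h.1 x hx).star_eq
  have e : toC (coord h hx) = gelfandStarTransform (Abel c h) ⟨x, mem_abel h hx⟩ := by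
    ext χ
    show ((χ ⟨x, mem_abel h hx⟩).re : ℂ) = χ ⟨x, mem_abel h hx⟩
    exact (char_re χ hsa).symm
  rw [fval, e, jointHom, StarAlgHom.comp_apply]
  exact congr_arg Subtype.val ((gelfandStarTransform (Abel c h)).symm_apply_apply _)

end Spec

end

end Vale.Agent.P095.Elem
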