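import Vale.Agent.P095.Elem.Tau

/-!
# P095, amenable groups: small elements for the dimension states

The calculus of cuts used for the quotient by uniformly small sequences, and a one step Cuntz
comparison of diagonals (`tupLe_of_approx`).
-/

namespace Vale.Agent.P095.Elem.DQ

open VAgent.P101 Filter Topology
open scoped CStarAlgebra

noncomputable section

universe u

attribute [local instance] CStarAlgebra.spectralOrder CStarAlgebra.spectralOrderedRing

/-! ### One step comparison of diagonals -/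

section matrices

variable {B : Type u} [CStarAlgebra B] {m : ℕ}

/-- The diagonal embedding. -/
def diagHom : (Fin m → B) →⋆ₐ[ℂ] CStarMatrix (Fin m) (Fin m) B where
  toFun f := CStarMatrix.ofMatrix (Matrix.diagonal f)
  map_one' := by simp; rfl
  map_mul' f g := by
    ext i j
    simp [CStarMatrix.mul_apply, Matrix.diagonal_apply, ite_mul]
    split_ifs with h
    · subst h; rfl
    · rfl
  map_zero' := by simp
  map_add' f g := by
    ext i j
    simp [Matrix.diagonal_apply]
    split_ifs <;> simp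
  commutes' r := by
    ext i j
    simp [Matrix.diagonal_apply, CStarMatrix.algebraMap_apply, Pi.algebraMap_apply]
  map_star' f := by
    ext i j
    simp only [CStarMatrix.star_apply, CStarMatrix.ofMatrix_apply, Matrix.diagonal_apply,
      Pi.star_apply]
    by_cases h : i = j
    · subst h; simp
    · rw [if_neg h, if_neg (Ne.symm h), star_zero]

/-- The matrix with a single entry. -/
def cell (i j : Fin m) (a : B) : CStarMatrix (Fin m) (Fin m) B :=
  CStarMatrix.ofMatrix (Matrix.single i j a)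

theorem norm_cell_le (i j : Fin m) (a : B) : ‖cell i j a‖ ≤ ‖a‖ := by
  let κ : B →⋆ₙₐ[ℂ] CStarMatrix (Fin m) (Fin m) B :=
    { toFun := cell j j
      map_smul' := fun c x => by
        ext p q; simp [cell, Matrix.single_apply]
      map_zero' := by ext p q; simp [cell]
      map_add' := fun x y => by
        ext p q; simp [cell, Matrix.single_add]
      map_mul' := fun x y => by
        show _ = CStarMatrix.ofMatrix (Matrix.single j j x * Matrix.single j j y)
        rw [Matrix.single_mul_single_same]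
        rfl
      map_star' := fun x => by
        ext p q
        simp only [cell, CStarMatrix.star_apply, CStarMatrix.ofMatrix_apply, Matrix.single_apply]
        by_cases h : j = p ∧ j = q
        · rw [if_pos h, if_pos ⟨h.2, h.1⟩]
        · rw [if_neg h, if_neg fun h' => h ⟨h'.2, h'.1⟩, star_zero] }
  have e : star (cell i j a) * cell i j a = κ (star a * a) := by
    have e1 : star (cell i j a) = cell j i (star a) := by
      ext p q
      simp only [cell, CStarMatrix.star_apply, CStarMatrix.ofMatrix_apply, Matrix.single_apply]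
      by_cases h : i = q ∧ j = p
      · rw [if_pos h, if_pos ⟨h.2, h.1⟩]
      · rw [if_neg h, if_neg fun h' => h ⟨h'.2, h'.1⟩, star_zero]
    rw [e1]
    show CStarMatrix.ofMatrix (Matrix.single j i (star a) * Matrix.single i j a) = _
    rw [Matrix.single_mul_single_same]
    rfl
  have h : ‖cell i j a‖ * ‖cell i j a‖ ≤ ‖a‖ * ‖a‖ := by
    rw [← CStarRing.norm_star_mul_self, e]
    exact (NonUnitalStarAlgHom.norm_apply_le κ _).trans_eq CStarRing.norm_star_mul_self
  nlinarith [norm_nonneg (cell i j a), norm_nonneg a]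

theorem norm_le_sum_entries (X : CStarMatrix (Fin m) (Fin m) B) :
    ‖X‖ ≤ ∑ i, ∑ j, ‖X i j‖ := by
  have e : X = ∑ i, ∑ j, cell i j (X i j) := by
    have hsum : ∀ (t : Finset (Fin m)) (g : Fin m → CStarMatrix (Fin m) (Fin m) B) (p q : Fin m),
        (∑ x ∈ t, g x) p q = ∑ x ∈ t, g x p q := fun t g p q => by
      induction t using Finset.induction_on with
      | empty => simp [CStarMatrix.zero_apply]
      | insert a t ha ih => rw [Finset.sum_insert ha, Finset.sum_insert ha, CStarMatrix.add_apply, ih]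
    ext p q
    simp only [hsum, cell, CStarMatrix.ofMatrix_apply, Matrix.single_apply]
    simp [ite_and]
  conv_lhs => rw [e]
  exact (norm_sum_le _ _).trans
    (Finset.sum_le_sum fun i _ => (norm_sum_le _ _).trans
      (Finset.sum_le_sum fun j _ => norm_cell_le i j _))

/-- `a ≤ b` gives Cuntz subequivalence, with an explicit approximate witness. -/
theorem exists_conj_near_of_le {M : Type*} [CStarAlgebra M] [PartialOrder M] [StarOrderedRing M]
    {a b : M} (ha : 0 ≤ a) (hab : a ≤ b) {δ : ℝ} (hδ : 0 < δ) :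
    ∃ z : M, ‖star z * b * z - a‖ ≤ δ := by
  rcases subsingleton_or_nontrivial M with hs | hs
  · refine ⟨0, ?_⟩
    rw [Subsingleton.elim (star (0 : M) * b * 0 - a) 0, norm_zero]
    exact hδ.le
  have hb : 0 ≤ b := ha.trans hab
  set w := cfc (fun x : ℝ => (√(max x 0 + δ))⁻¹) b with hw
  have hcw : Continuous fun x : ℝ => (√(max x 0 + δ))⁻¹ :=
    Continuous.inv₀ (by fun_prop) fun x => (Real.sqrt_pos.2 (by positivity)).ne'
  have hwsa : star w = w := IsSelfAdjoint.cfc.star_eq
  have hwbw : w * b * w = cfc (fun x : ℝ => (√(max x 0 + δ))⁻¹ * x * (√(max x 0 + δ))⁻¹) b := by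
    rw [cfc_mul (fun x : ℝ => (√(max x 0 + δ))⁻¹ * x) (fun x : ℝ => (√(max x 0 + δ))⁻¹) b
        (hcw.mul continuous_id').continuousOn hcw.continuousOn,
      cfc_mul (fun x : ℝ => (√(max x 0 + δ))⁻¹) (fun x : ℝ => x) b hcw.continuousOn (by fun_prop),
      cfc_id' ℝ b]
  have hval : ∀ x ∈ spectrum ℝ b,
      (√(max x 0 + δ))⁻¹ * x * (√(max x 0 + δ))⁻¹ = x / (x + δ) := fun x hx => by
    have hx0 := spectrum_nonneg_of_nonneg hb hx
    rw [max_eq_left hx0]
    have : 0 < x + δ := by linarith
    field_simp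
    rw [Real.sq_sqrt this.le]
  have hwbw1 : ‖w * b * w‖ ≤ 1 := by
    rw [hwbw]
    refine norm_cfc_le zero_le_one fun x hx => ?_
    have hx0 := spectrum_nonneg_of_nonneg hb hx
    rw [hval x hx, Real.norm_eq_abs, abs_of_nonneg (by positivity), div_le_one (by linarith)]
    linarith
  have hdef : 1 - w * b * w = δ • (w * w) := by
    rw [hwbw, hw, ← cfc_mul (fun x : ℝ => (√(max x 0 + δ))⁻¹) (fun x : ℝ => (√(max x 0 + δ))⁻¹) b
        hcw.continuousOn hcw.continuousOn,
      ← cfc_smul δ (fun x : ℝ => (√(max x 0 + δ))⁻¹ * (√(max x 0 + δ))⁻¹) b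
        (hcw.mul hcw).continuousOn]
    conv_lhs => rw [← cfc_const_one ℝ b]
    rw [← cfc_sub (fun _ : ℝ => (1 : ℝ))
      (fun x : ℝ => (√(max x 0 + δ))⁻¹ * x * (√(max x 0 + δ))⁻¹) b (by fun_prop)
      ((hcw.mul continuous_id').mul hcw).continuousOn]
    refine cfc_congr fun x hx => ?_
    have hx0 := spectrum_nonneg_of_nonneg hb hx
    rw [hval x hx, max_eq_left hx0, smul_eq_mul]
    have : 0 < x + δ := by linarith
    field_simp
    rw [Real.sq_sqrt this.le]
    ring
  set s := CFC.sqrt a with hs'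
  have hss : s * s = a := CFC.sqrt_mul_sqrt_self a ha
  have hssa : star s = s := (CFC.sqrt_nonneg a).star_eq
  refine ⟨w * s, ?_⟩
  have e : star (w * s) * b * (w * s) - a = -(δ • (star (w * s) * (w * s))) := by
    have : star (w * s) * b * (w * s) = s * (w * b * w) * s := by
      rw [star_mul, hwsa, hssa]; simp only [mul_assoc]
    rw [this, show w * b * w = 1 - δ • (w * w) by rw [← hdef]; abel, mul_sub, sub_mul, mul_one,
      hss, star_mul, hwsa, hssa]
    simp only [mul_smul_comm, smul_mul_assoc, mul_assoc]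
    abel
  rw [e, norm_neg, norm_smul, Real.norm_eq_abs, abs_of_pos hδ, CStarRing.norm_star_mul_self]
  have hws : ‖w * s‖ * ‖w * s‖ ≤ 1 := by
    rw [← CStarRing.norm_self_mul_star, star_mul, hwsa, hssa]
    have e2 : w * s * (s * w) = star w * a * w := by
      rw [hwsa, ← hss]; simp only [mul_assoc]
    rw [e2]
    refine le_trans ?_ hwbw1
    refine CStarAlgebra.norm_le_norm_of_nonneg_of_le (star_left_conjugate_nonneg ha w) ?_
    conv_rhs => rw [show w * b * w = star w * b * w by rw [hwsa]]
    exact star_left_conjugate_le_conjugate hab w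
  exact mul_le_of_le_one_right hδ.le hws

/-- `d` with `d x (x - e) d x = (x - t)₊`. -/
theorem exists_cut_factor {t e : ℝ} (he : e < t) :
    ∃ d : ℝ → ℝ, Continuous d ∧ ∀ x, d x * (x - e) * d x = max (x - t) 0 := by
  let d : ℝ → ℝ := fun x => √(max (x - t) 0 / max (x - e) (t - e))
  refine ⟨d, (Continuous.div (by fun_prop) (by fun_prop) fun x =>
    (lt_max_of_lt_right (by linarith : (0 : ℝ) < t - e)).ne').sqrt, fun x => ?_⟩
  rcases le_or_gt x t with hx | hx
  · simp [d, max_eq_right (by linarith : x - t ≤ 0)]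
  · rw [show d x * (x - e) * d x = d x * d x * (x - e) by ring]
    simp only [d]
    rw [Real.mul_self_sqrt (by positivity), max_eq_left (by linarith : t - e ≤ x - e),
      div_mul_cancel₀ _ (by linarith : x - e ≠ 0)]

theorem conj_sub_smul_eq_cut {t e : ℝ} {d : ℝ → ℝ} (hdc : Continuous d)
    (hd : ∀ x, d x * (x - e) * d x = max (x - t) 0) {x : B} (hx : IsSelfAdjoint x) :
    cfc d x * (x - e • 1) * cfc d x = cut t x := by
  have h1 : x - e • (1 : B) = cfc (fun s : ℝ => s - e) x := by
    rw [cfc_sub (fun s : ℝ => s) (fun _ => e) x, cfc_id' ℝ x, cfc_const e x,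
      Algebra.algebraMap_eq_smul_one]
  rw [h1, ← cfc_mul d (fun s : ℝ => s - e) x hdc.continuousOn (by fun_prop),
    ← cfc_mul (fun s : ℝ => d s * (s - e)) d x (hdc.mul (by fun_prop)).continuousOn hdc.continuousOn]
  exact cfc_congr fun s _ => hd s

/-- The matrix of an approximation of a diagonal dominates the cuts after a diagonal conjugation. -/
theorem exists_diag_le [PartialOrder (CStarMatrix (Fin m) (Fin m) B)]
    [StarOrderedRing (CStarMatrix (Fin m) (Fin m) B)] {f : Fin m → B} (hf : ∀ i, 0 ≤ f i)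
    (X : CStarMatrix (Fin m) (Fin m) B) (hX : IsSelfAdjoint X) {t e : ℝ} (he : e < t)
    (hnorm : ‖X - diagHom f‖ ≤ e) :
    ∃ Φ : CStarMatrix (Fin m) (Fin m) B,
      diagHom (fun i => cut t (f i)) ≤ star Φ * X * Φ := by
  obtain ⟨d, hdc, hd⟩ := exists_cut_factor he
  have hfsa : star f = f := funext fun i => (hf i).star_eq
  have hsa : IsSelfAdjoint (X - diagHom f) := by
    refine hX.sub ?_
    rw [IsSelfAdjoint, ← map_star, hfsa]
  have hsa' : star (fun i => cfc d (f i)) = fun i => cfc d (f i) :=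
    funext fun i => IsSelfAdjoint.cfc.star_eq
  have h1 : diagHom f - algebraMap ℝ _ e ≤ X := by
    have hle : -algebraMap ℝ (CStarMatrix (Fin m) (Fin m) B) e ≤ X - diagHom f :=
      le_trans (neg_le_neg (algebraMap_mono _ hnorm)) hsa.neg_algebraMap_norm_le_self
    rwa [sub_eq_add_neg, ← le_sub_iff_add_le']
  refine ⟨diagHom fun i => cfc d (f i),
    le_trans (le_of_eq ?_) (star_left_conjugate_le_conjugate h1 _)⟩
  have he2 : algebraMap ℝ (CStarMatrix (Fin m) (Fin m) B) e =
      diagHom (algebraMap ℂ (Fin m → B) (e : ℂ)) := by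
    rw [AlgHomClass.commutes, IsScalarTower.algebraMap_apply ℝ ℂ (CStarMatrix (Fin m) (Fin m) B)]
    rfl
  rw [he2, ← map_star, hsa', ← map_sub, ← map_mul, ← map_mul]
  refine congrArg _ (funext fun i => ?_)
  rw [Pi.mul_apply, Pi.mul_apply, Pi.sub_apply, Pi.algebraMap_apply,
    Algebra.algebraMap_eq_smul_one, Complex.coe_smul]
  exact (conj_sub_smul_eq_cut hdc hd (IsSelfAdjoint.of_nonneg (hf i))).symm

theorem matrix_conj_apply {n : ℕ} (y : Fin n → B) (v : Fin n → Fin m → B)
    (W : CStarMatrix (Fin m) (Fin m) B) (i j : Fin m) :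
    (star W * CStarMatrix.ofMatrix (fun a b => ∑ k, star (v k a) * y k * v k b) * W) i j =
      ∑ k, star (∑ a, v k a * W a i) * y k * ∑ a, v k a * W a j := by
  simp only [CStarMatrix.mul_apply, CStarMatrix.star_apply, star_sum, star_mul, Finset.sum_mul,
    Finset.mul_sum]
  show (∑ b, ∑ a, star (W a i) * (∑ k, star (v k a) * y k * v k b) * W b j) = _
  simp only [Finset.sum_mul, Finset.mul_sum]
  rw [Finset.sum_congr rfl fun (b : Fin m) _ => Finset.sum_comm, Finset.sum_comm]
  refine Finset.sum_congr rfl fun k _ => ?_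
  refine Finset.sum_congr rfl fun b _ => Finset.sum_congr rfl fun a _ => ?_
  simp only [mul_assoc]

/-- If a diagonal is approximated entrywise by `v⋆ y v` then its cuts are below `y`. -/
theorem tupLe_of_approx {n : ℕ} {f : Fin m → B} {y : Fin n → B} (hf : ∀ i, 0 ≤ f i)
    (hy : ∀ k, 0 ≤ y k) (v : Fin n → Fin m → B) {err t : ℝ}
    (herr : (m : ℝ) * m * err < t) (ht : 0 < t)
    (h : ∀ i j, ‖(∑ k, star (v k i) * y k * v k j) - (if i = j then f i else 0)‖ ≤ err) :
    TupLe (fun i => cut t (f i)) y := by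
  intro ε hε
  let : PartialOrder (CStarMatrix (Fin m) (Fin m) B) := CStarAlgebra.spectralOrder _
  have : StarOrderedRing (CStarMatrix (Fin m) (Fin m) B) := CStarAlgebra.spectralOrderedRing _
  set X : CStarMatrix (Fin m) (Fin m) B :=
    CStarMatrix.ofMatrix (fun i j => ∑ k, star (v k i) * y k * v k j) with hXdef
  have hX : IsSelfAdjoint X := by
    rw [IsSelfAdjoint]
    ext i j
    rw [CStarMatrix.star_apply]
    show star (∑ k, star (v k j) * y k * v k i) = ∑ k, star (v k i) * y k * v k j
    simp only [star_sum, star_mul, star_star, mul_assoc, (hy _).star_eq]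
  have hnorm : ‖X - diagHom f‖ ≤ max ((m : ℝ) * m * err) 0 := by
    refine (norm_le_sum_entries _).trans (le_max_of_le_left ?_)
    calc ∑ i, ∑ j, ‖(X - diagHom f) i j‖ ≤ ∑ _i : Fin m, ∑ _j : Fin m, err := by
          refine Finset.sum_le_sum fun i _ => Finset.sum_le_sum fun j _ => ?_
          show ‖(∑ k, star (v k i) * y k * v k j) - Matrix.diagonal f i j‖ ≤ err
          rw [Matrix.diagonal_apply]
          exact h i j
      _ = (m : ℝ) * m * err := by simp [mul_assoc]
  obtain ⟨Φ, hΦ⟩ := exists_diag_le hf X hX (max_lt herr ht) hnorm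
  have hpos : 0 ≤ diagHom (fun i => cut t (f i)) :=
    map_nonneg diagHom (Pi.le_def.2 fun i => cfc_nonneg fun s _ => le_max_right _ _)
  obtain ⟨z, hz⟩ := exists_conj_near_of_le (M := CStarMatrix (Fin m) (Fin m) B) hpos hΦ hε
  refine ⟨fun k j => ∑ a, v k a * (Φ * z) a j, fun i j => ?_⟩
  refine le_trans (le_of_eq ?_) ((CStarMatrix.norm_entry_le_norm (i := i) (j := j)).trans hz)
  have e : star z * (star Φ * X * Φ) * z = star (Φ * z) * X * (Φ * z) := by
    rw [star_mul]; simp only [mul_assoc]
  rw [e, CStarMatrix.sub_apply, hXdef, matrix_conj_apply]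
  rfl

end matrices

section calculus

variable {B : Type u} [CStarAlgebra B] (D : DimState B) {a b x y : B}

theorem isPos_iff_nonneg {x : B} : IsPos x ↔ 0 ≤ x :=
  CStarAlgebra.nonneg_iff_eq_star_mul_self.symm

theorem isPos_cut (t : ℝ) (x : B) : IsPos (cut t x) :=
  isPos_iff_nonneg.2 (cfc_nonneg fun _ _ => le_max_right _ _)

theorem sa_of_isPos {x : B} (hx : IsPos x) : IsSelfAdjoint x :=
  IsSelfAdjoint.of_nonneg (isPos_iff_nonneg.1 hx)

theorem isPos_of_nonneg (h : 0 ≤ x) : IsPos x := isPos_iff_nonneg.2 h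

theorem cut_nonneg (t : ℝ) (x : B) : 0 ≤ cut t x := isPos_iff_nonneg.1 (isPos_cut t x)

theorem val_nonneg (hx : 0 ≤ x) : 0 ≤ D x := Spec.val_nonneg D (isPos_of_nonneg hx)

theorem val_le_of_le (hx : 0 ≤ x) (h : x ≤ y) : D x ≤ D y :=
  val_le_of_sub D (isPos_of_nonneg hx) (isPos_of_nonneg (hx.trans h))
    (isPos_of_nonneg (sub_nonneg.2 h))

theorem val_conj_le (hy : 0 ≤ y) (w : B) : D (star w * y * w) ≤ D y :=
  val_le_of_approx D (isPos_of_nonneg (star_left_conjugate_nonneg hy w)) (isPos_of_nonneg hy)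
    fun ε hε => ⟨w, by rw [sub_self, norm_zero]; exact hε.le⟩

theorem sqrt_conj_eq (r : ℝ) (hr : 0 ≤ r) (x : B) :
    star (√r • (1 : B)) * x * (√r • (1 : B)) = r • x := by
  simp [star_smul, smul_smul, Real.mul_self_sqrt hr]

theorem val_smul_le (hy : 0 ≤ y) {r : ℝ} (hr : 0 ≤ r) : D (r • y) ≤ D y := by
  rw [← sqrt_conj_eq r hr y]
  exact val_conj_le D hy _

theorem val_add_le (ha : 0 ≤ a) (hb : 0 ≤ b) : D (a + b) ≤ D a + D b := by
  have := D.mono (m := 1) (n := 2) (fun _ => a + b) ![a, b]
    (fun _ => isPos_of_nonneg (add_nonneg ha hb))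
    (Fin.forall_fin_two.mpr ⟨by simpa using isPos_of_nonneg ha, by simpa using isPos_of_nonneg hb⟩)
    fun ε hε => ⟨fun _ _ => 1, fun i j => by
      rw [Subsingleton.elim i j, if_pos rfl]
      simp [Fin.sum_univ_two, hε.le]⟩
  simpa [Fin.sum_univ_two] using this

theorem cut_cut (hx : IsSelfAdjoint x) {s : ℝ} (hs : 0 ≤ s) (t : ℝ) :
    cut s (cut t x) = cut (t + s) x := by
  rw [cut, cut, ← cfc_comp' (fun r : ℝ => max (r - s) 0) (fun r : ℝ => max (r - t) 0) x
    (by fun_prop) (by fun_prop), cut]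
  refine cfc_congr fun r _ => ?_
  cases max_cases (r - t) 0 <;> cases max_cases (r - (t + s)) 0 <;>
    cases max_cases (max (r - t) 0 - s) 0 <;> linarith

theorem le_cut_add (hx : IsSelfAdjoint x) (s : ℝ) : x ≤ cut s x + s • (1 : B) := by
  conv_lhs => rw [← cfc_id' ℝ x]
  rw [cut, ← Algebra.algebraMap_eq_smul_one, ← cfc_add_const s (fun r : ℝ => max (r - s) 0) x]
  exact cfc_mono fun r _ => by linarith [le_max_left (r - s) 0]

theorem le_add_of_norm_sub_le (ha : IsSelfAdjoint a) (hb : IsSelfAdjoint b) {e : ℝ}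
    (h : ‖a - b‖ ≤ e) : a ≤ b + e • (1 : B) := by
  rw [← sub_le_iff_le_add', ← Algebra.algebraMap_eq_smul_one]
  exact (ha.sub hb).le_algebraMap_norm_self.trans (algebraMap_mono B h)

/-- An element below `y + e` has its cuts above `e` dominated by `y`. -/
theorem val_cut_le_of_le_add (ha : IsSelfAdjoint a) (hy : 0 ≤ y) {e t : ℝ} (he : e < t)
    (h : a ≤ y + e • (1 : B)) : D (cut t a) ≤ D y := by
  obtain ⟨d, hdc, hd⟩ := exists_cut_factor he
  rw [← conj_sub_smul_eq_cut hdc hd ha]
  have hle := star_left_conjugate_le_conjugate (sub_le_iff_le_add.2 h) (cfc d a)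
  rw [(IsSelfAdjoint.cfc (f := d) (a := a)).star_eq] at hle
  refine (val_le_of_le D ?_ hle).trans ?_
  · rw [conj_sub_smul_eq_cut hdc hd ha]
    exact cut_nonneg _ _
  · have := val_conj_le D hy (cfc d a)
    rwa [(IsSelfAdjoint.cfc (f := d) (a := a)).star_eq] at this

theorem val_cut_antitone (hx : IsSelfAdjoint x) {s t : ℝ} (h : s ≤ t) :
    D (cut t x) ≤ D (cut s x) :=
  val_le_of_le D (cut_nonneg t x) (cfc_mono fun r _ => max_le_max (by linarith) le_rfl)

theorem val_cut_le (hx : 0 ≤ x) {t : ℝ} (ht : 0 ≤ t) : D (cut t x) ≤ D x := by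
  refine val_le_of_le D (cut_nonneg t x) ?_
  conv_rhs => rw [← cfc_id' ℝ x]
  exact cfc_mono fun r hr => max_le (by linarith) (spectrum_nonneg_of_nonneg hx hr)

theorem val_cut_le_one (t : ℝ) (x : B) : D (cut t x) ≤ 1 := val_le_one D (isPos_cut t x)

theorem val_cut_mono' (hx : IsSelfAdjoint x) (h : x ≤ y) (t : ℝ) : D (cut t x) ≤ D (cut t y) :=
  val_cut_mono D hx (by simpa using hx.add (IsSelfAdjoint.of_nonneg (sub_nonneg.2 h)))
    (isPos_of_nonneg (sub_nonneg.2 h)) t

theorem val_cut_add_le (ha : IsSelfAdjoint a) (hb : IsSelfAdjoint b) {s t T : ℝ}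
    (h : s + t < T) : D (cut T (a + b)) ≤ D (cut s a) + D (cut t b) := by
  refine (val_cut_le_of_le_add D (ha.add hb) (add_nonneg (cut_nonneg s a) (cut_nonneg t b)) h
    ?_).trans (val_add_le D (cut_nonneg s a) (cut_nonneg t b))
  rw [add_smul, add_add_add_comm]
  exact add_le_add (le_cut_add ha s) (le_cut_add hb t)

theorem val_cut_smul_le (hx : IsSelfAdjoint x) {r s t : ℝ} (hr : 0 ≤ r) (h : r * s < t) :
    D (cut t (r • x)) ≤ D (cut s x) := by
  refine (val_cut_le_of_le_add D ((IsSelfAdjoint.all r).smul hx)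
    (smul_nonneg hr (cut_nonneg s x)) h ?_).trans (val_smul_le D (cut_nonneg s x) hr)
  rw [← smul_smul, ← smul_add]
  exact smul_le_smul_of_nonneg_left (le_cut_add hx s) hr

theorem val_cut_conj_le (hb : IsSelfAdjoint b) (z : B) {s t : ℝ} (hs : 0 ≤ s)
    (h : s * ‖z‖ ^ 2 < t) : D (cut t (star z * b * z)) ≤ D (cut s b) := by
  refine (val_cut_le_of_le_add D (hb.conjugate' z) (star_left_conjugate_nonneg (cut_nonneg s b) z) h
    ?_).trans (val_conj_le D (cut_nonneg s b) z)
  refine (star_left_conjugate_le_conjugate (le_cut_add hb s) z).trans ?_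
  rw [mul_add, add_mul, mul_smul_comm, mul_one, smul_mul_assoc, ← smul_smul]
  refine add_le_add le_rfl (smul_le_smul_of_nonneg_left ?_ hs)
  rw [← Algebra.algebraMap_eq_smul_one, sq, ← CStarRing.norm_star_mul_self]
  exact (IsSelfAdjoint.star_mul_self z).le_algebraMap_norm_self

theorem val_cut_sum_le {ι : Type*} (S : Finset ι) (x : ι → B) (hx : ∀ i, IsSelfAdjoint (x i))
    {s : ℝ} (hs : 0 ≤ s) : ∀ T : ℝ, S.card * s < T →
    D (cut T (∑ i ∈ S, x i)) ≤ ∑ i ∈ S, D (cut s (x i)) := by
  classical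
  induction S using Finset.induction_on with
  | empty =>
    intro T hT
    have : cut T (0 : B) = 0 := by
      rw [cut, cfc_apply_zero, max_eq_right (by simp at hT; linarith), map_zero]
    simp [this, Spec.val_zero]
  | insert i S hi ih =>
    intro T hT
    rw [Finset.sum_insert hi, Finset.sum_insert hi]
    rw [Finset.card_insert_of_notMem hi] at hT
    push_cast at hT
    set t' := (T - s + S.card * s) / 2 with ht'
    exact (val_cut_add_le D (hx i) (Finset.sum_induction _ IsSelfAdjoint (fun _ _ => IsSelfAdjoint.add) (IsSelfAdjoint.zero B)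
      fun k _ => hx k) (t := t')
      (s := s) (by rw [ht']; linarith)).trans (add_le_add le_rfl (ih t' (by rw [ht']; linarith)))

theorem star_add_mul_add_le (f g : B) :
    star (f + g) * (f + g) ≤ (2 : ℝ) • (star f * f + star g * g) := by
  have e : (2 : ℝ) • (star f * f + star g * g) - star (f + g) * (f + g) = star (f - g) * (f - g) := by
    simp only [two_smul, star_add, star_sub, add_mul, mul_add, sub_mul, mul_sub]
    abel
  rw [← sub_nonneg, e]
  exact star_mul_self_nonneg _

theorem star_mul_mul_le (g f : B) : star (g * f) * (g * f) ≤ ‖g‖ ^ 2 • (star f * f) := by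
  have h : star g * g ≤ algebraMap ℝ B (‖g‖ ^ 2) := by
    rw [sq, ← CStarRing.norm_star_mul_self]
    exact (IsSelfAdjoint.star_mul_self g).le_algebraMap_norm_self
  have := star_left_conjugate_le_conjugate h f
  rw [Algebra.algebraMap_eq_smul_one, mul_smul_comm, mul_one, smul_mul_assoc] at this
  simpa [star_mul, mul_assoc] using this

end calculus

end

end Vale.Agent.P095.Elem.DQ
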