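import Mathlib

/-!
# P095: the square root is almost multiplicative on nearby operators

If `(1 - e) R ≤ S ≤ (1 + e) R` and the spectrum of `R` lies in `[v, 4 ^ L v]` then
`S ^ (1/2) = (1 + Z) R ^ (1/2)` with `‖Z‖ ≤ 6 e (L + 1)`. The Sylvester equation for `Z` is
solved by finitely many Cayley transforms at the geometric shifts `√v 2 ^ i`.
-/

namespace Vale.Agent.P095.Elem

open scoped ComplexOrder NNReal

noncomputable section

variable {A : Type*} [CStarAlgebra A] [PartialOrder A] [StarOrderedRing A]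

/-- The resolvent `(a + p)⁻¹`. -/
def resol (a : A) (p : ℝ) : A := cfc (fun x => (x + p)⁻¹) a

/-- The Cayley transform `(a - p) (a + p)⁻¹`. -/
def cayley (a : A) (p : ℝ) : A := cfc (fun x => (x - p) / (x + p)) a

theorem spectrum_add_pos {a : A} (ha : 0 ≤ a) {p : ℝ} (hp : 0 < p) :
    ∀ x ∈ spectrum ℝ a, 0 < x + p := fun x hx => by
  linarith [spectrum_nonneg_of_nonneg ha hx]

theorem continuousOn_resol {a : A} (ha : 0 ≤ a) {p : ℝ} (hp : 0 < p) :
    ContinuousOn (fun x => (x + p)⁻¹) (spectrum ℝ a) :=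
  ContinuousOn.inv₀ (by fun_prop) fun x hx => (spectrum_add_pos ha hp x hx).ne'

theorem continuousOn_cayley {a : A} (ha : 0 ≤ a) {p : ℝ} (hp : 0 < p) :
    ContinuousOn (fun x => (x - p) / (x + p)) (spectrum ℝ a) :=
  ContinuousOn.div (by fun_prop) (by fun_prop) fun x hx => (spectrum_add_pos ha hp x hx).ne'

theorem norm_cayley_le {a : A} (ha : 0 ≤ a) {p : ℝ} (hp : 0 < p) : ‖cayley a p‖ ≤ 1 := by
  refine norm_cfc_le zero_le_one fun x hx => ?_
  have h := spectrum_add_pos ha hp x hx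
  have hx0 := spectrum_nonneg_of_nonneg ha hx
  rw [Real.norm_eq_abs, abs_div, abs_of_pos h, div_le_one h]
  exact abs_le.2 ⟨by linarith, by linarith⟩

theorem norm_resol_le {a : A} (ha : 0 ≤ a) {p : ℝ} (hp : 0 < p) : ‖resol a p‖ ≤ p⁻¹ := by
  refine norm_cfc_le (by positivity) fun x hx => ?_
  have hx0 := spectrum_nonneg_of_nonneg ha hx
  rw [Real.norm_eq_abs, abs_inv, abs_of_pos (by linarith)]
  exact inv_anti₀ hp (by linarith)

theorem norm_resol_mul_self_le {a : A} (ha : 0 ≤ a) {p : ℝ} (hp : 0 < p) :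
    ‖resol a p * a‖ ≤ 1 := by
  have hc := continuousOn_resol ha hp
  have e : resol a p * a = cfc (fun x => (x + p)⁻¹ * x) a := by
    rw [cfc_mul (fun x => (x + p)⁻¹) (fun x => x) a hc (by fun_prop), cfc_id' ℝ a, resol]
  rw [e]
  refine norm_cfc_le zero_le_one fun x hx => ?_
  have h := spectrum_add_pos ha hp x hx
  have hx0 := spectrum_nonneg_of_nonneg ha hx
  rw [Real.norm_eq_abs, abs_of_nonneg (mul_nonneg (inv_nonneg.2 h.le) hx0), inv_mul_le_iff₀ h]
  linarith

theorem resol_mul {a : A} (ha : 0 ≤ a) {p : ℝ} (hp : 0 < p) :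
    resol a p * (a + algebraMap ℝ A p) = 1 ∧ (a + algebraMap ℝ A p) * resol a p = 1 ∧
      resol a p * (a - algebraMap ℝ A p) = cayley a p ∧
      (a - algebraMap ℝ A p) * resol a p = cayley a p := by
  have hc := continuousOn_resol ha hp
  have e1 : a + algebraMap ℝ A p = cfc (fun x => x + p) a := by
    rw [cfc_add_const p (fun x => x) a, cfc_id' ℝ a]
  have e2 : a - algebraMap ℝ A p = cfc (fun x => x - p) a := by
    rw [cfc_sub (fun x => x) (fun _ => p) a, cfc_id' ℝ a, cfc_const p a]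
  rw [e1, e2, resol, cayley, ← cfc_mul _ _ a hc (by fun_prop), ← cfc_mul _ _ a (by fun_prop) hc,
    ← cfc_mul _ _ a hc (by fun_prop), ← cfc_mul _ _ a (by fun_prop) hc]
  refine ⟨?_, ?_, ?_, ?_⟩
  · exact (cfc_congr fun x hx => by field_simp [(spectrum_add_pos ha hp x hx).ne']).trans
      (cfc_const_one ℝ a)
  · exact (cfc_congr fun x hx => by field_simp [(spectrum_add_pos ha hp x hx).ne']).trans
      (cfc_const_one ℝ a)
  · exact cfc_congr fun x _ => inv_mul_eq_div _ _
  · exact cfc_congr fun x _ => (div_eq_mul_inv _ _).symm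

/-- One step: `Z` differs from `cayley a p * Z * cayley b p` by `2 p` times a resolvent sandwich. -/
theorem sylvester_step {a b Z c : A} (ha : 0 ≤ a) (hb : 0 ≤ b) (h : a * Z + Z * b = c) {p : ℝ}
    (hp : 0 < p) :
    Z = (2 * p) • (resol a p * c * resol b p) + cayley a p * Z * cayley b p := by
  obtain ⟨a1, -, a3, -⟩ := resol_mul ha hp
  obtain ⟨-, b2, -, b4⟩ := resol_mul hb hp
  set P := algebraMap ℝ A p with hP
  have hPs : P = p • (1 : A) := Algebra.algebraMap_eq_smul_one p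
  have e : (a + P) * Z * (b + P) = (2 * p) • c + (a - P) * Z * (b - P) := by
    rw [← h, hPs]
    simp only [add_mul, mul_add, sub_mul, mul_sub, smul_mul_assoc, mul_smul_comm, one_mul, mul_one,
      two_mul, add_smul, smul_add]
    module
  calc Z = (resol a p * (a + P)) * Z * ((b + P) * resol b p) := by rw [a1, b2, one_mul, mul_one]
    _ = resol a p * ((a + P) * Z * (b + P)) * resol b p := by simp only [mul_assoc]
    _ = (2 * p) • (resol a p * c * resol b p) +
        (resol a p * (a - P)) * Z * ((b - P) * resol b p) := by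
      rw [e, mul_add, add_mul, mul_smul_comm, smul_mul_assoc]
      simp only [mul_assoc]
    _ = _ := by rw [a3, b4]

/-- The solution of a Sylvester equation is bounded by the number of shifts needed. -/
theorem sylvester_bound {a b Z c : A} (ha : 0 ≤ a) (hb : 0 ≤ b) (h : a * Z + Z * b = c) {K r : ℝ}
    (hK : 0 ≤ K) (n : ℕ) (p : ℕ → ℝ) (hp : ∀ i, 0 < p i)
    (hc : ∀ i, ‖(2 * p i) • (resol a (p i) * c * resol b (p i))‖ ≤ K)
    (hr : ∀ x ∈ spectrum ℝ b, |∏ i ∈ Finset.range n, (x - p i) / (x + p i)| ≤ r) (hr0 : 0 ≤ r) :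
    ‖Z‖ ≤ n * K + r * ‖Z‖ := by
  have key : ∀ m : ℕ, ∃ X Y : A, Z = X + Y * cfc (fun x => ∏ i ∈ Finset.range m, (x - p i) / (x + p i)) b
      ∧ ‖X‖ ≤ m * K ∧ ‖Y‖ ≤ ‖Z‖ ∧
      ∃ P Q : A, ‖P‖ ≤ 1 ∧ ‖Q‖ ≤ 1 ∧ Q = cfc (fun x => ∏ i ∈ Finset.range m, (x - p i) / (x + p i)) b
        ∧ Y = P * Z ∧ Commute P a := by
    intro m
    induction m with
    | zero =>
      have h1 : cfc (fun x : ℝ => ∏ i ∈ Finset.range 0, (x - p i) / (x + p i)) b = (1 : A) := by
        simp only [Finset.range_zero, Finset.prod_empty]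
        exact cfc_const_one ℝ b
      have hn1 : ‖(1 : A)‖ ≤ 1 := by
        rcases subsingleton_or_nontrivial A with hs | hs
        · rw [Subsingleton.elim (1 : A) 0, norm_zero]; exact zero_le_one
        · rw [CStarRing.norm_one]
      exact ⟨0, Z, by rw [h1, zero_add, mul_one], by simp, le_rfl,
        1, 1, hn1, hn1, h1.symm, (one_mul Z).symm, Commute.one_left a⟩
    | succ m ih =>
      obtain ⟨X, Y, hZ, hX, hY, P, Q, hP, hQ, hQe, hYe, hPa⟩ := ih
      have hprod : cfc (fun x => ∏ i ∈ Finset.range (m + 1), (x - p i) / (x + p i)) b =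
          cayley b (p m) * Q := by
        rw [hQe, cayley, ← cfc_mul _ _ b (continuousOn_cayley hb (hp m))
          (continuousOn_finsetProd _ fun i _ => continuousOn_cayley hb (hp i))]
        refine cfc_congr fun x _ => ?_
        rw [Finset.prod_range_succ, mul_comm]
      refine ⟨X + P * ((2 * p m) • (resol a (p m) * c * resol b (p m))) * Q,
        P * cayley a (p m) * Z, ?_, ?_, ?_, P * cayley a (p m), cayley b (p m) * Q, ?_, ?_,
        hprod.symm, rfl, hPa.mul_left ?_⟩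
      · rw [hprod]
        conv_lhs => rw [hZ, ← hQe, hYe, sylvester_step ha hb h (hp m)]
        rw [mul_add, add_mul, add_assoc]
        congr 2
        simp only [mul_assoc]
      · refine (norm_add_le _ _).trans ?_
        push_cast
        rw [add_mul, one_mul]
        refine add_le_add hX ((norm_mul_le _ _).trans ?_)
        calc ‖P * ((2 * p m) • (resol a (p m) * c * resol b (p m)))‖ * ‖Q‖
            ≤ ‖P‖ * ‖(2 * p m) • (resol a (p m) * c * resol b (p m))‖ * ‖Q‖ := by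
              gcongr; exact norm_mul_le _ _
          _ ≤ 1 * K * 1 := by gcongr; exact hc m
          _ = K := by ring
      · refine (norm_mul_le _ _).trans (mul_le_of_le_one_left (norm_nonneg _) ?_)
        exact (norm_mul_le _ _).trans (mul_le_one₀ hP (norm_nonneg _) (norm_cayley_le ha (hp m)))
      · exact (norm_mul_le _ _).trans (mul_le_one₀ hP (norm_nonneg _) (norm_cayley_le ha (hp m)))
      · exact (norm_mul_le _ _).trans (mul_le_one₀ (norm_cayley_le hb (hp m)) (norm_nonneg _) hQ)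
      · exact (Commute.refl a).cfc_real _
  obtain ⟨X, Y, hZ, hX, hY, -⟩ := key n
  calc ‖Z‖ ≤ ‖X‖ + ‖Y * cfc (fun x => ∏ i ∈ Finset.range n, (x - p i) / (x + p i)) b‖ := by
        conv_lhs => rw [hZ]
        exact norm_add_le _ _
    _ ≤ n * K + ‖Z‖ * r := add_le_add hX ((norm_mul_le _ _).trans (mul_le_mul hY
        (norm_cfc_le hr0 fun x hx => hr x hx) (norm_nonneg _) (norm_nonneg _)))
    _ = n * K + r * ‖Z‖ := by ring

theorem prod_cayley_le {s x : ℝ} (hs : 0 < s) (L : ℕ) (hx1 : s ≤ x) (hx2 : x ≤ 2 ^ L * s) :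
    |∏ i ∈ Finset.range (L + 1), (x - 2 ^ i * s) / (x + 2 ^ i * s)| ≤ 1 / 3 := by
  classical
  have hx0 : 0 < x := hs.trans_le hx1
  have hex : ∃ i, x ≤ 2 ^ i * s := ⟨L, hx2⟩
  set i₀ := Nat.find hex
  have hi : i₀ ≤ L := Nat.find_le hx2
  have hu : x ≤ 2 ^ i₀ * s := Nat.find_spec hex
  have hl : 2 ^ i₀ * s ≤ 2 * x := by
    rcases Nat.eq_zero_or_pos i₀ with e | e
    · rw [e, pow_zero, one_mul]; linarith
    · obtain ⟨j, hj⟩ := Nat.exists_eq_succ_of_ne_zero e.ne'
      have := Nat.find_min hex (show j < i₀ by omega)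
      rw [hj, pow_succ]
      linarith [not_le.1 this]
  rw [← Finset.mul_prod_erase _ _ (Finset.mem_range.2 (Nat.lt_succ_of_le hi)), abs_mul,
    Finset.abs_prod]
  refine (mul_le_mul (?_ : _ ≤ (1 : ℝ) / 3) (Finset.prod_le_one (fun i _ => abs_nonneg _) fun i _ => ?_)
    (Finset.prod_nonneg fun i _ => abs_nonneg _) (by norm_num)).trans_eq (mul_one _)
  · rw [abs_div, abs_of_pos (by positivity : (0 : ℝ) < x + 2 ^ i₀ * s),
      div_le_iff₀ (by positivity)]
    exact abs_le.2 ⟨by linarith, by linarith⟩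
  · rw [abs_div, abs_of_pos (by positivity : (0 : ℝ) < x + 2 ^ i * s), div_le_one (by positivity)]
    exact abs_le.2 ⟨by nlinarith [pow_pos (two_pos (α := ℝ)) i],
      by nlinarith [pow_pos (two_pos (α := ℝ)) i]⟩

/-- The square root of a nearby operator: if `(1 - e) R ≤ S ≤ (1 + e) R` and
`v ≤ R ≤ 4 ^ L v`, then `Z R ^ (1/2) = S ^ (1/2) - R ^ (1/2)` forces `‖Z‖ ≤ 6 e (L + 1)`. -/
theorem norm_sqrt_sub_le {R S Z : A} {v e : ℝ} {L : ℕ} (hv : 0 < v)
    (hR1 : algebraMap ℝ A v ≤ R) (hR2 : R ≤ algebraMap ℝ A (4 ^ L * v))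
    (he0 : 0 ≤ e) (he : e ≤ 1 / 2) (hS1 : (1 - e) • R ≤ S) (hS2 : S ≤ (1 + e) • R)
    (hZ : Z * CFC.sqrt R = CFC.sqrt S - CFC.sqrt R) : ‖Z‖ ≤ 6 * e * (L + 1) := by
  rcases subsingleton_or_nontrivial A with hs | hs
  · rw [Subsingleton.elim Z 0, norm_zero]
    positivity
  have hR0 : 0 ≤ R := (algebraMap_nonneg A hv.le).trans hR1
  have hS0 : 0 ≤ S := (smul_nonneg (by linarith : (0 : ℝ) ≤ 1 - e) hR0).trans hS1
  have hspecR : ∀ x ∈ spectrum ℝ R, v ≤ x :=
    (algebraMap_le_iff_le_spectrum (ha := IsSelfAdjoint.of_nonneg hR0)).1 hR1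
  have hspecR2 : ∀ x ∈ spectrum ℝ R, x ≤ 4 ^ L * v :=
    (le_algebraMap_iff_spectrum_le (ha := IsSelfAdjoint.of_nonneg hR0)).1 hR2
  set a := CFC.sqrt S with ha'
  set b := CFC.sqrt R with hb'
  have ha : 0 ≤ a := CFC.sqrt_nonneg S
  have hb : 0 ≤ b := CFC.sqrt_nonneg R
  have haa : a * a = S := CFC.sqrt_mul_sqrt_self S hS0
  have hbb : b * b = R := CFC.sqrt_mul_sqrt_self R hR0
  have hsa : star a = a := ha.star_eq
  have hsb : star b = b := hb.star_eq
  have hspecb : ∀ x ∈ spectrum ℝ b, √v ≤ x ∧ x ≤ 2 ^ L * √v := by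
    intro x hx
    have hx0 := spectrum_nonneg_of_nonneg hb hx
    have hx2 : x ^ 2 ∈ spectrum ℝ R := by
      rw [← hbb, ← sq]
      exact spectrum.pow_mem_pow b 2 hx
    refine ⟨(Real.sqrt_le_left hx0).2 (hspecR _ hx2), ?_⟩
    refine (sq_le_sq₀ hx0 (by positivity)).1 ?_
    rw [mul_pow, Real.sq_sqrt hv.le, ← pow_mul, mul_comm L 2, pow_mul]
    norm_num
    exact hspecR2 _ hx2
  have hbu : IsUnit b := by
    refine spectrum.isUnit_of_zero_notMem ℝ fun h0 => ?_
    linarith [(hspecb 0 h0).1, Real.sqrt_pos.2 hv]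
  obtain ⟨B, hB⟩ := hbu
  set bi := (↑B⁻¹ : A) with hbi
  have hb1 : b * bi = 1 := by rw [← hB, hbi, Units.mul_inv]
  have hb2 : bi * b = 1 := by rw [← hB, hbi, Units.inv_mul]
  have hsbi : star bi = bi := by
    have : star bi * b = 1 := by simpa [hsb] using congrArg star hb1
    calc star bi = star bi * (b * bi) := by rw [hb1, mul_one]
      _ = bi := by rw [← mul_assoc, this, one_mul]
  set W := bi * (S - R) * bi with hW
  have hWsa : IsSelfAdjoint W := by
    rw [IsSelfAdjoint, hW, star_mul, star_mul, hsbi, star_sub, hS0.star_eq, hR0.star_eq, mul_assoc]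
  have hconj : ∀ x : A, star bi * x * bi = bi * x * bi := fun x => by rw [hsbi]
  have hone : bi * R * bi = 1 := by
    rw [← hbb, ← mul_assoc, hb2, one_mul, hb1]
  have hWn : ‖W‖ ≤ e := by
    have u1 : W ≤ algebraMap ℝ A e := by
      have h := star_left_conjugate_le_conjugate (show S - R ≤ e • R by
        rw [sub_le_iff_le_add]
        refine hS2.trans_eq ?_
        rw [add_smul, one_smul, add_comm]) bi
      rwa [hconj, hconj, mul_smul_comm, smul_mul_assoc, hone, ← Algebra.algebraMap_eq_smul_one] at h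
    have u2 : algebraMap ℝ A (-e) ≤ W := by
      have h := star_left_conjugate_le_conjugate (show (-e) • R ≤ S - R by
        rw [le_sub_iff_add_le]
        refine le_trans (le_of_eq ?_) hS1
        rw [sub_smul, one_smul, neg_smul]
        abel) bi
      rwa [hconj, hconj, mul_smul_comm, smul_mul_assoc, hone, ← Algebra.algebraMap_eq_smul_one] at h
    refine (norm_cfc_le he0 (f := fun x : ℝ => x) (a := W) fun x hx => ?_).trans' (le_of_eq ?_)
    · exact abs_le.2 ⟨(algebraMap_le_iff_le_spectrum (ha := hWsa)).1 u2 x hx,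
        (le_algebraMap_iff_spectrum_le (ha := hWsa)).1 u1 x hx⟩
    · rw [cfc_id' ℝ W]
  have hsyl : a * Z + Z * b = b * W := by
    have hZ' : Z * b = a - b := hZ
    have e1 : (a * Z + Z * b) * b = S - R := by
      rw [add_mul, mul_assoc, hZ', mul_sub, haa, sub_mul, hbb]
      abel
    have e2 : (b * W) * b = S - R := by
      rw [hW]
      calc b * (bi * (S - R) * bi) * b = (b * bi) * (S - R) * (bi * b) := by simp only [mul_assoc]
        _ = S - R := by rw [hb1, hb2, one_mul, mul_one]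
    calc a * Z + Z * b = (a * Z + Z * b) * b * bi := by rw [mul_assoc, hb1, mul_one]
      _ = (b * W) * b * bi := by rw [e1, e2]
      _ = b * W := by rw [mul_assoc, hb1, mul_one]
  -- `b` is controlled by `a`
  have hres : ∀ p : ℝ, 0 < p → ‖resol a p * b‖ ≤ 3 / 2 := by
    intro p hp
    have hRS : R ≤ (2 : ℝ) • S := by
      have h := smul_le_smul_of_nonneg_left ((smul_le_smul_of_nonneg_right
        (by linarith : (1 / 2 : ℝ) ≤ 1 - e) hR0).trans hS1) (by norm_num : (0 : ℝ) ≤ 2)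
      rwa [smul_smul, show (2 : ℝ) * (1 / 2) = 1 by norm_num, one_smul] at h
    have hsr : star (resol a p) = resol a p := IsSelfAdjoint.cfc.star_eq
    have h1 : (resol a p * b) * star (resol a p * b) ≤
        (2 : ℝ) • ((resol a p * a) * star (resol a p * a)) := by
      have h := star_left_conjugate_le_conjugate hRS (resol a p)
      rw [hsr, mul_smul_comm, smul_mul_assoc, ← hbb, ← haa] at h
      simpa only [star_mul, hsr, hsa, hsb, mul_assoc] using h
    have h2 : ‖resol a p * b‖ * ‖resol a p * b‖ ≤ 2 := by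
      rw [← CStarRing.norm_self_mul_star]
      refine (CStarAlgebra.norm_le_norm_of_nonneg_of_le (mul_star_self_nonneg _) h1).trans ?_
      rw [norm_smul, Real.norm_eq_abs, abs_two, CStarRing.norm_self_mul_star]
      nlinarith [norm_resol_mul_self_le ha hp, norm_nonneg (resol a p * a)]
    nlinarith [norm_nonneg (resol a p * b)]
  have hc : ∀ p : ℝ, 0 < p → ‖(2 * p) • (resol a p * (b * W) * resol b p)‖ ≤ 3 * e := by
    intro p hp
    rw [norm_smul, Real.norm_eq_abs, abs_of_pos (by linarith : 0 < 2 * p), ← mul_assoc (resol a p)]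
    calc 2 * p * ‖resol a p * b * W * resol b p‖ ≤ 2 * p * (3 / 2 * e * p⁻¹) := by
          gcongr
          refine (norm_mul_le _ _).trans (mul_le_mul ((norm_mul_le _ _).trans
            (mul_le_mul (hres p hp) hWn (norm_nonneg _) (by norm_num))) (norm_resol_le hb hp)
            (norm_nonneg _) (by positivity))
      _ = 3 * e := by field_simp
  have hsv : 0 < √v := Real.sqrt_pos.2 hv
  have h := sylvester_bound ha hb hsyl (by positivity : (0 : ℝ) ≤ 3 * e) (L + 1)
    (fun i => 2 ^ i * √v) (fun i => by positivity) (fun i => hc _ (by positivity))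
    (fun x hx => prod_cayley_le hsv L (hspecb x hx).1 (hspecb x hx).2) (by norm_num)
  push_cast at h
  nlinarith

/-- If `(s' - s)⋆ (s' - s) ≤ δ ^ 2 s⋆ s` then `s'⋆ s'` is within a factor `1 ± 3 δ` of `s⋆ s`. -/
theorem star_mul_self_near {s s' : A} {δ : ℝ} (hδ : 0 < δ) (hδ1 : δ ≤ 1)
    (h : star (s' - s) * (s' - s) ≤ δ ^ 2 • (star s * s)) :
    (1 - 3 * δ) • (star s * s) ≤ star s' * s' ∧ star s' * s' ≤ (1 + 3 * δ) • (star s * s) := by
  set d := s' - s with hd
  have hQ : 0 ≤ star s * s := star_mul_self_nonneg s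
  have h1 : δ⁻¹ • (star d * d) ≤ δ • (star s * s) := by
    refine (smul_le_smul_of_nonneg_left h (inv_nonneg.2 hδ.le)).trans_eq ?_
    rw [smul_smul, sq, ← mul_assoc, inv_mul_cancel₀ hδ.ne', one_mul]
  have hkey : ∀ ε : ℝ, ε ^ 2 = 1 →
      -((2 * δ) • (star s * s)) ≤ ε • (star s * d + star d * s) := by
    intro ε hε
    have hnn : 0 ≤ δ⁻¹ • (star (δ • s + ε • d) * (δ • s + ε • d)) :=
      smul_nonneg (inv_nonneg.2 hδ.le) (star_mul_self_nonneg _)
    have e : δ⁻¹ • (star (δ • s + ε • d) * (δ • s + ε • d)) =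
        δ • (star s * s) + ε • (star s * d + star d * s) + δ⁻¹ • (star d * d) := by
      simp only [star_add, star_smul, star_trivial, add_mul, mul_add, smul_mul_smul_comm, smul_add,
        smul_smul]
      rw [show δ⁻¹ * (δ * δ) = δ by field_simp, show δ⁻¹ * (δ * ε) = ε by field_simp,
        show δ⁻¹ * (ε * δ) = ε by field_simp, show δ⁻¹ * (ε * ε) = δ⁻¹ by rw [← sq, hε, mul_one]]
      abel
    rw [e] at hnn
    refine neg_le_iff_add_nonneg'.2 (hnn.trans ?_)
    rw [two_mul δ, add_smul]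
    calc δ • (star s * s) + ε • (star s * d + star d * s) + δ⁻¹ • (star d * d)
        ≤ δ • (star s * s) + ε • (star s * d + star d * s) + δ • (star s * s) := by gcongr
      _ = _ := by abel
  have e : star s' * s' = star s * s + (star s * d + star d * s) + star d * d := by
    rw [show s' = s + d by rw [hd]; abel]
    simp only [star_add, add_mul, mul_add]
    abel
  have hp := hkey 1 (one_pow 2)
  have hm := hkey (-1) (by norm_num)
  rw [one_smul] at hp
  rw [neg_one_smul, neg_le_neg_iff] at hm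
  constructor
  · rw [e, sub_smul, one_smul]
    calc star s * s - (3 * δ) • (star s * s) ≤ star s * s - (2 * δ) • (star s * s) := by
          refine sub_le_sub_left ?_ _
          exact smul_le_smul_of_nonneg_right (by linarith) hQ
      _ = star s * s + -((2 * δ) • (star s * s)) + 0 := by abel
      _ ≤ _ := by gcongr; exact star_mul_self_nonneg d
  · rw [e, show (1 + 3 * δ) • (star s * s) = star s * s + (2 * δ) • (star s * s) + δ • (star s * s) by
      module]
    exact add_le_add (add_le_add le_rfl hm)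
      (h.trans (smul_le_smul_of_nonneg_right (show δ ^ 2 ≤ δ by nlinarith) hQ))

/-- If `k ^ 2 P ≤ Q` then the inverse square roots satisfy `k y ≤ x`. -/
theorem inv_sqrt_le {P Q x y : A} {k : ℝ} (hP : 0 ≤ P) (_hQ : 0 ≤ Q) (hk : 0 < k)
    (hPQ : k ^ 2 • P ≤ Q) (hx : x * CFC.sqrt P = 1) (hx' : CFC.sqrt P * x = 1)
    (hy : y * CFC.sqrt Q = 1) (hy' : CFC.sqrt Q * y = 1) : k • y ≤ x := by
  have hle : k • CFC.sqrt P ≤ CFC.sqrt Q := by
    have h := CFC.sqrt_le_sqrt _ _ hPQ
    rwa [show k ^ 2 • P = (k • CFC.sqrt P) * (k • CFC.sqrt P) by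
      rw [smul_mul_smul_comm, CFC.sqrt_mul_sqrt_self P hP, sq],
      CFC.sqrt_mul_self _ (smul_nonneg hk.le (CFC.sqrt_nonneg P))] at h
  let uP : Aˣ := ⟨k • CFC.sqrt P, k⁻¹ • x, by
    rw [smul_mul_smul_comm, mul_inv_cancel₀ hk.ne', one_smul, hx'], by
    rw [smul_mul_smul_comm, inv_mul_cancel₀ hk.ne', one_smul, hx]⟩
  let uQ : Aˣ := ⟨CFC.sqrt Q, y, hy', hy⟩
  have h2 : (↑uQ⁻¹ : A) ≤ ↑uP⁻¹ :=
    CStarAlgebra.inv_le_inv (a := uP) (b := uQ) (smul_nonneg hk.le (CFC.sqrt_nonneg P)) hle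
  have h4 := smul_le_smul_of_nonneg_left (show y ≤ k⁻¹ • x from h2) hk.le
  rwa [smul_smul, mul_inv_cancel₀ hk.ne', one_smul] at h4

/-- A two sided inverse of a square root is nonnegative. -/
theorem inv_sqrt_nonneg {R X : A} (hX : X * CFC.sqrt R = 1) (hX' : CFC.sqrt R * X = 1) : 0 ≤ X :=
  CFC.inv_nonneg_of_nonneg (⟨CFC.sqrt R, X, hX', hX⟩ : Aˣ) (CFC.sqrt_nonneg R)

/-- If `v ≤ R` then the inverse of the square root of `R` has norm at most `1 / √v`. -/
theorem norm_inv_sqrt_le {R X : A} {v : ℝ} (hv : 0 < v) (hR1 : algebraMap ℝ A v ≤ R)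
    (hX : X * CFC.sqrt R = 1) (hX' : CFC.sqrt R * X = 1) : ‖X‖ ≤ (√v)⁻¹ := by
  have hsv : 0 < √v := Real.sqrt_pos.2 hv
  have hsq : CFC.sqrt (algebraMap ℝ A v) = algebraMap ℝ A √v :=
    CFC.sqrt_unique (by rw [← map_mul, Real.mul_self_sqrt hv.le]) (algebraMap_nonneg A hsv.le)
  have hi : algebraMap ℝ A (√v)⁻¹ * CFC.sqrt (algebraMap ℝ A v) = 1 := by
    rw [hsq, ← map_mul, inv_mul_cancel₀ hsv.ne', map_one]
  have hi' : CFC.sqrt (algebraMap ℝ A v) * algebraMap ℝ A (√v)⁻¹ = 1 := by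
    rw [hsq, ← map_mul, mul_inv_cancel₀ hsv.ne', map_one]
  have h := inv_sqrt_le (algebraMap_nonneg A hv.le) ((algebraMap_nonneg A hv.le).trans hR1) one_pos
    (by rwa [one_pow, one_smul]) hi hi' hX hX'
  rw [one_smul] at h
  refine (CStarAlgebra.norm_le_norm_of_nonneg_of_le (inv_sqrt_nonneg hX hX') h).trans ?_
  rw [Algebra.algebraMap_eq_smul_one, norm_smul, Real.norm_eq_abs, abs_inv, abs_of_pos hsv]
  refine mul_le_of_le_one_right (by positivity) ?_
  rcases subsingleton_or_nontrivial A with hs | hs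
  · rw [Subsingleton.elim (1 : A) 0, norm_zero]; exact zero_le_one
  · rw [CStarRing.norm_one]

/-- The inverse square roots of nearby operators are close: if `(1 - e) R ≤ S ≤ (1 + e) R` with
`v ≤ R` and `e ≤ 1 / 2` then they differ by at most `2 e / √v`. -/
theorem norm_inv_sqrt_sub_le {R S X Y : A} {v e : ℝ} (hv : 0 < v)
    (hR1 : algebraMap ℝ A v ≤ R) (he0 : 0 ≤ e) (he : e ≤ 1 / 2) (hS1 : (1 - e) • R ≤ S)
    (hS2 : S ≤ (1 + e) • R) (hX : X * CFC.sqrt R = 1) (hX' : CFC.sqrt R * X = 1)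
    (hY : Y * CFC.sqrt S = 1) (hY' : CFC.sqrt S * Y = 1) :
    ‖Y - X‖ ≤ 2 * e / √v := by
  have hR0 : 0 ≤ R := (algebraMap_nonneg A hv.le).trans hR1
  have hS0 : 0 ≤ S := (smul_nonneg (by linarith : (0 : ℝ) ≤ 1 - e) hR0).trans hS1
  have hX0 := inv_sqrt_nonneg hX hX'
  have hY0 := inv_sqrt_nonneg hY hY'
  have hk1 : 1 - e ≤ √(1 - e) := Real.le_sqrt_of_sq_le (by nlinarith)
  have hk2 : 1 - e ≤ (√(1 + e))⁻¹ := by
    have h1 : √(1 + e) ≤ 1 + e := Real.sqrt_le_iff.2 ⟨by linarith, by nlinarith⟩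
    refine le_trans ?_ (inv_anti₀ (Real.sqrt_pos.2 (by linarith)) h1)
    rw [inv_eq_one_div, le_div_iff₀ (by linarith)]
    nlinarith
  have h1 : (1 - e) • Y ≤ X := (smul_le_smul_of_nonneg_right hk1 hY0).trans
    (inv_sqrt_le hR0 hS0 (Real.sqrt_pos.2 (by linarith))
      (by rwa [Real.sq_sqrt (by linarith)]) hX hX' hY hY')
  have h2 : (1 - e) • X ≤ Y := (smul_le_smul_of_nonneg_right hk2 hX0).trans
    (inv_sqrt_le hS0 hR0 (inv_pos.2 (Real.sqrt_pos.2 (by linarith))) (by
      rw [inv_pow, Real.sq_sqrt (by linarith)]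
      have h := smul_le_smul_of_nonneg_left hS2 (inv_nonneg.2 (by linarith : (0 : ℝ) ≤ 1 + e))
      rwa [smul_smul, inv_mul_cancel₀ (by linarith), one_smul] at h) hY hY' hX hX')
  have u1 : Y - X ≤ (2 * e) • X := by
    have h3 := smul_le_smul_of_nonneg_left h1 (inv_nonneg.2 (by linarith : (0 : ℝ) ≤ 1 - e))
    rw [smul_smul, inv_mul_cancel₀ (by linarith : (1 - e : ℝ) ≠ 0), one_smul] at h3
    rw [sub_le_iff_le_add, show (2 * e) • X + X = (2 * e + 1) • X by module]
    refine h3.trans (smul_le_smul_of_nonneg_right ?_ hX0)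
    rw [inv_le_iff_one_le_mul₀ (by linarith)]
    nlinarith
  have u2 : -((2 * e) • X) ≤ Y - X := by
    rw [le_sub_iff_add_le, show -((2 * e) • X) + X = (1 - 2 * e) • X by module]
    exact (smul_le_smul_of_nonneg_right (by linarith) hX0).trans h2
  have hZsa : IsSelfAdjoint (Y - X) := hY0.isSelfAdjoint.sub hX0.isSelfAdjoint
  have hbd : ‖(2 * e) • X‖ ≤ 2 * e / √v := by
    rw [norm_smul, Real.norm_eq_abs, abs_of_nonneg (by linarith), div_eq_mul_inv]
    exact mul_le_mul_of_nonneg_left (norm_inv_sqrt_le hv hR1 hX hX') (by linarith)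
  have hup : (2 * e) • X ≤ algebraMap ℝ A ‖(2 * e) • X‖ :=
    IsSelfAdjoint.le_algebraMap_norm_self ((IsSelfAdjoint.all _).smul hX0.isSelfAdjoint)
  refine (norm_cfc_le (by positivity) (f := fun x : ℝ => x) (a := Y - X) fun x hx => ?_).trans'
    (le_of_eq ?_)
  · refine abs_le.2 ⟨le_trans (neg_le_neg hbd) ?_, le_trans ?_ hbd⟩
    · exact (algebraMap_le_iff_le_spectrum (ha := hZsa)).1
        ((map_neg (algebraMap ℝ A) _).le.trans ((neg_le_neg hup).trans u2)) x hx
    · exact (le_algebraMap_iff_spectrum_le (ha := hZsa)).1 (u1.trans hup) x hx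
  · rw [cfc_id' ℝ (Y - X)]

end

end Vale.Agent.P095.Elem
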