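import Vale.Agent.P095.Elem.Defs
import Vale.Agent.P095.Elem.Diag
import Vale.Agent.P095.Gen.Fixed

/-!
# P095: the central sequence algebra as a system
-/

namespace Vale.Agent.P095.Elem

open VAgent.P101 Vale.Agent.P095 Filter TopologicalSpace BoundedContinuousFunction
open scoped ComplexOrder CStarAlgebra Topology BoundedContinuousFunction

noncomputable section

set_option linter.unusedSectionVars false

universe u v

section general

variable {F : Type*} [CStarAlgebra F]

/-- No unital *-homomorphism to `ℂ` gives no characters. -/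
theorem noChar_of_isEmpty (h : IsEmpty (F →⋆ₐ[ℂ] ℂ)) (χ : F →⋆ₙₐ[ℂ] ℂ) : χ = 0 := by
  have e : χ 1 * χ 1 = χ 1 := by rw [← map_mul, one_mul]
  rcases eq_or_ne (χ 1) 0 with h0 | h0
  · refine DFunLike.ext _ _ fun x => ?_
    rw [← mul_one x, map_mul χ, h0, mul_zero]
    simp
  · have h1 : χ 1 = 1 := mul_right_cancel₀ h0 (e.trans (one_mul _).symm)
    exact (h.false
      { toFun := χ
        map_one' := h1
        map_mul' := map_mul χ
        map_zero' := map_zero χ
        map_add' := map_add χ
        commutes' := fun r => by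
          rw [Algebra.algebraMap_eq_smul_one, map_smul χ, h1]
          simp
        map_star' := map_star χ }).elim

theorem isSeparable_orbAlg {G : Type*} [Group G] [Countable G] (β : G →* (F ≃⋆ₐ[ℂ] F))
    (T : Finset F) : IsSeparable (OrbAlg β T : Set F) := by
  have horb : (insert (1 : F) (orbit β T)).Countable := by
    refine Set.Countable.insert _ (Set.Countable.mono ?_
      (Set.countable_range fun p : G × {t // t ∈ T} => β p.1 p.2.1))
    rintro _ ⟨k, t, ht, rfl⟩
    exact ⟨(k, ⟨t, ht⟩), rfl⟩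
  obtain ⟨o, ho⟩ := horb.exists_eq_range (Set.insert_nonempty _ _)
  exact ((Gen.isSeparable_adjoin_range o).mono fun x hx =>
    StarAlgebra.adjoin_mono (ho ▸ Set.subset_insert _ _) hx).closure

/-- Evaluation of a formal *-polynomial. -/
def evalP {J R : Type*} [Ring R] [Algebra ℂ R] [Star R] (x : J → R) :
    FreeAlgebra ℂ (J × Bool) →ₐ[ℂ] R :=
  FreeAlgebra.lift ℂ fun p => if p.2 then star (x p.1) else x p.1

theorem evalP_natural {J R R' : Type*} [Ring R] [Algebra ℂ R] [Star R] [Ring R'] [Algebra ℂ R']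
    [Star R'] (φ : R →⋆ₐ[ℂ] R') (x : J → R) (p : FreeAlgebra ℂ (J × Bool)) :
    φ (evalP x p) = evalP (fun j => φ (x j)) p := by
  have h : φ.toAlgHom.comp (evalP x) = evalP (fun j => φ (x j)) := by
    refine FreeAlgebra.hom_ext (funext fun ⟨j, b⟩ => ?_)
    cases b <;> simp [evalP, map_star]
  exact AlgHom.congr_fun h p

/-- A variable. -/
def var {J : Type*} (j : J) : FreeAlgebra ℂ (J × Bool) := FreeAlgebra.ι ℂ (j, false)

/-- An adjoint variable. -/
def svar {J : Type*} (j : J) : FreeAlgebra ℂ (J × Bool) := FreeAlgebra.ι ℂ (j, true)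

theorem evalP_var {J R : Type*} [Ring R] [Algebra ℂ R] [Star R] (x : J → R) (j : J) :
    evalP x (var j) = x j := by simp [evalP, var]

theorem evalP_svar {J R : Type*} [Ring R] [Algebra ℂ R] [Star R] (x : J → R) (j : J) :
    evalP x (svar j) = star (x j) := by simp [evalP, svar]

end general

section seq

variable {A : Type u} [CStarAlgebra A] [SeparableSpace A] {ω : Ultrafilter ℕ}

/-- Evaluation at one index. -/
def evalAt (k : ℕ) : (ℕ →ᵇ A) →⋆ₐ[ℂ] A where
  toFun f := f k
  map_one' := rfl
  map_mul' _ _ := rfl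
  map_zero' := rfl
  map_add' _ _ := rfl
  commutes' _ := rfl
  map_star' _ := rfl

/-- Approximately invariant solutions of countably many equations give invariant solutions. -/
theorem exists_fixed_tuple (hω : (ω : Filter ℕ) ≤ cofinite) {K : Type v} [Group K]
    (β : K →* (A ≃⋆ₐ[ℂ] A)) (gens : Set K) (hgc : gens.Countable)
    (hgen : ∀ x : CentralSeq A ω, (∀ k ∈ gens, centralAct ω (β k) x = x) → x ∈ fixedAlg ω β)
    {J : Type*} [Countable J] (x : ℕ → J → CentralSeq A ω) {L : ℝ} (hL : ∀ n j, ‖x n j‖ ≤ L)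
    (hfix : ∀ k ∈ gens, ∀ j, ∀ δ : ℝ, 0 < δ → ∀ᶠ n in atTop,
      ‖centralAct ω (β k) (x n j) - x n j‖ < δ)
    (p : ℕ → FreeAlgebra ℂ (J × Bool))
    (hp : ∀ m, ∀ δ : ℝ, 0 < δ → ∀ᶠ n in atTop, ‖evalP (x n) (p m)‖ < δ) :
    ∃ y : J → fixedAlg ω β, ∀ m, evalP y (p m) = 0 := by
  classical
  have hc : Countable gens := hgc.to_subtype
  choose f hf hfn using fun n j => exists_lift_bound ((x n j : CentralSeq A ω) : UPow A ω) (hL n j)
  let a := TopologicalSpace.denseSeq A
  let I := (J × ℕ) ⊕ (J × gens) ⊕ ℕ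
  have : Nonempty I := ⟨Sum.inr (Sum.inr 0)⟩
  obtain ⟨e, he⟩ := exists_surjective_nat I
  let C : I → (J → A) → ℝ := fun i v =>
    match i with
    | Sum.inl (j, l) => ‖a l * v j - v j * a l‖
    | Sum.inr (Sum.inl (j, k)) => ‖β (k : K) (v j) - v j‖
    | Sum.inr (Sum.inr m) => ‖evalP v (p m)‖
  have hev : ∀ (g : J → ℕ →ᵇ A) q k, evalP (fun j => g j k) q = (evalP g q) k := fun g q k =>
    (evalP_natural (evalAt k) g q).symm
  have hmk : ∀ (g : J → ℕ →ᵇ A) q, (UPow.mk (evalP g q) : UPow A ω) =
      evalP (fun j => (UPow.mk (g j) : UPow A ω)) q := fun g q => evalP_natural UPow.mkHom g q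
  obtain ⟨g, -, hg⟩ := exists_diag hω (fun m => C (e m)) f hfn fun m δ hδ => by
    rcases e m with ⟨j, l⟩ | ⟨j, k⟩ | q
    · refine Eventually.of_forall fun n => ?_
      refine (eventually_lt_of_norm (f := BoundedContinuousFunction.const ℕ (a l) * f n j -
        f n j * BoundedContinuousFunction.const ℕ (a l)) (r := 0) ?_ hδ).mono fun k hk => by
          simpa [C] using hk
      rw [map_sub, map_mul, map_mul, hf]
      exact le_of_eq (norm_eq_zero.2 (sub_eq_zero.2 (mem_centralSeq.1 (x n j).2 (a l)).eq))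
    · refine (hfix k k.2 j δ hδ).mono fun n hn => ?_
      refine (UPow.eventually_of_norm_lt (f := seqAct (β (k : K)) (f n j) - f n j) ?_).mono
        fun i hi => by simpa [C, seqAct_apply] using hi
      rw [map_sub, ← upowAct_mk, hf]
      exact hn
    · refine (hp q δ hδ).mono fun n hn => ?_
      refine (UPow.eventually_of_norm_lt (f := evalP (f n) (p q)) ?_).mono
        fun i hi => by simpa [C, hev] using hi
      rw [hmk, show (fun j => (UPow.mk (f n j) : UPow A ω)) =
        fun j => ((x n j : CentralSeq A ω) : UPow A ω) from funext fun j => hf n j]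
      have h1 := evalP_natural (CentralSeq A ω).subtype (x n) (p q)
      rw [StarSubalgebra.coe_subtype] at h1
      rw [← h1]
      exact hn
  have hg' : ∀ i, ∀ δ : ℝ, 0 < δ → ∀ᶠ k in (ω : Filter ℕ), C i (fun j => g j k) < δ := by
    intro i δ hδ
    obtain ⟨m, rfl⟩ := he i
    exact hg m δ hδ
  have hcen : ∀ j, (UPow.mk (g j) : UPow A ω) ∈ CentralSeq A ω := by
    refine fun j => mem_centralSeq.2 fun b => ?_
    have hclosed : IsClosed {b : A | Commute (UPow.const b : UPow A ω) (UPow.mk (g j))} :=
      isClosed_eq (Continuous.mul (UPow.continuous_const' (A := A) (ω := ω)) continuous_const)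
        (Continuous.mul continuous_const (UPow.continuous_const' (A := A) (ω := ω)))
    refine closure_minimal ?_ hclosed (TopologicalSpace.denseRange_denseSeq A b)
    rintro _ ⟨l, rfl⟩
    show UPow.const (a l) * UPow.mk (g j) = UPow.mk (g j) * UPow.const (a l)
    rw [← sub_eq_zero, UPow.const, ← map_mul, ← map_mul, ← map_sub]
    exact eq_zero_of_eventually fun δ hδ => (hg' (Sum.inl (j, l)) δ hδ).mono
      fun k hk => by simpa [C] using hk
  let y : J → CentralSeq A ω := fun j => ⟨UPow.mk (g j), hcen j⟩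
  have hy : ∀ j, y j ∈ fixedAlg ω β := fun j => hgen _ fun k hk => Subtype.ext (by
    rw [coe_centralAct, ← sub_eq_zero]
    show upowAct ω (β k) (UPow.mk (g j)) - UPow.mk (g j) = 0
    rw [upowAct_mk, ← map_sub]
    exact eq_zero_of_eventually fun δ hδ => (hg' (Sum.inr (Sum.inl (j, ⟨k, hk⟩))) δ hδ).mono
      fun i hi => by simpa [C, seqAct_apply] using hi)
  refine ⟨fun j => ⟨y j, hy j⟩, fun m => ?_⟩
  refine Subtype.ext (Subtype.ext ?_)
  have h2 : ((evalP (fun j => (⟨y j, hy j⟩ : fixedAlg ω β)) (p m) : fixedAlg ω β) :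
      CentralSeq A ω) = evalP y (p m) :=
    evalP_natural (fixedAlg ω β).subtype _ (p m)
  rw [h2]
  have h3 : ((evalP y (p m) : CentralSeq A ω) : UPow A ω) =
      evalP (fun j => (UPow.mk (g j) : UPow A ω)) (p m) :=
    evalP_natural (CentralSeq A ω).subtype _ (p m)
  rw [h3, ← hmk]
  exact eq_zero_of_eventually fun δ hδ => (hg' (Sum.inr (Sum.inr m)) δ hδ).mono
    fun i hi => by simpa [C, hev] using hi

end seq

section central

variable {A : Type u} [CStarAlgebra A] {ω : Ultrafilter ℕ} {G : Type v} [Group G]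
  (β : G →* (A ≃⋆ₐ[ℂ] A))

variable (ω) in
/-- The action on the central sequence algebra, by automorphisms. -/
def centralAut : G →* (CentralSeq A ω ≃⋆ₐ[ℂ] CentralSeq A ω) :=
  MonoidHom.mk' (fun g => StarAlgEquiv.ofBijective (centralAct ω (β g))
    ⟨fun x y h => by
      have h' := congrArg (centralAct ω (β g⁻¹)) h
      rwa [← centralAct_mul, ← centralAct_mul, ← map_mul, inv_mul_cancel, map_one, centralAct_one,
        centralAct_one] at h',
    fun y => ⟨centralAct ω (β g⁻¹) y,
      by rw [← centralAct_mul, ← map_mul, mul_inv_cancel, map_one, centralAct_one]⟩⟩)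
    fun g h => StarAlgEquiv.ext fun x => by
      show centralAct ω (β (g * h)) x = centralAct ω (β g) (centralAct ω (β h) x)
      rw [map_mul, centralAct_mul]

theorem centralAut_apply (g : G) (x : CentralSeq A ω) :
    centralAut ω β g x = centralAct ω (β g) x := rfl

variable [SeparableSpace A] [Countable G]

/-- The central sequence algebra is a system with equivariant copies. -/
theorem dyn_centralSeq (hω : (ω : Filter ℕ) ≤ cofinite)
    (hchar : ∀ χ : CentralSeq A ω →⋆ₙₐ[ℂ] ℂ, χ = 0) : Dyn (centralAut ω β) := by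
  classical
  refine ⟨hchar, fun T S => ?_⟩
  obtain ⟨φ, hS, hG⟩ := Gen.exists_copy hω (fun g => β g) (OrbAlg (centralAut ω β) T)
    (isSeparable_orbAlg _ T) (S : Set (CentralSeq A ω)) (Finset.countable_toSet _)
  exact ⟨φ, fun g x y h => (hG g x y (h.trans (centralAut_apply β g _)).symm).symm, hS⟩

/-- The certificate rules out invariant characters. -/
theorem isEmpty_of_cert (hω : (ω : Filter ℕ) ≤ cofinite)
    (hcert : CertStatement (centralAut ω β)) : IsEmpty (fixedAlg ω β →⋆ₐ[ℂ] ℂ) := by
  classical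
  refine ⟨fun χ => ?_⟩
  obtain ⟨e, he⟩ := exists_surjective_nat G
  obtain ⟨L, hL⟩ := hcert
  choose q b c d f hq hq2 hqa hbd hinv hid using
    fun n : ℕ => hL ((Finset.range (n + 1)).image e) (1 / (n + 1)) (by positivity)
  let J := Unit ⊕ (Fin 4 × Fin 3)
  let x : ℕ → J → CentralSeq A ω := fun n j =>
    match j with
    | Sum.inl _ => q n
    | Sum.inr (s, i) => ![b n i, c n i, d n i, f n i] s
  have hxL : ∀ n j, ‖x n j‖ ≤ max L 1 := by
    intro n j
    rcases j with _ | ⟨s, i⟩
    · exact (hq n).trans (le_max_right _ _)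
    · obtain ⟨h1, h2, h3, h4⟩ := hbd n i
      fin_cases s <;> first
        | exact h1.trans (le_max_left _ _)
        | exact h2.trans (le_max_left _ _)
        | exact h3.trans (le_max_left _ _)
        | exact h4.trans (le_max_left _ _)
  have hsmall : ∀ δ : ℝ, 0 < δ → ∀ᶠ n : ℕ in atTop, (1 : ℝ) / (n + 1) < δ := fun δ hδ =>
    tendsto_one_div_add_atTop_nhds_zero_nat.eventually_lt_const hδ
  have hxa : ∀ n j, AlmostFixed (centralAut ω β) ((Finset.range (n + 1)).image e) (1 / (n + 1))
      (x n j) := by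
    intro n j
    rcases j with _ | ⟨s, i⟩
    · exact hqa n
    · obtain ⟨h1, h2, h3, h4⟩ := hinv n i
      fin_cases s <;> first
        | exact h1
        | exact h2
        | exact h3
        | exact h4
  let Q : FreeAlgebra ℂ (J × Bool) := var (Sum.inl ())
  let v : Fin 4 → Fin 3 → FreeAlgebra ℂ (J × Bool) := fun s i => var (Sum.inr (s, i))
  let E : FreeAlgebra ℂ (J × Bool) :=
    (∑ i, (v 0 i * (svar (Sum.inl ()) * Q) * v 1 i +
      v 2 i * (Q * svar (Sum.inl ())) * v 3 i)) - 1
  obtain ⟨y, hy⟩ := exists_fixed_tuple hω β Set.univ Set.countable_univ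
    (fun w hw g => hw g (Set.mem_univ g)) x hxL
    (fun g _ j δ hδ => by
      obtain ⟨m, rfl⟩ := he g
      filter_upwards [hsmall δ hδ, eventually_ge_atTop m] with n hn hmn
      exact lt_of_le_of_lt
        (hxa n j (e m) (Finset.mem_image_of_mem _ (Finset.mem_range.2 (by omega)))) hn)
    (fun m => if m = 0 then Q * Q else E) (fun m δ hδ => by
      refine (hsmall δ hδ).mono fun n hn => ?_
      split_ifs
      · simp only [Q, map_mul, evalP_var]
        show ‖q n * q n‖ < δ
        rw [hq2 n, norm_zero]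
        exact hδ
      · refine lt_of_le_of_lt ?_ hn
        simp only [E, Q, v, map_sub, map_sum, map_add, map_mul, map_one, evalP_var, evalP_svar]
        exact hid n)
  have h0 := hy 0
  have h1 := hy 1
  simp only [if_true, Q, map_mul, evalP_var] at h0
  simp only [Nat.one_ne_zero, if_false, E, Q, v, map_sub, map_sum, map_add, map_mul, map_one,
    evalP_var, evalP_svar] at h1
  have hχq : χ (y (Sum.inl ())) = 0 := by
    have := congrArg χ h0
    rw [map_mul, map_zero] at this
    exact mul_self_eq_zero.1 this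
  have h2 := congrArg χ h1
  simp [map_sum, map_mul, hχq] at h2

end central

end

end Vale.Agent.P095.Elem
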